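import Vale.Agent.P313.Full.Lens

/-!
Balls which miss a dense set, the tape, and the failure probability of the search which walks along
the tape.
-/

namespace Vale.Agent.P313.Full

open Finset

variable {St : Type}

theorem J_sq_le {m : ℕ} (f : ℕ → ℝ) :
    (m * m : ℕ) * Mix.J m f ^ 2 ≤ ∑ s ∈ range (m * m), f s ^ 2 := by
  rcases Nat.eq_zero_or_pos (m * m) with h | h
  · simp [h]
  · have h0 : (0 : ℝ) < (m * m : ℕ) := by exact_mod_cast h
    have h1 := sq_sum_le_card_mul_sum_sq (s := range (m * m)) (f := f)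
    rw [card_range] at h1
    rw [Mix.J, div_pow, ← mul_div_assoc, div_le_iff₀ (by positivity)]
    nlinarith [mul_le_mul_of_nonneg_left h1 h0.le]

namespace IsLens

variable {D P : Finset St} {m : ℕ} {get : St → ℕ} {set : St → ℕ → St}

theorem restrict (h : IsLens D m get set) (hP : P ⊆ D) (hs : ∀ s ∈ P, ∀ v < m * m, set s v ∈ P) :
    IsLens P m get set :=
  ⟨fun s h' => h.get_lt s (hP h'), hs, fun s h' => h.get_set s (hP h'),
    fun s h' => h.set_get s (hP h'), fun s h' => h.set_set s (hP h')⟩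

open Classical in
/-- A walk from a sparse set contracts. -/
theorem miss_step (h : IsLens D m get set) (A : St → Prop)
    (hA : ∀ s ∈ D, 1024 * ((range (m * m)).filter fun v => A (set s v)).card ≤ m * m)
    (φ : St → ℝ) :
    ∑ s ∈ D, (if A s then Mix.H m (Mix.t0 * 6) (fun w => φ (set s w)) (get s) ^ 2 else 0) ≤
      1 / 256 * ∑ s ∈ D, φ s ^ 2 := by
  refine h.sum_le_of_fibre (G := fun s => φ s ^ 2) fun s hs => ?_
  have h1 := Mix.mix_weight (m := m) 6 (fun w => φ (set s w))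
    (fun v => if A (set s v) then 1 else 0) (W := 1)
    (fun v _ => by split_ifs <;> norm_num) (fun v _ => by split_ifs <;> norm_num) zero_le_one
  have h2 := J_sq_le (m := m) fun w => φ (set s w)
  have h3 : (1024 : ℝ) * ∑ v ∈ range (m * m), (if A (set s v) then (1 : ℝ) else 0) ≤
      (m * m : ℕ) := by
    rw [sum_boole]
    exact_mod_cast hA s hs
  have h4 : ∑ v ∈ range (m * m), (if A (set s v) then Mix.H m (Mix.t0 * 6)
      (fun w => φ (set (set s v) w)) (get (set s v)) ^ 2 else 0) =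
      ∑ v ∈ range (m * m), (if A (set s v) then (1 : ℝ) else 0) *
        Mix.H m (Mix.t0 * 6) (fun w => φ (set s w)) v ^ 2 :=
    sum_congr rfl fun v hv => by
      rw [h.H_set _ φ hs (mem_range.1 hv)]
      split_ifs <;> simp
  rw [h4]
  have h5 : 0 ≤ ∑ v ∈ range (m * m), φ (set s v) ^ 2 := sum_nonneg fun _ _ => sq_nonneg _
  have h6 := mul_le_mul_of_nonneg_right h3 (sq_nonneg (Mix.J m fun w => φ (set s w)))
  norm_num at h1 h2 h6 ⊢
  linarith

end IsLens

open Classical in
/-- If a set has density at least `1 / M`, then few balls miss it. -/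
theorem ball_miss {m b M : ℕ} (G : ℕ → Prop)
    (hG : m * m ≤ M * ((range (m * m)).filter G).card) (hb : 1024 * M ≤ 4 ^ b) :
    1024 * ((range (m * m)).filter fun v =>
      ∀ w < 4 ^ (Mix.t0 * b), ¬ G (Mix.walk m (Mix.t0 * b) w v)).card ≤ m * m := by
  rcases Nat.eq_zero_or_pos (m * m) with h | h
  · simp [h]
  have h0 : (0 : ℝ) < (m * m : ℕ) := by exact_mod_cast h
  set g : ℝ := (((range (m * m)).filter G).card : ℝ) with hg
  set S := (range (m * m)).filter fun v =>
      ∀ w < 4 ^ (Mix.t0 * b), ¬ G (Mix.walk m (Mix.t0 * b) w v) with hS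
  have h1 := Mix.mix' (m := m) b fun v => if G v then 1 else 0
  have hJ : Mix.J m (fun v => if G v then (1 : ℝ) else 0) = g / (m * m : ℕ) := by
    rw [Mix.J, sum_boole]
  have h2 : ∑ s ∈ range (m * m), (if G s then (1 : ℝ) else 0) ^ 2 = g := by
    rw [hg, ← sum_boole]
    exact sum_congr rfl fun s _ => by split_ifs <;> simp
  rw [hJ, h2] at h1
  have h3 : (S.card : ℝ) * (g / (m * m : ℕ)) ^ 2 ≤ (1 / 4) ^ b * g := by
    refine le_trans ?_ ((sum_le_sum_of_subset_of_nonneg (filter_subset _ _ : S ⊆ _)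
      fun _ _ _ => sq_nonneg _).trans h1)
    rw [← nsmul_eq_mul, ← sum_const]
    refine le_of_eq (sum_congr rfl fun s hs => ?_)
    have : Mix.H m (Mix.t0 * b) (fun v => if G v then (1 : ℝ) else 0) s = 0 := by
      rw [Mix.H, sum_eq_zero fun w hw => if_neg ((mem_filter.1 hs).2 w (mem_range.1 hw)), zero_div]
    rw [this, zero_sub, neg_sq]
  have h4 : ((m * m : ℕ) : ℝ) ≤ M * g := by
    rw [hg]
    exact_mod_cast hG
  have h5 : (1024 : ℝ) * M ≤ 4 ^ b := by exact_mod_cast hb
  have hg0 : 0 < g := by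
    by_contra hc
    have : (M : ℝ) * g ≤ 0 := mul_nonpos_of_nonneg_of_nonpos (Nat.cast_nonneg M) (not_lt.1 hc)
    linarith
  have h6 : (S.card : ℝ) * g * 4 ^ b ≤ ((m * m : ℕ) : ℝ) ^ 2 := by
    rw [div_pow, one_div_pow, ← mul_div_assoc, one_div_mul_eq_div,
      div_le_div_iff₀ (by positivity) (by positivity)] at h3
    refine le_of_mul_le_mul_left ?_ hg0
    nlinarith
  have h7 : (1024 : ℝ) * S.card ≤ (m * m : ℕ) := by
    refine le_of_mul_le_mul_left ?_ h0
    have c0 : (0 : ℝ) ≤ S.card := Nat.cast_nonneg _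
    calc ((m * m : ℕ) : ℝ) * (1024 * S.card) ≤ M * g * (1024 * S.card) :=
          mul_le_mul_of_nonneg_right h4 (by positivity)
      _ = S.card * g * (1024 * M) := by ring
      _ ≤ S.card * g * 4 ^ b := mul_le_mul_of_nonneg_left h5 (by positivity)
      _ ≤ _ := by rw [← pow_two]; exact h6
  exact_mod_cast h7

/-! ### The tape -/

theorem sum_tape_low {B j J : ℕ} (hj : j ≤ J) (F : ℕ → ℝ) (hF : ∀ τ, F τ = F (τ % B ^ j)) :
    ∑ τ ∈ range (B ^ J), F τ = (B : ℝ) ^ (J - j) * ∑ u ∈ range (B ^ j), F u := by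
  obtain ⟨r, rfl⟩ := Nat.exists_eq_add_of_le hj
  rw [pow_add, Mix.sum_range_mul, Nat.add_sub_cancel_left, mul_sum]
  refine sum_congr rfl fun u hu => ?_
  rw [sum_congr rfl fun d _ => show F (u + B ^ j * d) = F u by
    rw [hF, Nat.add_mul_mod_self_left, ← hF], sum_const, card_range, nsmul_eq_mul]
  push_cast
  rfl

/-- The block `j` of the tape is independent of the lower blocks. -/
theorem sum_tape_block {B j J : ℕ} (hj : j < J) (F : ℕ → ℕ → ℝ)
    (hF : ∀ b τ, F b τ = F b (τ % B ^ j)) :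
    B * ∑ τ ∈ range (B ^ J), F (τ / B ^ j % B) τ =
      ∑ b ∈ range B, ∑ τ ∈ range (B ^ J), F b τ := by
  rcases Nat.eq_zero_or_pos B with rfl | hB
  · simp
  have h0 : 0 < B ^ j := by positivity
  have e1 : ∑ τ ∈ range (B ^ J), F (τ / B ^ j % B) τ =
      (B : ℝ) ^ (J - (j + 1)) * ∑ u ∈ range (B ^ (j + 1)), F (u / B ^ j % B) u := by
    refine sum_tape_low hj (fun τ => F (τ / B ^ j % B) τ) fun τ => ?_
    rw [pow_succ, Nat.mod_mul_right_div_self, Nat.mod_mod, hF, hF _ (τ % (B ^ j * B)),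
      Nat.mod_mul_right_mod]
  have e2 : ∑ u ∈ range (B ^ (j + 1)), F (u / B ^ j % B) u =
      ∑ u ∈ range (B ^ j), ∑ b ∈ range B, F b u := by
    rw [pow_succ, Mix.sum_range_mul]
    refine sum_congr rfl fun u hu => sum_congr rfl fun b hb => ?_
    rw [Nat.add_mul_div_left _ _ h0, Nat.div_eq_of_lt (mem_range.1 hu), zero_add,
      Nat.mod_eq_of_lt (mem_range.1 hb), hF, Nat.add_mul_mod_self_left, ← hF]
  rw [e1, e2, sum_comm, sum_congr rfl fun b _ => sum_tape_low hj.le (F b) (hF b), ← mul_sum,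
    ← mul_assoc, ← pow_succ', show J - (j + 1) + 1 = J - j by omega]

open Classical in
/-- The probability of an event over the tape. -/
noncomputable def prb (T : ℕ) (E : ℕ → Prop) : ℝ := (∑ τ ∈ range T, if E τ then 1 else 0) / T

theorem prb_nonneg (T : ℕ) (E : ℕ → Prop) : 0 ≤ prb T E :=
  div_nonneg (sum_nonneg fun _ _ => by split_ifs <;> norm_num) (Nat.cast_nonneg _)

open Classical in
/-- One class of the search: a failure is a local accident, or a miss and a failure in the next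
class. -/
theorem IsLens.tower_step {P : Finset St} {m : ℕ} {get : St → ℕ} {set : St → ℕ → St}
    (h : IsLens P m get set) {l j J : ℕ} (hl : l = Mix.t0 * 6) (hj : j < J) (A : St → Prop)
    (hA : ∀ s ∈ P, 1024 * ((range (m * m)).filter fun v => A (set s v)).card ≤ m * m)
    {Fl Bad Fl' : St → ℕ → Prop} (hloc : ∀ s τ, Fl' s τ ↔ Fl' s (τ % (4 ^ l) ^ j))
    (hrec : ∀ s ∈ P, ∀ τ, Fl s τ → Bad s τ ∨
      (A s ∧ Fl' (set s (Mix.walk m l (τ / (4 ^ l) ^ j % 4 ^ l) (get s))) τ)) :
    ∑ s ∈ P, prb ((4 ^ l) ^ J) (Fl s) ^ 2 ≤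
      2 * ∑ s ∈ P, prb ((4 ^ l) ^ J) (Bad s) ^ 2 +
        1 / 128 * ∑ s ∈ P, prb ((4 ^ l) ^ J) (Fl' s) ^ 2 := by
  have h1 := h.miss_step A hA fun s => prb ((4 ^ l) ^ J) (Fl' s)
  rw [← hl] at h1
  have hT : (0 : ℝ) < ((4 ^ l) ^ J : ℕ) := by positivity
  have key : ∀ s ∈ P, prb ((4 ^ l) ^ J) (Fl s) ^ 2 ≤ 2 * prb ((4 ^ l) ^ J) (Bad s) ^ 2 +
      2 * if A s then Mix.H m l (fun w => prb ((4 ^ l) ^ J) (Fl' (set s w))) (get s) ^ 2
        else 0 := by
    intro s hs
    have e : Mix.H m l (fun w => prb ((4 ^ l) ^ J) (Fl' (set s w))) (get s) =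
        prb ((4 ^ l) ^ J)
          fun τ => Fl' (set s (Mix.walk m l (τ / (4 ^ l) ^ j % 4 ^ l) (get s))) τ := by
      have := sum_tape_block (B := 4 ^ l) hj
        (fun b τ => if Fl' (set s (Mix.walk m l b (get s))) τ then (1 : ℝ) else 0)
        fun b τ => by simp only [← hloc]
      simp only [Mix.H, prb]
      rw [← sum_div, ← this, div_right_comm, mul_comm]
      congr 1
      rw [div_eq_iff (by positivity)]
      push_cast
      rfl
    rw [e]
    have h2 : prb ((4 ^ l) ^ J) (Fl s) ≤ prb ((4 ^ l) ^ J) (Bad s) + if A s then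
        prb ((4 ^ l) ^ J)
          (fun τ => Fl' (set s (Mix.walk m l (τ / (4 ^ l) ^ j % 4 ^ l) (get s))) τ) else 0 := by
      split_ifs with hAs
      · unfold prb
        rw [← add_div, ← sum_add_distrib]
        refine div_le_div_of_nonneg_right (sum_le_sum fun τ _ => ?_) hT.le
        have := hrec s hs τ
        split_ifs <;> first | (norm_num; done) | tauto
      · unfold prb
        rw [add_zero]
        refine div_le_div_of_nonneg_right (sum_le_sum fun τ _ => ?_) hT.le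
        have := hrec s hs τ
        split_ifs <;> first | (norm_num; done) | tauto
    have h3 := prb_nonneg ((4 ^ l) ^ J) (Fl s)
    have h4 := pow_le_pow_left₀ h3 h2 2
    split_ifs at h4 ⊢
    · nlinarith [sq_nonneg (prb ((4 ^ l) ^ J) (Bad s) - prb ((4 ^ l) ^ J)
        fun τ => Fl' (set s (Mix.walk m l (τ / (4 ^ l) ^ j % 4 ^ l) (get s))) τ)]
    · nlinarith [sq_nonneg (prb ((4 ^ l) ^ J) (Bad s))]
  refine (sum_le_sum key).trans ?_
  rw [sum_add_distrib, ← mul_sum, ← mul_sum]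
  linarith

end Vale.Agent.P313.Full
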