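import Vale.Agent.P313.Full.Chr
import Vale.Agent.P313.Full.ErrLens

/-! The box of states and its registers as lenses: a coordinate, a key, and the slope of a key with
the value at a point kept fixed. -/

namespace Vale.Agent.P313.Full

open Finset Function

variable {ι : Type} [Fintype ι] [DecidableEq ι]

/-- The states whose coordinates are below the given bounds. -/
def box (bd : ι → ℕ) : Finset (ι → ℕ) := Fintype.piFinset fun i => range (bd i)

theorem mem_box {bd s : ι → ℕ} : s ∈ box bd ↔ ∀ i, s i < bd i := by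
  simp [box, Fintype.mem_piFinset]

theorem update_mem_box {bd s : ι → ℕ} (hs : s ∈ box bd) {i : ι} {v : ℕ} (hv : v < bd i) :
    update s i v ∈ box bd := by
  rw [mem_box] at hs ⊢
  intro j
  by_cases h : j = i
  · subst h; simpa using hv
  · simpa [update_of_ne h] using hs j

/-- A shift of one coordinate. -/
theorem xor_mem_box {bd s : ι → ℕ} (hs : s ∈ box bd) {i : ι} {M c : ℕ} (hb : bd i = 2 ^ M)
    (hc : c < 2 ^ M) : update s i (s i ^^^ c) ∈ box bd :=
  update_mem_box hs (hb ▸ Nat.xor_lt_two_pow (hb ▸ mem_box.1 hs i) hc)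

theorem lens_coord {bd : ι → ℕ} {i : ι} {m : ℕ} (_hm : 0 < m) (hb : bd i = m * m) :
    IsLens (box bd) m (fun s => s i) fun s v => update s i v where
  get_lt _ hs := hb ▸ mem_box.1 hs i
  set_mem _ hs _ hv := update_mem_box hs (hb ▸ hv)
  get_set _ _ _ _ := update_self ..
  set_get _ _ := update_eq_self ..
  set_set _ _ _ _ _ _ := update_idem ..

/-- A new slope `v` in the coordinate `iS`; the offset in `iO` is changed so that the value at the
point `p` is kept. -/
def rotSet (L M : ℕ) (iS iO : ι) (p : ℕ) (s : ι → ℕ) (v : ℕ) : ι → ℕ :=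
  update (update s iS v) iO (lin L M v p ^^^ (lin L M (s iS) p ^^^ s iO))

omit [Fintype ι] in
theorem rotSet_slope {L M : ℕ} {iS iO : ι} (h : iS ≠ iO) (p : ℕ) (s : ι → ℕ) (v : ℕ) :
    rotSet L M iS iO p s v iS = v := by simp [rotSet, update_of_ne h]

omit [Fintype ι] in
theorem rotSet_off (L M : ℕ) (iS iO : ι) (p : ℕ) (s : ι → ℕ) (v : ℕ) :
    rotSet L M iS iO p s v iO = lin L M v p ^^^ (lin L M (s iS) p ^^^ s iO) := by simp [rotSet]

omit [Fintype ι] in
theorem rotSet_ne (L M : ℕ) {iS iO j : ι} (h1 : j ≠ iS) (h2 : j ≠ iO) (p : ℕ) (s : ι → ℕ) (v : ℕ) :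
    rotSet L M iS iO p s v j = s j := by simp [rotSet, update_of_ne h1, update_of_ne h2]

theorem lens_rot {bd : ι → ℕ} {iS iO : ι} {L M : ℕ} (h : iS ≠ iO) (hS : bd iS = 2 ^ (2 * L))
    (hO : bd iO = 2 ^ M) (pt : (ι → ℕ) → ℕ) (h1 : ∀ s v, pt (update s iS v) = pt s)
    (h2 : ∀ s v, pt (update s iO v) = pt s) :
    IsLens (box bd) (2 ^ L) (fun s => s iS) fun s v => rotSet L M iS iO (pt s) s v := by
  have e : 2 ^ L * 2 ^ L = 2 ^ (2 * L) := by rw [← pow_add, two_mul]
  have hp : ∀ s v, pt (rotSet L M iS iO (pt s) s v) = pt s := fun s v => by rw [rotSet, h2, h1]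
  refine ⟨fun s hs => by rw [e, ← hS]; exact mem_box.1 hs iS, fun s hs v hv => ?_,
    fun s _ v _ => rotSet_slope h _ _ _, fun s _ => ?_, fun s _ v _ w _ => ?_⟩
  · refine update_mem_box (update_mem_box hs (by rwa [hS, ← e])) ?_
    rw [hO]
    exact Nat.xor_lt_two_pow (lin_lt _ _ _ _)
      (Nat.xor_lt_two_pow (lin_lt _ _ _ _) (hO ▸ mem_box.1 hs iO))
  · simp [rotSet]
  · rw [hp]
    funext j
    by_cases hj : j = iO
    · subst hj
      simp only [rotSet_off, rotSet_slope h, Nat.xor_xor_cancel_left]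
    · by_cases hj' : j = iS
      · subst hj'
        simp only [rotSet_slope h]
      · simp only [rotSet_ne _ _ hj' hj]

/-- A new key: the slope and the offset are the two parts of `v`. -/
def keySet (L : ℕ) (iS iO : ι) (s : ι → ℕ) (v : ℕ) : ι → ℕ :=
  update (update s iS (v % 2 ^ (2 * L))) iO (v / 2 ^ (2 * L))

omit [Fintype ι] in
theorem keySet_slope {L : ℕ} {iS iO : ι} (h : iS ≠ iO) (s : ι → ℕ) (v : ℕ) :
    keySet L iS iO s v iS = v % 2 ^ (2 * L) := by simp [keySet, update_of_ne h]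

omit [Fintype ι] in
theorem keySet_off (L : ℕ) (iS iO : ι) (s : ι → ℕ) (v : ℕ) :
    keySet L iS iO s v iO = v / 2 ^ (2 * L) := by simp [keySet]

omit [Fintype ι] in
theorem keySet_ne (L : ℕ) {iS iO j : ι} (h1 : j ≠ iS) (h2 : j ≠ iO) (s : ι → ℕ) (v : ℕ) :
    keySet L iS iO s v j = s j := by simp [keySet, update_of_ne h1, update_of_ne h2]

theorem lens_key {bd : ι → ℕ} {iS iO : ι} {L M : ℕ} (h : iS ≠ iO) (hS : bd iS = 2 ^ (2 * L))
    (hO : bd iO = 2 ^ (2 * M)) :
    IsLens (box bd) (2 ^ (L + M)) (fun s => s iS + 2 ^ (2 * L) * s iO) (keySet L iS iO) := by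
  have e : 2 ^ (L + M) * 2 ^ (L + M) = 2 ^ (2 * L) * 2 ^ (2 * M) := by
    rw [← pow_add, ← pow_add]; congr 1; ring
  have h0 : 0 < 2 ^ (2 * L) := by positivity
  refine ⟨fun s hs => ?_, fun s hs v hv => ?_, fun s _ v _ => ?_, fun s hs => ?_,
    fun s _ v _ w _ => ?_⟩
  · have a1 := hS ▸ mem_box.1 hs iS
    have a2 : s iO + 1 ≤ 2 ^ (2 * M) := hO ▸ mem_box.1 hs iO
    have := Nat.mul_le_mul_left (2 ^ (2 * L)) a2
    rw [e]
    rw [mul_add, mul_one] at this
    omega
  · refine update_mem_box (update_mem_box hs (by rw [hS]; exact Nat.mod_lt _ h0)) ?_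
    rw [hO]
    exact Nat.div_lt_of_lt_mul (e ▸ hv)
  · simp only [keySet_slope h, keySet_off, Nat.mod_add_div]
  · have a1 := hS ▸ mem_box.1 hs iS
    rw [keySet, Nat.add_mul_mod_self_left, Nat.mod_eq_of_lt a1, Nat.add_mul_div_left _ _ h0,
      Nat.div_eq_of_lt a1, zero_add]
    simp
  · funext j
    by_cases hj : j = iO
    · subst hj
      simp only [keySet_off]
    · by_cases hj' : j = iS
      · subst hj'
        simp only [keySet_slope h]
      · simp only [keySet_ne _ hj' hj]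

/-- The average over a key is the average over slopes and offsets. -/
theorem J_key (L M : ℕ) (f : ℕ → ℕ → ℝ) :
    Mix.J (2 ^ (L + M)) (fun v => f (v % 2 ^ (2 * L)) (v / 2 ^ (2 * L))) =
      (∑ o ∈ range (2 ^ (2 * M)), ∑ s ∈ range (2 ^ (2 * L)), f s o) /
        (2 ^ (2 * L) * 2 ^ (2 * M)) := by
  have e : 2 ^ (L + M) * 2 ^ (L + M) = 2 ^ (2 * L) * 2 ^ (2 * M) := by
    rw [← pow_add, ← pow_add]; congr 1; ring
  rw [Mix.J, e, sum_range_mul]
  push_cast
  congr 1
  refine sum_congr rfl fun o _ => sum_congr rfl fun s hs => ?_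
  rw [Nat.add_mul_mod_self_left, Nat.mod_eq_of_lt (mem_range.1 hs),
    Nat.add_mul_div_left _ _ (by positivity), Nat.div_eq_of_lt (mem_range.1 hs), zero_add]

theorem J_pow (L : ℕ) (f : ℕ → ℝ) :
    Mix.J (2 ^ L) f = (∑ s ∈ range (2 ^ (2 * L)), f s) / 2 ^ (2 * L) := by
  have e : 2 ^ L * 2 ^ L = 2 ^ (2 * L) := by rw [← pow_add, two_mul]
  rw [Mix.J, e]
  push_cast
  rfl

/-- The average over a key is the average over the value at `p` and the rotations about `p`. -/
theorem sum_key_rot (L M p : ℕ) (f : ℕ → ℕ → ℝ) :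
    ∑ o ∈ range (2 ^ M), ∑ s ∈ range (2 ^ (2 * L)), f s o =
      ∑ c ∈ range (2 ^ M), ∑ s ∈ range (2 ^ (2 * L)), f s (lin L M s p ^^^ c) := by
  rw [sum_comm, sum_comm (s := range (2 ^ M))]
  refine sum_congr rfl fun s _ => ?_
  rw [← sum_xor (lin_lt L M s p) (f s)]
  exact sum_congr rfl fun c _ => by rw [Nat.xor_comm]

end Vale.Agent.P313.Full
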