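import Vale.Agent.P313.Full.Hash

/-! Characters of bit strings, orthogonality, and the dominance inequalities for the collision mass
`(∑ X) ^ 2 - ∑ X ^ 2`. -/

namespace Vale.Agent.P313.Full

open Vale.Agent.Lib.Space Finset KH

/-- The inner product modulo two of the lowest `n` bits. -/
def ipb (n d y : ℕ) : ℕ := (∑ i ∈ range n, bt d i * bt y i) % 2

/-- The character of `d` at `y`. -/
noncomputable def chr (n d y : ℕ) : ℝ := 1 - 2 * (ipb n d y : ℝ)

theorem ipb_lt (n d y : ℕ) : ipb n d y < 2 := Nat.mod_lt _ (by norm_num)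

theorem chr_eq_pow (n d y : ℕ) : chr n d y = (-1) ^ (∑ i ∈ range n, bt d i * bt y i) := by
  rw [chr, ipb]
  rcases Nat.even_or_odd (∑ i ∈ range n, bt d i * bt y i) with h | h
  · rw [h.neg_one_pow, Nat.even_iff.1 h]; simp
  · rw [h.neg_one_pow, Nat.odd_iff.1 h]; norm_num

theorem abs_chr (n d y : ℕ) : |chr n d y| = 1 := by rw [chr_eq_pow, abs_pow]; simp

theorem chr_mul_self (n d y : ℕ) : chr n d y * chr n d y = 1 := by
  rw [← abs_mul_abs_self, abs_chr, mul_one]

theorem chr_succ (n d y : ℕ) : chr (n + 1) d y = chr n d y * (-1) ^ (bt d n * bt y n) := by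
  rw [chr_eq_pow, chr_eq_pow, sum_range_succ, pow_add]

theorem chr_add {n d y : ℕ} (e : ℕ) : chr n (d + 2 ^ n * e) y = chr n d y := by
  rw [chr_eq_pow, chr_eq_pow]
  congr 1
  refine sum_congr rfl fun i hi => ?_
  obtain ⟨r, rfl⟩ := Nat.exists_eq_add_of_lt (mem_range.1 hi)
  congr 1
  rw [bt, bt, show 2 ^ (i + r + 1) * e = 2 ^ i * (2 * (2 ^ r * e)) by ring,
    Nat.add_mul_div_left _ _ (by positivity), Nat.add_mul_mod_self_left]

theorem bt_top {n d : ℕ} (hd : d < 2 ^ n) (e : ℕ) (he : e < 2) : bt (d + 2 ^ n * e) n = e := by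
  rw [bt, Nat.add_mul_div_left _ _ (by positivity), Nat.div_eq_of_lt hd, zero_add,
    Nat.mod_eq_of_lt he]

theorem sum_chr_mul (n y y' : ℕ) : ∑ d ∈ range (2 ^ n), chr n d y * chr n d y' =
    if y % 2 ^ n = y' % 2 ^ n then 2 ^ n else 0 := by
  induction n with
  | zero => simp [chr, ipb, Nat.mod_one]
  | succ n ih =>
    have hb : ∀ v, v % 2 ^ (n + 1) = v % 2 ^ n + 2 ^ n * bt v n := fun v => by
      rw [Nat.mod_pow_succ, bt]
    have h1 : ∀ e < 2, ∑ d ∈ range (2 ^ n), chr (n + 1) (d + 2 ^ n * e) y *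
        chr (n + 1) (d + 2 ^ n * e) y' = (∑ d ∈ range (2 ^ n), chr n d y * chr n d y') *
          ((-1) ^ (e * bt y n) * (-1) ^ (e * bt y' n)) := fun e he => by
      rw [sum_mul]
      refine sum_congr rfl fun d hd => ?_
      rw [chr_succ, chr_succ, chr_add, chr_add, bt_top (mem_range.1 hd) e he]
      ring
    rw [pow_succ, sum_range_mul, sum_range_succ, sum_range_one, h1 0 (by norm_num),
      h1 1 (by norm_num), ih, ← pow_succ, hb y, hb y']
    have l1 := Nat.mod_lt y (show 0 < 2 ^ n by positivity)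
    have l2 := Nat.mod_lt y' (show 0 < 2 ^ n by positivity)
    have b1 := bt_lt y n
    have b2 := bt_lt y' n
    by_cases h : y % 2 ^ n = y' % 2 ^ n
    · rw [if_pos h, h]
      interval_cases bt y n <;> interval_cases bt y' n <;> simp [pow_succ] <;> ring
    · rw [if_neg h, if_neg]
      · simp
      · intro e
        interval_cases bt y n <;> interval_cases bt y' n <;> omega

/-- Orthogonality. -/
theorem avg_chr_mul {n y y' : ℕ} (hy : y < 2 ^ n) (hy' : y' < 2 ^ n) :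
    (∑ d ∈ range (2 ^ n), chr n d y * chr n d y') / 2 ^ n = if y = y' then 1 else 0 := by
  rw [sum_chr_mul, Nat.mod_eq_of_lt hy, Nat.mod_eq_of_lt hy']
  split_ifs
  · exact div_self (by positivity)
  · simp

/-- A character picks the terms with the given end. -/
theorem avg_chr_pick {ι : Type} {n y : ℕ} (hy : y < 2 ^ n) (s : Finset ι) (Z : ι → ℝ) (e : ι → ℕ)
    (he : ∀ i ∈ s, Z i ≠ 0 → e i < 2 ^ n) :
    (∑ d ∈ range (2 ^ n), chr n d y * ∑ i ∈ s, Z i * chr n d (e i)) / 2 ^ n =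
      ∑ i ∈ s, if e i = y then Z i else 0 := by
  simp only [mul_sum]
  rw [sum_comm, sum_div]
  refine sum_congr rfl fun i hi => ?_
  by_cases hz : Z i = 0
  · simp [hz]
  · have : ∀ d, chr n d y * (Z i * chr n d (e i)) = Z i * (chr n d y * chr n d (e i)) :=
      fun d => by ring
    simp only [this]
    rw [← mul_sum, mul_div_assoc, avg_chr_mul hy (he i hi hz)]
    by_cases h : y = e i
    · simp [h]
    · simp [h, Ne.symm h]

/-- Parseval's identity. -/
theorem avg_chr_sq {n : ℕ} (X : ℕ → ℝ) :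
    (∑ d ∈ range (2 ^ n), (∑ y ∈ range (2 ^ n), X y * chr n d y) ^ 2) / 2 ^ n =
      ∑ y ∈ range (2 ^ n), X y ^ 2 := by
  have h : ∀ d, (∑ y ∈ range (2 ^ n), X y * chr n d y) ^ 2 =
      ∑ y ∈ range (2 ^ n), X y * (chr n d y * ∑ z ∈ range (2 ^ n), X z * chr n d z) := fun d => by
    rw [pow_two, sum_mul]
    exact sum_congr rfl fun y _ => by ring
  simp only [h]
  rw [sum_comm, sum_div]
  refine sum_congr rfl fun y hy => ?_
  rw [← mul_sum, mul_div_assoc, avg_chr_pick (mem_range.1 hy) _ X (fun z => z)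
    fun z hz _ => mem_range.1 hz, sum_ite_eq' (range (2 ^ n)) y X, if_pos hy, pow_two]

section Dom

variable {ι : Type} [DecidableEq ι] {s : Finset ι} {X : ι → ℝ}

theorem coll_eq (s : Finset ι) (X : ι → ℝ) :
    (∑ y ∈ s, X y) ^ 2 - ∑ y ∈ s, X y ^ 2 = ∑ y ∈ s, X y * ∑ z ∈ s.erase y, X z := by
  rw [pow_two, sum_mul, ← sum_sub_distrib]
  refine sum_congr rfl fun y hy => ?_
  rw [← add_sum_erase s X hy]
  ring

theorem coll_nonneg (hX : ∀ y ∈ s, 0 ≤ X y) : 0 ≤ (∑ y ∈ s, X y) ^ 2 - ∑ y ∈ s, X y ^ 2 := by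
  rw [coll_eq]
  exact sum_nonneg fun y hy => mul_nonneg (hX y hy)
    (sum_nonneg fun z hz => hX z (mem_of_mem_erase hz))

/-- One term and the rest. -/
theorem coll_ge (hX : ∀ y ∈ s, 0 ≤ X y) {y : ι} (hy : y ∈ s) :
    2 * (X y * ∑ z ∈ s.erase y, X z) ≤ (∑ y ∈ s, X y) ^ 2 - ∑ y ∈ s, X y ^ 2 := by
  have h := coll_nonneg (s := s.erase y) fun z hz => hX z (mem_of_mem_erase hz)
  rw [← add_sum_erase s X hy, ← add_sum_erase s (fun y => X y ^ 2) hy]
  nlinarith

omit [DecidableEq ι] in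
/-- If the total mass is positive, one term dominates. -/
theorem exists_dom [DecidableEq ι] (hX : ∀ y ∈ s, 0 ≤ X y) (hs : s.Nonempty) :
    ∃ y ∈ s, (∑ y ∈ s, X y) * ∑ z ∈ s.erase y, X z ≤ (∑ y ∈ s, X y) ^ 2 - ∑ y ∈ s, X y ^ 2 := by
  obtain ⟨y, hy, hm⟩ := exists_max_image s X hs
  refine ⟨y, hy, ?_⟩
  have h1 : ∑ z ∈ s, X z ^ 2 ≤ (∑ z ∈ s, X z) * X y := by
    rw [sum_mul]
    exact sum_le_sum fun z hz => by
      rw [pow_two]; exact mul_le_mul_of_nonneg_left (hm z hz) (hX z hz)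
  have h2 := add_sum_erase s X hy
  have h3 : ∑ z ∈ s.erase y, X z = ∑ z ∈ s, X z - X y := by linarith
  rw [h3]
  nlinarith

end Dom

section Space

variable {A α : Type} [Enc A α] {B : Bud A} {n d y : α → ℕ}

theorem sp_ipb (hn : SP B n) (hd : SP B d) (hy : SP B y) :
    SP B fun a => ipb (n a) (d a) (y a) :=
  (SP.sum_range (f := fun a i => bt (d a) i * bt (y a) i) hn
    ((sp_bt (hd.comp SP.fst') SP.snd').mul (sp_bt (hy.comp SP.fst') SP.snd'))).mod (SP.const 2)

end Space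

end Vale.Agent.P313.Full
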