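import Vale.Agent.P313.Full.DigMath

/-!
The program which computes one digit of a node. The digits of the children are fetched in the order
of the increasing drop `p = i + δ`; in the round `p` the local variables have `O(p + 1)` bits.
-/

namespace Vale.Agent.P313.Full

open Function Finset Vale.Agent.Lib.Space Prog Node

/-- The local variables of all procedures. -/
abbrev Loc : Type := Fin 16

variable {α ι ρ : Type} [DecidableEq ι]

/-- The code of a node: `tv` holds the precision, `ret` the result, `cap` bounds the powers of two.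
The class and the number of the child are in the local variables `1` and `2`. -/
structure NodeCode (α ι ρ : Type) where
  /-- the precision variable -/
  tv : ι
  /-- the result variable -/
  ret : ι
  /-- the bound for the powers of two -/
  cap : α → ℕ
  /-- the additional precision per class -/
  s : ℕ
  /-- the exponent of the denominators per class -/
  e : ℕ
  /-- the number of classes -/
  eI : α → (ι → ℕ) → ℕ
  /-- the number of children in a class -/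
  eC : α → (ι → ℕ) → ℕ → ℕ
  /-- the first numerator, read in the state of the child -/
  z1 : α → (ι → ℕ) → ℕ → ℕ → ℤ
  /-- the second numerator, read in the state of the child -/
  z2 : α → (ι → ℕ) → ℕ → ℕ → ℤ
  /-- the outer function -/
  Φ : α → (ι → ℕ) → ℝ → ℝ → ℝ
  /-- go to the state of the child -/
  enter : Prog α ι Loc ρ
  /-- compute a digit of the child -/
  child : Prog α ι Loc ρ
  /-- go back -/
  leave : Prog α ι Loc ρ

namespace NodeCode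

variable (X : NodeCode α ι ρ)

/-- The number of rounds. -/
def rounds (a : α) (g : ι → ℕ) : ℕ := X.eI a g + g X.tv + X.s * X.eI a g

/-- Multiply an accumulator by `2 ^ (s + e)`. -/
def resc (y : Loc) : Prog α ι Loc ρ := setL y fun _ _ l => enZ (deZ (l y) * 2 ^ (X.s + X.e))

/-- Add the contribution of a digit to an accumulator. -/
def addTo (y : Loc) (z : α → (ι → ℕ) → ℕ → ℕ → ℤ) (x : Bool) : Prog α ι Loc ρ :=
  setL y fun a g l => enZ (deZ (l y) + if x = true ∧ l 0 - l 1 = 0 then 0 else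
    z a g (l 1) (l 2) * deZ (g X.ret) * (cpow (X.cap a) 2 ((X.s + X.e + 1) * (l 0 - l 1)) : ℕ))

/-- Fetch one digit of one child. -/
def fetch : Prog α ι Loc ρ :=
  seqs [setG X.tv (fun _ g l => g X.tv + X.s * (l 1 + 1) - (l 0 - l 1)), X.enter, X.child,
    X.addTo 3 X.z1 false, X.addTo 4 X.z2 false, X.addTo 5 X.z1 true, X.addTo 6 X.z2 true,
    X.leave, setG X.tv fun _ g l => g X.tv + (l 0 - l 1) - X.s * (l 1 + 1)]

/-- One round. -/
def round1 : Prog α ι Loc ρ :=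
  seqs [X.resc 3, X.resc 4, X.resc 5, X.resc 6,
    forL 1 (fun a g l => min (X.eI a g) (l 0 + 1))
      (ifP (fun _ g l => l 0 - l 1 ≤ g X.tv + X.s * (l 1 + 1))
        (forL 2 (fun a g l => X.eC a g (l 1)) X.fetch) skip)]

/-- The rounded value for the accumulators `y₁`, `y₂`. -/
noncomputable def fin (a : α) (g : ι → ℕ) (t y₁ y₂ : ℕ) : ℤ :=
  round ((cpow (X.cap a) 2 t : ℕ) * X.Φ a g
    ((deZ y₁ : ℝ) / (cpow (X.cap a) 2 (g X.tv + (X.s + X.e) * X.rounds a g) : ℕ))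
    ((deZ y₂ : ℝ) / (cpow (X.cap a) 2 (g X.tv + (X.s + X.e) * X.rounds a g) : ℕ)))

/-- The program for a digit. -/
noncomputable def prog : Prog α ι Loc ρ :=
  seqs [setL 1 (fun _ _ _ => 0), setL 2 (fun _ _ _ => 0), setL 3 (fun _ _ _ => 0),
    setL 4 (fun _ _ _ => 0), setL 5 (fun _ _ _ => 0), setL 6 (fun _ _ _ => 0),
    forL 0 (fun a g _ => X.rounds a g) X.round1,
    setG X.ret fun a g l => enZ (X.fin a g (g X.tv) (l 3) (l 4) -
      if g X.tv = 0 then 0 else 2 * X.fin a g (g X.tv - 1) (l 5) (l 6))]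

section sp

variable {A : Type} [Enc A α] [Fintype ι] {B : Bud A}

theorem isSP_prog (hcap : SP B X.cap) (hI : SP B fun z : α × (ι → ℕ) => X.eI z.1 z.2)
    (hC : SP B fun z : α × (ι → ℕ) × ℕ => X.eC z.1 z.2.1 z.2.2)
    (h1 : ZSP B fun z : α × (ι → ℕ) × ℕ × ℕ => X.z1 z.1 z.2.1 z.2.2.1 z.2.2.2)
    (h2 : ZSP B fun z : α × (ι → ℕ) × ℕ × ℕ => X.z2 z.1 z.2.1 z.2.2.1 z.2.2.2)
    (hΦ : RSP B fun z : (α × (ι → ℕ)) × ℕ × ℕ × ℕ =>
      X.Φ z.1.1 z.1.2 ((deZ z.2.1 : ℝ) / z.2.2.2) ((deZ z.2.2.1 : ℝ) / z.2.2.2))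
    (he : X.enter.IsSP B) (hc : X.child.IsSP B) (hl : X.leave.IsSP B) : X.prog.IsSP B := by
  have l : ∀ y, SP B fun z : α × PSt ι Loc => z.2.2 y := fun y => sp_app SP.snd'.snd y
  have g : ∀ y, SP B fun z : α × PSt ι Loc => z.2.1 y := fun y => sp_app SP.snd'.fst y
  have ag : SP B fun z : α × PSt ι Loc => (z.1, z.2.1) := SP.fst'.pair SP.snd'.fst
  have cp : SP B fun z : α × PSt ι Loc => X.cap z.1 := hcap.comp SP.fst'
  have eI : SP B fun z : α × PSt ι Loc => X.eI z.1 z.2.1 := hI.comp ag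
  have rd : SP B fun z : α × PSt ι Loc => X.rounds z.1 z.2.1 :=
    (eI.add (g _)).add ((SP.const _).mul eI)
  have arg : SP B fun z : α × PSt ι Loc => (z.1, z.2.1, z.2.2 1, z.2.2 2) :=
    SP.fst'.pair (SP.snd'.fst.pair ((l 1).pair (l 2)))
  have rs : ∀ y, (X.resc y).IsSP B := fun y =>
    isSP_setL ((ZSP.deZ (l y)).mul (ZSP.const _)).enZ
  have ad : ∀ y (z : α → (ι → ℕ) → ℕ → ℕ → ℤ) x,
      (ZSP B fun w : α × (ι → ℕ) × ℕ × ℕ => z w.1 w.2.1 w.2.2.1 w.2.2.2) →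
      (X.addTo y z x).IsSP B := fun y z x hz =>
    isSP_setL ((ZSP.deZ (l y)).add (ZSP.ite (SP.decide_and (SP.const _)
      (((l 0).sub (l 1)).decide_eq (SP.const 0))) (ZSP.const 0)
      (((hz.comp arg).mul (ZSP.deZ (g _))).mul (ZSP.natCast (sp_cpow cp (SP.const 2)
        ((SP.const _).mul ((l 0).sub (l 1)))))))).enZ
  have fn : ∀ (t : α × PSt ι Loc → ℕ) y₁ y₂, SP B t →
      ZSP B fun z : α × PSt ι Loc => X.fin z.1 z.2.1 (t z) (z.2.2 y₁) (z.2.2 y₂) := by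
    intro t y₁ y₂ ht
    have d := sp_cpow cp (SP.const 2) ((g X.tv).add ((SP.const (X.s + X.e)).mul rd))
    exact ((RSP.natCast (sp_cpow cp (SP.const 2) ht)).mul
      (hΦ.comp (ag.pair ((l y₁).pair ((l y₂).pair d))))).round
  have z0 : ∀ y : Loc, (setL y fun _ _ _ => 0 : Prog α ι Loc ρ).IsSP B := fun y =>
    isSP_setL (SP.const 0)
  have s1 := (SP.const X.s).mul ((l 1).add (SP.const 1))
  have d1 := (l 0).sub (l 1)
  refine ⟨z0 1, z0 2, z0 3, z0 4, z0 5, z0 6, isSP_forL rd ⟨rs 3, rs 4, rs 5, rs 6,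
    isSP_forL (eI.min ((l 0).add (SP.const 1))) (isSP_ifP (d1.decide_le ((g _).add s1))
      (isSP_forL (hC.comp (SP.fst'.pair (SP.snd'.fst.pair (l 1))))
        ⟨isSP_setG (((g _).add s1).sub d1), he, hc, ad _ _ _ h1, ad _ _ _ h2, ad _ _ _ h1,
          ad _ _ _ h2, hl, isSP_setG (((g _).add d1).sub s1)⟩) isSP_skip)⟩,
    isSP_setG ((fn _ 3 4 (g _)).sub (ZSP.ite ((g _).decide_eq (SP.const 0)) (ZSP.const 0)
      ((ZSP.const 2).mul (fn _ 5 6 ((g _).sub (SP.const 1)))))).enZ⟩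

end sp

/-- The specification of the parts of the code of a node. `R0` describes the state of the node,
`R i u` the state of the child, `K i t` is the cost of the parts at the precision `t`. -/
structure Spec (body : ρ → Prog α ι Loc ρ) (a : α) (V : ℕ) (N : Node) (ac : ℕ → ℕ → ℕ → ℤ)
    (R0 : (ι → ℕ) → Prop) (R : ℕ → ℕ → (ι → ℕ) → Prop) (K : ℕ → ℕ → ℕ) (t : ℕ) : Prop where
  ne : X.tv ≠ X.ret
  tv0 : ∀ g n, R0 g → R0 (update g X.tv n)
  ret0 : ∀ g n, R0 g → R0 (update g X.ret n)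
  eI : ∀ g, R0 g → X.eI a g = N.I
  eC : ∀ g, R0 g → ∀ i < N.I, X.eC a g i = N.cnt i
  Φ : ∀ g, R0 g → X.Φ a g = N.Φ
  z1 : ∀ i < N.I, ∀ u < N.cnt i, ∀ g, R i u g → X.z1 a g i u = N.z1 i u
  z2 : ∀ i < N.I, ∀ u < N.cnt i, ∀ g, R i u g → X.z2 a g i u = N.z2 i u
  enter : ∀ i < N.I, ∀ u < N.cnt i, ∀ g l w, R0 g → g X.tv ≤ t + X.s * (i + 1) → l 1 = i →
    l 2 = u → (∀ y, l y < 2 ^ w) → WP body a V X.enter (w + 1 + K i (g X.tv))
      (fun g' l' => R i u g' ∧ g' X.tv = g X.tv ∧ l' = l) g l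
  child : ∀ i < N.I, ∀ u < N.cnt i, ∀ g l w, R i u g → g X.tv ≤ t + X.s * (i + 1) → l 1 = i →
    l 2 = u → (∀ y, l y < 2 ^ w) → WP body a V X.child (w + 1 + K i (g X.tv))
      (fun g' l' => R i u g' ∧ g' X.tv = g X.tv ∧ l' = l ∧
        g' X.ret = enZ (dig (ac i u) (g X.tv))) g l
  leave : ∀ i < N.I, ∀ u < N.cnt i, ∀ g l w, R i u g → g X.tv ≤ t + X.s * (i + 1) → l 1 = i →
    l 2 = u → (∀ y, l y < 2 ^ w) → WP body a V X.leave (w + 1 + K i (g X.tv))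
      (fun g' l' => R0 g' ∧ g' X.tv = g X.tv ∧ l' = l) g l

variable {X} {body : ρ → Prog α ι Loc ρ} {a : α} {V : ℕ} {N : Node} {ac : ℕ → ℕ → ℕ → ℤ}
  {R0 : (ι → ℕ) → Prop} {R : ℕ → ℕ → (ι → ℕ) → Prop} {K : ℕ → ℕ → ℕ} {t c k w0 : ℕ}

/-- The four accumulators have the values `F`, the other variables are as in `l0`. -/
def Accs (X : NodeCode α ι ρ) (N : Node) (ac : ℕ → ℕ → ℕ → ℤ) (t : ℕ)
    (F : (ℕ → ℕ → ℕ → ℤ) → ℤ) (l0 l : Loc → ℕ) : Prop :=
  l 3 = enZ (F (trm X.s t N.z1 ac false)) ∧ l 4 = enZ (F (trm X.s t N.z2 ac false)) ∧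
    l 5 = enZ (F (trm X.s t N.z1 ac true)) ∧ l 6 = enZ (F (trm X.s t N.z2 ac true)) ∧
      ∀ y : Loc, 7 ≤ y → l y = l0 y

omit [DecidableEq ι] in
theorem Accs.upd {F : (ℕ → ℕ → ℕ → ℤ) → ℤ} {l0 l : Loc → ℕ} (h : Accs X N ac t F l0 l) {y : Loc}
    (hy : y < 3) (n : ℕ) : Accs X N ac t F l0 (update l y n) := by
  have e : ∀ y' : Loc, 3 ≤ y' → update l y n y' = l y' := fun y' h' =>
    update_of_ne (hy.trans_le h').ne' _ _
  obtain ⟨h3, h4, h5, h6, h7⟩ := h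
  exact ⟨(e 3 (by decide)).trans h3, (e 4 (by decide)).trans h4, (e 5 (by decide)).trans h5,
    (e 6 (by decide)).trans h6, fun y' h' => (e y' (le_trans (by decide) h')).trans (h7 y' h')⟩

omit [DecidableEq ι] in
theorem Accs.congr {F F' : (ℕ → ℕ → ℕ → ℤ) → ℤ} {l0 l : Loc → ℕ} (h : Accs X N ac t F l0 l)
    (e : ∀ z x, F (trm X.s t z ac x) = F' (trm X.s t z ac x)) : Accs X N ac t F' l0 l := by
  unfold Accs
  rw [← e, ← e, ← e, ← e]
  exact h

omit [DecidableEq ι] in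
theorem enZ_acc_lt (hb : N.Bd c)
    (hd : ∀ i < N.I, ∀ u < N.cnt i, ∀ t, |dig (ac i u) t| ≤ 2 ^ (c * (i + 1)))
    {z : ℕ → ℕ → ℤ} (hz : ∀ i < N.I, ∀ u < N.cnt i, |z i u| ≤ 2 ^ (c * (i + 1))) (x : Bool)
    (p i0 u0 : ℕ) : enZ (N.acc (X.s + X.e) p (trm X.s t z ac x) (nn p i0 u0)) <
      2 ^ ((X.s + X.e + 3 * c + 4) * (p + 1)) := by
  have h1 := abs_acc_le (N := N) (h := X.s + X.e) (nn_le p i0 u0) hb.cnt
    fun i hi u hu => abs_trm_le (s := X.s) (t := t) (x := x) (hz i hi u hu) (hd i hi u hu)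
  have h2 := enZ_le_of_abs (M := 2 ^ ((X.s + X.e + 3 * c + 2) * (p + 1))) (by exact_mod_cast h1)
  refine h2.trans_lt ?_
  rw [← pow_succ']
  exact Nat.pow_lt_pow_right (by norm_num) (by nlinarith)

omit [DecidableEq ι] in
theorem wp_addTo {y : Loc} {ze : α → (ι → ℕ) → ℕ → ℕ → ℤ} {z : ℕ → ℕ → ℤ} {x : Bool}
    {Q : (ι → ℕ) → (Loc → ℕ) → Prop} {g : ι → ℕ} {l : Loc → ℕ} {p i u : ℕ} (hb : N.Bd c)
    (hd : ∀ i < N.I, ∀ u < N.cnt i, ∀ t, |dig (ac i u) t| ≤ 2 ^ (c * (i + 1)))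
    (hz : ∀ i < N.I, ∀ u < N.cnt i, |z i u| ≤ 2 ^ (c * (i + 1)))
    (hi : i < N.I) (hu : u < N.cnt i) (hp : i ≤ p) (hδ : p - i ≤ t + X.s * (i + 1))
    (hcap : 2 ^ ((X.s + X.e + 3 * c + 4) * (p + 1)) ≤ X.cap a) (hV : X.cap a ≤ V)
    (l0 : l 0 = p) (l1 : l 1 = i) (l2 : l 2 = u) (hze : ze a g i u = z i u)
    (hr : g X.ret = enZ (dig (ac i u) (t + X.s * (i + 1) - (p - i))))
    (hy : l y = enZ (N.acc (X.s + X.e) p (trm X.s t z ac x) (nn p i u)))
    (h : Q g (update l y (enZ (N.acc (X.s + X.e) p (trm X.s t z ac x) (nn p i (u + 1)))))) :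
    WP body a V (X.addTo y ze x) k Q g l := by
  have e : enZ (deZ (l y) + if x = true ∧ l 0 - l 1 = 0 then 0 else ze a g (l 1) (l 2) *
      deZ (g X.ret) * (cpow (X.cap a) 2 ((X.s + X.e + 1) * (l 0 - l 1)) : ℕ)) =
      enZ (N.acc (X.s + X.e) p (trm X.s t z ac x) (nn p i (u + 1))) := by
    rw [acc_u hi hu hp, hy, l0, l1, l2, hze, hr, deZ_enZ, deZ_enZ, cpow_eq (le_trans
      (Nat.pow_le_pow_right (by norm_num) (Nat.mul_le_mul (by omega) (by omega))) hcap), trm]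
    congr 2
    by_cases hx : x = true ∧ p - i = 0
    · rw [if_pos hx, if_neg fun h => h.2 hx, mul_zero]
    · rw [if_neg hx, if_pos ⟨hδ, hx⟩, add_mul, one_mul, pow_add]
      push_cast
      ring
  refine WP.setL ?_ ?_
  · rw [e]
    exact (enZ_acc_lt hb hd hz x p i (u + 1)).le.trans (hcap.trans hV)
  · rw [e]
    exact h

theorem wp_fetch (hX : X.Spec body a V N ac R0 R K t) (hb : N.Bd c)
    (hd : ∀ i < N.I, ∀ u < N.cnt i, ∀ t, |dig (ac i u) t| ≤ 2 ^ (c * (i + 1))) {l0 : Loc → ℕ}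
    (hw : ∀ y : Loc, 7 ≤ y → l0 y < 2 ^ w0) {p i u : ℕ} (hi : i < N.I) (hu : u < N.cnt i)
    (hp : i ≤ p) (hδ : p - i ≤ t + X.s * (i + 1))
    (hcap : 2 ^ ((X.s + X.e + 3 * c + 4) * (p + 1)) ≤ X.cap a) (hV : X.cap a ≤ V)
    (htV : t + X.s * (i + 1) ≤ V)
    (hk : w0 + (X.s + X.e + 3 * c + 4) * (p + 1) + 1 + K i (t + X.s * (i + 1) - (p - i)) ≤ k)
    {g : ι → ℕ} {l : Loc → ℕ} (h0 : R0 g) (ht : g X.tv = t) (l0' : l 0 = p) (l1 : l 1 = i)
    (l2 : l 2 = u) (hA : Accs X N ac t (fun W => N.acc (X.s + X.e) p W (nn p i u)) l0 l) :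
    WP body a V X.fetch k (fun g' l' => R0 g' ∧ g' X.tv = t ∧ l' 0 = p ∧ l' 1 = i ∧ l' 2 = u ∧
      Accs X N ac t (fun W => N.acc (X.s + X.e) p W (nn p i (u + 1))) l0 l') g l := by
  set w := w0 + (X.s + X.e + 3 * c + 4) * (p + 1) with hw'
  have hle : 2 ^ ((X.s + X.e + 3 * c + 4) * (p + 1)) ≤ 2 ^ w :=
    Nat.pow_le_pow_right (by norm_num) (by omega)
  have small : ∀ (u' : ℕ) (l : Loc → ℕ), l 0 = p → l 1 = i → l 2 = u →
      Accs X N ac t (fun W => N.acc (X.s + X.e) p W (nn p i u')) l0 l → ∀ y, l y < 2 ^ w := by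
    intro u' l e0 e1 e2 hA y
    have a0 : p < 2 ^ w := Nat.lt_two_pow_self.trans_le (Nat.pow_le_pow_right (by norm_num)
      (by nlinarith [Nat.zero_le w0, Nat.zero_le ((X.s + X.e + 3 * c + 3) * (p + 1))]))
    have a2 : u < 2 ^ w := hu.trans_le ((hb.cnt i hi).trans (le_trans (Nat.pow_le_pow_right
      (by norm_num) (Nat.mul_le_mul (by omega) (by omega))) hle))
    by_cases h7 : 7 ≤ y
    · rw [hA.2.2.2.2 y h7]
      exact (hw y h7).trans_le (Nat.pow_le_pow_right (by norm_num) (by omega))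
    · obtain rfl | rfl | rfl | rfl | rfl | rfl | rfl :
          y = 0 ∨ y = 1 ∨ y = 2 ∨ y = 3 ∨ y = 4 ∨ y = 5 ∨ y = 6 := by
        revert h7 y
        decide
      · omega
      · omega
      · omega
      · exact hA.1 ▸ (enZ_acc_lt hb hd hb.z1 _ _ _ _).trans_le hle
      · exact hA.2.1 ▸ (enZ_acc_lt hb hd hb.z2 _ _ _ _).trans_le hle
      · exact hA.2.2.1 ▸ (enZ_acc_lt hb hd hb.z1 _ _ _ _).trans_le hle
      · exact hA.2.2.2.1 ▸ (enZ_acc_lt hb hd hb.z2 _ _ _ _).trans_le hle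
  simp only [fetch, seqs]
  refine WP.seq (WP.setG (by rw [ht, l0', l1]; omega) ?_)
  rw [ht, l0', l1]
  set T := t + X.s * (i + 1) - (p - i) with hT
  have hTle : T ≤ t + X.s * (i + 1) := Nat.sub_le _ _
  have g0 : update g X.tv T X.tv = T := update_self _ _ _
  have e1 := hX.enter i hi u hu _ l w (hX.tv0 g T h0) (g0.le.trans hTle) l1 l2
    (small u l l0' l1 l2 hA)
  rw [g0] at e1
  refine (e1.cost hk).seq' ?_
  rintro g1 l₁ ⟨r1, t1, hl₁⟩
  rw [hl₁]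
  have e2 := hX.child i hi u hu g1 l w r1 (t1.le.trans hTle) l1 l2 (small u l l0' l1 l2 hA)
  rw [t1] at e2
  refine (e2.cost hk).seq' ?_
  rintro g2 l₂ ⟨r2, t2, hl₂, hr⟩
  rw [hl₂]
  refine WP.seq (wp_addTo hb hd hb.z1 hi hu hp hδ hcap hV l0' l1 l2 (hX.z1 i hi u hu _ r2) hr
    hA.1 ?_)
  refine WP.seq (wp_addTo hb hd hb.z2 hi hu hp hδ hcap hV (by simpa using l0') (by simpa using l1)
    (by simpa using l2) (hX.z2 i hi u hu _ r2) hr (by simpa using hA.2.1) ?_)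
  refine WP.seq (wp_addTo hb hd hb.z1 hi hu hp hδ hcap hV (by simpa using l0') (by simpa using l1)
    (by simpa using l2) (hX.z1 i hi u hu _ r2) hr (by simpa using hA.2.2.1) ?_)
  refine WP.seq (wp_addTo hb hd hb.z2 hi hu hp hδ hcap hV (by simpa using l0') (by simpa using l1)
    (by simpa using l2) (hX.z2 i hi u hu _ r2) hr (by simpa using hA.2.2.2.1) ?_)
  set l' := update (update (update (update l 3 _) 4 _) 5 _) 6 _ with hl'
  have m0 : l' 0 = p := by simpa [hl'] using l0'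
  have m1 : l' 1 = i := by simpa [hl'] using l1
  have m2 : l' 2 = u := by simpa [hl'] using l2
  have hA' : Accs X N ac t (fun W => N.acc (X.s + X.e) p W (nn p i (u + 1))) l0 l' := by
    refine ⟨by simp [hl'], by simp [hl'], by simp [hl'], by simp [hl'], fun y hy => ?_⟩
    rw [hl']
    iterate 4 rw [update_of_ne (lt_of_lt_of_le (by decide) hy).ne']
    exact hA.2.2.2.2 y hy
  have e3 := hX.leave i hi u hu g2 l' w r2 (t2.le.trans hTle) m1 m2 (small _ l' m0 m1 m2 hA')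
  rw [t2] at e3
  refine (e3.cost hk).seq' ?_
  rintro g3 l₃ ⟨r3, t3, hl₃⟩
  rw [hl₃]
  have e4 : g3 X.tv + (l' 0 - l' 1) - X.s * (l' 1 + 1) = t := by
    rw [t3, m0, m1]
    omega
  refine WP.setG (by rw [e4]; omega) ?_
  rw [e4]
  exact ⟨hX.tv0 _ _ r3, update_self _ _ _, m0, m1, m2, hA'⟩

theorem wp_round1 (hX : X.Spec body a V N ac R0 R K t) (hb : N.Bd c)
    (hd : ∀ i < N.I, ∀ u < N.cnt i, ∀ t, |dig (ac i u) t| ≤ 2 ^ (c * (i + 1))) {l0 : Loc → ℕ}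
    (hw : ∀ y : Loc, 7 ≤ y → l0 y < 2 ^ w0) {p : ℕ}
    (hcap : 2 ^ ((X.s + X.e + 3 * c + 4) * (p + 1)) ≤ X.cap a) (hV : X.cap a ≤ V)
    (htV : N.I + t + X.s * N.I ≤ V)
    (hk : ∀ i < N.I, ∀ δ ≤ t + X.s * (i + 1),
      w0 + (X.s + X.e + 3 * c + 4) * (i + δ + 1) + 1 + K i (t + X.s * (i + 1) - δ) ≤ k)
    {g : ι → ℕ} {l : Loc → ℕ} (h0 : R0 g) (ht : g X.tv = t) (l0' : l 0 = p)
    (hA : Accs X N ac t (N.accE (X.s + X.e) p) l0 l) :
    WP body a V X.round1 k (fun g' l' => R0 g' ∧ g' X.tv = t ∧ l' 0 = p ∧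
      Accs X N ac t (N.accE (X.s + X.e) (p + 1)) l0 l') g l := by
  have rs : ∀ (y : Loc) (z : ℕ → ℕ → ℤ) (x : Bool) (l : Loc → ℕ)
      (Q : (ι → ℕ) → (Loc → ℕ) → Prop),
      (∀ i < N.I, ∀ u < N.cnt i, |z i u| ≤ 2 ^ (c * (i + 1))) →
      l y = enZ (N.accE (X.s + X.e) p (trm X.s t z ac x)) →
      Q g (update l y (enZ (N.acc (X.s + X.e) p (trm X.s t z ac x) (nn p 0 0)))) →
      WP body a V (X.resc y) k Q g l := by
    intro y z x l Q hz hy hQ
    refine WP.setL ?_ ?_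
    · rw [hy, deZ_enZ, acc_start]
      exact (enZ_acc_lt hb hd hz x p 0 0).le.trans (hcap.trans hV)
    · rw [hy, deZ_enZ, acc_start]
      exact hQ
  simp only [round1, seqs]
  refine WP.seq (rs _ _ _ _ _ hb.z1 hA.1 ?_)
  refine WP.seq (rs _ _ _ _ _ hb.z2 (by simpa using hA.2.1) ?_)
  refine WP.seq (rs _ _ _ _ _ hb.z1 (by simpa using hA.2.2.1) ?_)
  refine WP.seq (rs _ _ _ _ _ hb.z2 (by simpa using hA.2.2.2.1) ?_)
  set l' := update (update (update (update l 3 _) 4 _) 5 _) 6 _ with hl'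
  have m0 : l' 0 = p := by simpa [hl'] using l0'
  have hA' : Accs X N ac t (fun W => N.acc (X.s + X.e) p W (nn p 0 0)) l0 l' := by
    refine ⟨by simp [hl'], by simp [hl'], by simp [hl'], by simp [hl'], fun y hy => ?_⟩
    rw [hl']
    iterate 4 rw [update_of_ne (lt_of_lt_of_le (by decide) hy).ne']
    exact hA.2.2.2.2 y hy
  refine WP.forL (fun i g l => R0 g ∧ g X.tv = t ∧ l 0 = p ∧
      Accs X N ac t (fun W => N.acc (X.s + X.e) p W (nn p i 0)) l0 l) (min N.I (p + 1))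
    ((min_le_left _ _).trans (by omega)) ⟨h0, ht, by simpa using m0, hA'.upd (by decide) _⟩
    (fun i g l h => by rw [hX.eI g h.1, h.2.2.1]) (fun i hi g l l1 h => ?_)
    fun g l _ h => ⟨h.1, h.2.1, h.2.2.1, h.2.2.2.congr fun _ _ => acc_end⟩
  obtain ⟨h0, ht, l0', hA⟩ := h
  have hi' : i < N.I := hi.trans_le (min_le_left _ _)
  have hp : i ≤ p := Nat.lt_succ_iff.1 (hi.trans_le (min_le_right _ _))
  have hs : X.s * (i + 1) ≤ X.s * N.I := Nat.mul_le_mul_left _ hi'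
  refine WP.ifP (fun hδ => ?_) fun hδ => WP.skip ⟨l1, h0, ht, by simpa using l0', ?_⟩
  · rw [ht, l0', l1] at hδ
    refine WP.forL (fun u g l => R0 g ∧ g X.tv = t ∧ l 0 = p ∧ l 1 = i ∧
        Accs X N ac t (fun W => N.acc (X.s + X.e) p W (nn p i u)) l0 l) (N.cnt i)
      ((hb.cnt i hi').trans (le_trans (Nat.pow_le_pow_right (by norm_num)
        (Nat.mul_le_mul (by omega) (by omega))) (hcap.trans hV)))
      ⟨h0, ht, by simpa using l0', by simpa using l1, hA.upd (by decide) _⟩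
      (fun u g l h => by rw [h.2.2.2.1, hX.eC g h.1 i hi']) (fun u hu g l l2 h => ?_)
      fun g l _ h => ⟨h.2.2.2.1, h.1, h.2.1, by simpa using h.2.2.1,
        (h.2.2.2.2.congr fun _ _ => acc_i).upd (by decide) _⟩
    have hk' := hk i hi' (p - i) hδ
    rw [show i + (p - i) = p by omega] at hk'
    exact (wp_fetch hX hb hd hw hi' hu hp hδ hcap hV (by omega) hk' h.1 h.2.1 h.2.2.1 h.2.2.2.1 l2
      h.2.2.2.2).mono fun g' l' h' => ⟨h'.2.2.2.2.1, h'.1, h'.2.1, by simpa using h'.2.2.1,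
        by simpa using h'.2.2.2.1, h'.2.2.2.2.2.upd (by decide) _⟩
  · rw [ht, l0', l1] at hδ
    exact (hA.congr fun z x => acc_skip hp fun u => if_neg fun h => hδ h.1).upd (by decide) _

/-- **The digit program.** -/
theorem wp_prog (hX : X.Spec body a V N ac R0 R K t) (hb : N.Bd c)
    (hd : ∀ i < N.I, ∀ u < N.cnt i, ∀ t, |dig (ac i u) t| ≤ 2 ^ (c * (i + 1)))
    (hr : |dig (N.ap X.s X.e ac) t| ≤ 2 ^ (c * (N.I + 1)))
    (hcap : 2 ^ ((X.s + X.e + 3 * c + 4) * (N.I + t + X.s * N.I + 1)) ≤ X.cap a)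
    (hV : X.cap a ≤ V)
    (hk : ∀ i < N.I, ∀ δ ≤ t + X.s * (i + 1),
      w0 + (X.s + X.e + 3 * c + 4) * (i + δ + 1) + 1 + K i (t + X.s * (i + 1) - δ) ≤ k)
    {g : ι → ℕ} {l : Loc → ℕ} (hw : ∀ y : Loc, 7 ≤ y → l y < 2 ^ w0) (h0 : R0 g)
    (ht : g X.tv = t) :
    WP body a V X.prog k (fun g' l' => R0 g' ∧ g' X.tv = t ∧
      g' X.ret = enZ (dig (N.ap X.s X.e ac) t) ∧ ∀ y : Loc, 7 ≤ y → l' y = l y) g l := by
  set P := N.I + t + X.s * N.I with hP
  have hPl : t + (X.s + X.e) * P ≤ (X.s + X.e + 3 * c + 4) * (P + 1) := by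
    nlinarith [Nat.zero_le (X.s * N.I), Nat.zero_le N.I, Nat.zero_le (c * P)]
  have hPV : P ≤ V := le_trans (Nat.lt_two_pow_self.le.trans (Nat.pow_le_pow_right (by norm_num)
    (by nlinarith [Nat.zero_le ((X.s + X.e + 3 * c + 3) * (P + 1))]))) (hcap.trans hV)
  have hrd : ∀ g, R0 g → g X.tv = t → X.rounds a g = P := fun g h1 h2 => by
    rw [rounds, hX.eI g h1, h2]
  simp only [prog, seqs]
  iterate 6 refine WP.seq (WP.setL (Nat.zero_le _) ?_)
  refine WP.seq (WP.forL (fun p g' l' => R0 g' ∧ g' X.tv = t ∧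
      Accs X N ac t (N.accE (X.s + X.e) p) l l') P hPV ⟨h0, ht, ?_⟩
    (fun p g l h => hrd g h.1 h.2.1) (fun p hp g' l' l0 h => ?_) fun g' l' _ h => ?_)
  · refine ⟨by simp [accE_zero], by simp [accE_zero], by simp [accE_zero], by simp [accE_zero],
      fun y hy => ?_⟩
    iterate 7 rw [update_of_ne (lt_of_lt_of_le (by decide) hy).ne']
  · exact (wp_round1 hX hb hd hw (le_trans (Nat.pow_le_pow_right (by norm_num)
      (Nat.mul_le_mul_left _ (by omega))) hcap) hV hPV hk h.1 h.2.1 l0 h.2.2).mono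
      fun g' l' h' => ⟨h'.2.2.1, h'.1, h'.2.1, h'.2.2.2.upd (by decide) _⟩
  · obtain ⟨r, ht', hA⟩ := h
    have c1 : ∀ n ≤ t + (X.s + X.e) * P, ((cpow (X.cap a) 2 n : ℕ) : ℝ) = 2 ^ n := fun n hn => by
      rw [cpow_eq (le_trans (Nat.pow_le_pow_right (by norm_num) (hn.trans hPl)) hcap)]
      simp
    have e : (X.fin a g' (g' X.tv) (l' 3) (l' 4) -
        if g' X.tv = 0 then 0 else 2 * X.fin a g' (g' X.tv - 1) (l' 5) (l' 6)) =
        dig (N.ap X.s X.e ac) t := by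
      simp only [fin, hrd g' r ht', ht', hX.Φ g' r, hA.1, hA.2.1, hA.2.2.1, hA.2.2.2.1, deZ_enZ]
      rw [c1 _ le_rfl, c1 t (by omega), c1 (t - 1) (by omega), accE_false hP.ge,
        accE_false hP.ge, dig]
      split_ifs with h
      · rw [sub_zero, h]
        rfl
      · obtain ⟨t', rfl⟩ := Nat.exists_eq_succ_of_ne_zero h
        rw [accE_true hP.ge, accE_true hP.ge]
        rfl
    refine WP.setG ?_ ?_
    · rw [e]
      refine (enZ_le_of_abs (M := 2 ^ (c * (N.I + 1))) (by exact_mod_cast hr)).trans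
        (le_trans ?_ (hcap.trans hV))
      rw [← pow_succ']
      have a1 : c * (N.I + 1) ≤ c * (P + 1) := Nat.mul_le_mul_left _ (by omega)
      exact Nat.pow_le_pow_right (by norm_num)
        (by nlinarith [Nat.zero_le ((X.s + X.e + 2 * c + 3) * (P + 1))])
    · rw [e]
      exact ⟨hX.ret0 _ _ r, (update_of_ne hX.ne _ _).trans ht', update_self _ _ _, hA.2.2.2.2⟩

end NodeCode

end Vale.Agent.P313.Full
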