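import Vale.Agent.P313.Full.Num

/-!
Dyadic approximations and their digits. A node computes `Φ y₁ y₂`, where `y₁`, `y₂` are linear forms
in the values of its children.
-/

namespace Vale.Agent.P313.Full

open Finset

/-- The digits of a sequence of approximations. -/
def dig (ap : ℕ → ℤ) (t : ℕ) : ℤ := if t = 0 then ap 0 else ap t - 2 * ap (t - 1)

/-- `ap t / 2 ^ t` approximates `v` up to `1 / 2 ^ t`. -/
def Apx (ap : ℕ → ℤ) (v : ℝ) : Prop := ∀ t, |(ap t : ℝ) - 2 ^ t * v| ≤ 1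

theorem sum_dig (ap : ℕ → ℤ) (T : ℕ) : ∑ δ ∈ range (T + 1), dig ap (T - δ) * 2 ^ δ = ap T := by
  induction T with
  | zero => simp [dig]
  | succ T ih =>
    rw [sum_range_succ', Nat.sub_zero, dig, if_neg (Nat.succ_ne_zero T), Nat.add_sub_cancel,
      ← ih, mul_sum]
    simp only [Nat.add_sub_add_right, pow_succ, pow_zero]
    rw [sum_congr rfl fun δ _ => show dig ap (T - δ) * (2 ^ δ * 2) =
      2 * (dig ap (T - δ) * 2 ^ δ) by ring]
    ring

theorem Apx.abs_dig_le {ap : ℕ → ℤ} {v : ℝ} (h : Apx ap v) {F : ℕ} (hv : |v| ≤ F) (t : ℕ) :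
    |dig ap t| ≤ F + 3 := by
  have key : |(dig ap t : ℝ)| ≤ F + 3 := by
    unfold dig
    split_ifs with h0
    · have h1 := h 0
      rw [pow_zero, one_mul] at h1
      rw [abs_le] at h1 hv ⊢
      constructor <;> linarith [h1.1, h1.2, hv.1, hv.2]
    · obtain ⟨u, rfl⟩ := Nat.exists_eq_succ_of_ne_zero h0
      have h1 := h (u + 1)
      have h2 := h u
      rw [pow_succ] at h1
      have h3 : (0 : ℝ) ≤ F := Nat.cast_nonneg F
      simp only [Nat.succ_eq_add_one, Nat.add_sub_cancel]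
      push_cast
      rw [abs_le] at h1 h2 ⊢
      constructor <;> linarith [h1.1, h1.2, h2.1, h2.2]
  exact_mod_cast key

theorem Apx.round (v : ℝ) : Apx (fun t => round (2 ^ t * v)) v := fun t => by
  rw [abs_sub_comm]
  exact (abs_sub_round _).trans (by norm_num)

theorem Apx.abs_le {ap : ℕ → ℤ} {v : ℝ} (h : Apx ap v) (t : ℕ) :
    |(ap t : ℝ) / 2 ^ t - v| ≤ 1 / 2 ^ t := by
  have h0 : (0 : ℝ) < 2 ^ t := by positivity
  rw [show (ap t : ℝ) / 2 ^ t - v = ((ap t : ℝ) - 2 ^ t * v) / 2 ^ t by field_simp, abs_div,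
    abs_of_pos h0]
  exact div_le_div_of_nonneg_right (h t) h0.le

/-- The data of a node: the children `(i, u)` with `i < I` and `u < cnt i`, the numerators of the
coefficients of the two linear forms, and the outer function. -/
structure Node where
  /-- the number of classes of children -/
  I : ℕ
  /-- the number of children in a class -/
  cnt : ℕ → ℕ
  /-- the numerators of the first form -/
  z1 : ℕ → ℕ → ℤ
  /-- the numerators of the second form -/
  z2 : ℕ → ℕ → ℤ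
  /-- the outer function -/
  Φ : ℝ → ℝ → ℝ

namespace Node

variable (N : Node)

/-- A linear form in the values of the children. -/
noncomputable def form (e : ℕ) (z : ℕ → ℕ → ℤ) (fc : ℕ → ℕ → ℝ) : ℝ :=
  ∑ i ∈ range N.I, ∑ u ∈ range (N.cnt i), (z i u : ℝ) / 2 ^ (e * (i + 1)) * fc i u

/-- The value of the node. -/
noncomputable def val (e : ℕ) (fc : ℕ → ℕ → ℝ) : ℝ := N.Φ (N.form e N.z1 fc) (N.form e N.z2 fc)

/-- The approximations of the node. -/
noncomputable def ap (s e : ℕ) (ac : ℕ → ℕ → ℕ → ℤ) (t : ℕ) : ℤ :=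
  round (2 ^ t * N.val e fun i u => (ac i u (t + s * (i + 1)) : ℝ) / 2 ^ (t + s * (i + 1)))

/-- Bounds for the numbers of children and the coefficients. -/
structure Bd (c : ℕ) : Prop where
  cnt : ∀ i < N.I, N.cnt i ≤ 2 ^ (c * (i + 1))
  z1 : ∀ i < N.I, ∀ u < N.cnt i, |N.z1 i u| ≤ 2 ^ (c * (i + 1))
  z2 : ∀ i < N.I, ∀ u < N.cnt i, |N.z2 i u| ≤ 2 ^ (c * (i + 1))

variable {N}

theorem sum_half_le (n : ℕ) : ∑ i ∈ range n, (1 / 2 : ℝ) ^ (i + 1) ≤ 1 := by
  have : ∑ i ∈ range n, (1 / 2 : ℝ) ^ (i + 1) = 1 - (1 / 2) ^ n := by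
    induction n with
    | zero => simp
    | succ n ih => rw [sum_range_succ, ih]; ring
  rw [this]
  have : (0 : ℝ) ≤ (1 / 2) ^ n := by positivity
  linarith

theorem form_sub_le {c s e t L : ℕ} {z : ℕ → ℕ → ℤ} {fc : ℕ → ℕ → ℝ} {ac : ℕ → ℕ → ℕ → ℤ}
    (hc : ∀ i < N.I, N.cnt i ≤ 2 ^ (c * (i + 1)))
    (hz : ∀ i < N.I, ∀ u < N.cnt i, |z i u| ≤ 2 ^ (c * (i + 1)))
    (ha : ∀ i < N.I, ∀ u < N.cnt i, Apx (ac i u) (fc i u))
    (hs : ∀ i < N.I, N.cnt i ≠ 0 → (2 * c + 1) * (i + 1) + L + 1 ≤ s * (i + 1)) :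
    |N.form e z (fun i u => (ac i u (t + s * (i + 1)) : ℝ) / 2 ^ (t + s * (i + 1))) -
      N.form e z fc| ≤ 1 / 2 ^ (t + L + 1) := by
  unfold form
  rw [← sum_sub_distrib]
  refine (abs_sum_le_sum_abs _ _).trans ?_
  refine le_trans (sum_le_sum (g := fun i => 1 / 2 ^ (t + L + 1) * (1 / 2 : ℝ) ^ (i + 1))
    fun i hi => ?_) ?_
  · have hi' := mem_range.1 hi
    by_cases h0 : N.cnt i = 0
    · rw [h0, sum_range_zero, sum_range_zero, sub_zero, abs_zero]
      positivity
    rw [← sum_sub_distrib]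
    refine (abs_sum_le_sum_abs _ _).trans ?_
    refine (sum_le_card_nsmul _ _ ((2 : ℝ) ^ (c * (i + 1)) * (1 / 2 ^ (t + s * (i + 1))))
      fun u hu => ?_).trans ?_
    · rw [← mul_sub, abs_mul]
      refine mul_le_mul ?_ ((ha i hi' u (mem_range.1 hu)).abs_le _) (abs_nonneg _) (by positivity)
      rw [abs_div, abs_of_pos (show (0 : ℝ) < 2 ^ (e * (i + 1)) by positivity)]
      refine (div_le_self (abs_nonneg _) (one_le_pow₀ (by norm_num))).trans ?_
      exact_mod_cast hz i hi' u (mem_range.1 hu)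
    · rw [card_range, nsmul_eq_mul]
      have h1 : (N.cnt i : ℝ) ≤ 2 ^ (c * (i + 1)) := by exact_mod_cast hc i hi'
      refine (mul_le_mul_of_nonneg_right h1 (by positivity)).trans ?_
      rw [one_div_pow, div_mul_div_comm, mul_one_div, ← mul_div_assoc, ← pow_add, ← pow_add,
        div_le_div_iff₀ (by positivity) (by positivity), ← pow_add, one_mul, one_mul]
      refine pow_le_pow_right₀ (by norm_num) ?_
      have := hs i hi' h0
      nlinarith
  · rw [← mul_sum]
    exact mul_le_of_le_one_right (by positivity) (sum_half_le _)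

/-- The approximations of a node approximate its value. -/
theorem apx {c s e L : ℕ} {fc : ℕ → ℕ → ℝ} {ac : ℕ → ℕ → ℕ → ℤ} (hb : N.Bd c)
    (hΦ : ∀ x y x' y' ε : ℝ, |x - x'| ≤ ε → |y - y'| ≤ ε → |N.Φ x y - N.Φ x' y'| ≤ 2 ^ L * ε)
    (ha : ∀ i < N.I, ∀ u < N.cnt i, Apx (ac i u) (fc i u))
    (hs : ∀ i < N.I, N.cnt i ≠ 0 → (2 * c + 1) * (i + 1) + L + 1 ≤ s * (i + 1)) :
    Apx (N.ap s e ac) (N.val e fc) := by
  intro t
  have h1 := hΦ _ _ _ _ _ (form_sub_le (e := e) (t := t) hb.cnt hb.z1 ha hs)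
    (form_sub_le (e := e) (t := t) hb.cnt hb.z2 ha hs)
  have h2 := abs_sub_round
    (2 ^ t * N.val e fun i u => (ac i u (t + s * (i + 1)) : ℝ) / 2 ^ (t + s * (i + 1)))
  have h3 := mul_le_mul_of_nonneg_left h1 (show (0 : ℝ) ≤ 2 ^ t by positivity)
  have h4 : (2 : ℝ) ^ t * (2 ^ L * (1 / 2 ^ (t + L + 1))) = 1 / 2 := by
    rw [pow_succ, pow_add]
    field_simp
  rw [h4, ← abs_of_pos (show (0 : ℝ) < 2 ^ t by positivity), ← abs_mul, mul_sub] at h3
  unfold ap
  unfold val at h2 ⊢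
  rw [abs_le] at h2 h3 ⊢
  constructor <;> linarith [h2.1, h2.2, h3.1, h3.2]

/-! ### The accumulators -/

variable (N)

/-- The accumulated sum in the round `p`, if `n i u` digits of the child `(i, u)` are known. -/
def acc (h p : ℕ) (W : ℕ → ℕ → ℕ → ℤ) (n : ℕ → ℕ → ℕ) : ℤ :=
  ∑ i ∈ range N.I, ∑ u ∈ range (N.cnt i), 2 ^ (h * (p - i)) * ∑ δ ∈ range (n i u), W i u δ

/-- The numbers of known digits during the round `p`. -/
def nn (p i0 u0 i u : ℕ) : ℕ := if i < i0 ∨ (i = i0 ∧ u < u0) then p + 1 - i else p - i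

/-- The accumulated sum before the round `p`. -/
def accE (h p : ℕ) (W : ℕ → ℕ → ℕ → ℤ) : ℤ := N.acc h (p - 1) W fun i _ => p - i

variable {N} {h p : ℕ} {W : ℕ → ℕ → ℕ → ℤ}

theorem acc_congr {n n' : ℕ → ℕ → ℕ} (hn : ∀ i < N.I, ∀ u < N.cnt i, n i u = n' i u) :
    N.acc h p W n = N.acc h p W n' :=
  sum_congr rfl fun i hi => sum_congr rfl fun u hu => by
    rw [hn i (mem_range.1 hi) u (mem_range.1 hu)]

theorem accE_zero : N.accE h 0 W = 0 := by simp [accE, acc]

theorem acc_start : N.accE h p W * 2 ^ h = N.acc h p W (nn p 0 0) := by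
  unfold accE acc
  rw [sum_mul]
  refine sum_congr rfl fun i _ => ?_
  rw [sum_mul]
  refine sum_congr rfl fun u _ => ?_
  have e : nn p 0 0 i u = p - i := by simp [nn]
  rw [e]
  rcases le_or_gt p i with h1 | h1
  · simp [Nat.sub_eq_zero_of_le h1]
  · rw [show h * (p - i) = h * (p - 1 - i) + h by
      rw [← Nat.mul_succ]; congr 1; omega, pow_add]
    ring

theorem acc_u {i0 u0 : ℕ} (hi : i0 < N.I) (hu : u0 < N.cnt i0) (hp : i0 ≤ p) :
    N.acc h p W (nn p i0 (u0 + 1)) =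
      N.acc h p W (nn p i0 u0) + 2 ^ (h * (p - i0)) * W i0 u0 (p - i0) := by
  have key : ∀ i u, 2 ^ (h * (p - i)) * ∑ δ ∈ range (nn p i0 (u0 + 1) i u), W i u δ =
      2 ^ (h * (p - i)) * ∑ δ ∈ range (nn p i0 u0 i u), W i u δ +
        if i = i0 then (if u = u0 then 2 ^ (h * (p - i0)) * W i0 u0 (p - i0) else 0) else 0 := by
    intro i u
    by_cases h1 : i = i0
    · subst h1
      by_cases h2 : u = u0
      · subst h2
        have e1 : nn p i (u + 1) i u = p - i + 1 := by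
          simp only [nn, lt_irrefl, false_or, true_and, Nat.lt_succ_self, if_true]
          omega
        have e2 : nn p i u i u = p - i := by simp [nn]
        rw [e1, e2, sum_range_succ, if_pos rfl, if_pos rfl, mul_add]
      · have e : nn p i (u0 + 1) i u = nn p i u0 i u := by
          unfold nn
          exact if_congr (by omega) rfl rfl
        rw [e, if_pos rfl, if_neg h2, add_zero]
    · have e : nn p i0 (u0 + 1) i u = nn p i0 u0 i u := by
        unfold nn
        exact if_congr (by omega) rfl rfl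
      rw [e, if_neg h1, add_zero]
  unfold acc
  simp only [key, sum_add_distrib]
  congr 1
  rw [sum_eq_single i0 (fun i _ h1 => by simp [h1]) fun h1 => absurd (mem_range.2 hi) h1]
  simp [hu]

theorem acc_i {i0 : ℕ} : N.acc h p W (nn p i0 (N.cnt i0)) = N.acc h p W (nn p (i0 + 1) 0) :=
  acc_congr fun i _ u hu => by
    unfold nn
    refine if_congr ⟨fun h => by omega, fun h => ?_⟩ rfl rfl
    rcases Nat.lt_succ_iff_lt_or_eq.1 (show i < i0 + 1 by omega) with h1 | rfl
    · exact .inl h1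
    · exact .inr ⟨rfl, hu⟩

theorem acc_skip {i0 : ℕ} (hp : i0 ≤ p) (hW : ∀ u, W i0 u (p - i0) = 0) :
    N.acc h p W (nn p i0 0) = N.acc h p W (nn p (i0 + 1) 0) := by
  refine sum_congr rfl fun i _ => sum_congr rfl fun u _ => ?_
  by_cases h1 : i = i0
  · subst h1
    have e1 : nn p (i + 1) 0 i u = p - i + 1 := by
      simp only [nn, Nat.lt_succ_self, true_or, if_true]
      omega
    have e2 : nn p i 0 i u = p - i := by simp [nn]
    rw [e1, e2, sum_range_succ, hW, add_zero]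
  · have e : nn p i0 0 i u = nn p (i0 + 1) 0 i u := by
      unfold nn
      exact if_congr (by omega) rfl rfl
    rw [e]

theorem acc_end : N.acc h p W (nn p (min N.I (p + 1)) 0) = N.accE h (p + 1) W :=
  acc_congr fun i hi u _ => by
    unfold nn
    split_ifs <;> omega

theorem nn_le (p i0 u0 i u : ℕ) : nn p i0 u0 i u ≤ p + 1 - i := by
  unfold nn
  split_ifs <;> omega

theorem abs_acc_le {c : ℕ} {n : ℕ → ℕ → ℕ} (hn : ∀ i u, n i u ≤ p + 1 - i)
    (hc : ∀ i < N.I, N.cnt i ≤ 2 ^ (c * (i + 1)))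
    (hW : ∀ i < N.I, ∀ u < N.cnt i, ∀ δ,
      |W i u δ| ≤ 2 ^ (c * (i + 1)) * 2 ^ (c * (i + 1)) * 2 ^ δ) :
    |N.acc h p W n| ≤ 2 ^ ((h + 3 * c + 2) * (p + 1)) := by
  have h1 : ∀ m : ℕ, ∑ δ ∈ range m, (2 : ℤ) ^ δ ≤ 2 ^ m := by
    intro m
    induction m with
    | zero => simp
    | succ m ih => rw [sum_range_succ, pow_succ]; linarith
  have h2 : ∀ i ∈ range N.I, |∑ u ∈ range (N.cnt i), 2 ^ (h * (p - i)) *
      ∑ δ ∈ range (n i u), W i u δ| ≤
        if i ∈ range (p + 1) then 2 ^ ((h + 3 * c + 1) * (p + 1)) else 0 := by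
    intro i hi
    have hi' := mem_range.1 hi
    split_ifs with hip
    · have hip' := mem_range.1 hip
      refine (abs_sum_le_sum_abs _ _).trans ((sum_le_card_nsmul _ _
        (2 ^ (h * (p - i)) * (2 ^ (c * (i + 1)) * 2 ^ (c * (i + 1)) * 2 ^ (p + 1)))
          fun u hu => ?_).trans ?_)
      · rw [abs_mul, abs_of_pos (by positivity)]
        refine mul_le_mul_of_nonneg_left ((abs_sum_le_sum_abs _ _).trans
          ((sum_le_sum fun δ _ => hW i hi' u (mem_range.1 hu) δ).trans ?_)) (by positivity)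
        rw [← mul_sum]
        exact mul_le_mul_of_nonneg_left ((h1 _).trans (pow_le_pow_right₀ (by norm_num)
          ((hn i u).trans (Nat.sub_le _ _)))) (by positivity)
      · rw [card_range, nsmul_eq_mul]
        have h3 : (N.cnt i : ℤ) ≤ 2 ^ (c * (i + 1)) := by exact_mod_cast hc i hi'
        refine (mul_le_mul_of_nonneg_right h3 (by positivity)).trans ?_
        rw [← pow_add, ← pow_add, ← pow_add, ← pow_add]
        refine pow_le_pow_right₀ (by norm_num) ?_
        have a1 : c * (i + 1) ≤ c * (p + 1) := Nat.mul_le_mul_left _ hip'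
        have a2 : h * (p - i) ≤ h * (p + 1) := Nat.mul_le_mul_left _ (by omega)
        nlinarith
    · have : ∀ u, n i u = 0 := fun u => by
        have := hn i u
        rw [mem_range] at hip
        omega
      simp [this]
  refine (abs_sum_le_sum_abs _ _).trans ((sum_le_sum h2).trans ?_)
  rw [← sum_filter, sum_const, nsmul_eq_mul]
  have h3 : (#{i ∈ range N.I | i ∈ range (p + 1)} : ℤ) ≤ 2 ^ (p + 1) := by
    have h4 : #{i ∈ range N.I | i ∈ range (p + 1)} ≤ p + 1 :=
      (card_le_card fun i hi => (mem_filter.1 hi).2).trans (card_range _).le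
    exact_mod_cast h4.trans Nat.lt_two_pow_self.le
  refine (mul_le_mul_of_nonneg_right h3 (by positivity)).trans ?_
  rw [← pow_add]
  exact pow_le_pow_right₀ (by norm_num) (by nlinarith)

/-- The terms of the accumulators; if `x` is true, the finest digits are left out. -/
def trm (s t : ℕ) (z : ℕ → ℕ → ℤ) (ac : ℕ → ℕ → ℕ → ℤ) (x : Bool) (i u δ : ℕ) : ℤ :=
  if δ ≤ t + s * (i + 1) ∧ ¬ (x = true ∧ δ = 0) then
    z i u * dig (ac i u) (t + s * (i + 1) - δ) * 2 ^ δ else 0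

theorem abs_trm_le {c s t : ℕ} {z : ℕ → ℕ → ℤ} {ac : ℕ → ℕ → ℕ → ℤ} {x : Bool} {i u : ℕ}
    (hz : |z i u| ≤ 2 ^ (c * (i + 1))) (hd : ∀ t, |dig (ac i u) t| ≤ 2 ^ (c * (i + 1)))
    (δ : ℕ) : |trm s t z ac x i u δ| ≤ 2 ^ (c * (i + 1)) * 2 ^ (c * (i + 1)) * 2 ^ δ := by
  unfold trm
  split_ifs
  · rw [abs_mul, abs_mul, abs_of_pos (show (0 : ℤ) < 2 ^ δ by positivity)]
    exact mul_le_mul_of_nonneg_right (mul_le_mul hz (hd _) (abs_nonneg _) (by positivity))
      (by positivity)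
  · rw [abs_zero]
    positivity

theorem sum_trm_false {s t n : ℕ} {z : ℕ → ℕ → ℤ} {ac : ℕ → ℕ → ℕ → ℤ} {i u : ℕ}
    (hn : t + s * (i + 1) < n) :
    ∑ δ ∈ range n, trm s t z ac false i u δ = z i u * ac i u (t + s * (i + 1)) := by
  rw [← sum_dig (ac i u), mul_sum]
  refine (sum_subset (range_mono hn) fun δ _ h2 => ?_).symm.trans (sum_congr rfl fun δ hδ => ?_)
  · rw [trm, if_neg fun h => h2 (mem_range.2 (Nat.lt_succ_of_le h.1))]
  · rw [trm, if_pos ⟨Nat.lt_succ_iff.1 (mem_range.1 hδ), by simp⟩, mul_assoc]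

theorem sum_trm_true {s t n : ℕ} {z : ℕ → ℕ → ℤ} {ac : ℕ → ℕ → ℕ → ℤ} {i u : ℕ}
    (hn : t + 1 + s * (i + 1) < n) :
    ∑ δ ∈ range n, trm s (t + 1) z ac true i u δ = 2 * (z i u * ac i u (t + s * (i + 1))) := by
  have h1 : ∀ δ, trm s (t + 1) z ac false i u δ = trm s (t + 1) z ac true i u δ +
      if δ = 0 then z i u * dig (ac i u) (t + 1 + s * (i + 1)) else 0 := by
    intro δ
    by_cases h : δ = 0
    · simp [trm, h]
    · simp [trm, h]
  have h2 := sum_trm_false (z := z) (ac := ac) (u := u) hn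
  simp only [h1, sum_add_distrib, sum_ite_eq', mem_range] at h2
  rw [if_pos (by omega), dig, if_neg (by omega),
    show t + 1 + s * (i + 1) - 1 = t + s * (i + 1) by omega] at h2
  linarith

theorem accE_false {s e t P : ℕ} {z : ℕ → ℕ → ℤ} {ac : ℕ → ℕ → ℕ → ℤ}
    (hP : N.I + t + s * N.I ≤ P) :
    (N.accE (s + e) P (trm s t z ac false) : ℝ) / 2 ^ (t + (s + e) * P) =
      N.form e z fun i u => (ac i u (t + s * (i + 1)) : ℝ) / 2 ^ (t + s * (i + 1)) := by
  unfold accE acc form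
  push_cast
  rw [sum_div]
  refine sum_congr rfl fun i hi => ?_
  rw [sum_div]
  refine sum_congr rfl fun u _ => ?_
  have hi' := mem_range.1 hi
  have h1 : s * (i + 1) ≤ s * N.I := Nat.mul_le_mul_left _ hi'
  have h2 := sum_trm_false (s := s) (t := t) (n := P - i) (z := z) (ac := ac) (i := i) (u := u)
    (by omega)
  have h3 : t + (s + e) * P = (s + e) * (P - 1 - i) + (e * (i + 1) + (t + s * (i + 1))) := by
    obtain ⟨d, rfl⟩ : ∃ d, P = d + 1 + i := ⟨P - 1 - i, by omega⟩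
    rw [show d + 1 + i - 1 - i = d by omega]
    ring
  rw [← Int.cast_sum, h2, h3, pow_add, pow_add]
  push_cast
  field_simp

theorem accE_true {s e t P : ℕ} {z : ℕ → ℕ → ℤ} {ac : ℕ → ℕ → ℕ → ℤ}
    (hP : N.I + (t + 1) + s * N.I ≤ P) :
    (N.accE (s + e) P (trm s (t + 1) z ac true) : ℝ) / 2 ^ (t + 1 + (s + e) * P) =
      N.form e z fun i u => (ac i u (t + s * (i + 1)) : ℝ) / 2 ^ (t + s * (i + 1)) := by
  rw [← accE_false (P := P) (by omega)]
  have h1 : N.accE (s + e) P (trm s (t + 1) z ac true) =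
      2 * N.accE (s + e) P (trm s t z ac false) := by
    unfold accE acc
    rw [mul_sum]
    refine sum_congr rfl fun i hi => ?_
    rw [mul_sum]
    refine sum_congr rfl fun u _ => ?_
    have hi' := mem_range.1 hi
    have h1 : s * (i + 1) ≤ s * N.I := Nat.mul_le_mul_left _ hi'
    beta_reduce
    rw [sum_trm_true (by omega), sum_trm_false (by omega)]
    ring
  rw [h1, add_right_comm, pow_succ]
  push_cast
  field_simp

end Node

end Vale.Agent.P313.Full
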