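import Vale.Agent.P313.Full.Dig

/-!
The program which collects the digits of a number: it returns the approximation at a given precision
and restores the precision variable.
-/

namespace Vale.Agent.P313.Full

open Function Finset Vale.Agent.Lib.Space Prog

variable {α ι κ ρ : Type} [DecidableEq ι] [DecidableEq κ]

/-- Collect the digits `T, T - 1, …, 0` computed by `child`, where `T` is the value of `eT`.
The local variables `ys`, `yc`, `ya` are used, and they are zero at the end. -/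
def readP (tv ret : ι) (cap : α → ℕ) (ys yc ya : κ) (eT : α → (ι → ℕ) → (κ → ℕ) → ℕ)
    (child : Prog α ι κ ρ) : Prog α ι κ ρ :=
  seqs [setL ys (fun _ g _ => g tv), setL yc (fun _ _ _ => 0), setL ya (fun _ _ _ => 0),
    setG tv eT,
    forL yc (fun _ g _ => g tv + 1) (seqs [setG tv (fun _ g l => g tv - l yc), child,
      setL ya (fun a g l => enZ (deZ (l ya) + deZ (g ret) * (cpow (cap a) 2 (l yc) : ℕ))),
      setG tv fun _ g l => g tv + l yc]),
    setG ret (fun _ _ l => l ya), setG tv (fun _ _ l => l ys),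
    setL ys (fun _ _ _ => 0), setL yc (fun _ _ _ => 0), setL ya fun _ _ _ => 0]

theorem isSP_readP {A : Type} [Enc A α] [Fintype ι] [Fintype κ] {B : Bud A} {tv ret : ι}
    {cap : α → ℕ} {ys yc ya : κ} {eT : α → (ι → ℕ) → (κ → ℕ) → ℕ} {child : Prog α ι κ ρ}
    (hcap : SP B cap) (hT : SP B fun z : α × PSt ι κ => eT z.1 z.2.1 z.2.2)
    (hc : child.IsSP B) : (readP tv ret cap ys yc ya eT child).IsSP B := by
  have l : ∀ y, SP B fun z : α × PSt ι κ => z.2.2 y := fun y => sp_app SP.snd'.snd y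
  have g : ∀ y, SP B fun z : α × PSt ι κ => z.2.1 y := fun y => sp_app SP.snd'.fst y
  have z0 : ∀ y : κ, (setL y fun _ _ _ => 0 : Prog α ι κ ρ).IsSP B := fun y =>
    isSP_setL (SP.const 0)
  exact ⟨isSP_setL (g _), z0 _, z0 _, isSP_setG hT, isSP_forL ((g _).add (SP.const 1))
    ⟨isSP_setG ((g _).sub (l _)), hc, isSP_setL ((ZSP.deZ (l _)).add ((ZSP.deZ (g _)).mul
      (ZSP.natCast (sp_cpow (hcap.comp SP.fst') (SP.const 2) (l _))))).enZ,
      isSP_setG ((g _).add (l _))⟩, isSP_setG (l _), isSP_setG (l _), z0 _, z0 _, z0 _⟩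

theorem abs_sum_dig_le {ap : ℕ → ℤ} {c : ℕ} (hd : ∀ t, |dig ap t| ≤ 2 ^ c) (T n : ℕ) :
    |∑ δ ∈ range n, dig ap (T - δ) * 2 ^ δ| ≤ 2 ^ (c + n) - 2 ^ c := by
  induction n with
  | zero => simp
  | succ n ih =>
    rw [sum_range_succ]
    refine (abs_add_le _ _).trans ?_
    have h1 : |dig ap (T - n) * 2 ^ n| ≤ 2 ^ (c + n) := by
      rw [abs_mul, abs_of_pos (by positivity : (0 : ℤ) < 2 ^ n), pow_add]
      exact mul_le_mul_of_nonneg_right (hd _) (by positivity)
    rw [← add_assoc, pow_succ]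
    linarith

theorem enZ_sum_dig_lt {ap : ℕ → ℤ} {c : ℕ} (hd : ∀ t, |dig ap t| ≤ 2 ^ c) (T n : ℕ) :
    enZ (∑ δ ∈ range n, dig ap (T - δ) * 2 ^ δ) < 2 ^ (c + n + 2) := by
  have h1 : |∑ δ ∈ range n, dig ap (T - δ) * 2 ^ δ| ≤ ((2 ^ (c + n) : ℕ) : ℤ) := by
    refine (abs_sum_dig_le hd T n).trans ?_
    push_cast
    have : (0 : ℤ) < 2 ^ c := by positivity
    linarith
  refine (enZ_le_of_abs h1).trans_lt ?_
  rw [← pow_succ']
  exact Nat.pow_lt_pow_right (by norm_num) (by omega)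

/-- **Reading a number.** `R` describes the state, `K t` is the cost of the digit `t`. -/
theorem wp_readP {body : ρ → Prog α ι κ ρ} {a : α} {V : ℕ} {tv ret : ι} {cap : α → ℕ}
    {ys yc ya : κ} {eT : α → (ι → ℕ) → (κ → ℕ) → ℕ} {child : Prog α ι κ ρ} {ap : ℕ → ℤ}
    {R : (ι → ℕ) → Prop} {K : ℕ → ℕ} {T c k w0 : ℕ} {g : ι → ℕ} {l : κ → ℕ}
    (hne : tv ≠ ret) (h1 : ys ≠ yc) (h2 : ys ≠ ya) (h3 : yc ≠ ya)
    (htv : ∀ g n, R g → R (update g tv n)) (hret : ∀ g n, R g → R (update g ret n))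
    (hd : ∀ t, |dig ap t| ≤ 2 ^ c)
    (hc : ∀ g l' w, R g → g tv ≤ T → (∀ y, y ≠ ys → y ≠ yc → y ≠ ya → l' y = l y) →
      (∀ y, l' y < 2 ^ w) → WP body a V child (w + 1 + K (g tv))
        (fun g' l'' => R g' ∧ g' tv = g tv ∧ l'' = l' ∧ g' ret = enZ (dig ap (g tv))) g l')
    (hT : ∀ l', (∀ y, y ≠ ys → y ≠ yc → y ≠ ya → l' y = l y) → eT a g l' = T)
    (hcap : 2 ^ (c + T + 3) ≤ cap a) (hV : cap a ≤ V) (htV : g tv ≤ V)
    (hk : ∀ δ ≤ T, w0 + (c + δ + 2) + 1 + K (T - δ) ≤ k)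
    (hw : ∀ y, y ≠ ys → y ≠ yc → y ≠ ya → l y < 2 ^ w0) (hw' : g tv < 2 ^ w0) (h0 : R g) :
    WP body a V (readP tv ret cap ys yc ya eT child) k (fun g' l' => R g' ∧ g' tv = g tv ∧
      g' ret = enZ (ap T) ∧ l' = update (update (update l ys 0) yc 0) ya 0) g l := by
  have hTV : T + 1 ≤ V := le_trans (Nat.lt_two_pow_self.le.trans
    (Nat.pow_le_pow_right (by norm_num) (by omega))) (hcap.trans hV)
  simp only [readP, seqs]
  refine WP.seq (WP.setL htV ?_)
  refine WP.seq (WP.setL (Nat.zero_le _) ?_)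
  refine WP.seq (WP.setL (Nat.zero_le _) ?_)
  have e0 : eT a g (update (update (update l ys (g tv)) yc 0) ya 0) = T :=
    hT _ fun y a1 a2 a3 => by rw [update_of_ne a3, update_of_ne a2, update_of_ne a1]
  refine WP.seq (WP.setG (by rw [e0]; omega) ?_)
  rw [e0]
  refine WP.seq (WP.forL (fun δ g' l' => R g' ∧ g' tv = T ∧ l' ys = g tv ∧
      l' ya = enZ (∑ i ∈ range δ, dig ap (T - i) * 2 ^ i) ∧
      ∀ y, y ≠ ys → y ≠ yc → y ≠ ya → l' y = l y) (T + 1) hTV
    ⟨htv _ _ h0, update_self _ _ _, ?_, ?_, fun y a1 a2 a3 => ?_⟩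
    (fun δ g' l' h => by rw [h.2.1]) (fun δ hδ g' l' e h => ?_) fun g' l' _ h => ?_)
  · rw [update_of_ne h1, update_of_ne h2, update_of_ne h1, update_self]
  · rw [update_of_ne h3.symm, update_self]
    simp
  · rw [update_of_ne a2, update_of_ne a3, update_of_ne a2, update_of_ne a1]
  · obtain ⟨r, t0, e1, e2, e3⟩ := h
    refine WP.seq (WP.setG (by omega) ?_)
    rw [t0, e]
    have g0 : update g' tv (T - δ) tv = T - δ := update_self _ _ _
    have hs : ∀ y, l' y < 2 ^ (w0 + (c + δ + 2)) := by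
      intro y
      have p1 : 2 ^ w0 ≤ 2 ^ (w0 + (c + δ + 2)) := Nat.pow_le_pow_right (by norm_num) (by omega)
      by_cases a1 : y = ys
      · rw [a1, e1]
        omega
      by_cases a2 : y = yc
      · rw [a2, e]
        exact Nat.lt_two_pow_self.trans_le (Nat.pow_le_pow_right (by norm_num) (by omega))
      by_cases a3 : y = ya
      · rw [a3, e2]
        exact (enZ_sum_dig_lt hd T δ).trans_le (Nat.pow_le_pow_right (by norm_num) (by omega))
      · rw [e3 y a1 a2 a3]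
        exact (hw y a1 a2 a3).trans_le p1
    have c1 := hc _ l' _ (htv g' (T - δ) r) (g0.le.trans (Nat.sub_le _ _)) e3 hs
    rw [g0] at c1
    refine (c1.cost (hk δ (by omega))).seq' ?_
    rintro g2 l₂ ⟨r2, t2, hl₂, hr⟩
    rw [hl₂]
    have e4 : enZ (deZ (l' ya) + deZ (g2 ret) * (cpow (cap a) 2 (l' yc) : ℕ)) =
        enZ (∑ i ∈ range (δ + 1), dig ap (T - i) * 2 ^ i) := by
      rw [e2, hr, e, deZ_enZ, deZ_enZ, sum_range_succ, cpow_eq (le_trans
        (Nat.pow_le_pow_right (by norm_num) (by omega)) hcap)]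
      simp
    refine WP.seq (WP.setL ?_ ?_)
    · rw [e4]
      exact (enZ_sum_dig_lt hd T (δ + 1)).le.trans (le_trans (Nat.pow_le_pow_right (by norm_num)
        (by omega)) (hcap.trans hV))
    rw [e4]
    have e5 : g2 tv + update l' ya (enZ (∑ i ∈ range (δ + 1), dig ap (T - i) * 2 ^ i)) yc = T := by
      rw [update_of_ne h3, t2, e]
      omega
    refine WP.setG (by rw [e5]; omega) ?_
    rw [e5]
    refine ⟨by rw [update_of_ne h3, e], htv _ _ r2, update_self _ _ _, ?_, ?_, fun y a1 a2 a3 => ?_⟩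
    · rw [update_of_ne h1, update_of_ne h2, e1]
    · rw [update_of_ne h3.symm, update_self]
    · rw [update_of_ne a2, update_of_ne a3, e3 y a1 a2 a3]
  · obtain ⟨r, -, e1, e2, e3⟩ := h
    rw [sum_dig] at e2
    refine WP.seq (WP.setG ?_ ?_)
    · rw [e2, ← sum_dig ap T]
      exact (enZ_sum_dig_lt hd T (T + 1)).le.trans (hcap.trans hV)
    refine WP.seq (WP.setG (e1 ▸ htV) ?_)
    refine WP.seq (WP.setL (Nat.zero_le _) ?_)
    refine WP.seq (WP.setL (Nat.zero_le _) ?_)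
    refine WP.setL (Nat.zero_le _) ⟨htv _ _ (hret _ _ r), by rw [update_self, e1], ?_, ?_⟩
    · rw [update_of_ne hne.symm, update_self, e2]
    · funext y
      by_cases a3 : y = ya
      · rw [a3, update_self, update_self]
      rw [update_of_ne a3, update_of_ne a3]
      by_cases a2 : y = yc
      · rw [a2, update_self, update_self]
      rw [update_of_ne a2, update_of_ne a2]
      by_cases a1 : y = ys
      · rw [a1, update_self, update_self]
      rw [update_of_ne a1, update_of_ne a1, e3 y a1 a2 a3]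

end Vale.Agent.P313.Full
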