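import Vale.Agent.P313.Full.DigRead
import Vale.Agent.P313.Full.ErrLens

/-!
A small language for numbers and moves on a finite state space. A term has an ideal meaning (exact
averages, searches which never stop) and an approximate meaning (budget `j`, tape `y`, digits).
The states are the points `s : σ → ℕ` of a box, the contexts are the points `q : κ → ℕ`.
-/

namespace Vale.Agent.P313.Full

open Function Finset Vale.Agent.Lib.Space

/-- The length of a letter of a walk. One letter contracts the variance by `4⁻¹ ^ 40`. -/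
@[irreducible] def lt : ℕ := Mix.t0 * 40

/-- The number of letters. -/
def nD : ℕ := 4 ^ lt

/-- The clamp to `[-b, b]`. -/
noncomputable def clp (b x : ℝ) : ℝ := max (-b) (min b x)

/-- A part of the state, a number below `m * m`. -/
structure View (α σ κ : Type) where
  /-- the side of the torus -/
  m : α → ℕ
  /-- read the part -/
  get : α → (κ → ℕ) → (σ → ℕ) → ℕ
  /-- replace the part -/
  put : α → (κ → ℕ) → (σ → ℕ) → ℕ → σ → ℕ

/-- The terms. Numbers: `loc`, `app`, `guard`, `sum`, `avg`, `hop`. Moves: `mloc`, `seq`, `search`.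
Both: `cas`, `alt`, `call`. -/
inductive Tm (α σ κ τ : Type) : Type
  /-- a local number -/
  | loc (f : α → (κ → ℕ) → (σ → ℕ) → ℝ)
  /-- a Lipschitz function of two numbers -/
  | app (Φ : α → (κ → ℕ) → (σ → ℕ) → ℝ → ℝ → ℝ) (e₁ e₂ : Tm α σ κ τ)
  /-- the product `g * e`, where `e` is needed only if the ideal `g` is not zero -/
  | guard (g e : Tm α σ κ τ)
  /-- the sum over the values `u < nl` of the context variable `x` -/
  | sum (nl : α → (κ → ℕ) → ℕ) (x : κ) (e : Tm α σ κ τ)
  /-- the average over a part of the state -/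
  | avg (v : View α σ κ) (e : Tm α σ κ τ)
  /-- the value of `e` after the move `M` in the direction `d`, zero if the move fails -/
  | hop (d : Bool) (M e : Tm α σ κ τ)
  /-- a local move -/
  | mloc (dom : Bool → α → (κ → ℕ) → (σ → ℕ) → Bool) (map : Bool → α → (κ → ℕ) → (σ → ℕ) → σ → ℕ)
  /-- the composition of two moves -/
  | seq (M₁ M₂ : Tm α σ κ τ)
  /-- the search for a value of the part `v` and a link `u < nl` (the context variable `x`) such
  that the test `tF` at the source and the test `tB` at the target of the move `M` accept -/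
  | search (v : View α σ κ) (nl : α → (κ → ℕ) → ℕ) (x : κ) (tF tB M : Tm α σ κ τ)
  /-- a case distinction on the context -/
  | cas (c : α → (κ → ℕ) → Bool) (e₁ e₂ : Tm α σ κ τ)
  /-- a case distinction on the state; a move needs the same case at both ends -/
  | alt (p : Bool → α → (κ → ℕ) → (σ → ℕ) → Bool) (e₁ e₂ : Tm α σ κ τ)
  /-- the call of the procedure `t` in the context `F q`; `rs (F q) (sv q) = q` -/
  | call (t : τ) (F : α → (κ → ℕ) → κ → ℕ) (sv : α → (κ → ℕ) → ℕ) (rs : α → (κ → ℕ) → ℕ → κ → ℕ)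

/-- A program. -/
structure Pg (α σ κ τ : Type) where
  /-- the box of the states -/
  bd : α → σ → ℕ
  /-- the bodies of the procedures -/
  body : τ → Tm α σ κ τ
  /-- the procedures which are moves -/
  mvp : τ → Bool
  /-- the values of the procedures are bounded by `2 ^ rg` -/
  rg : ℕ
  /-- the admissible contexts -/
  adm : τ → α → (κ → ℕ) → Prop
  /-- the size of the nodes of a body, in bits -/
  sz : τ → α → (κ → ℕ) → ℕ
  /-- the potential -/
  pot : τ → α → (κ → ℕ) → ℕ

variable {α σ κ τ : Type}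

namespace View

variable (v : View α σ κ) (a : α) (q : κ → ℕ)

/-- The walk along the word `w` with `i` letters. -/
def wk (i w : ℕ) (s : σ → ℕ) : σ → ℕ := v.put a q s (Mix.walk (v.m a) (lt * i) w (v.get a q s))

/-- The way back. -/
def uw (i w : ℕ) (s : σ → ℕ) : σ → ℕ := v.put a q s (Mix.unwalk (v.m a) (lt * i) w (v.get a q s))

/-- The exact average. -/
noncomputable def J (f : (σ → ℕ) → ℝ) (s : σ → ℕ) : ℝ :=
  (∑ c ∈ range (v.m a * v.m a), f (v.put a q s c)) / (v.m a * v.m a : ℕ)

/-- The average over the words with `i` letters. -/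
noncomputable def H (i : ℕ) (f : (σ → ℕ) → ℝ) (s : σ → ℕ) : ℝ :=
  (∑ w ∈ range (nD ^ i), f (v.wk a q i w s)) / (nD ^ i : ℕ)

/-- The laws of a view on the set `b`. -/
abbrev Ok (b : Finset (σ → ℕ)) : Prop := IsLens b (v.m a) (v.get a q) (v.put a q)

end View

/-! ### The ideal meaning -/

/-- The ideal meaning of a term in a context. -/
structure IV (σ : Type) where
  /-- the number -/
  val : (σ → ℕ) → ℝ
  /-- the move -/
  mv : Bool → (σ → ℕ) → Option (σ → ℕ)

/-- The ideal search joins `x` with `y`: candidates with a test above `1 / 4` join `x` with `y`,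
and `G` is the set of the values of the part with a good candidate. -/
structure Pair (b : Finset (σ → ℕ)) (mm : ℕ) (get : (σ → ℕ) → ℕ) (put : (σ → ℕ) → ℕ → σ → ℕ) (nl : ℕ)
    (F B M : ℕ → IV σ) (x y : σ → ℕ) (G : Finset ℕ) : Prop where
  bx : x ∈ b
  bY : y ∈ b
  get_eq : get y = get x
  fwd : ∀ c < mm, ∀ u < nl, 1 / 4 < (F u).val (put x c) → (M u).mv true (put x c) = some (put y c)
  bwd : ∀ c < mm, ∀ u < nl, 1 / 4 < (B u).val (put y c) → (M u).mv false (put y c) = some (put x c)
  sub : G ⊆ range mm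
  good : ∀ c ∈ G, ∃ u < nl, 3 / 4 ≤ (F u).val (put x c) ∧ 3 / 4 ≤ (B u).val (put y c)
  ne : G.Nonempty

namespace Tm

variable [DecidableEq κ]

open Classical in
/-- The ideal meaning; `E` is the meaning of the procedures, `b` is the box. -/
noncomputable def evI (a : α) (b : Finset (σ → ℕ)) (E : τ → (κ → ℕ) → IV σ) :
    Tm α σ κ τ → (κ → ℕ) → IV σ
  | loc f, q => ⟨f a q, fun _ _ => none⟩
  | app Φ e₁ e₂, q =>
    ⟨fun s => Φ a q s ((evI a b E e₁ q).val s) ((evI a b E e₂ q).val s), fun _ _ => none⟩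
  | guard g e, q => ⟨fun s => (evI a b E g q).val s * (evI a b E e q).val s, fun _ _ => none⟩
  | sum nl x e, q =>
    ⟨fun s => ∑ u ∈ range (nl a q), (evI a b E e (update q x u)).val s, fun _ _ => none⟩
  | avg v e, q => ⟨v.J a q (evI a b E e q).val, fun _ _ => none⟩
  | hop d M e, q =>
    ⟨fun s => ((evI a b E M q).mv d s).elim 0 (evI a b E e q).val, fun _ _ => none⟩
  | mloc dom map, q => ⟨fun _ => 0, fun d s => if dom d a q s then some (map d a q s) else none⟩
  | seq M₁ M₂, q => ⟨fun _ => 0, fun d s =>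
      if d then ((evI a b E M₁ q).mv d s).bind ((evI a b E M₂ q).mv d)
      else ((evI a b E M₂ q).mv d s).bind ((evI a b E M₁ q).mv d)⟩
  | search v nl x tF tB M, q => ⟨fun _ => 0, fun d s =>
      if h : ∃ s' G, Pair b (v.m a * v.m a) (v.get a q) (v.put a q) (nl a q)
          (fun u => evI a b E tF (update q x u)) (fun u => evI a b E tB (update q x u))
          (fun u => evI a b E M (update q x u)) (if d then s else s') (if d then s' else s) G
      then some h.choose else none⟩
  | cas c e₁ e₂, q => if c a q then evI a b E e₁ q else evI a b E e₂ q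
  | alt p e₁ e₂, q =>
    ⟨fun s => (if p true a q s then evI a b E e₁ q else evI a b E e₂ q).val s, fun d s =>
      ((if p d a q s then evI a b E e₁ q else evI a b E e₂ q).mv d s).filter fun s' =>
        p (!d) a q s' = p d a q s⟩
  | call t F _ _, q => E t (F a q)

end Tm

/-! ### The approximate meaning -/

/-- The approximate meaning of a term in a context, for a budget and a tape. -/
structure AV (σ : Type) where
  /-- the number -/
  val : (σ → ℕ) → ℝ
  /-- its dyadic approximations -/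
  ap : (σ → ℕ) → ℕ → ℤ
  /-- the move -/
  mv : Bool → (σ → ℕ) → Option (σ → ℕ)

/-- The first `u < N` with `f u ≠ none`. -/
def first {β : Type} (N : ℕ) (f : ℕ → Option β) : Option ℕ :=
  (List.range N).find? fun u => (f u).isSome

/-- A candidate: walk, test, move, test, walk back. A test accepts if the approximation with three
digits is at least `1 / 2`. -/
def cand (wk uw : (σ → ℕ) → σ → ℕ) (F B M : AV σ) (d : Bool) (s : σ → ℕ) : Option (σ → ℕ) :=
  if 4 ≤ (if d then F else B).ap (wk s) 3 then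
    (M.mv d (wk s)).bind fun s₁ => if 4 ≤ (if d then B else F).ap s₁ 3 then some (uw s₁) else none
  else none

/-- The candidate which is the first one in both directions. -/
def cls (N : ℕ) (ac : ℕ → Bool → (σ → ℕ) → Option (σ → ℕ)) (d : Bool) (s : σ → ℕ) :
    Option (σ → ℕ) :=
  (first N fun u => ac u d s).bind fun u => (ac u d s).bind fun s' =>
    if first N (fun u' => ac u' (!d) s') = some u then some s' else none

/-- The tower of the classes: if the class with the budget `j` has no candidate at both ends, walk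
along the first letter of the tape and go on with the budget `j - 1`. -/
def tower (N : ℕ) (ac : ℕ → ℕ → ℕ → Bool → (σ → ℕ) → Option (σ → ℕ))
    (wk uw : ℕ → (σ → ℕ) → σ → ℕ) : ℕ → ℕ → Bool → (σ → ℕ) → Option (σ → ℕ)
  | 0, y, d, s => cls N (ac 0 y) d s
  | j + 1, y, d, s =>
    if (first N fun u => ac (j + 1) y u d s).isSome then cls N (ac (j + 1) y) d s
    else (tower N ac wk uw j (y / nD) d (wk (y % nD) s)).bind fun s₁ =>
      if (first N fun u => ac (j + 1) y u (!d) (uw (y % nD) s₁)).isSome then none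
      else some (uw (y % nD) s₁)

/-- The node with two children in the class `n`. -/
def node2 (n : ℕ) (Φ : ℝ → ℝ → ℝ) : Node :=
  ⟨n + 1, fun i => if i = n then 2 else 0, fun _ u => if u = 0 then 1 else 0,
    fun _ u => if u = 0 then 0 else 1, Φ⟩

/-- The node for a sum in the class `n`. -/
def nodeS (n nl : ℕ) : Node :=
  ⟨n + 1, fun i => if i = n then nl else 0, fun _ _ => 1, fun _ _ => 0, fun y _ => y⟩

/-- The node for an average: the class `n + i` has the words with `i` letters and, if `i > 0`, the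
words with `i - 1` letters. -/
noncomputable def nodeA (n j : ℕ) (b : ℝ) : Node :=
  ⟨n + j + 1, fun i => if i < n then 0 else if i = n then 1 else nD ^ (i - n) + nD ^ (i - n - 1),
    fun i u => if u < nD ^ (i - n) then nD ^ (n + 1) else -nD ^ (n + 2), fun _ _ => 0,
    fun y _ => clp b y⟩

/-- The state of the child `(i, u)` of an average. -/
def View.ch (v : View α σ κ) (a : α) (q : κ → ℕ) (i u : ℕ) (s : σ → ℕ) : σ → ℕ :=
  if u < nD ^ i then v.wk a q i u s else v.wk a q (i - 1) (u - nD ^ i) s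

namespace Tm

/-- The values of a term with the size `n` are bounded by `2 ^ (n * dp)`. -/
def dp : Tm α σ κ τ → ℕ
  | loc _ => 1
  | app _ _ _ => 1
  | guard g e => dp g + dp e
  | sum _ _ e => dp e + 1
  | avg _ e => dp e
  | hop _ _ e => dp e
  | mloc _ _ => 0
  | seq _ _ => 0
  | search _ _ _ _ _ _ => 0
  | cas _ e₁ e₂ => max (dp e₁) (dp e₂)
  | alt _ e₁ e₂ => max (dp e₁) (dp e₂)
  | call _ _ _ _ => 1

/-- The additional precision per class if the children are bounded by `2 ^ (n * k)`. -/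
def sOf (k : ℕ) : ℕ := 3 * (k + 2 * lt + 2) + 3

variable [DecidableEq κ]

/-- The approximate meaning for the size `n`; the last arguments are the budget and the tape. -/
noncomputable def evA (a : α) (E : τ → (κ → ℕ) → ℕ → ℕ → AV σ) (n : ℕ) :
    Tm α σ κ τ → (κ → ℕ) → ℕ → ℕ → AV σ
  | loc f, q, _, _ => ⟨f a q, fun s t => round (2 ^ t * f a q s), fun _ _ => none⟩
  | app Φ e₁ e₂, q, j, y =>
    ⟨fun s => Φ a q s ((evA a E n e₁ q j y).val s) ((evA a E n e₂ q j y).val s),
      fun s => (node2 n (Φ a q s)).ap (sOf (dp e₁ + dp e₂)) 0 fun _ u =>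
        if u = 0 then (evA a E n e₁ q j y).ap s else (evA a E n e₂ q j y).ap s, fun _ _ => none⟩
  | guard g e, q, j, y =>
    ⟨fun s => (evA a E n g q j y).val s * (evA a E n e q j y).val s,
      fun s => (node2 n fun y₁ y₂ => clp (2 ^ (n * dp g)) y₁ * clp (2 ^ (n * dp e)) y₂).ap
        (sOf (dp g + dp e)) 0 fun _ u =>
          if u = 0 then (evA a E n g q j y).ap s else (evA a E n e q j y).ap s, fun _ _ => none⟩
  | sum nl x e, q, j, y =>
    ⟨fun s => ∑ u ∈ range (nl a q), (evA a E n e (update q x u) j y).val s,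
      fun s => (nodeS n (nl a q)).ap (sOf (dp e)) 0 fun _ u => (evA a E n e (update q x u) j y).ap s,
      fun _ _ => none⟩
  | avg v e, q, j, y =>
    ⟨fun s => clp (2 ^ (n * dp e)) ((evA a E n e q j y).val s + ∑ i ∈ range j,
        (v.H a q (i + 1) (evA a E n e q (j - (i + 1)) y).val s -
          v.H a q i (evA a E n e q (j - (i + 1)) y).val s)),
      fun s => (nodeA n j (2 ^ (n * dp e))).ap (sOf (dp e)) (2 * lt) fun i u =>
        (evA a E n e q (j - (i - n)) y).ap (v.ch a q (i - n) u s), fun _ _ => none⟩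
  | hop d M e, q, j, y =>
    ⟨fun s => ((evA a E n M q j y).mv d s).elim 0 (evA a E n e q j y).val,
      fun s => ((evA a E n M q j y).mv d s).elim (fun _ => 0) (evA a E n e q j y).ap,
      fun _ _ => none⟩
  | mloc dom map, q, _, _ =>
    ⟨fun _ => 0, fun _ _ => 0, fun d s => if dom d a q s then some (map d a q s) else none⟩
  | seq M₁ M₂, q, j, y => ⟨fun _ => 0, fun _ _ => 0, fun d s =>
      if d then ((evA a E n M₁ q j y).mv d s).bind ((evA a E n M₂ q j y).mv d)
      else ((evA a E n M₂ q j y).mv d s).bind ((evA a E n M₁ q j y).mv d)⟩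
  | search v nl x tF tB M, q, j, y => ⟨fun _ => 0, fun _ _ => 0,
      tower (nD ^ (n + 1) * nl a q) (fun j y u => cand (v.wk a q (n + 1) (u / nl a q))
        (v.uw a q (n + 1) (u / nl a q)) (evA a E n tF (update q x (u % nl a q)) j y)
        (evA a E n tB (update q x (u % nl a q)) j y) (evA a E n M (update q x (u % nl a q)) j y))
        (v.wk a q 1) (v.uw a q 1) j y⟩
  | cas c e₁ e₂, q, j, y => if c a q then evA a E n e₁ q j y else evA a E n e₂ q j y
  | alt p e₁ e₂, q, j, y =>
    ⟨fun s => (if p true a q s then evA a E n e₁ q j y else evA a E n e₂ q j y).val s,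
      fun s => (if p true a q s then evA a E n e₁ q j y else evA a E n e₂ q j y).ap s, fun d s =>
      ((if p d a q s then evA a E n e₁ q j y else evA a E n e₂ q j y).mv d s).filter fun s' =>
        p (!d) a q s' = p d a q s⟩
  | call t F _ _, q, j, y => E t (F a q) j y

end Tm

/-! ### Programs -/

namespace Pg

variable [DecidableEq κ] [Fintype σ] [DecidableEq σ] (P : Pg α σ κ τ) (a : α)

/-- The box of the states. -/
def box : Finset (σ → ℕ) := Fintype.piFinset fun r => range (P.bd a r)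

/-- The ideal meaning of a term, if `E` is the ideal meaning of the procedures. -/
noncomputable def ev (E : τ → (κ → ℕ) → IV σ) (e : Tm α σ κ τ) (q : κ → ℕ) : IV σ :=
  e.evI a (P.box a) E q

/-- The approximate meaning with fuel. -/
noncomputable def apx : ℕ → τ → (κ → ℕ) → ℕ → ℕ → AV σ
  | 0, _, _, _, _ => ⟨fun _ => 0, fun _ _ => 0, fun _ _ => none⟩
  | f + 1, t, q, j, y => (P.body t).evA a (apx f) (P.sz t a q) q j y

/-- The structural conditions for a term with the size `n` in a procedure with the potential `p`;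
the last argument says whether the term is a move. -/
def Str (n p : ℕ) : Tm α σ κ τ → (κ → ℕ) → Bool → Prop
  | .loc f, q, m => m = false ∧ ∀ s ∈ P.box a, |f a q s| ≤ 2 ^ n
  | .app Φ e₁ e₂, q, m => m = false ∧ (∀ s ∈ P.box a, (∀ x y, |Φ a q s x y| ≤ 2 ^ n) ∧
      ∀ x y x' y' ε : ℝ, |x - x'| ≤ ε → |y - y'| ≤ ε → |Φ a q s x y - Φ a q s x' y'| ≤ 2 ^ n * ε) ∧
      Str n p e₁ q false ∧ Str n p e₂ q false
  | .guard g e, q, m => m = false ∧ Str n p g q false ∧ Str n p e q false
  | .sum nl x e, q, m => m = false ∧ q x = 0 ∧ nl a q ≤ 2 ^ n ∧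
      ∀ u < nl a q, Str n p e (update q x u) false
  | .avg v e, q, m => m = false ∧ v.Ok a q (P.box a) ∧ Str n p e q false
  | .hop _ M e, q, m => m = false ∧ Str n p M q true ∧ Str n p e q false
  | .mloc dom map, q, m => m = true ∧ ∀ d, ∀ s ∈ P.box a, dom d a q s = true →
      map d a q s ∈ P.box a ∧ dom (!d) a q (map d a q s) = true ∧ map (!d) a q (map d a q s) = s
  | .seq M₁ M₂, q, m => m = true ∧ Str n p M₁ q true ∧ Str n p M₂ q true
  | .search v nl x tF tB M, q, m => m = true ∧ q x = 0 ∧ nl a q ≤ 2 ^ n ∧ v.Ok a q (P.box a) ∧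
      ∀ u < nl a q, Str n p tF (update q x u) false ∧ Str n p tB (update q x u) false ∧
        Str n p M (update q x u) true
  | .cas c e₁ e₂, q, m => if c a q then Str n p e₁ q m else Str n p e₂ q m
  | .alt _ e₁ e₂, q, m => Str n p e₁ q m ∧ Str n p e₂ q m
  | .call t F sv rs, q, m => m = P.mvp t ∧ P.adm t a (F a q) ∧ rs a (F a q) (sv a q) = q ∧
      P.rg ≤ n ∧ ∃ b, sv a q < 2 ^ b ∧ P.pot t a (F a q) + n + b + 1 ≤ p

/-- The values of the term are bounded by `2 ^ b`, whatever the values of the subterms are. -/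
def Rng : Tm α σ κ τ → ℕ → (κ → ℕ) → Prop
  | .loc f, b, q => ∀ s ∈ P.box a, |f a q s| ≤ 2 ^ b
  | .app Φ _ _, b, q => ∀ s ∈ P.box a, ∀ x y, |Φ a q s x y| ≤ 2 ^ b
  | .guard g e, b, q => ∃ b₁ b₂, b₁ + b₂ ≤ b ∧ Rng g b₁ q ∧ Rng e b₂ q
  | .sum _ _ _, _, _ => False
  | .avg _ _, _, _ => False
  | .hop _ _ e, b, q => Rng e b q
  | .mloc _ _, _, _ => True
  | .seq _ _, _, _ => True
  | .search _ _ _ _ _ _, _, _ => True
  | .cas c e₁ e₂, b, q => if c a q then Rng e₁ b q else Rng e₂ b q
  | .alt _ e₁ e₂, b, q => Rng e₁ b q ∧ Rng e₂ b q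
  | .call _ _ _ _, b, _ => P.rg ≤ b

/-- The structural conditions for the program. -/
def WF : Prop := ∀ t q, P.adm t a q → P.sz t a q < P.pot t a q ∧
  P.Str a (P.sz t a q) (P.pot t a q) (P.body t) q (P.mvp t) ∧ P.Rng a (P.body t) P.rg q

/-- The image of a set under an ideal move. -/
def img (M : IV σ) (d : Bool) (D : Set (σ → ℕ)) : Set (σ → ℕ) :=
  {s' | ∃ s ∈ D, s ∈ P.box a ∧ M.mv d s = some s'}

/-- The conditions under which the term is computed correctly on the set `D`. The set `dem t q d`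
is the domain of the procedure `t` in the direction `d`; numbers have the direction `true`. -/
def Dm (E : τ → (κ → ℕ) → IV σ) (dem : τ → (κ → ℕ) → Bool → Set (σ → ℕ)) (n : ℕ) :
    Tm α σ κ τ → (κ → ℕ) → Bool → Set (σ → ℕ) → Prop
  | .loc _, _, _, _ => True
  | .app _ e₁ e₂, q, _, D => Dm E dem n e₁ q true D ∧ Dm E dem n e₂ q true D
  | .guard g e, q, _, D => Dm E dem n g q true D ∧
      Dm E dem n e q true {s | s ∈ D ∧ (P.ev a E g q).val s ≠ 0}
  | .sum nl x e, q, _, D => ∀ u < nl a q, Dm E dem n e (update q x u) true D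
  | .avg v e, q, _, D => Dm E dem n e q true
      {s' | ∃ s ∈ D, s ∈ P.box a ∧ ∃ c < v.m a * v.m a, s' = v.put a q s c}
  | .hop d M e, q, _, D => Dm E dem n M q d D ∧ Dm E dem n e q true (P.img a (P.ev a E M q) d D)
  | .mloc _ _, _, _, _ => True
  | .seq M₁ M₂, q, d, D =>
    if d then Dm E dem n M₁ q d D ∧ Dm E dem n M₂ q d (P.img a (P.ev a E M₁ q) d D)
    else Dm E dem n M₂ q d D ∧ Dm E dem n M₁ q d (P.img a (P.ev a E M₂ q) d D)
  | .search v nl x tF tB M, q, d, D =>
    (∀ s ∈ D, s ∈ P.box a → ∃ s' G, Pair (P.box a) (v.m a * v.m a) (v.get a q) (v.put a q)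
      (nl a q) (fun u => P.ev a E tF (update q x u)) (fun u => P.ev a E tB (update q x u))
      (fun u => P.ev a E M (update q x u)) (if d then s else s') (if d then s' else s) G ∧
      v.m a * v.m a ≤ 2 ^ n * #G) ∧
    ∀ u < nl a q, Dm E dem n tF (update q x u) true Set.univ ∧
      Dm E dem n tB (update q x u) true Set.univ ∧
      Dm E dem n M (update q x u) true {s | 1 / 4 < (P.ev a E tF (update q x u)).val s} ∧
      Dm E dem n M (update q x u) false {s | 1 / 4 < (P.ev a E tB (update q x u)).val s}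
  | .cas c e₁ e₂, q, d, D => if c a q then Dm E dem n e₁ q d D else Dm E dem n e₂ q d D
  | .alt p e₁ e₂, q, d, D => Dm E dem n e₁ q d {s | s ∈ D ∧ p d a q s = true} ∧
      Dm E dem n e₂ q d {s | s ∈ D ∧ p d a q s = false}
  | .call t F _ _, q, d, D => ∀ s ∈ D, s ∈ P.box a → s ∈ dem t (F a q) d

/-- The data `E` are bounded numbers and injective moves. -/
structure Data (E : τ → (κ → ℕ) → IV σ) : Prop where
  bd : ∀ t q, P.adm t a q → ∀ s ∈ P.box a, |(E t q).val s| ≤ 2 ^ P.rg
  mv : ∀ t q, P.adm t a q → ∀ d, ∀ s ∈ P.box a, ∀ s', (E t q).mv d s = some s' →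
    s' ∈ P.box a ∧ (E t q).mv (!d) s' = some s

/-- The data `E` are the ideal meaning of the procedures on the domains `dem`. -/
structure Ideal (E : τ → (κ → ℕ) → IV σ) (dem : τ → (κ → ℕ) → Bool → Set (σ → ℕ)) : Prop
    extends P.Data a E where
  num : ∀ t q, P.adm t a q → P.mvp t = false →
    P.Dm a E dem (P.sz t a q) (P.body t) q true (dem t q true) ∧
      ∀ s ∈ dem t q true, s ∈ P.box a → (P.ev a E (P.body t) q).val s = (E t q).val s
  mov : ∀ t q, P.adm t a q → P.mvp t = true → ∀ d,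
    P.Dm a E dem (P.sz t a q) (P.body t) q d (dem t q d) ∧
      ∀ s ∈ dem t q d, s ∈ P.box a → (P.ev a E (P.body t) q).mv d s = (E t q).mv d s

open Classical in
/-- The fourth power of the mixed norm on the set `D`, for tapes with `L` letters. -/
noncomputable def n4 (L : ℕ) (D : Set (σ → ℕ))
    (g : (σ → ℕ) → ℕ → ℝ) : ℝ :=
  (∑ s ∈ P.box a with s ∈ D, ((∑ y ∈ range (nD ^ L), g s y ^ 2) / (nD ^ L : ℕ)) ^ 2) / #(P.box a)

end Pg

/-! ### Computability of the local parts -/

section sp

variable {A : Type} [Enc A α] [Fintype σ] [Fintype κ] (B : Bud A)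

/-- The parts of the view are computable. -/
structure View.IsSP (v : View α σ κ) : Prop where
  m : SP B v.m
  get : SP B fun z : α × (κ → ℕ) × (σ → ℕ) => v.get z.1 z.2.1 z.2.2
  put : SP B fun z : (α × (κ → ℕ) × (σ → ℕ)) × ℕ => v.put z.1.1 z.1.2.1 z.1.2.2 z.2

/-- The local parts of the term are computable. -/
def Tm.IsSP : Tm α σ κ τ → Prop
  | .loc f => RSP B fun z : α × (κ → ℕ) × (σ → ℕ) => f z.1 z.2.1 z.2.2
  | .app Φ e₁ e₂ => (RSP B fun z : (α × (κ → ℕ) × (σ → ℕ)) × ℕ × ℕ × ℕ =>
      Φ z.1.1 z.1.2.1 z.1.2.2 ((deZ z.2.1 : ℝ) / z.2.2.2) ((deZ z.2.2.1 : ℝ) / z.2.2.2)) ∧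
      IsSP e₁ ∧ IsSP e₂
  | .guard g e => IsSP g ∧ IsSP e
  | .sum nl _ e => (SP B fun z : α × (κ → ℕ) => nl z.1 z.2) ∧ IsSP e
  | .avg v e => v.IsSP B ∧ IsSP e
  | .hop _ M e => IsSP M ∧ IsSP e
  | .mloc dom map => ∀ d, (SP B fun z : α × (κ → ℕ) × (σ → ℕ) => dom d z.1 z.2.1 z.2.2) ∧
      SP B fun z : α × (κ → ℕ) × (σ → ℕ) => map d z.1 z.2.1 z.2.2
  | .seq M₁ M₂ => IsSP M₁ ∧ IsSP M₂
  | .search v nl _ tF tB M => v.IsSP B ∧ (SP B fun z : α × (κ → ℕ) => nl z.1 z.2) ∧
      IsSP tF ∧ IsSP tB ∧ IsSP M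
  | .cas c e₁ e₂ => (SP B fun z : α × (κ → ℕ) => c z.1 z.2) ∧ IsSP e₁ ∧ IsSP e₂
  | .alt p e₁ e₂ => (∀ d, SP B fun z : α × (κ → ℕ) × (σ → ℕ) => p d z.1 z.2.1 z.2.2) ∧
      IsSP e₁ ∧ IsSP e₂
  | .call _ F sv rs => (SP B fun z : α × (κ → ℕ) => F z.1 z.2) ∧
      (SP B fun z : α × (κ → ℕ) => sv z.1 z.2) ∧
      SP B fun z : α × (κ → ℕ) × ℕ => rs z.1 z.2.1 z.2.2

/-- The local parts of the program are computable. -/
structure Pg.IsSP (P : Pg α σ κ τ) : Prop where
  bd : SP B P.bd
  body : ∀ t, (P.body t).IsSP B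
  sz : ∀ t, SP B fun z : α × (κ → ℕ) => P.sz t z.1 z.2

end sp

end Vale.Agent.P313.Full
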