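import Vale.Agent.P313.Full.Dsl

/-!
Basic properties of the two meanings: moves are injections of the box, numbers are bounded, and the
dyadic approximations approximate the numbers.
-/

namespace Vale.Agent.P313.Full

open Function Finset Vale.Agent.Lib.Space

variable {α σ κ τ : Type}

theorem first_eq_some {β : Type} {N u : ℕ} {f : ℕ → Option β} :
    first N f = some u ↔ u < N ∧ (f u).isSome ∧ ∀ u' < u, f u' = none := by
  unfold first
  rw [List.find?_range_eq_some]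
  simp only [List.mem_range, Bool.not_eq_true', Option.isSome_eq_false_iff, Option.isNone_iff_eq_none]
  tauto

theorem first_eq_none {β : Type} {N : ℕ} {f : ℕ → Option β} :
    first N f = none ↔ ∀ u < N, f u = none := by
  unfold first
  rw [List.find?_range_eq_none]
  simp

theorem abs_clp_le {b : ℝ} (hb : 0 ≤ b) (x : ℝ) : |clp b x| ≤ b :=
  abs_le.2 ⟨le_max_left _ _, max_le (by linarith) (min_le_left _ _)⟩

theorem clp_eq {b x : ℝ} (h : |x| ≤ b) : clp b x = x := by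
  rw [abs_le] at h
  rw [clp, min_eq_right h.2, max_eq_right h.1]

theorem abs_clp_sub (b x y : ℝ) : |clp b x - clp b y| ≤ |x - y| := by
  unfold clp
  refine (abs_max_sub_max_le_max _ _ _ _).trans (max_le (by simp) ?_)
  exact (abs_min_sub_min_le_max _ _ _ _).trans (max_le (by simp) le_rfl)

theorem Apx.ge_of_read {ap : ℕ → ℤ} {v : ℝ} (h : Apx ap v) (h4 : 4 ≤ ap 3) : 3 / 8 ≤ v := by
  have h1 := (_root_.abs_le.1 (h 3)).2
  have h2 : (4 : ℝ) ≤ ap 3 := by exact_mod_cast h4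
  norm_num at h1
  linarith

theorem Apx.le_of_read {ap : ℕ → ℤ} {v : ℝ} (h : Apx ap v) (h4 : ¬ 4 ≤ ap 3) : v ≤ 1 / 2 := by
  have h1 := (_root_.abs_le.1 (h 3)).1
  have h2 : (ap 3 : ℝ) ≤ 3 := by exact_mod_cast (show ap 3 ≤ 3 by omega)
  norm_num at h1
  linarith

theorem nD_pos : 0 < nD := by
  unfold nD
  positivity

theorem nD_eq : nD = 2 ^ (2 * lt) := by rw [nD, pow_mul, show 2 ^ 2 = 4 from rfl]

theorem nD_pow (i : ℕ) : nD ^ i = 4 ^ (lt * i) := by rw [nD, pow_mul]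

/-- The move is an injection of `b`, the two directions are inverse to each other. -/
def Inj {St : Type} (b : Finset St) (mv : Bool → St → Option St) : Prop :=
  ∀ d, ∀ s ∈ b, ∀ s', mv d s = some s' → s' ∈ b ∧ mv (!d) s' = some s

section inj

variable {St : Type} {b : Finset St}

theorem Inj.none : Inj b fun _ _ => none := fun _ _ _ _ h => by simp at h

theorem Inj.seq {M₁ M₂ : Bool → St → Option St} (h₁ : Inj b M₁) (h₂ : Inj b M₂) :
    Inj b fun d s => if d then (M₁ d s).bind (M₂ d) else (M₂ d s).bind (M₁ d) := by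
  intro d s hs s' h
  cases d
  · simp only [Bool.false_eq_true, if_false, Option.bind_eq_some_iff] at h
    obtain ⟨s₁, e1, e2⟩ := h
    have a1 := h₂ _ s hs _ e1
    have a2 := h₁ _ s₁ a1.1 _ e2
    exact ⟨a2.1, by simpa [Option.bind_eq_some_iff] using ⟨s₁, a2.2, a1.2⟩⟩
  · simp only [if_true, Option.bind_eq_some_iff] at h
    obtain ⟨s₁, e1, e2⟩ := h
    have a1 := h₁ _ s hs _ e1
    have a2 := h₂ _ s₁ a1.1 _ e2
    exact ⟨a2.1, by simpa [Option.bind_eq_some_iff] using ⟨s₁, a2.2, a1.2⟩⟩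

theorem Inj.alt {β : Type} {mv : β → Bool → St → Option St} {M₁ M₂ : β} (h₁ : Inj b (mv M₁))
    (h₂ : Inj b (mv M₂)) (p : Bool → St → Bool) :
    Inj b fun d s => (mv (if p d s then M₁ else M₂) d s).filter fun s' => p (!d) s' = p d s := by
  intro d s hs s' h
  simp only [Option.filter_eq_some_iff, decide_eq_true_eq, Bool.not_not] at h ⊢
  obtain ⟨e1, e2⟩ := h
  rw [e2]
  split_ifs at e1 ⊢
  · exact ⟨(h₁ d s hs s' e1).1, (h₁ d s hs s' e1).2, rfl⟩
  · exact ⟨(h₂ d s hs s' e1).1, (h₂ d s hs s' e1).2, rfl⟩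

end inj

section search

variable {b : Finset (σ → ℕ)}

theorem cand_eq_some {wk uw : (σ → ℕ) → σ → ℕ} {F B M : AV σ} {d : Bool} {s s' : σ → ℕ} :
    cand wk uw F B M d s = some s' ↔ 4 ≤ (if d then F else B).ap (wk s) 3 ∧
      ∃ s₁, M.mv d (wk s) = some s₁ ∧ 4 ≤ (if d then B else F).ap s₁ 3 ∧ uw s₁ = s' := by
  unfold cand
  split_ifs <;> simp [Option.bind_eq_some_iff, *]

theorem Inj.cand {wk uw : (σ → ℕ) → σ → ℕ} {F B M : AV σ} (hM : Inj b M.mv)
    (h1 : ∀ s ∈ b, wk s ∈ b ∧ uw (wk s) = s) (h2 : ∀ s ∈ b, uw s ∈ b ∧ wk (uw s) = s) :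
    Inj b (cand wk uw F B M) := by
  intro d s hs s' h
  obtain ⟨e1, s₁, e2, e3, rfl⟩ := cand_eq_some.1 h
  have a1 := hM d _ (h1 s hs).1 _ e2
  refine ⟨(h2 _ a1.1).1, cand_eq_some.2 ?_⟩
  rw [(h2 _ a1.1).2]
  exact ⟨by cases d <;> simpa using e3, _, a1.2, by cases d <;> simpa using e1, (h1 s hs).2⟩

theorem cls_eq_some {N : ℕ} {ac : ℕ → Bool → (σ → ℕ) → Option (σ → ℕ)} {d : Bool}
    {s s' : σ → ℕ} : cls N ac d s = some s' ↔ ∃ u, (first N fun u => ac u d s) = some u ∧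
      ac u d s = some s' ∧ (first N fun u => ac u (!d) s') = some u := by
  unfold cls
  simp only [Option.bind_eq_some_iff, Option.ite_none_right_eq_some, Option.some.injEq]
  constructor
  · rintro ⟨u, h1, s₁, h2, h3, rfl⟩
    exact ⟨u, h1, h2, h3⟩
  · rintro ⟨u, h1, h2, h3⟩
    exact ⟨u, h1, s', h2, h3, rfl⟩

theorem Inj.cls {N : ℕ} {ac : ℕ → Bool → (σ → ℕ) → Option (σ → ℕ)} (h : ∀ u < N, Inj b (ac u)) :
    Inj b (cls N ac) := by
  intro d s hs s' e
  obtain ⟨u, h1, h2, h3⟩ := cls_eq_some.1 e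
  have a := h u (first_eq_some.1 h1).1 d s hs s' h2
  exact ⟨a.1, cls_eq_some.2 ⟨u, h3, a.2, by simpa using h1⟩⟩

theorem Inj.tower {N : ℕ} {ac : ℕ → ℕ → ℕ → Bool → (σ → ℕ) → Option (σ → ℕ)}
    {wk uw : ℕ → (σ → ℕ) → σ → ℕ} (h : ∀ j y, ∀ u < N, Inj b (ac j y u))
    (h1 : ∀ w, ∀ s ∈ b, wk w s ∈ b ∧ uw w (wk w s) = s)
    (h2 : ∀ w, ∀ s ∈ b, uw w s ∈ b ∧ wk w (uw w s) = s) (j y : ℕ) :
    Inj b (tower N ac wk uw j y) := by
  induction j generalizing y with
  | zero => exact Inj.cls (h 0 y)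
  | succ j ih =>
    intro d s hs s' e
    rw [Full.tower] at e
    split_ifs at e with h0
    · have a := Inj.cls (h (j + 1) y) d s hs s' e
      refine ⟨a.1, ?_⟩
      obtain ⟨u, -, -, h3⟩ := cls_eq_some.1 e
      rw [Full.tower, if_pos (by rw [h3]; rfl)]
      exact a.2
    · simp only [Option.bind_eq_some_iff, Option.ite_none_left_eq_some, Option.some.injEq] at e
      obtain ⟨s₁, e1, e2, rfl⟩ := e
      have a := ih _ d _ (h1 _ s hs).1 _ e1
      refine ⟨(h2 _ _ a.1).1, ?_⟩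
      rw [Full.tower, if_neg e2, (h2 _ _ a.1).2, a.2, Option.bind_some, (h1 _ s hs).2,
        Bool.not_not, if_neg h0]

variable {v : View α σ κ} {a : α} {q : κ → ℕ}

theorem View.Ok.wk_mem (h : v.Ok a q b) (i w : ℕ) :
    ∀ s ∈ b, v.wk a q i w s ∈ b ∧ v.uw a q i w (v.wk a q i w s) = s := fun _ hs =>
  ⟨h.walk_mem _ _ _ hs, h.unwalk_walk _ _ hs⟩

theorem View.Ok.uw_mem (h : v.Ok a q b) (i w : ℕ) :
    ∀ s ∈ b, v.uw a q i w s ∈ b ∧ v.wk a q i w (v.uw a q i w s) = s := fun _ hs =>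
  ⟨h.unwalk_mem _ _ _ hs, h.walk_unwalk _ _ hs⟩

theorem View.Ok.wk_zero (h : v.Ok a q b) (w : ℕ) {s : σ → ℕ} (hs : s ∈ b) :
    v.wk a q 0 w s = s := h.set_get s hs

theorem View.Ok.ch_mem (h : v.Ok a q b) (i u : ℕ) {s : σ → ℕ} (hs : s ∈ b) :
    v.ch a q i u s ∈ b := by
  unfold View.ch
  split_ifs <;> exact (h.wk_mem _ _ s hs).1

variable {m nl : ℕ} {get : (σ → ℕ) → ℕ} {put : (σ → ℕ) → ℕ → σ → ℕ} {F B M : ℕ → IV σ}
  {x y x' y' : σ → ℕ} {G G' : Finset ℕ}

theorem IsLens.eq_of_set (h : IsLens b m get put) (hx : x ∈ b) (hy : y ∈ b) (e : get x = get y)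
    {c : ℕ} (hc : c < m * m) (e' : put x c = put y c) : x = y := by
  rw [← h.set_get x hx, ← h.set_set x hx c hc _ (h.get_lt x hx), e',
    h.set_set y hy c hc _ (h.get_lt x hx), e, h.set_get y hy]

theorem Pair.right_unique (h : IsLens b m get put) (h1 : Pair b (m * m) get put nl F B M x y G)
    (h2 : Pair b (m * m) get put nl F B M x y' G') : y = y' := by
  obtain ⟨c, hc⟩ := h1.ne
  obtain ⟨u, hu, h3, -⟩ := h1.good c hc
  have hc' := mem_range.1 (h1.sub hc)
  have e := (h1.fwd c hc' u hu (by linarith)).symm.trans (h2.fwd c hc' u hu (by linarith))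
  exact h.eq_of_set h1.bY h2.bY (h1.get_eq.trans h2.get_eq.symm) hc' (Option.some.inj e)

theorem Pair.left_unique (h : IsLens b m get put) (h1 : Pair b (m * m) get put nl F B M x y G)
    (h2 : Pair b (m * m) get put nl F B M x' y G') : x = x' := by
  obtain ⟨c, hc⟩ := h1.ne
  obtain ⟨u, hu, -, h3⟩ := h1.good c hc
  have hc' := mem_range.1 (h1.sub hc)
  have e := (h1.bwd c hc' u hu (by linarith)).symm.trans (h2.bwd c hc' u hu (by linarith))
  exact h.eq_of_set h1.bx h2.bx (h1.get_eq.symm.trans h2.get_eq) hc' (Option.some.inj e)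

/-- A pair stays a pair if the register is changed at both ends. -/
theorem Pair.set (h : IsLens b m get put) (h1 : Pair b (m * m) get put nl F B M x y G) {c : ℕ}
    (hc : c < m * m) : Pair b (m * m) get put nl F B M (put x c) (put y c) G where
  bx := h.set_mem x h1.bx c hc
  bY := h.set_mem y h1.bY c hc
  get_eq := by rw [h.get_set x h1.bx c hc, h.get_set y h1.bY c hc]
  fwd c' hc' u hu := by
    rw [h.set_set x h1.bx c hc c' hc', h.set_set y h1.bY c hc c' hc']
    exact h1.fwd c' hc' u hu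
  bwd c' hc' u hu := by
    rw [h.set_set x h1.bx c hc c' hc', h.set_set y h1.bY c hc c' hc']
    exact h1.bwd c' hc' u hu
  sub := h1.sub
  good c' hc' := by
    have := mem_range.1 (h1.sub hc')
    rw [h.set_set x h1.bx c hc c' this, h.set_set y h1.bY c hc c' this]
    exact h1.good c' hc'
  ne := h1.ne

end search

namespace Pg

variable [DecidableEq κ] [Fintype σ] [DecidableEq σ] {P : Pg α σ κ τ} {a : α}

omit [DecidableEq κ] in
theorem mem_box {s : σ → ℕ} : s ∈ P.box a ↔ ∀ r, s r < P.bd a r := by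
  simp [box, Fintype.mem_piFinset]

section ideal

variable {E : τ → (κ → ℕ) → IV σ}

/-- The domain conditions are monotone. -/
theorem Dm.mono {dem : τ → (κ → ℕ) → Bool → Set (σ → ℕ)} {n : ℕ} {e : Tm α σ κ τ} {q : κ → ℕ}
    {d : Bool} {D D' : Set (σ → ℕ)} (h : P.Dm a E dem n e q d D)
    (hD : ∀ s ∈ D', s ∈ P.box a → s ∈ D) : P.Dm a E dem n e q d D' := by
  have im : ∀ (M : IV σ) d (D D' : Set (σ → ℕ)), (∀ s ∈ D', s ∈ P.box a → s ∈ D) →
      ∀ s ∈ P.img a M d D', s ∈ P.box a → s ∈ P.img a M d D :=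
    fun M d D D' hD s ⟨s0, h1, h2, h3⟩ _ => ⟨s0, hD s0 h1 h2, h2, h3⟩
  induction e generalizing q d D D' with
  | loc => trivial
  | app _ _ _ i1 i2 => exact ⟨i1 h.1 hD, i2 h.2 hD⟩
  | guard _ _ i1 i2 => exact ⟨i1 h.1 hD, i2 h.2 fun s hs hb => ⟨hD s hs.1 hb, hs.2⟩⟩
  | sum _ _ _ i1 => exact fun u hu => i1 (h u hu) hD
  | avg _ _ i1 => exact i1 h fun s ⟨s0, h1, h2, h3⟩ _ => ⟨s0, hD s0 h1 h2, h2, h3⟩
  | hop _ _ _ i1 i2 => exact ⟨i1 h.1 hD, i2 h.2 (im _ _ _ _ hD)⟩
  | mloc => trivial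
  | seq _ _ i1 i2 =>
    cases d
    · exact ⟨i2 h.1 hD, i1 h.2 (im _ _ _ _ hD)⟩
    · exact ⟨i1 h.1 hD, i2 h.2 (im _ _ _ _ hD)⟩
  | search => exact ⟨fun s hs hb => h.1 s (hD s hs hb) hb, h.2⟩
  | cas c _ _ i1 i2 =>
    unfold Dm at h ⊢
    split_ifs at h ⊢
    · exact i1 h hD
    · exact i2 h hD
  | alt _ _ _ i1 i2 =>
    exact ⟨i1 h.1 fun s hs hb => ⟨hD s hs.1 hb, hs.2⟩, i2 h.2 fun s hs hb => ⟨hD s hs.1 hb, hs.2⟩⟩
  | call => exact fun s hs hb => h s (hD s hs hb) hb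

/-- The ideal search. -/
theorem ev_search {v : View α σ κ} {nl : α → (κ → ℕ) → ℕ} {x : κ} {tF tB M : Tm α σ κ τ}
    {q : κ → ℕ} (hv : v.Ok a q (P.box a)) {s s' : σ → ℕ} {G : Finset ℕ}
    (h : Pair (P.box a) (v.m a * v.m a) (v.get a q) (v.put a q) (nl a q)
      (fun u => P.ev a E tF (update q x u)) (fun u => P.ev a E tB (update q x u))
      (fun u => P.ev a E M (update q x u)) s s' G) :
    (P.ev a E (.search v nl x tF tB M) q).mv true s = some s' ∧
      (P.ev a E (.search v nl x tF tB M) q).mv false s' = some s := by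
  constructor
  · simp only [ev, Tm.evI]
    rw [dif_pos ⟨s', G, h⟩]
    generalize_proofs h'
    obtain ⟨G', h2⟩ := h'.choose_spec
    exact congrArg some (Pair.right_unique hv h2 h)
  · simp only [ev, Tm.evI]
    rw [dif_pos ⟨s, G, h⟩]
    generalize_proofs h'
    obtain ⟨G', h2⟩ := h'.choose_spec
    exact congrArg some (Pair.left_unique hv h2 h)

theorem ev_inj (h : P.Data a E) {n p : ℕ} {e : Tm α σ κ τ} {q : κ → ℕ} {m : Bool}
    (he : P.Str a n p e q m) : Inj (P.box a) (P.ev a E e q).mv := by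
  induction e generalizing q m with
  | loc | app | guard | sum | avg | hop => exact Inj.none
  | mloc dom map =>
    intro d s hs s' e
    simp only [ev, Tm.evI, Option.ite_none_right_eq_some, Option.some.injEq] at e ⊢
    obtain ⟨e1, rfl⟩ := e
    exact he.2 d s hs e1
  | seq _ _ i1 i2 => exact (i1 he.2.1).seq (i2 he.2.2)
  | search v nl x tF tB M =>
    intro d s hs s' e
    simp only [ev, Tm.evI] at e
    obtain ⟨h2, e⟩ := Option.dite_none_right_eq_some.1 e
    obtain ⟨G, h3⟩ := h2.choose_spec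
    rw [Option.some.inj e] at h3
    cases d
    · exact ⟨h3.bx, (ev_search he.2.2.2.1 h3).1⟩
    · exact ⟨h3.bY, (ev_search he.2.2.2.1 h3).2⟩
  | cas c _ _ i1 i2 =>
    unfold Str at he
    simp only [ev, Tm.evI]
    split_ifs at he ⊢
    · exact i1 he
    · exact i2 he
  | alt p _ _ i1 i2 => exact Inj.alt (mv := IV.mv) (i1 he.1) (i2 he.2) fun d s => p d a q s
  | call t F => exact h.mv t _ he.2.1

/-- Ideal moves are injections of the box. -/
theorem ev_mv (h : P.Data a E) {n p : ℕ} {e : Tm α σ κ τ} {q : κ → ℕ} {m : Bool}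
    (he : P.Str a n p e q m) {d : Bool} {s s' : σ → ℕ} (hs : s ∈ P.box a)
    (hm : (P.ev a E e q).mv d s = some s') :
    s' ∈ P.box a ∧ (P.ev a E e q).mv (!d) s' = some s := ev_inj h he d s hs s' hm

theorem abs_sum_le_pow {n k N : ℕ} (hN : N ≤ 2 ^ n) {f : ℕ → ℝ}
    (h : ∀ u < N, |f u| ≤ 2 ^ (n * k)) : |∑ u ∈ range N, f u| ≤ 2 ^ (n * (k + 1)) := by
  refine (abs_sum_le_sum_abs _ _).trans ((sum_le_card_nsmul _ _ _ fun u hu =>
    h u (mem_range.1 hu)).trans ?_)
  rw [card_range, nsmul_eq_mul, mul_add, mul_one, pow_add, mul_comm]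
  exact mul_le_mul_of_nonneg_left (by exact_mod_cast hN) (by positivity)

theorem two_pow_mono {i j : ℕ} (h : i ≤ j) : (2 : ℝ) ^ i ≤ 2 ^ j := pow_le_pow_right₀ (by norm_num) h

theorem abs_ev_le (h : P.Data a E) {n p : ℕ} {e : Tm α σ κ τ} {q : κ → ℕ} {m : Bool}
    (he : P.Str a n p e q m) {s : σ → ℕ} (hs : s ∈ P.box a) :
    |(P.ev a E e q).val s| ≤ 2 ^ (n * e.dp) := by
  induction e generalizing q m s with
  | loc => exact (he.2 s hs).trans (two_pow_mono (by simp [Tm.dp]))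
  | app => exact ((he.2.1 s hs).1 _ _).trans (two_pow_mono (by simp [Tm.dp]))
  | guard _ _ i1 i2 =>
    simp only [ev, Tm.evI, Tm.dp, abs_mul, mul_add, pow_add]
    exact mul_le_mul (i1 he.2.1 hs) (i2 he.2.2 hs) (abs_nonneg _) (by positivity)
  | sum _ _ _ i1 => exact abs_sum_le_pow he.2.2.1 fun u hu => i1 (he.2.2.2 u hu) hs
  | avg v e i1 =>
    have h0 : (0 : ℝ) < (v.m a * v.m a : ℕ) := by
      exact_mod_cast (Nat.zero_le _).trans_lt (he.2.1.get_lt s hs)
    simp only [ev, Tm.evI, Tm.dp, View.J]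
    rw [abs_div, abs_of_pos h0, div_le_iff₀ h0]
    refine (abs_sum_le_sum_abs _ _).trans ((sum_le_card_nsmul _ _ _ fun c hc =>
      i1 he.2.2 (he.2.1.set_mem s hs c (mem_range.1 hc))).trans ?_)
    rw [card_range, nsmul_eq_mul, mul_comm]
  | hop d M e _ i2 =>
    simp only [ev, Tm.evI, Tm.dp]
    rcases h1 : (Tm.evI a (P.box a) E M q).mv d s with _ | s'
    · simp
    · exact i2 he.2.2 (ev_mv h he.2.1 hs h1).1
  | mloc | seq | search => simp [ev, Tm.evI, Tm.dp]
  | cas c _ _ i1 i2 =>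
    unfold Str at he
    simp only [ev, Tm.evI, Tm.dp]
    split_ifs at he ⊢
    · exact (i1 he hs).trans (two_pow_mono (Nat.mul_le_mul_left _ (le_max_left _ _)))
    · exact (i2 he hs).trans (two_pow_mono (Nat.mul_le_mul_left _ (le_max_right _ _)))
  | alt p _ _ i1 i2 =>
    simp only [ev, Tm.evI, Tm.dp]
    split_ifs
    · exact (i1 he.1 hs).trans (two_pow_mono (Nat.mul_le_mul_left _ (le_max_left _ _)))
    · exact (i2 he.2 hs).trans (two_pow_mono (Nat.mul_le_mul_left _ (le_max_right _ _)))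
  | call t F =>
    exact (h.bd t _ he.2.1 s hs).trans (two_pow_mono (by simpa [Tm.dp] using he.2.2.2.1))

end ideal

section approx

/-- The properties of an approximate meaning with the bound `2 ^ k`. -/
structure AOk (b : Finset (σ → ℕ)) (k : ℕ) (X : AV σ) : Prop where
  inj : Inj b X.mv
  bd : ∀ s ∈ b, |X.val s| ≤ 2 ^ k
  apx : ∀ s ∈ b, Apx (X.ap s) (X.val s)

theorem apx_zero : Apx (fun _ => 0) 0 := fun t => by simp

theorem node2_bd (n : ℕ) (Φ : ℝ → ℝ → ℝ) {c : ℕ} (hc : 1 ≤ c) : (node2 n Φ).Bd c := by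
  have h : ∀ i, (1 : ℤ) ≤ 2 ^ (c * (i + 1)) := fun i => one_le_pow₀ (by norm_num)
  refine ⟨fun i _ => ?_, fun i _ u _ => ?_, fun i _ u _ => ?_⟩
  · refine le_trans ?_ (Nat.pow_le_pow_right (by norm_num) (show 1 ≤ c * (i + 1) by nlinarith))
    simp only [node2]
    split_ifs <;> norm_num
  all_goals
    refine le_trans ?_ (h i)
    simp only [node2]
    split_ifs <;> norm_num

theorem node2_val (n : ℕ) (Φ : ℝ → ℝ → ℝ) (x y : ℝ) :
    (node2 n Φ).val 0 (fun _ u => if u = 0 then x else y) = Φ x y := by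
  have e : ∀ F : ℕ → ℕ → ℝ, ∑ i ∈ range (n + 1), ∑ u ∈ range (if i = n then 2 else 0), F i u =
      F n 0 + F n 1 := fun F => by
    rw [sum_eq_single n (fun i _ h => by simp [h]) (by simp)]
    simp [sum_range_succ]
  simp only [Node.val, Node.form, node2, e]
  simp

theorem node2_apx {n k : ℕ} {Φ : ℝ → ℝ → ℝ} {a₁ a₂ : ℕ → ℤ} {x y : ℝ} (h₁ : Apx a₁ x)
    (h₂ : Apx a₂ y) (hΦ : ∀ x y x' y' ε : ℝ, |x - x'| ≤ ε → |y - y'| ≤ ε →
      |Φ x y - Φ x' y'| ≤ 2 ^ (n * k + n + 1) * ε) :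
    Apx ((node2 n Φ).ap (Tm.sOf k) 0 fun _ u => if u = 0 then a₁ else a₂) (Φ x y) := by
  rw [← node2_val n Φ x y]
  refine Node.apx (c := k + 2 * lt + 2) (node2_bd n Φ (by omega)) hΦ (fun i _ u _ => ?_)
    fun i _ h => ?_
  · split_ifs <;> assumption
  · obtain rfl : i = n := by
      by_contra h'
      exact h (if_neg h')
    unfold Tm.sOf
    nlinarith [Nat.zero_le (lt * i), Nat.zero_le lt]

theorem nodeS_bd {n nl : ℕ} (h : nl ≤ 2 ^ n) {c : ℕ} (hc : 1 ≤ c) : (nodeS n nl).Bd c := by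
  refine ⟨fun i _ => ?_, fun i _ u _ => ?_, fun i _ u _ => ?_⟩
  · simp only [nodeS]
    split_ifs with h'
    · exact h.trans (Nat.pow_le_pow_right (by norm_num) (by nlinarith))
    · exact Nat.zero_le _
  · exact one_le_pow₀ (by norm_num)
  · exact (abs_zero.le).trans (by positivity)

theorem nodeS_val (n nl : ℕ) (f : ℕ → ℝ) :
    (nodeS n nl).val 0 (fun _ u => f u) = ∑ u ∈ range nl, f u := by
  simp only [Node.val, Node.form, nodeS]
  rw [sum_eq_single n (fun i _ h => by simp [h]) (by simp)]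
  simp

theorem nodeA_bd (n j : ℕ) (b : ℝ) {c : ℕ} (hc : 2 * lt + 1 ≤ c) : (nodeA n j b).Bd c := by
  refine ⟨fun i _ => ?_, fun i _ u hu => ?_, fun i _ u _ => ?_⟩
  · simp only [nodeA]
    split_ifs with h1 h2
    · exact Nat.zero_le _
    · exact Nat.one_le_two_pow
    · have h3 : nD ^ (i - n - 1) ≤ nD ^ (i - n) := Nat.pow_le_pow_right nD_pos (by omega)
      have h4 : 2 * nD ^ (i - n) ≤ 2 ^ (c * (i + 1)) := by
        rw [nD_eq, ← pow_mul, ← pow_succ']
        refine Nat.pow_le_pow_right (by norm_num) ?_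
        have : 2 * lt * (i - n) ≤ 2 * lt * (i + 1) := Nat.mul_le_mul_left _ (by omega)
        nlinarith
      omega
  · have key : ∀ r ≤ i + 1, |(nD : ℤ) ^ r| ≤ 2 ^ (c * (i + 1)) := fun r hr => by
      rw [abs_of_nonneg (by positivity), nD_eq]
      push_cast
      rw [← pow_mul]
      exact pow_le_pow_right₀ (by norm_num) (Nat.mul_le_mul (by omega) hr)
    simp only [nodeA] at hu ⊢
    have h1 : n ≤ i := by
      by_contra h
      rw [if_pos (by omega)] at hu
      omega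
    split_ifs with h2
    · exact key _ (by omega)
    · rw [abs_neg]
      refine key _ ?_
      by_contra h
      obtain rfl : i = n := by omega
      rw [if_neg (lt_irrefl _), if_pos rfl] at hu
      exact h2 (by rw [Nat.sub_self, pow_zero]; exact hu)
  · exact (abs_zero.le).trans (by positivity)

theorem nodeA_val (n j : ℕ) (b : ℝ) (f : ℕ → ℕ → ℝ) :
    (nodeA n j b).val (2 * lt) (fun i u => f (i - n) u) = clp b (f 0 0 + ∑ i ∈ range j,
      ((∑ w ∈ range (nD ^ (i + 1)), f (i + 1) w) / (nD ^ (i + 1) : ℕ) -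
        (∑ w ∈ range (nD ^ i), f (i + 1) (nD ^ (i + 1) + w)) / (nD ^ i : ℕ))) := by
  have h0 : (0 : ℝ) < nD := by exact_mod_cast nD_pos
  have h2 : ∀ i, (2 : ℝ) ^ (2 * lt * i) = (nD : ℝ) ^ i := fun i => by
    rw [nD_eq, pow_mul]
    simp
  simp only [Node.val, Node.form, nodeA, h2]
  congr 1
  rw [add_assoc, sum_range_add, sum_eq_zero fun i hi => by simp [mem_range.1 hi], zero_add,
    sum_range_succ', add_comm]
  congr 1
  · simp [h0.ne']
  · refine sum_congr rfl fun i _ => ?_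
    rw [if_neg (by omega), if_neg (by omega), Nat.add_sub_cancel_left, Nat.add_sub_cancel,
      sum_range_add, sum_div, sum_div, sub_eq_add_neg, ← sum_neg_distrib]
    congr 1
    · refine sum_congr rfl fun u hu => ?_
      rw [if_pos (mem_range.1 hu)]
      push_cast
      field_simp
      ring
    · refine sum_congr rfl fun u _ => ?_
      rw [if_neg (by omega)]
      push_cast
      field_simp
      ring

variable {E : τ → (κ → ℕ) → ℕ → ℕ → AV σ}

theorem evA_ok (h : ∀ t q, P.adm t a q → ∀ j y, AOk (P.box a) P.rg (E t q j y)) {n p : ℕ}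
    {e : Tm α σ κ τ} {q : κ → ℕ} {m : Bool} (he : P.Str a n p e q m) (j y : ℕ) :
    AOk (P.box a) (n * e.dp) (e.evA a E n q j y) := by
  have mono : ∀ {k k' X}, AOk (P.box a) k X → k ≤ k' → AOk (P.box a) k' X := fun h hk =>
    ⟨h.inj, fun s hs => (h.bd s hs).trans (two_pow_mono hk), h.apx⟩
  induction e generalizing q m j y with
  | loc f =>
    exact ⟨Inj.none, fun s hs => (he.2 s hs).trans (two_pow_mono (by simp [Tm.dp])),
      fun s _ => Apx.round _⟩
  | app Φ e₁ e₂ i1 i2 =>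
    refine ⟨Inj.none, fun s hs => ((he.2.1 s hs).1 _ _).trans (two_pow_mono (by simp [Tm.dp])),
      fun s hs => node2_apx ((i1 he.2.2.1 j y).apx s hs) ((i2 he.2.2.2 j y).apx s hs)
        fun x y x' y' ε h1 h2 => ((he.2.1 s hs).2 x y x' y' ε h1 h2).trans ?_⟩
    exact mul_le_mul_of_nonneg_right (two_pow_mono (by omega)) ((abs_nonneg _).trans h1)
  | guard g e i1 i2 =>
    have b1 := (i1 he.2.1 j y).bd
    have b2 := (i2 he.2.2 j y).bd
    refine ⟨Inj.none, fun s hs => ?_, fun s hs => ?_⟩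
    · simp only [Tm.evA, Tm.dp, abs_mul, mul_add, pow_add]
      exact mul_le_mul (b1 s hs) (b2 s hs) (abs_nonneg _) (by positivity)
    · have := node2_apx (n := n) (k := g.dp + e.dp)
        (Φ := fun y₁ y₂ => clp (2 ^ (n * g.dp)) y₁ * clp (2 ^ (n * e.dp)) y₂)
        ((i1 he.2.1 j y).apx s hs) ((i2 he.2.2 j y).apx s hs) fun x y x' y' ε h1 h2 => by
          have a1 := (abs_clp_sub (2 ^ (n * g.dp)) x x').trans h1
          have a2 := (abs_clp_sub (2 ^ (n * e.dp)) y y').trans h2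
          have a3 := (abs_clp_le (b := 2 ^ (n * g.dp)) (by positivity) x).trans
            (two_pow_mono (j := n * (g.dp + e.dp) + n) (by rw [mul_add]; omega))
          have a4 := (abs_clp_le (b := 2 ^ (n * e.dp)) (by positivity) y').trans
            (two_pow_mono (j := n * (g.dp + e.dp) + n) (by rw [mul_add]; omega))
          rw [show ∀ u v u' v' : ℝ, u * v - u' * v' = u * (v - v') + v' * (u - u') by
            intros; ring, pow_succ]
          refine (abs_add_le _ _).trans ?_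
          rw [abs_mul, abs_mul]
          linarith [mul_le_mul a3 a2 (abs_nonneg _) (by positivity),
            mul_le_mul a4 a1 (abs_nonneg _) (by positivity)]
      rwa [clp_eq (b1 s hs), clp_eq (b2 s hs)] at this
  | sum nl x e i1 =>
    refine ⟨Inj.none, fun s hs => abs_sum_le_pow he.2.2.1 fun u hu =>
      (i1 (he.2.2.2 u hu) j y).bd s hs, fun s hs => ?_⟩
    simp only [Tm.evA]
    rw [← nodeS_val n]
    refine Node.apx (c := e.dp + 2 * lt + 2) (L := 0) (nodeS_bd he.2.2.1 (by omega))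
      (fun x y x' y' ε h1 _ => by simpa [nodeS] using h1) (fun i _ u hu => ?_) fun i _ _ => ?_
    · refine (i1 (he.2.2.2 u ?_) j y).apx s hs
      simp only [nodeS] at hu
      split_ifs at hu <;> omega
    · unfold Tm.sOf
      nlinarith
  | avg v e i1 =>
    refine ⟨Inj.none, fun s _ => abs_clp_le (by positivity) _, fun s hs => ?_⟩
    have hv := nodeA_val n j (2 ^ (n * e.dp)) fun i u =>
      (e.evA a E n q (j - i) y).val (v.ch a q i u s)
    have c0 : v.ch a q 0 0 s = s := by rw [View.ch, if_pos (by simp), he.2.1.wk_zero _ hs]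
    have c1 : ∀ i (f : (σ → ℕ) → ℝ), ∑ w ∈ range (nD ^ (i + 1)), f (v.ch a q (i + 1) w s) =
        ∑ w ∈ range (nD ^ (i + 1)), f (v.wk a q (i + 1) w s) := fun i f =>
      sum_congr rfl fun w hw => by rw [View.ch, if_pos (mem_range.1 hw)]
    have c2 : ∀ i w, v.ch a q (i + 1) (nD ^ (i + 1) + w) s = v.wk a q i w s := fun i w => by
      rw [View.ch, if_neg (by omega), Nat.add_sub_cancel, Nat.add_sub_cancel_left]
    simp only [c0, c1, c2, Nat.sub_zero] at hv
    simp only [Tm.evA, View.H]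
    rw [← hv]
    refine Node.apx (c := e.dp + 2 * lt + 2) (L := 0) (nodeA_bd _ _ _ (by omega))
      (fun x y x' y' ε h1 _ => by simpa [nodeA] using (abs_clp_sub _ _ _).trans h1)
      (fun i _ u _ => (i1 he.2.2 _ y).apx _ (he.2.1.ch_mem _ _ hs)) fun i _ _ => ?_
    unfold Tm.sOf
    nlinarith
  | hop d M e i1 i2 =>
    refine ⟨Inj.none, fun s hs => ?_, fun s hs => ?_⟩ <;> simp only [Tm.evA, Tm.dp] <;>
      rcases h1 : (Tm.evA a E n M q j y).mv d s with _ | s'
    · simp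
    · exact (i2 he.2.2 j y).bd _ ((i1 he.2.1 j y).inj d s hs s' h1).1
    · exact apx_zero
    · exact (i2 he.2.2 j y).apx _ ((i1 he.2.1 j y).inj d s hs s' h1).1
  | mloc dom map =>
    refine ⟨fun d s hs s' e => ?_, fun s _ => by simp [Tm.evA], fun _ _ => apx_zero⟩
    simp only [Tm.evA, Option.ite_none_right_eq_some, Option.some.injEq] at e ⊢
    obtain ⟨e1, rfl⟩ := e
    exact he.2 d s hs e1
  | seq _ _ i1 i2 =>
    exact ⟨(i1 he.2.1 j y).inj.seq (i2 he.2.2 j y).inj, fun s _ => by simp [Tm.evA],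
      fun _ _ => apx_zero⟩
  | search v nl x tF tB M _ _ i3 =>
    have hv := he.2.2.2.1
    refine ⟨Inj.tower (fun j y u hu => Inj.cand (i3 (he.2.2.2.2 _ (Nat.mod_lt _ ?_)).2.2 j y).inj
      (hv.wk_mem _ _) (hv.uw_mem _ _)) (hv.wk_mem 1) (hv.uw_mem 1) j y,
      fun s _ => by simp [Tm.evA], fun _ _ => apx_zero⟩
    exact Nat.pos_of_mul_pos_left ((Nat.zero_le _).trans_lt hu)
  | cas c _ _ i1 i2 =>
    unfold Str at he
    simp only [Tm.evA, Tm.dp]
    split_ifs at he ⊢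
    · exact mono (i1 he j y) (Nat.mul_le_mul_left _ (le_max_left _ _))
    · exact mono (i2 he j y) (Nat.mul_le_mul_left _ (le_max_right _ _))
  | alt p e₁ e₂ i1 i2 =>
    have a1 := mono (i1 he.1 j y) (Nat.mul_le_mul_left n (le_max_left e₁.dp e₂.dp))
    have a2 := mono (i2 he.2 j y) (Nat.mul_le_mul_left n (le_max_right e₁.dp e₂.dp))
    refine ⟨Inj.alt (mv := AV.mv) a1.inj a2.inj fun d s => p d a q s, fun s hs => ?_,
      fun s hs => ?_⟩ <;> simp only [Tm.evA, Tm.dp] <;> split_ifs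
    exacts [a1.bd s hs, a2.bd s hs, a1.apx s hs, a2.apx s hs]
  | call t F => exact mono (h t _ he.2.1 j y) (by simpa [Tm.dp] using he.2.2.2.1)

theorem evA_rng (h : ∀ t q, P.adm t a q → ∀ j y, AOk (P.box a) P.rg (E t q j y)) {n p b : ℕ}
    {e : Tm α σ κ τ} {q : κ → ℕ} {m : Bool} (he : P.Str a n p e q m) (hr : P.Rng a e b q)
    (j y : ℕ) {s : σ → ℕ} (hs : s ∈ P.box a) : |(e.evA a E n q j y).val s| ≤ 2 ^ b := by
  induction e generalizing q m b s with
  | loc => exact hr s hs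
  | app => exact hr s hs _ _
  | guard g e i1 i2 =>
    obtain ⟨b₁, b₂, h0, h1, h2⟩ := hr
    refine le_trans ?_ (two_pow_mono h0)
    simp only [Tm.evA, abs_mul, pow_add]
    exact mul_le_mul (i1 he.2.1 h1 hs) (i2 he.2.2 h2 hs) (abs_nonneg _) (by positivity)
  | sum | avg => exact hr.elim
  | hop d M e _ i2 =>
    simp only [Tm.evA]
    rcases h1 : (Tm.evA a E n M q j y).mv d s with _ | s'
    · simp
    · exact i2 he.2.2 hr ((evA_ok h he.2.1 j y).inj d s hs s' h1).1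
  | mloc | seq | search => simp [Tm.evA]
  | cas c _ _ i1 i2 =>
    unfold Str at he
    unfold Rng at hr
    simp only [Tm.evA]
    split_ifs at he hr ⊢
    · exact i1 he hr hs
    · exact i2 he hr hs
  | alt p _ _ i1 i2 =>
    simp only [Tm.evA]
    split_ifs
    · exact i1 he.1 hr.1 hs
    · exact i2 he.2 hr.2 hs
  | call t F => exact ((h t _ he.2.1 j y).bd s hs).trans (two_pow_mono hr)

theorem apx_ok (h : P.WF a) (f : ℕ) : ∀ t q, P.adm t a q → ∀ j y,
    AOk (P.box a) P.rg (P.apx a f t q j y) := by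
  induction f with
  | zero => exact fun _ _ _ _ _ => ⟨Inj.none, fun s _ => by simp [apx], fun _ _ => apx_zero⟩
  | succ f ih =>
    intro t q hq j y
    have h1 := evA_ok ih (h t q hq).2.1 j y
    exact ⟨h1.inj, fun s hs => evA_rng ih (h t q hq).2.1 (h t q hq).2.2 j y hs, h1.apx⟩

/-- Approximate moves are injections of the box. -/
theorem evA_mv (h : P.WF a) (f : ℕ) {n p : ℕ} {e : Tm α σ κ τ} {q : κ → ℕ} {m : Bool}
    (he : P.Str a n p e q m) {j y : ℕ} {d : Bool} {s s' : σ → ℕ} (hs : s ∈ P.box a)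
    (hm : (e.evA a (P.apx a f) n q j y).mv d s = some s') :
    s' ∈ P.box a ∧ (e.evA a (P.apx a f) n q j y).mv (!d) s' = some s :=
  (evA_ok (apx_ok h f) he j y).inj d s hs s' hm

theorem abs_evA_le (h : P.WF a) (f : ℕ) {n p : ℕ} {e : Tm α σ κ τ} {q : κ → ℕ} {m : Bool}
    (he : P.Str a n p e q m) (j y : ℕ) {s : σ → ℕ} (hs : s ∈ P.box a) :
    |(e.evA a (P.apx a f) n q j y).val s| ≤ 2 ^ (n * e.dp) :=
  (evA_ok (apx_ok h f) he j y).bd s hs

/-- The digits. -/
theorem evA_apx (h : P.WF a) (f : ℕ) {n p : ℕ} {e : Tm α σ κ τ} {q : κ → ℕ} {m : Bool}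
    (he : P.Str a n p e q m) (j y : ℕ) {s : σ → ℕ} (hs : s ∈ P.box a) :
    Apx ((e.evA a (P.apx a f) n q j y).ap s) ((e.evA a (P.apx a f) n q j y).val s) :=
  (evA_ok (apx_ok h f) he j y).apx s hs

end approx

end Pg

end Vale.Agent.P313.Full
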