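import Vale.Agent.P313.Full.ErrTm

/-!
The error theorem: the approximate meaning with the budget `j` differs from the ideal meaning by
`2 ^ (C * pot - j)` in the mixed norm.
-/

namespace Vale.Agent.P313.Full

open Function Finset

variable {α σ κ τ : Type}

/-- The exponent of the loss of a term. -/
def Tm.kap : Tm α σ κ τ → ℕ
  | .loc _ => 0
  | .app _ e₁ e₂ => kap e₁ + kap e₂ + 1 + 1
  | .guard g e => kap g + e.dp + (kap e + g.dp) + 1
  | .sum _ _ e => kap e + 1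
  | .avg _ e => kap e + 3 + (0 + e.dp + 1) + 1
  | .hop _ M e => kap M + (e.dp + 1) + kap e + 1
  | .mloc _ _ => 0
  | .seq M₁ M₂ => kap M₁ + kap M₂ + 1
  | .search _ _ _ tF tB M => kap tF + kap tB + 3 + kap M + 1 + 1 + (2 * lt + 1) + 1
  | .cas _ e₁ e₂ => kap e₁ + kap e₂
  | .alt _ e₁ e₂ => kap e₁ + kap e₂ + 1
  | .call _ _ _ _ => 0

section bnd

/-- The bound for the error of a term. -/
noncomputable def bnd (n : ℕ) (X : ℝ) (k : ℕ) : ℝ := (2 ^ (n + 1)) ^ k * X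

variable {n : ℕ} {X : ℝ}

theorem one_le_base (n : ℕ) : (1 : ℝ) ≤ 2 ^ (n + 1) := one_le_pow₀ (by norm_num)

theorem bnd_nonneg (hX : 0 ≤ X) (k : ℕ) : 0 ≤ bnd n X k := by
  unfold bnd
  positivity

theorem bnd_zero : bnd n X 0 = X := by simp [bnd]

theorem bnd_mono (hX : 0 ≤ X) {k k' : ℕ} (h : k ≤ k') : bnd n X k ≤ bnd n X k' :=
  mul_le_mul_of_nonneg_right (pow_le_pow_right₀ (one_le_base n) h) hX

theorem bnd_mul (_hX : 0 ≤ X) {c : ℝ} {i : ℕ} (hc : c ≤ 2 ^ ((n + 1) * i)) {Y : ℝ} {k : ℕ}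
    (h0 : 0 ≤ Y) (hY : Y ≤ bnd n X k) : c * Y ≤ bnd n X (k + i) := by
  refine (mul_le_mul hc hY h0 (by positivity)).trans (le_of_eq ?_)
  rw [bnd, bnd, pow_mul, pow_add (2 ^ (n + 1) : ℝ) k i]
  ring

theorem bnd_add (hX : 0 ≤ X) {Y Y' : ℝ} {k k' : ℕ} (hY : Y ≤ bnd n X k) (hY' : Y' ≤ bnd n X k') :
    Y + Y' ≤ bnd n X (k + k' + 1) := by
  have h1 := bnd_mono (n := n) hX (Nat.le_add_right k k')
  have h2 := bnd_mono (n := n) hX (Nat.le_add_left k' k)
  have h3 := bnd_mul hX (c := 2) (i := 1) (le_self_pow₀ (by norm_num) (by omega))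
    (bnd_nonneg (n := n) hX (k + k')) le_rfl
  linarith

theorem pow_le_base {i k : ℕ} (h : i ≤ (n + 1) * k) : (2 : ℝ) ^ i ≤ 2 ^ ((n + 1) * k) :=
  pow_le_pow_right₀ (by norm_num) h

end bnd

namespace Pg

variable [DecidableEq κ] [Fintype σ] [DecidableEq σ] {P : Pg α σ κ τ} {a : α}
  {E : τ → (κ → ℕ) → IV σ} {dem : τ → (κ → ℕ) → Bool → Set (σ → ℕ)}

open Classical in
/-- The part of the box in `D`. -/
noncomputable def bx (P : Pg α σ κ τ) (a : α) (D : Set (σ → ℕ)) : Finset (σ → ℕ) :=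
  (P.box a).filter fun s => s ∈ D

omit [DecidableEq κ] in
theorem mem_bx {D : Set (σ → ℕ)} {s : σ → ℕ} : s ∈ P.bx a D ↔ s ∈ P.box a ∧ s ∈ D := by
  simp only [bx, mem_filter]

omit [DecidableEq κ] in
theorem bx_subset (D : Set (σ → ℕ)) : P.bx a D ⊆ P.box a := fun _ h => (mem_bx.1 h).1

omit [DecidableEq κ] in
theorem sqrt_card_le {D : Finset (σ → ℕ)} (h : D ⊆ P.box a) : √(√(#D)) ≤ √(√(#(P.box a))) :=
  Real.sqrt_le_sqrt (Real.sqrt_le_sqrt (by exact_mod_cast card_le_card h))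

theorem img_mv (hE : P.Data a E) {n p : ℕ} {M : Tm α σ κ τ} {q : κ → ℕ} {m d : Bool}
    (hM : P.Str a n p M q m) (D : Set (σ → ℕ)) : ∀ s ∈ P.bx a D, ∀ s',
    (P.ev a E M q).mv d s = some s' → s' ∈ P.bx a (P.img a (P.ev a E M q) d D) ∧
      (P.ev a E M q).mv (!d) s' = some s := fun s hs _ h =>
  ⟨mem_bx.2 ⟨(ev_mv hE hM (mem_bx.1 hs).1 h).1, s, (mem_bx.1 hs).2, (mem_bx.1 hs).1, h⟩,
    (ev_mv hE hM (mem_bx.1 hs).1 h).2⟩

theorem er_search (h : P.WF a) (hE : P.Data a E) {f n p : ℕ} {X : ℝ}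
    (hZ : √(√(#(P.box a))) ≤ X) {v : View α σ κ} {nl : α → (κ → ℕ) → ℕ} {x : κ}
    {tF tB M : Tm α σ κ τ} {q : κ → ℕ} {d : Bool} {D : Set (σ → ℕ)} {k k' : ℕ}
    (he : P.Str a n p (.search v nl x tF tB M) q true)
    (hD : ∀ s ∈ D, s ∈ P.box a → ∃ s' G, Pair (P.box a) (v.m a * v.m a) (v.get a q) (v.put a q)
      (nl a q) (fun u => P.ev a E tF (update q x u)) (fun u => P.ev a E tB (update q x u))
      (fun u => P.ev a E M (update q x u)) (if d then s else s') (if d then s' else s) G ∧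
      v.m a * v.m a ≤ 2 ^ n * #G)
    (hT : ∀ d : Bool, ∀ u < nl a q, ErN (P.box a)
      (fun j y => (if d then tF else tB).evA a (P.apx a f) n (update q x u) j y)
      (P.ev a E (if d then tF else tB) (update q x u)) (bnd n X k))
    (hM : ∀ d : Bool, ∀ u < nl a q, ErM (P.bx a
      {s | 1 / 4 < (P.ev a E (if d then tF else tB) (update q x u)).val s})
      (fun j y => M.evA a (P.apx a f) n (update q x u) j y) (P.ev a E M (update q x u)) d
      (bnd n X k')) :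
    ErM (P.bx a D) (fun j y => (Tm.search v nl x tF tB M).evA a (P.apx a f) n q j y)
      (P.ev a E (.search v nl x tF tB M) q) d (bnd n X (k + 3 + k' + 1 + 1 + (2 * lt + 1) + 1)) := by
  classical
  have hX : 0 ≤ X := (Real.sqrt_nonneg _).trans hZ
  have hL : IsLens (P.box a) (v.m a) (v.get a q) (v.put a q) := he.2.2.2.1
  set S := P.ev a E (.search v nl x tF tB M) q with hS
  let Q : (σ → ℕ) → (σ → ℕ) → Finset ℕ → Prop := fun s s' G =>
    Pair (P.box a) (v.m a * v.m a) (v.get a q) (v.put a q)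
      (nl a q) (fun u => P.ev a E tF (update q x u)) (fun u => P.ev a E tB (update q x u))
      (fun u => P.ev a E M (update q x u)) (if d then s else s') (if d then s' else s) G
  have q1 : ∀ s s' G, Q s s' G → S.mv d s = some s' := fun s s' G h => by
    have := ev_search hL h
    cases d
    exacts [this.2, this.1]
  have q2 : ∀ s s' G, Q s s' G → ∀ c < v.m a * v.m a, Q (v.put a q s c) (v.put a q s' c) G :=
    fun s s' G h c hc => by
      have := Pair.set hL h hc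
      cases d <;> exact this
  let D₀ : Set (σ → ℕ) := {s | ∃ s' G, Q s s' G ∧ v.m a * v.m a ≤ 2 ^ n * #G}
  have hW := bnd_mul hX (c := (nD ^ (n + 1) * nl a q : ℕ)) (i := 2 * lt + 1) (by
      have h1 : nD ^ (n + 1) * nl a q ≤ 2 ^ ((n + 1) * (2 * lt + 1)) := by
        rw [nD_eq, ← pow_mul, mul_add (n + 1), mul_one, pow_add, mul_comm (n + 1)]
        exact Nat.mul_le_mul_left _ (he.2.2.1.trans (Nat.pow_le_pow_right (by norm_num) (by omega)))
      exact_mod_cast h1)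
    (by positivity [bnd_nonneg (n := n) hX k, bnd_nonneg (n := n) hX k'])
    (bnd_mul hX (c := 2) (i := 1) (le_self_pow₀ (by norm_num) (by omega))
      (by positivity [bnd_nonneg (n := n) hX k, bnd_nonneg (n := n) hX k'])
      (bnd_add hX (bnd_mul hX (c := 8) (i := 3) ((by norm_num : (8 : ℝ) ≤ 2 ^ 3).trans
        (pow_le_base (by omega))) (bnd_nonneg hX k) le_rfl) (le_refl (bnd n X k'))))
  have hW2 := bnd_mul hX (c := 2) (i := 1) (le_self_pow₀ (by norm_num) (by omega))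
    (bnd_nonneg (n := n) hX (k + 3 + k' + 1 + 1 + (2 * lt + 1))) le_rfl
  intro j L hj
  refine le_trans ?_ (div_le_div_of_nonneg_right hW2 (by positivity))
  refine le_trans ?_ (er_tower hL (n := n) (d := d) (P := P.bx a D₀)
    (T := fun d u => P.ev a E (if d then tF else tB) (update q x u))
    (M := fun u => P.ev a E M (update q x u))
    (Th := fun d u j y => (if d then tF else tB).evA a (P.apx a f) n (update q x u) j y)
    (Mh := fun u j y => M.evA a (P.apx a f) n (update q x u) j y)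
    (pr := fun s => (S.mv d s).getD s) ?_ ?_ ?_ ?_ hT ?_ rfl hW ?_
    (S := fun j y s => ((Tm.search v nl x tF tB M).evA a (P.apx a f) n q j y).mv d s)
    (fun _ _ _ => rfl) j L hj)
  · refine (nrm_ind_mono fun s hs y _ h => ?_).trans (nrm_subset (fun s hs => mem_bx.2
      ⟨(mem_bx.1 hs).1, hD s (mem_bx.1 hs).2 (mem_bx.1 hs).1⟩) _ _)
    obtain ⟨s', G, h1, -⟩ := hD s (mem_bx.1 hs).2 (mem_bx.1 hs).1
    rwa [q1 s s' G h1] at h ⊢
  · intro s hs
    obtain ⟨s', G, h1, h2⟩ := (mem_bx.1 hs).2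
    refine ⟨G, ?_, h2⟩
    have h3 := Pair.toD h1
    simp only [q1 s s' G h1, Option.getD_some]
    convert h3 using 3 with d' u
    cases d' <;> rfl
  · intro s hs c hc
    obtain ⟨s', G, h1, h2⟩ := (mem_bx.1 hs).2
    refine ⟨mem_bx.2 ⟨hL.set_mem s (mem_bx.1 hs).1 c hc, _, G, q2 s s' G h1 c hc, h2⟩, ?_⟩
    simp only [q1 s s' G h1, q1 _ _ G (q2 s s' G h1 c hc), Option.getD_some]
  · intro s hs t ht e
    obtain ⟨s', G, h1, -⟩ := (mem_bx.1 hs).2
    obtain ⟨t', G', h2, -⟩ := (mem_bx.1 ht).2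
    simp only [q1 s s' G h1, q1 t t' G' h2, Option.getD_some] at e
    have h3 := (ev_mv hE he (mem_bx.1 hs).1 (q1 s s' G h1)).2
    rw [e, (ev_mv hE he (mem_bx.1 ht).1 (q1 t t' G' h2)).2] at h3
    exact (Option.some.inj h3).symm
  · intro d u hu j y s hs
    cases d
    exacts [evA_apx h f (he.2.2.2.2 u hu).2.1 j y hs, evA_apx h f (he.2.2.2.2 u hu).1 j y hs]
  · intro d u hu
    exact (hM d u hu).mono (fun s hs => mem_bx.2 (mem_filter.1 hs)) le_rfl
  · have h1 := bnd_mono (n := n) hX (Nat.zero_le (k + 3 + k' + 1 + 1 + (2 * lt + 1)))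
    rw [bnd_zero] at h1
    linarith

/-- The error of a term, if the errors of the called procedures are at most `X`. -/
theorem er_tm (h : P.WF a) (hE : P.Data a E) {f n p : ℕ} {X : ℝ} (hZ : √(√(#(P.box a))) ≤ X)
    (IH : ∀ t q, P.adm t a q → P.pot t a q + n + 1 ≤ p →
      (P.mvp t = false → ErN (P.bx a (dem t q true)) (P.apx a f t q) (E t q) X) ∧
      (P.mvp t = true → ∀ d, ErM (P.bx a (dem t q d)) (P.apx a f t q) (E t q) d X))
    (e : Tm α σ κ τ) (q : κ → ℕ) (m d : Bool) (D : Set (σ → ℕ)) (he : P.Str a n p e q m)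
    (hD : P.Dm a E dem n e q d D) :
    (m = false → d = true → ErN (P.bx a D) (fun j y => e.evA a (P.apx a f) n q j y)
      (P.ev a E e q) (bnd n X e.kap)) ∧
    (m = true → ErM (P.bx a D) (fun j y => e.evA a (P.apx a f) n q j y) (P.ev a E e q) d
      (bnd n X e.kap)) := by
  have hX : 0 ≤ X := (Real.sqrt_nonneg _).trans hZ
  have b0 := bnd_nonneg (n := n) hX
  have ft : ∀ {m : Bool} {Q : Prop}, m = false → m = true → Q := fun h1 h2 => by simp [h1] at h2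
  have two : (2 : ℝ) ≤ 2 ^ ((n + 1) * 1) := le_self_pow₀ (by norm_num) (by omega)
  induction e generalizing q m d D with
  | loc g => exact ⟨fun _ _ => ErN.zero (b0 _) fun _ _ _ _ => rfl, ft he.1⟩
  | app Φ e₁ e₂ i1 i2 =>
    refine ⟨fun _ _ => ?_, ft he.1⟩
    exact (ErN.app (c := 2 ^ n) (by positivity) ((i1 q _ _ D he.2.2.1 hD.1).1 rfl rfl)
      ((i2 q _ _ D he.2.2.2 hD.2).1 rfl rfl) (Φ a q)
      (fun s hs => (he.2.1 s (bx_subset D hs)).2) (fun _ _ _ => rfl) fun _ => rfl).mono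
      Subset.rfl (bnd_mul hX (pow_le_base (by omega)) (add_nonneg (b0 _) (b0 _))
        (bnd_add hX le_rfl le_rfl))
  | guard g e i1 i2 =>
    refine ⟨fun _ _ => ?_, ft he.1⟩
    exact (ErN.guard (c₁ := 2 ^ (n * g.dp)) (c₂ := 2 ^ (n * e.dp)) (by positivity) (by positivity)
      ((i1 q _ _ D he.2.1 hD.1).1 rfl rfl) ((i2 q _ _ _ he.2.2 hD.2).1 rfl rfl)
      (fun s hs h0 => mem_bx.2 ⟨(mem_bx.1 hs).1, (mem_bx.1 hs).2, h0⟩)
      (fun s hs => abs_ev_le hE he.2.1 (bx_subset D hs))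
      (fun j y s hs => abs_evA_le h f he.2.2 j y (bx_subset D hs))
      (fun _ _ _ => rfl) fun _ => rfl).mono Subset.rfl (bnd_add hX
        (bnd_mul hX (pow_le_base (Nat.mul_le_mul_right _ (Nat.le_succ n))) (b0 _) le_rfl)
        (bnd_mul hX (pow_le_base (Nat.mul_le_mul_right _ (Nat.le_succ n))) (b0 _) le_rfl))
  | sum nl x e i1 =>
    refine ⟨fun _ _ => ?_, ft he.1⟩
    refine (ErN.sum (fun u hu => (i1 _ _ _ D (he.2.2.2 u hu) (hD u hu)).1 rfl rfl)
      (fun _ _ _ => rfl) fun _ => rfl).mono Subset.rfl (bnd_mul hX ?_ (b0 _) le_rfl)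
    exact le_trans (by exact_mod_cast he.2.2.1) (pow_le_base (i := n) (by omega))
  | avg v e i1 =>
    refine ⟨fun _ _ => ?_, ft he.1⟩
    have hL : IsLens (P.box a) (v.m a) (v.get a q) (v.put a q) := he.2.1
    have hL' : IsLens (P.bx a
        {s' | ∃ s ∈ D, s ∈ P.box a ∧ ∃ c < v.m a * v.m a, s' = v.put a q s c}) (v.m a)
        (v.get a q) (v.put a q) := by
      refine hL.restrict (bx_subset _) fun s hs c hc => ?_
      obtain ⟨h1, s0, h2, h3, c0, h4, rfl⟩ := mem_bx.1 hs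
      exact mem_bx.2 ⟨hL.set_mem _ h1 c hc, s0, h2, h3, c, hc, hL.set_set s0 h3 c0 h4 c hc⟩
    refine (ErN.avg hL' (c := 2 ^ (n * e.dp)) (by positivity)
      ((i1 q _ _ _ he.2.2 hD).1 rfl rfl) (fun s hs => abs_ev_le hE he.2.2 (bx_subset _ hs))
      (fun s hs => abs_ev_le hE he (bx_subset _ hs)) ((sqrt_card_le (bx_subset _)).trans hZ)
      (fun j y s => ?_) fun _ => rfl).mono (fun s hs => ?_) (bnd_add hX
        (bnd_mul hX (le_trans (by norm_num) (pow_le_base (i := 3) (by omega))) (b0 _) le_rfl)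
        (bnd_mul hX two (by positivity) (bnd_mul hX
          (pow_le_base (Nat.mul_le_mul_right _ (Nat.le_succ n))) hX bnd_zero.ge)))
    · simp only [Tm.evA, View.H, View.wk, Mix.H, nD_pow, Nat.cast_pow, Nat.cast_ofNat]
    · obtain ⟨h1, h2⟩ := mem_bx.1 hs
      exact mem_bx.2 ⟨h1, s, h2, h1, _, hL.get_lt s h1, (hL.set_get s h1).symm⟩
  | hop d' M e i1 i2 =>
    refine ⟨fun _ _ => ?_, ft he.1⟩
    refine (ErN.hop (c := 2 ^ (n * e.dp)) (by positivity) ((i1 q _ _ D he.2.1 hD.1).2 rfl)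
      ((i2 q _ _ _ he.2.2 hD.2).1 rfl rfl) (img_mv hE he.2.1 D)
      (fun j y s hs => abs_evA_le h f he j y (bx_subset D hs))
      (fun s hs => abs_ev_le hE he (bx_subset D hs)) (fun _ _ _ => rfl) fun _ => rfl).mono
      Subset.rfl (bnd_add hX (bnd_mul hX ?_ (b0 _) le_rfl) le_rfl)
    rw [← pow_succ']
    exact pow_le_base (by nlinarith)
  | mloc dom map => exact ⟨fun h' => ft h' he.1, fun _ => ErM.zero (b0 _) fun _ _ _ _ => rfl⟩
  | seq M₁ M₂ i1 i2 =>
    refine ⟨fun h' => ft h' he.1, fun _ => ?_⟩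
    cases d
    · exact (ErM.seq ((i2 q _ _ D he.2.2 hD.1).2 rfl) ((i1 q _ _ _ he.2.1 hD.2).2 rfl)
        (img_mv hE he.2.2 D) (fun _ _ _ => rfl) fun _ => rfl).mono Subset.rfl
        ((add_comm _ _).trans_le (bnd_add hX le_rfl le_rfl))
    · exact (ErM.seq ((i1 q _ _ D he.2.1 hD.1).2 rfl) ((i2 q _ _ _ he.2.2 hD.2).2 rfl)
        (img_mv hE he.2.1 D) (fun _ _ _ => rfl) fun _ => rfl).mono Subset.rfl
        (bnd_add hX le_rfl le_rfl)
  | search v nl x tF tB M i1 i2 i3 =>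
    refine ⟨fun h' => ft h' he.1, fun hm => ?_⟩
    subst hm
    refine er_search h hE hZ he hD.1 (fun d u hu => ?_) fun d u hu => ?_
    · cases d
      · exact ((i2 _ _ _ _ (he.2.2.2.2 u hu).2.1 (hD.2 u hu).2.1).1 rfl rfl).mono
          (fun s hs => mem_bx.2 ⟨hs, trivial⟩) (bnd_mono hX (Nat.le_add_left _ _))
      · exact ((i1 _ _ _ _ (he.2.2.2.2 u hu).1 (hD.2 u hu).1).1 rfl rfl).mono
          (fun s hs => mem_bx.2 ⟨hs, trivial⟩) (bnd_mono hX (Nat.le_add_right _ _))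
    · cases d
      · exact (i3 _ _ _ _ (he.2.2.2.2 u hu).2.2 (hD.2 u hu).2.2.2).2 rfl
      · exact (i3 _ _ _ _ (he.2.2.2.2 u hu).2.2 (hD.2 u hu).2.2.1).2 rfl
  | cas c e₁ e₂ i1 i2 =>
    simp only [Str, Dm] at he hD
    simp only [ev, Tm.evI, Tm.evA, Tm.kap]
    split_ifs at he hD ⊢
    · have := i1 q m d D he hD
      exact ⟨fun h1 h2 => (this.1 h1 h2).mono Subset.rfl (bnd_mono hX (Nat.le_add_right _ _)),
        fun h1 => (this.2 h1).mono Subset.rfl (bnd_mono hX (Nat.le_add_right _ _))⟩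
    · have := i2 q m d D he hD
      exact ⟨fun h1 h2 => (this.1 h1 h2).mono Subset.rfl (bnd_mono hX (Nat.le_add_left _ _)),
        fun h1 => (this.2 h1).mono Subset.rfl (bnd_mono hX (Nat.le_add_left _ _))⟩
  | alt c e₁ e₂ i1 i2 =>
    have h1 := i1 q m d _ he.1 hD.1
    have h2 := i2 q m d _ he.2 hD.2
    refine ⟨fun hm hd => ?_, fun hm => ?_⟩
    · subst hd
      exact (ErN.alt (h1.1 hm rfl) (h2.1 hm rfl) (c true a q)
        (fun s hs hp => mem_bx.2 ⟨(mem_bx.1 hs).1, (mem_bx.1 hs).2, hp⟩)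
        (fun s hs hp => mem_bx.2 ⟨(mem_bx.1 hs).1, (mem_bx.1 hs).2, hp⟩)
        (fun _ _ _ => rfl) fun _ => rfl).mono Subset.rfl (bnd_add hX le_rfl le_rfl)
    · exact (ErM.alt (h1.2 hm) (h2.2 hm) (c d a q)
        (fun s hs hp => mem_bx.2 ⟨(mem_bx.1 hs).1, (mem_bx.1 hs).2, hp⟩)
        (fun s hs hp => mem_bx.2 ⟨(mem_bx.1 hs).1, (mem_bx.1 hs).2, hp⟩)
        (fun s s' => decide (c (!d) a q s' = c d a q s))
        (fun _ _ _ => rfl) fun _ => rfl).mono Subset.rfl (bnd_add hX le_rfl le_rfl)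
  | call t F sv rs =>
    obtain ⟨h1, h2, -, -, b, -, h3⟩ := he
    have h4 := IH t _ h2 (by omega)
    have h5 : P.bx a D ⊆ P.bx a (dem t (F a q) d) := fun s hs =>
      mem_bx.2 ⟨(mem_bx.1 hs).1, hD s (mem_bx.1 hs).2 (mem_bx.1 hs).1⟩
    refine ⟨fun hm hd => ?_, fun hm => (h4.2 (h1 ▸ hm) d).mono h5 bnd_zero.ge⟩
    subst hd
    exact (h4.1 (h1 ▸ hm)).mono h5 bnd_zero.ge

theorem er_apx (h : P.WF a) (hI : P.Ideal a E dem) {C : ℕ} (hC : ∀ t, (P.body t).kap ≤ C) (f : ℕ)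
    (t : τ) (q : κ → ℕ) (hq : P.adm t a q) (hf : P.pot t a q < f) :
    (P.mvp t = false → ErN (P.bx a (dem t q true)) (P.apx a f t q) (E t q)
      (2 ^ (C * P.pot t a q) * √(√(#(P.box a))))) ∧
    (P.mvp t = true → ∀ d, ErM (P.bx a (dem t q d)) (P.apx a f t q) (E t q) d
      (2 ^ (C * P.pot t a q) * √(√(#(P.box a))))) := by
  induction f generalizing t q with
  | zero => exact absurd hf (Nat.not_lt_zero _)
  | succ f ih =>
    obtain ⟨h1, h2, -⟩ := h t q hq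
    obtain ⟨r, hr⟩ : ∃ r, P.pot t a q = P.sz t a q + 1 + r := Nat.exists_eq_add_of_le h1
    have z0 : 0 ≤ √(√(#(P.box a) : ℝ)) := Real.sqrt_nonneg _
    have hZ : √(√(#(P.box a))) ≤ 2 ^ (C * r) * √(√(#(P.box a))) :=
      le_mul_of_one_le_left z0 (one_le_pow₀ (by norm_num))
    have key := fun d D hD => er_tm (dem := dem) h hI.toData (f := f) hZ (fun t' q' h3 h4 => by
      have h5 := ih t' q' h3 (by omega)
      have h6 : 2 ^ (C * P.pot t' a q') * √(√(#(P.box a) : ℝ)) ≤ 2 ^ (C * r) * √(√(#(P.box a))) :=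
        mul_le_mul_of_nonneg_right (two_pow_mono (Nat.mul_le_mul_left C (by omega))) z0
      exact ⟨fun hm => (h5.1 hm).mono Subset.rfl h6,
        fun hm d => (h5.2 hm d).mono Subset.rfl h6⟩) (P.body t) q _ d D h2 hD
    have hb : bnd (P.sz t a q) (2 ^ (C * r) * √(√(#(P.box a)))) (P.body t).kap ≤
        2 ^ (C * P.pot t a q) * √(√(#(P.box a))) := by
      refine (bnd_mono (by positivity) (hC t)).trans (le_of_eq ?_)
      rw [bnd, ← pow_mul, ← mul_assoc, ← pow_add, hr]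
      congr 2
      ring
    refine ⟨fun hm j L hj => ?_, fun hm d j L hj => ?_⟩
    · obtain ⟨h3, h4⟩ := hI.num t q hq hm
      refine le_trans (le_of_eq (nrm_congr fun s hs y _ => ?_))
        (((key true _ h3).1 hm rfl).mono Subset.rfl hb j L hj)
      rw [h4 s (mem_bx.1 hs).2 (mem_bx.1 hs).1]
      rfl
    · obtain ⟨h3, h4⟩ := hI.mov t q hq hm d
      refine le_trans (nrm_ind_mono fun s hs y _ h' => ?_)
        (((key d _ h3).2 hm).mono Subset.rfl hb j L hj)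
      rw [h4 s (mem_bx.1 hs).2 (mem_bx.1 hs).1]
      exact h'

omit [DecidableEq κ] in
theorem n4_le {L : ℕ} {D : Set (σ → ℕ)} {g : (σ → ℕ) → ℕ → ℝ} {X : ℝ} {j : ℕ}
    (h : nrm (P.bx a D) (range (nD ^ L)) g ≤ X * √(√(#(P.box a))) / 2 ^ j) :
    P.n4 a L D g ≤ (X / 2 ^ j) ^ 4 := by
  have h1 := pow_le_pow_left₀ (nrm_nonneg _ _ _) h 4
  rw [nrm_pow_four, mul_div_right_comm, mul_pow, show 4 = 2 * 2 from rfl,
    pow_mul (√(√(#(P.box a) : ℝ))), Real.sq_sqrt (Real.sqrt_nonneg _),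
    Real.sq_sqrt (Nat.cast_nonneg _)] at h1
  simp only [ms, card_range] at h1
  exact div_le_of_le_mul₀ (Nat.cast_nonneg _) (by positivity) h1

open Classical in
/-- **The error theorem.** -/
theorem err_thm [Finite τ] (P : Pg α σ κ τ) : ∃ C : ℕ, ∀ (a : α) (E : τ → (κ → ℕ) → IV σ)
    (dem : τ → (κ → ℕ) → Bool → Set (σ → ℕ)), P.WF a → P.Ideal a E dem →
    ∀ (f : ℕ) (t : τ) (q : κ → ℕ), P.adm t a q → P.pot t a q < f → ∀ j L : ℕ, j ≤ L →
      (P.mvp t = false → P.n4 a L (dem t q true)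
        (fun s y => (P.apx a f t q j y).val s - (E t q).val s) ≤
          (2 ^ (C * P.pot t a q) / 2 ^ j) ^ 4) ∧
      (P.mvp t = true → ∀ d, P.n4 a L (dem t q d)
        (fun s y => if (P.apx a f t q j y).mv d s = (E t q).mv d s then 0 else 1) ≤
          (2 ^ (C * P.pot t a q) / 2 ^ j) ^ 4) := by
  obtain ⟨C, hC⟩ := (Set.finite_range fun t => (P.body t).kap).bddAbove
  refine ⟨C, fun a E dem h hI f t q hq hf j L hj => ?_⟩
  have key := er_apx h hI (fun t => hC ⟨t, rfl⟩) f t q hq hf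
  refine ⟨fun hm => n4_le (key.1 hm j L hj), fun hm d => n4_le (le_trans (le_of_eq
    (nrm_congr fun s _ y _ => ?_)) (key.2 hm d j L hj))⟩
  by_cases h0 : (P.apx a f t q j y).mv d s = (E t q).mv d s
  · rw [if_pos h0, ind_neg (not_not.2 h0)]
  · rw [if_neg h0, ind_pos (E := fun s y => (P.apx a f t q j y).mv d s ≠ (E t q).mv d s) h0]

end Pg

end Vale.Agent.P313.Full
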