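import Vale.Agent.P313.Full.DslMain0
import Vale.Agent.P313.Full.DslErr

/-! The average of an ideal number over the box is computable up to a small error on the good
arguments, given the computability of the approximations. -/

namespace Vale.Agent.P313.Full

open Function Finset Vale.Agent.Lib.Space

variable {α σ κ τ : Type} [Fintype σ] [DecidableEq σ] {A : Type} [Enc A α] {B : Bud A}
  [DecidableEq κ] [Fintype κ] [Finite τ]

omit [Fintype κ] [Finite τ] in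
theorem Pg.apx_apx {P : Pg α σ κ τ} {a : α} (h : P.WF a) (f : ℕ) {t : τ} {q : κ → ℕ}
    (ht : P.adm t a q) (j y : ℕ) {s : σ → ℕ} (hs : s ∈ P.box a) :
    Apx ((P.apx a f t q j y).ap s) ((P.apx a f t q j y).val s) := by
  cases f with
  | zero =>
    intro T
    simp [Pg.apx]
  | succ f => exact Pg.evA_apx h f (h t q ht).2.1 j y hs

open Classical in
theorem Pg.dsl_main_good_of (P : Pg α σ κ τ) (t₀ : τ) {q₀ : α → κ → ℕ} {V : α → ℕ}
    (hsp : ∀ {p₀ j₀ T₀ : α → ℕ}, SP B p₀ → SP B j₀ → SP B T₀ → (PBd B fun a => 2 ^ p₀ a) →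
      (PBd B fun a => 2 ^ j₀ a) → (PBd B fun a => 2 ^ T₀ a) →
      (∀ (x : List A) (a : α), Enc.ok x a → P.WF a ∧ P.adm t₀ a (q₀ a) ∧
        P.pot t₀ a (q₀ a) ≤ p₀ a ∧ ∀ t q, P.adm t a q → ∀ x, q x ≤ V a) →
      ∃ r : α × (σ → ℕ) × ℕ → ℤ, ZSP B r ∧ ∀ (x : List A) (a : α), Enc.ok x a → ∀ s ∈ P.box a,
        ∀ y < nD ^ j₀ a, r (a, s, y) = (P.apx a (p₀ a + 1) t₀ (q₀ a) (j₀ a) y).ap s (T₀ a))
    (hP : P.IsSP B) (hm : P.mvp t₀ = false) {p₀ T : α → ℕ} (hp : SP B p₀) (hT : SP B T)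
    (hp' : PBd B fun a => 2 ^ p₀ a) (hT' : PBd B fun a => 2 ^ T a) (Good : α → Prop)
    (E : α → τ → (κ → ℕ) → IV σ) (dem : α → τ → (κ → ℕ) → Bool → Set (σ → ℕ))
    (h : ∀ (x : List A) (a : α), Enc.ok x a → P.WF a ∧ P.adm t₀ a (q₀ a) ∧
      P.pot t₀ a (q₀ a) ≤ p₀ a ∧ (∀ t q, P.adm t a q → ∀ x, q x ≤ V a) ∧ ∀ r, 0 < P.bd a r)
    (hG : ∀ (x : List A) (a : α), Enc.ok x a → Good a → P.Ideal a (E a) (dem a) ∧
      ∀ s ∈ P.box a, s ∈ dem a t₀ (q₀ a) true) :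
    ∃ r : α → ℝ, RSP B r ∧ ∀ (x : List A) (a : α), Enc.ok x a → Good a →
      |r a - (∑ s ∈ P.box a, (E a t₀ (q₀ a)).val s) / #(P.box a)| ≤ 1 / 2 ^ T a := by
  obtain ⟨C, hC⟩ := P.err_thm
  have hT1 : SP B fun a => T a + 1 := hT.add (SP.const 1)
  have hT2 : PBd B fun a => 2 ^ (T a + 1) := (hT'.mul (PBd.const 2)).mono fun a => (pow_succ _ _).le
  have hj : SP B fun a => C * p₀ a + (T a + 1) := ((SP.const C).mul hp).add hT1
  have hj' : PBd B fun a => 2 ^ (C * p₀ a + (T a + 1)) :=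
    ((hp'.pow C).mul hT2).mono fun a => by rw [pow_add, pow_mul']
  obtain ⟨r, hr, hr'⟩ := hsp hp hj hT1 hp' hj' hT2 fun x a ha =>
    let ⟨h1, h3, h4, h5, _⟩ := h x a ha
    ⟨h1, h3, h4, h5⟩
  have hN : SP B fun a => nD ^ (C * p₀ a + (T a + 1)) := DM0.sp_pow DM0.nD_pos hj
    ((hj'.pow (2 * lt)).mono fun a => by
      rw [nD, ← pow_mul, ← pow_mul, show 4 = 2 ^ 2 from rfl, ← pow_mul]
      exact le_of_eq (by congr 1; ring))
  have hc : SP B fun a => #(P.box a) :=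
    (DM0.sp_sum_box hP.bd (f := fun _ _ => 1) (SP.const 1)).congr fun a =>
      (card_eq_sum_ones _).symm
  refine ⟨_, (RSP.intCast (DM0.zsp_sum hP.bd hN hr)).div
    (RSP.natCast (((DM0.sp_pow two_pos hT1 hT2).mul hc).mul hN)), fun x a ha hg => ?_⟩
  obtain ⟨h1, h3, h4, -, h6⟩ := h x a ha
  obtain ⟨h2, h7⟩ := hG x a ha hg
  refine DM0.est (b := P.box a)
    (Fintype.piFinset_nonempty.2 fun i => nonempty_range_iff.2 (h6 i).ne')
    (pow_pos DM0.nD_pos _) (T a) (fun s y => r (a, s, y))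
    (fun s y => (P.apx a (p₀ a + 1) t₀ (q₀ a) (C * p₀ a + (T a + 1)) y).val s) _
    (fun s hs y hy => ?_) ?_
  · rw [hr' x a ha s hs y hy]
    exact Pg.apx_apx h1 _ h3 _ _ hs _
  · have h8 := (hC a _ _ h1 h2 (p₀ a + 1) t₀ _ h3 (Nat.lt_succ_of_le h4) _ _
      (le_refl (C * p₀ a + (T a + 1)))).1 hm
    rw [Pg.n4, filter_true_of_mem h7] at h8
    refine h8.trans (pow_le_pow_left₀ (by positivity) ?_ 4)
    rw [div_le_div_iff₀ (by positivity) (by positivity), one_mul, ← pow_add]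
    exact pow_le_pow_right₀ one_le_two (Nat.add_le_add_right (Nat.mul_le_mul_left C h4) _)

end Vale.Agent.P313.Full
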