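import Vale.Agent.P313.Full.Dsl
import Mathlib.Algebra.Order.Chebyshev

/-! The average of an ideal number over the box is computable up to a small error, given the error
bound and the computability of the approximations. -/

namespace Vale.Agent.P313.Full

open Function Finset Vale.Agent.Lib.Space

variable {α σ κ τ : Type} [Fintype σ] [DecidableEq σ] {A : Type} [Enc A α] {B : Bud A}

namespace DM0

theorem sp_pow {b : ℕ} (hb : 0 < b) {i : α → ℕ} (hi : SP B i) (h : PBd B fun a => b ^ i a) :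
    SP B fun a => b ^ i a := by
  have key : ∀ k : ℕ, (fun s => s * b)^[k] 1 = b ^ k := by
    intro k
    induction k with
    | zero => simp
    | succ k ih => rw [iterate_succ_apply', ih, pow_succ]
  refine (SP.iterate (step := fun _ s => s * b) hi (SP.const 1) (SP.snd'.mul (SP.const b)) h
    fun x a _ k hk => ?_).congr fun a => key _
  rw [key]
  exact Nat.pow_le_pow_right hb hk

/-- Sums over a box. -/
theorem sp_sum_box {bd : α → σ → ℕ} (hb : SP B bd) {f : α → (σ → ℕ) → ℕ}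
    (hf : SP B fun z : α × (σ → ℕ) => f z.1 z.2) :
    SP B fun a => ∑ s ∈ Fintype.piFinset fun r => range (bd a r), f a s := by
  obtain ⟨c, hc⟩ := enc_vec_le (A := A) (ι := σ)
  have hd : SP B fun z : α × ℕ => (decV z.2 : σ → ℕ) := sp_decV SP.snd'
  refine (SP.sum_range (n := fun a => (∑ r, bd a r + 2) ^ c + 1)
    (f := fun a n => if Enc.enc A (decV n : σ → ℕ) = n ∧ ∑ r, ((decV n : σ → ℕ) r + 1 - bd a r) = 0
      then f a (decV n) else 0)
    ((((SP.finset_sum univ fun r => sp_app hb r).add (SP.const 2)).pow_const c).add (SP.const 1))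
    (SP.ite (((sp_enc.comp hd).decide_eq SP.snd').decide_and
      ((SP.finset_sum univ fun r => ((sp_app hd r).add (SP.const 1)).sub
        (sp_app (hb.comp SP.fst') r)).decide_eq (SP.const 0)))
      (hf.comp (SP.fst'.pair hd)) (SP.const 0))).congr fun a => ?_
  rw [← sum_filter]
  have e : ∀ s : σ → ℕ, ∑ r, (s r + 1 - bd a r) = 0 ↔ ∀ r, s r < bd a r := fun s => by
    rw [sum_eq_zero_iff]
    exact forall_congr' fun r => by simp only [mem_univ, true_imp_iff]; omega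
  refine sum_nbij' decV (Enc.enc A) (fun n hn => ?_) (fun s hs => ?_) (fun n hn => ?_)
    (fun s _ => decV_enc s) fun _ _ => rfl
  · simpa [Fintype.mem_piFinset] using (e _).1 (mem_filter.1 hn).2.2
  · have hs' : ∀ r, s r < bd a r := by simpa [Fintype.mem_piFinset] using hs
    rw [mem_filter, decV_enc, mem_range, Nat.lt_succ_iff]
    exact ⟨hc s _ fun r => (hs' r).le.trans
      (single_le_sum (f := bd a) (fun _ _ => Nat.zero_le _) (mem_univ r)), rfl, (e s).2 hs'⟩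
  · exact (mem_filter.1 hn).2.1

theorem zsp_sum {bd : α → σ → ℕ} (hb : SP B bd) {N : α → ℕ} (hN : SP B N)
    {r : α × (σ → ℕ) × ℕ → ℤ} (hr : ZSP B r) : ZSP B fun a =>
      ∑ s ∈ Fintype.piFinset fun r => range (bd a r), ∑ y ∈ range (N a), r (a, s, y) := by
  obtain ⟨p, n, hp, hn, e⟩ := hr
  have key : ∀ {g : α × (σ → ℕ) × ℕ → ℕ}, SP B g → SP B fun a =>
      ∑ s ∈ Fintype.piFinset fun r => range (bd a r), ∑ y ∈ range (N a), g (a, s, y) :=
    fun {g} hg => sp_sum_box hb (f := fun a s => ∑ y ∈ range (N a), g (a, s, y))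
      (SP.sum_range (f := fun (z : α × (σ → ℕ)) y => g (z.1, z.2, y)) (hN.comp SP.fst')
        (hg.comp (SP.fst'.fst.pair (SP.fst'.snd.pair SP.snd'))))
  refine ⟨_, _, key hp, key hn, fun x a ha => ?_⟩
  push_cast
  rw [← sum_sub_distrib]
  refine sum_congr rfl fun s _ => ?_
  rw [← sum_sub_distrib]
  exact sum_congr rfl fun y _ => e x (a, s, y) ⟨ha, trivial, trivial⟩

/-- The mean is bounded by the mixed norm. -/
theorem abs_avg_le {β : Type} (b : Finset β) (N : ℕ) (g : β → ℕ → ℝ) {ε : ℝ} (hε : 0 ≤ ε)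
    (h : (∑ s ∈ b, ((∑ y ∈ range N, g s y ^ 2) / N) ^ 2) / #b ≤ ε ^ 4) :
    |(∑ s ∈ b, (∑ y ∈ range N, g s y) / N) / #b| ≤ ε := by
  have h1 := sum_div_card_sq_le_sum_sq_div_card (s := b) (f := fun s => (∑ y ∈ range N, g s y) / N)
  have h2 : (∑ s ∈ b, ((∑ y ∈ range N, g s y) / N) ^ 2) / #b ≤
      (∑ s ∈ b, (∑ y ∈ range N, g s y ^ 2) / N) / #b := by
    refine div_le_div_of_nonneg_right (sum_le_sum fun s _ => ?_) (Nat.cast_nonneg _)
    simpa using sum_div_card_sq_le_sum_sq_div_card (s := range N) (f := g s)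
  have h3 := (sum_div_card_sq_le_sum_sq_div_card (s := b)
    (f := fun s => (∑ y ∈ range N, g s y ^ 2) / N)).trans h
  rw [show ε ^ 4 = (ε ^ 2) ^ 2 by ring] at h3
  exact abs_le_of_sq_le_sq ((h1.trans h2).trans (le_of_sq_le_sq' h3)) hε
where
  le_of_sq_le_sq' {x y : ℝ} (h : x ^ 2 ≤ (y ^ 2) ^ 2) : x ≤ y ^ 2 :=
    (le_abs_self x).trans (abs_le_of_sq_le_sq h (sq_nonneg y))

theorem nD_pos : 0 < nD := pow_pos (by norm_num) _

theorem est {β : Type} {b : Finset β} (hb : b.Nonempty) {N : ℕ} (hN : 0 < N) (T : ℕ)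
    (ap : β → ℕ → ℤ) (v : β → ℕ → ℝ) (w : β → ℝ)
    (h1 : ∀ s ∈ b, ∀ y < N, |(ap s y : ℝ) - 2 ^ (T + 1) * v s y| ≤ 1)
    (h2 : (∑ s ∈ b, ((∑ y ∈ range N, (v s y - w s) ^ 2) / N) ^ 2) / #b ≤ (1 / 2 ^ (T + 1)) ^ 4) :
    |((∑ s ∈ b, ∑ y ∈ range N, ap s y : ℤ) : ℝ) / (2 ^ (T + 1) * #b * N : ℕ) -
      (∑ s ∈ b, w s) / #b| ≤ 1 / 2 ^ T := by
  have hb' : (0 : ℝ) < #b := Nat.cast_pos.2 hb.card_pos
  have hN' : (0 : ℝ) < N := Nat.cast_pos.2 hN
  have h3 := abs_avg_le b N (fun s y => v s y - w s) (by positivity) h2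
  have h4 : |∑ s ∈ b, ∑ y ∈ range N, ((ap s y : ℝ) - 2 ^ (T + 1) * v s y)| ≤ #b * N := by
    refine (abs_sum_le_sum_abs _ _).trans ?_
    rw [← nsmul_eq_mul]
    refine sum_le_card_nsmul _ _ _ fun s hs => (abs_sum_le_sum_abs _ _).trans ?_
    simpa using sum_le_card_nsmul (range N) _ 1 fun y hy => h1 s hs y (mem_range.1 hy)
  have e : ((∑ s ∈ b, ∑ y ∈ range N, ap s y : ℤ) : ℝ) / (2 ^ (T + 1) * #b * N : ℕ) -
      (∑ s ∈ b, w s) / #b =
      (∑ s ∈ b, ∑ y ∈ range N, ((ap s y : ℝ) - 2 ^ (T + 1) * v s y)) / (2 ^ (T + 1) * #b * N) +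
        (∑ s ∈ b, (∑ y ∈ range N, (v s y - w s)) / N) / #b := by
    simp only [sum_sub_distrib, ← mul_sum, ← sum_div, sum_const, card_range, nsmul_eq_mul]
    push_cast
    field_simp
    ring
  rw [e]
  refine (abs_add_le _ _).trans ((add_le_add ?_ h3).trans (le_of_eq (by ring :
    (1 : ℝ) / 2 ^ (T + 1) + 1 / 2 ^ (T + 1) = 1 / 2 ^ T)))
  rw [abs_div, abs_of_pos (by positivity : (0 : ℝ) < 2 ^ (T + 1) * #b * N),
    div_le_div_iff₀ (by positivity) (by positivity)]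
  calc _ ≤ #b * N * (2 : ℝ) ^ (T + 1) := mul_le_mul_of_nonneg_right h4 (by positivity)
    _ = _ := by ring

end DM0

open DM0

variable [DecidableEq κ] [Fintype κ]

open Classical in
theorem Pg.dsl_main_of (P : Pg α σ κ τ) (t₀ : τ) {q₀ : α → κ → ℕ} {V : α → ℕ}
    (herr : ∃ C : ℕ, ∀ (a : α) (E : τ → (κ → ℕ) → IV σ)
      (dem : τ → (κ → ℕ) → Bool → Set (σ → ℕ)), P.WF a → P.Ideal a E dem →
      ∀ (f : ℕ) (t : τ) (q : κ → ℕ), P.adm t a q → P.pot t a q < f → ∀ j L : ℕ, j ≤ L →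
        (P.mvp t = false → P.n4 a L (dem t q true)
          (fun s y => (P.apx a f t q j y).val s - (E t q).val s) ≤
            (2 ^ (C * P.pot t a q) / 2 ^ j) ^ 4) ∧
        (P.mvp t = true → ∀ d, P.n4 a L (dem t q d)
          (fun s y => if (P.apx a f t q j y).mv d s = (E t q).mv d s then 0 else 1) ≤
            (2 ^ (C * P.pot t a q) / 2 ^ j) ^ 4))
    (hsp : ∀ {p₀ j₀ T₀ : α → ℕ}, SP B p₀ → SP B j₀ → SP B T₀ → (PBd B fun a => 2 ^ p₀ a) →
      (PBd B fun a => 2 ^ j₀ a) → (PBd B fun a => 2 ^ T₀ a) →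
      (∀ (x : List A) (a : α), Enc.ok x a → P.WF a ∧ P.adm t₀ a (q₀ a) ∧
        P.pot t₀ a (q₀ a) ≤ p₀ a ∧ ∀ t q, P.adm t a q → ∀ x, q x ≤ V a) →
      ∃ r : α × (σ → ℕ) × ℕ → ℤ, ZSP B r ∧ ∀ (x : List A) (a : α), Enc.ok x a → ∀ s ∈ P.box a,
        ∀ y < nD ^ j₀ a, r (a, s, y) = (P.apx a (p₀ a + 1) t₀ (q₀ a) (j₀ a) y).ap s (T₀ a))
    (hap : ∀ a, P.WF a → ∀ f t q, P.adm t a q → ∀ j y, ∀ s ∈ P.box a,
      Apx ((P.apx a f t q j y).ap s) ((P.apx a f t q j y).val s))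
    (hP : P.IsSP B) (hm : P.mvp t₀ = false) {p₀ T : α → ℕ} (hp : SP B p₀) (hT : SP B T)
    (hp' : PBd B fun a => 2 ^ p₀ a) (hT' : PBd B fun a => 2 ^ T a)
    (E : α → τ → (κ → ℕ) → IV σ) (dem : α → τ → (κ → ℕ) → Bool → Set (σ → ℕ))
    (h : ∀ (x : List A) (a : α), Enc.ok x a → P.WF a ∧ P.Ideal a (E a) (dem a) ∧
      P.adm t₀ a (q₀ a) ∧ P.pot t₀ a (q₀ a) ≤ p₀ a ∧ (∀ t q, P.adm t a q → ∀ x, q x ≤ V a) ∧
      (∀ r, 0 < P.bd a r) ∧ ∀ s ∈ P.box a, s ∈ dem a t₀ (q₀ a) true) :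
    ∃ r : α → ℝ, RSP B r ∧ ∀ (x : List A) (a : α), Enc.ok x a →
      |r a - (∑ s ∈ P.box a, (E a t₀ (q₀ a)).val s) / #(P.box a)| ≤ 1 / 2 ^ T a := by
  obtain ⟨C, hC⟩ := herr
  have hT1 : SP B fun a => T a + 1 := hT.add (SP.const 1)
  have hT2 : PBd B fun a => 2 ^ (T a + 1) := (hT'.mul (PBd.const 2)).mono fun a => (pow_succ _ _).le
  have hj : SP B fun a => C * p₀ a + (T a + 1) := ((SP.const C).mul hp).add hT1
  have hj' : PBd B fun a => 2 ^ (C * p₀ a + (T a + 1)) :=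
    ((hp'.pow C).mul hT2).mono fun a => by rw [pow_add, pow_mul']
  obtain ⟨r, hr, hr'⟩ := hsp hp hj hT1 hp' hj' hT2 fun x a ha =>
    let ⟨h1, _, h3, h4, h5, _⟩ := h x a ha
    ⟨h1, h3, h4, h5⟩
  have hN : SP B fun a => nD ^ (C * p₀ a + (T a + 1)) := sp_pow nD_pos hj
    ((hj'.pow (2 * lt)).mono fun a => by
      rw [nD, ← pow_mul, ← pow_mul, show 4 = 2 ^ 2 from rfl, ← pow_mul]
      exact le_of_eq (by congr 1; ring))
  have hc : SP B fun a => #(P.box a) :=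
    (sp_sum_box hP.bd (f := fun _ _ => 1) (SP.const 1)).congr fun a => (card_eq_sum_ones _).symm
  refine ⟨_, (RSP.intCast (zsp_sum hP.bd hN hr)).div
    (RSP.natCast (((sp_pow two_pos hT1 hT2).mul hc).mul hN)), fun x a ha => ?_⟩
  obtain ⟨h1, h2, h3, h4, -, h6, h7⟩ := h x a ha
  refine est (b := P.box a) (Fintype.piFinset_nonempty.2 fun i => nonempty_range_iff.2 (h6 i).ne')
    (pow_pos nD_pos _) (T a) (fun s y => r (a, s, y))
    (fun s y => (P.apx a (p₀ a + 1) t₀ (q₀ a) (C * p₀ a + (T a + 1)) y).val s) _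
    (fun s hs y hy => ?_) ?_
  · rw [hr' x a ha s hs y hy]
    exact hap a h1 _ _ _ h3 _ _ s hs _
  · have h8 := (hC a _ _ h1 h2 (p₀ a + 1) t₀ _ h3 (Nat.lt_succ_of_le h4) _ _
      (le_refl (C * p₀ a + (T a + 1)))).1 hm
    rw [Pg.n4, filter_true_of_mem h7] at h8
    refine h8.trans (pow_le_pow_left₀ (by positivity) ?_ 4)
    rw [div_le_div_iff₀ (by positivity) (by positivity), one_mul, ← pow_add]
    exact pow_le_pow_right₀ one_le_two (Nat.add_le_add_right (Nat.mul_le_mul_left C h4) _)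

end Vale.Agent.P313.Full
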