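import Vale.Agent.P313.Full.DslSp
import Vale.Agent.P313.Full.DslErr
import Vale.Agent.P313.Full.DslMain0

/-!
The main theorem on the language: the mean of an ideal number is computable up to a small error.
-/

namespace Vale.Agent.P313.Full.Pg

open Function Finset Vale.Agent.Lib.Space

variable {α σ κ τ : Type} [DecidableEq κ] [Fintype σ] [DecidableEq σ] {A : Type} [Enc A α]
  {B : Bud A} [Fintype κ] [Finite τ]

theorem dsl_main (P : Pg α σ κ τ) (hP : P.IsSP B) (t₀ : τ) (hm : P.mvp t₀ = false)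
    {q₀ : α → κ → ℕ} {p₀ T V : α → ℕ} (hq : SP B q₀) (hp : SP B p₀) (hT : SP B T)
    (hp' : PBd B fun a => 2 ^ p₀ a) (hT' : PBd B fun a => 2 ^ T a) (hV : PBd B V)
    (E : α → τ → (κ → ℕ) → IV σ) (dem : α → τ → (κ → ℕ) → Bool → Set (σ → ℕ))
    (h : ∀ (x : List A) (a : α), Enc.ok x a → P.WF a ∧ P.Ideal a (E a) (dem a) ∧
      P.adm t₀ a (q₀ a) ∧ P.pot t₀ a (q₀ a) ≤ p₀ a ∧ (∀ t q, P.adm t a q → ∀ x, q x ≤ V a) ∧
      (∀ r, 0 < P.bd a r) ∧ ∀ s ∈ P.box a, s ∈ dem a t₀ (q₀ a) true) :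
    ∃ r : α → ℝ, RSP B r ∧ ∀ (x : List A) (a : α), Enc.ok x a →
      |r a - (∑ s ∈ P.box a, (E a t₀ (q₀ a)).val s) / #(P.box a)| ≤ 1 / 2 ^ T a :=
  P.dsl_main_of t₀ (err_thm P)
    (fun hp hj hT hp' hj' hT' h => space_thm P hP t₀ hm hq hp hj hT hp' hj' hT' hV h)
    (fun _ h f t q ht j y s hs => (apx_ok h f t q ht j y).apx s hs) hP hm hp hT hp' hT' E dem h

end Vale.Agent.P313.Full.Pg
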