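import Vale.Agent.P313.Full.DslBasic

/-!
The canonical ideal world of a program: the ideal meaning `cE` is defined by recursion on the
potential, the domains by the inductive predicate `Ok`. The judgements `Val` and `Mov` say that a
term is in its domain and has a given ideal value.
-/

namespace Vale.Agent.P313.Full

open Function Finset

variable {α σ κ τ : Type} [DecidableEq κ] [Fintype σ] [DecidableEq σ]

omit [DecidableEq κ] [Fintype σ] [DecidableEq σ] in
theorem Pair.congr {b : Finset (σ → ℕ)} {mm nl : ℕ} {get : (σ → ℕ) → ℕ}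
    {put : (σ → ℕ) → ℕ → σ → ℕ} {F B M F' B' M' : ℕ → IV σ} {x y : σ → ℕ} {G : Finset ℕ}
    (hF : ∀ u < nl, F u = F' u) (hB : ∀ u < nl, B u = B' u) (hM : ∀ u < nl, M u = M' u)
    (h : Pair b mm get put nl F B M x y G) : Pair b mm get put nl F' B' M' x y G where
  bx := h.bx
  bY := h.bY
  get_eq := h.get_eq
  fwd c hc u hu h1 := hM u hu ▸ h.fwd c hc u hu (hF u hu ▸ h1)
  bwd c hc u hu h1 := hM u hu ▸ h.bwd c hc u hu (hB u hu ▸ h1)
  sub := h.sub
  good c hc := let ⟨u, hu, h1, h2⟩ := h.good c hc; ⟨u, hu, hF u hu ▸ h1, hB u hu ▸ h2⟩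
  ne := h.ne

open Classical in
theorem dite_choose_congr {β : Type} {p p' : β → Prop} (h : ∀ x, p x ↔ p' x) :
    (if h : ∃ x, p x then some h.choose else none) = if h : ∃ x, p' x then some h.choose else none := by
  obtain rfl : p = p' := funext fun x => propext (h x)
  rfl

namespace Pg

variable (P : Pg α σ κ τ) (a : α)

/-- The ideal meaning with fuel. -/
noncomputable def idl : ℕ → τ → (κ → ℕ) → IV σ
  | 0, _, _ => ⟨fun _ => 0, fun _ _ => none⟩
  | f + 1, t, q => P.ev a (idl f) (P.body t) q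

/-- The canonical ideal meaning of the procedures. -/
noncomputable def cE (t : τ) (q : κ → ℕ) : IV σ := P.idl a (P.pot t a q + 1) t q

/-- The canonical ideal meaning of a term. -/
noncomputable def cv (e : Tm α σ κ τ) (q : κ → ℕ) : IV σ := P.ev a (P.cE a) e q

/-- The term of size `n` is computed correctly at the state `s`. -/
inductive Ok : ℕ → Tm α σ κ τ → (κ → ℕ) → Bool → (σ → ℕ) → Prop
  | loc {n f q d s} : Ok n (.loc f) q d s
  | app {n Φ e₁ e₂ q d s} : Ok n e₁ q true s → Ok n e₂ q true s → Ok n (.app Φ e₁ e₂) q d s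
  | guard {n g e q d s} : Ok n g q true s → ((P.cv a g q).val s ≠ 0 → Ok n e q true s) →
      Ok n (.guard g e) q d s
  | sum {n nl x e q d s} : (∀ u < nl a q, Ok n e (update q x u) true s) → Ok n (.sum nl x e) q d s
  | avg {n v e q d s} : (∀ c < View.m v a * View.m v a, Ok n e q true (View.put v a q s c)) →
      Ok n (.avg v e) q d s
  | hop {n d' M e q d s} : Ok n M q d' s →
      (∀ s', (P.cv a M q).mv d' s = some s' → Ok n e q true s') → Ok n (.hop d' M e) q d s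
  | mloc {n dom map q d s} : Ok n (.mloc dom map) q d s
  | seqT {n M₁ M₂ q s} : Ok n M₁ q true s →
      (∀ s', (P.cv a M₁ q).mv true s = some s' → Ok n M₂ q true s') → Ok n (.seq M₁ M₂) q true s
  | seqF {n M₁ M₂ q s} : Ok n M₂ q false s →
      (∀ s', (P.cv a M₂ q).mv false s = some s' → Ok n M₁ q false s') → Ok n (.seq M₁ M₂) q false s
  | search {n v nl x tF tB M q d s} (s' G) :
      Pair (P.box a) (View.m v a * View.m v a) (View.get v a q) (View.put v a q) (nl a q)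
        (fun u => P.cv a tF (update q x u)) (fun u => P.cv a tB (update q x u))
        (fun u => P.cv a M (update q x u)) (if d then s else s') (if d then s' else s) G →
      View.m v a * View.m v a ≤ 2 ^ n * #G → Ok n (.search v nl x tF tB M) q d s
  | casT {n c e₁ e₂ q d s} : c a q = true → Ok n e₁ q d s → Ok n (.cas c e₁ e₂) q d s
  | casF {n c e₁ e₂ q d s} : c a q = false → Ok n e₂ q d s → Ok n (.cas c e₁ e₂) q d s
  | altT {n p e₁ e₂ q d s} : p d a q s = true → Ok n e₁ q d s → Ok n (.alt p e₁ e₂) q d s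
  | altF {n p e₁ e₂ q d s} : p d a q s = false → Ok n e₂ q d s → Ok n (.alt p e₁ e₂) q d s
  | call {n t F sv rs q d s} : Ok (P.sz t a (F a q)) (P.body t) (F a q) d s →
      Ok n (.call t F sv rs) q d s

/-- The canonical domains. -/
def cD (t : τ) (q : κ → ℕ) (d : Bool) : Set (σ → ℕ) := {s | P.Ok a (P.sz t a q) (P.body t) q d s}

/-- The conditions on the searches which do not depend on the state. -/
def Unc (n : ℕ) : Tm α σ κ τ → (κ → ℕ) → Prop
  | .loc _, _ => True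
  | .app _ e₁ e₂, q => Unc n e₁ q ∧ Unc n e₂ q
  | .guard g e, q => Unc n g q ∧ Unc n e q
  | .sum nl x e, q => ∀ u < nl a q, Unc n e (update q x u)
  | .avg _ e, q => Unc n e q
  | .hop _ M e, q => Unc n M q ∧ Unc n e q
  | .mloc _ _, _ => True
  | .seq M₁ M₂, q => Unc n M₁ q ∧ Unc n M₂ q
  | .search _ nl x tF tB M, q => ∀ u < nl a q,
      (Unc n tF (update q x u) ∧ Unc n tB (update q x u) ∧ Unc n M (update q x u)) ∧
      ∀ s ∈ P.box a, P.Ok a n tF (update q x u) true s ∧ P.Ok a n tB (update q x u) true s ∧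
        (1 / 4 < (P.cv a tF (update q x u)).val s → P.Ok a n M (update q x u) true s) ∧
        (1 / 4 < (P.cv a tB (update q x u)).val s → P.Ok a n M (update q x u) false s)
  | .cas c e₁ e₂, q => if c a q then Unc n e₁ q else Unc n e₂ q
  | .alt _ e₁ e₂, q => Unc n e₁ q ∧ Unc n e₂ q
  | .call _ _ _ _, _ => True

/-- The number is computed correctly at `s`, and its ideal value is `v`. -/
def Val (n : ℕ) (e : Tm α σ κ τ) (q : κ → ℕ) (s : σ → ℕ) (v : ℝ) : Prop :=
  P.Ok a n e q true s ∧ (P.cv a e q).val s = v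

/-- The move is computed correctly at `s`, and its ideal result is `o`. -/
def Mov (n : ℕ) (M : Tm α σ κ τ) (q : κ → ℕ) (d : Bool) (s : σ → ℕ) (o : Option (σ → ℕ)) : Prop :=
  P.Ok a n M q d s ∧ (P.cv a M q).mv d s = o

variable {P a}

theorem ev_congr {E E' : τ → (κ → ℕ) → IV σ} {n p : ℕ} {e : Tm α σ κ τ} {q : κ → ℕ} {m : Bool}
    (he : P.Str a n p e q m) (h : ∀ t q, P.adm t a q → P.pot t a q < p → E t q = E' t q) :
    P.ev a E e q = P.ev a E' e q := by
  unfold ev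
  induction e generalizing q m with
  | loc | mloc => rfl
  | app _ _ _ i1 i2 => simp only [Tm.evI, i1 he.2.2.1, i2 he.2.2.2]
  | guard _ _ i1 i2 | hop _ _ _ i1 i2 | seq _ _ i1 i2 => simp only [Tm.evI, i1 he.2.1, i2 he.2.2]
  | sum nl x _ i1 =>
    simp only [Tm.evI]
    congr 1
    exact funext fun s => sum_congr rfl fun u hu => by rw [i1 (he.2.2.2 u (mem_range.1 hu))]
  | avg _ _ i1 => simp only [Tm.evI, i1 he.2.2]
  | search v nl x tF tB M i1 i2 i3 =>
    simp only [Tm.evI]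
    congr 1
    funext d s
    have h1 := fun u hu => i1 (he.2.2.2.2 u hu).1
    have h2 := fun u hu => i2 (he.2.2.2.2 u hu).2.1
    have h3 := fun u hu => i3 (he.2.2.2.2 u hu).2.2
    exact dite_choose_congr fun s' => exists_congr fun G => ⟨Pair.congr h1 h2 h3,
      Pair.congr (fun u hu => (h1 u hu).symm) (fun u hu => (h2 u hu).symm)
        fun u hu => (h3 u hu).symm⟩
  | cas c _ _ i1 i2 =>
    unfold Str at he
    simp only [Tm.evI]
    split_ifs at he ⊢
    · exact i1 he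
    · exact i2 he
  | alt _ _ _ i1 i2 => simp only [Tm.evI, i1 he.1, i2 he.2]
  | call t F => exact h t _ he.2.1 (by obtain ⟨b, -, h1⟩ := he.2.2.2.2; omega)

theorem idl_eq (h : P.WF a) : ∀ p f t q, P.adm t a q → P.pot t a q < p → P.pot t a q < f →
    P.idl a f t q = P.cE a t q := by
  intro p
  induction p with
  | zero => intro _ _ _ _ h1; omega
  | succ p ih =>
    intro f t q ht h1 h2
    obtain ⟨f, rfl⟩ : ∃ f', f = f' + 1 := ⟨f - 1, by omega⟩
    exact ev_congr (h t q ht).2.1 fun t' q' ht' h3 =>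
      (ih f t' q' ht' (by omega) (by omega)).trans (ih _ t' q' ht' (by omega) h3).symm

theorem cE_eq (h : P.WF a) {t : τ} {q : κ → ℕ} (ht : P.adm t a q) :
    P.cE a t q = P.cv a (P.body t) q :=
  ev_congr (h t q ht).2.1 fun t' q' ht' h3 => idl_eq h _ _ t' q' ht' h3 h3

theorem ev_rng {E : τ → (κ → ℕ) → IV σ} (h : P.Data a E) {n p b : ℕ} {e : Tm α σ κ τ} {q : κ → ℕ}
    {m : Bool} (he : P.Str a n p e q m) (hr : P.Rng a e b q) {s : σ → ℕ} (hs : s ∈ P.box a) :
    |(P.ev a E e q).val s| ≤ 2 ^ b := by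
  unfold ev
  induction e generalizing q m b s with
  | loc => exact hr s hs
  | app => exact hr s hs _ _
  | guard g e i1 i2 =>
    obtain ⟨b₁, b₂, h0, h1, h2⟩ := hr
    refine le_trans ?_ (two_pow_mono h0)
    simp only [Tm.evI, abs_mul, pow_add]
    exact mul_le_mul (i1 he.2.1 h1 hs) (i2 he.2.2 h2 hs) (abs_nonneg _) (by positivity)
  | sum | avg => exact hr.elim
  | hop d M e _ i2 =>
    simp only [Tm.evI]
    rcases h1 : (Tm.evI a (P.box a) E M q).mv d s with _ | s'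
    · simp
    · exact i2 he.2.2 hr (ev_mv h he.2.1 hs h1).1
  | mloc | seq | search => simp [Tm.evI]
  | cas c _ _ i1 i2 =>
    unfold Str at he
    unfold Rng at hr
    simp only [Tm.evI]
    split_ifs at he hr ⊢
    · exact i1 he hr hs
    · exact i2 he hr hs
  | alt p _ _ i1 i2 =>
    simp only [Tm.evI]
    split_ifs
    · exact i1 he.1 hr.1 hs
    · exact i2 he.2 hr.2 hs
  | call t F => exact (h.bd t _ he.2.1 s hs).trans (two_pow_mono hr)

theorem data_idl (h : P.WF a) : ∀ f, P.Data a (P.idl a f)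
  | 0 => ⟨fun _ _ _ _ _ => by simp [idl], fun _ _ _ _ _ _ _ h1 => by simp [idl] at h1⟩
  | f + 1 => ⟨fun t q ht _ hs => ev_rng (data_idl h f) (h t q ht).2.1 (h t q ht).2.2 hs,
      fun t q ht _ _ hs _ h1 => ev_mv (data_idl h f) (h t q ht).2.1 hs h1⟩

theorem data_cE (h : P.WF a) : P.Data a (P.cE a) :=
  ⟨fun t q => (data_idl h _).bd t q, fun t q => (data_idl h _).mv t q⟩

theorem dm_of_ok {n p : ℕ} {e : Tm α σ κ τ} {q : κ → ℕ} {m d : Bool}
    {D : Set (σ → ℕ)} (he : P.Str a n p e q m) (hd : m = false → d = true) (hU : P.Unc a n e q)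
    (hD : ∀ s ∈ D, s ∈ P.box a → P.Ok a n e q d s) : P.Dm a (P.cE a) (P.cD a) n e q d D := by
  induction e generalizing q m d D with
  | loc | mloc => trivial
  | app _ _ _ i1 i2 =>
    exact ⟨i1 he.2.2.1 (fun _ => rfl) hU.1 fun s h1 h2 => by cases hD s h1 h2; assumption,
      i2 he.2.2.2 (fun _ => rfl) hU.2 fun s h1 h2 => by cases hD s h1 h2; assumption⟩
  | guard _ _ i1 i2 =>
    exact ⟨i1 he.2.1 (fun _ => rfl) hU.1 fun s h1 h2 => by cases hD s h1 h2; assumption,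
      i2 he.2.2 (fun _ => rfl) hU.2 fun s h1 h2 => by
        cases hD s h1.1 h2 with | guard _ h3 => exact h3 h1.2⟩
  | sum nl x _ i1 =>
    exact fun u hu => i1 (he.2.2.2 u hu) (fun _ => rfl) (hU u hu) fun s h1 h2 => by
      cases hD s h1 h2 with | sum h3 => exact h3 u hu
  | avg v _ i1 =>
    refine i1 he.2.2 (fun _ => rfl) hU ?_
    rintro _ ⟨s, h1, h2, c, hc, rfl⟩ -
    cases hD s h1 h2 with | avg h3 => exact h3 c hc
  | hop d' M _ i1 i2 =>
    refine ⟨i1 he.2.1 (by simp) hU.1 fun s h1 h2 => by cases hD s h1 h2; assumption,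
      i2 he.2.2 (fun _ => rfl) hU.2 ?_⟩
    rintro s' ⟨s, h1, h2, h3⟩ -
    cases hD s h1 h2 with | hop _ h4 => exact h4 s' h3
  | seq _ _ i1 i2 =>
    cases d
    · refine ⟨i2 he.2.2 (by simp) hU.2 fun s h1 h2 => by cases hD s h1 h2; assumption,
        i1 he.2.1 (by simp) hU.1 ?_⟩
      rintro s' ⟨s, h1, h2, h3⟩ -
      cases hD s h1 h2 with | seqF _ h4 => exact h4 s' h3
    · refine ⟨i1 he.2.1 (by simp) hU.1 fun s h1 h2 => by cases hD s h1 h2; assumption,
        i2 he.2.2 (by simp) hU.2 ?_⟩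
      rintro s' ⟨s, h1, h2, h3⟩ -
      cases hD s h1 h2 with | seqT _ h4 => exact h4 s' h3
  | search v nl x tF tB M i1 i2 i3 =>
    refine ⟨fun s h1 h2 => ?_, fun u hu => ?_⟩
    · cases hD s h1 h2 with | search s' G h3 h4 => exact ⟨s', G, h3, h4⟩
    · obtain ⟨⟨u1, u2, u3⟩, h1⟩ := hU u hu
      obtain ⟨s1, s2, s3⟩ := he.2.2.2.2 u hu
      exact ⟨i1 s1 (fun _ => rfl) u1 fun s _ h2 => (h1 s h2).1,
        i2 s2 (fun _ => rfl) u2 fun s _ h2 => (h1 s h2).2.1,
        i3 s3 (by simp) u3 fun s h3 h2 => (h1 s h2).2.2.1 h3,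
        i3 s3 (by simp) u3 fun s h3 h2 => (h1 s h2).2.2.2 h3⟩
  | cas c _ _ i1 i2 =>
    unfold Str at he
    unfold Unc at hU
    unfold Dm
    split_ifs at he hU ⊢ with hc
    · refine i1 he hd hU fun s h1 h2 => ?_
      cases hD s h1 h2 with
      | casT _ h3 => exact h3
      | casF h3 _ => simp [hc] at h3
    · refine i2 he hd hU fun s h1 h2 => ?_
      cases hD s h1 h2 with
      | casT h3 _ => exact absurd h3 hc
      | casF _ h3 => exact h3
  | alt p _ _ i1 i2 =>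
    refine ⟨i1 he.1 hd hU.1 fun s h1 h2 => ?_, i2 he.2 hd hU.2 fun s h1 h2 => ?_⟩
    · cases hD s h1.1 h2 with
      | altT _ h3 => exact h3
      | altF h3 _ => simp [h1.2] at h3
    · cases hD s h1.1 h2 with
      | altT h3 _ => simp [h1.2] at h3
      | altF _ h3 => exact h3
  | call t F =>
    intro s h1 h2
    cases hD s h1 h2 with | call h3 => exact h3

/-- The canonical world is ideal. -/
theorem ideal_cE (h : P.WF a) (hU : ∀ t q, P.adm t a q → P.Unc a (P.sz t a q) (P.body t) q) :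
    P.Ideal a (P.cE a) (P.cD a) where
  toData := data_cE h
  num t q ht _ := ⟨dm_of_ok (h t q ht).2.1 (fun _ => rfl) (hU t q ht) fun _ h1 _ => h1,
    fun _ _ _ => by rw [cE_eq h ht, cv]⟩
  mov t q ht hm d := ⟨dm_of_ok (h t q ht).2.1 (by simp [hm]) (hU t q ht) fun _ h1 _ => h1,
    fun _ _ _ => by rw [cE_eq h ht, cv]⟩

/-! ### The rules for `Val` and `Mov` -/

variable {n : ℕ} {q : κ → ℕ} {s s' : σ → ℕ} {v w : ℝ} {e e₁ e₂ g M M₁ M₂ : Tm α σ κ τ} {d : Bool}
  {o : Option (σ → ℕ)}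

theorem Val.congr (h : P.Val a n e q s v) (e' : v = w) : P.Val a n e q s w := e' ▸ h

theorem Val.unique (h : P.Val a n e q s v) {n' : ℕ} (h' : P.Val a n' e q s w) : v = w :=
  h.2.symm.trans h'.2

theorem Ok.val (h : P.Ok a n e q true s) : P.Val a n e q s ((P.cv a e q).val s) := ⟨h, rfl⟩

theorem Ok.mov (h : P.Ok a n M q d s) : P.Mov a n M q d s ((P.cv a M q).mv d s) := ⟨h, rfl⟩

theorem Val.loc {f : α → (κ → ℕ) → (σ → ℕ) → ℝ} : P.Val a n (.loc f) q s (f a q s) := ⟨.loc, rfl⟩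

theorem Val.app {Φ : α → (κ → ℕ) → (σ → ℕ) → ℝ → ℝ → ℝ} (h₁ : P.Val a n e₁ q s v)
    (h₂ : P.Val a n e₂ q s w) : P.Val a n (.app Φ e₁ e₂) q s (Φ a q s v w) :=
  ⟨.app h₁.1 h₂.1, by rw [← h₁.2, ← h₂.2]; rfl⟩

theorem Val.guard (h₁ : P.Val a n g q s v) (h₂ : v ≠ 0 → P.Val a n e q s w) :
    P.Val a n (.guard g e) q s (v * w) := by
  refine ⟨.guard h₁.1 fun h => (h₂ (h₁.2 ▸ h)).1, ?_⟩
  change (P.cv a g q).val s * (P.cv a e q).val s = _
  rw [h₁.2]
  by_cases h : v = 0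
  · simp [h]
  · rw [(h₂ h).2]

theorem Val.sum {nl : α → (κ → ℕ) → ℕ} {x : κ} {f : ℕ → ℝ}
    (h : ∀ u < nl a q, P.Val a n e (update q x u) s (f u)) :
    P.Val a n (.sum nl x e) q s (∑ u ∈ range (nl a q), f u) :=
  ⟨.sum fun u hu => (h u hu).1, sum_congr rfl fun u hu => (h u (mem_range.1 hu)).2⟩

theorem Val.avg {V : View α σ κ} {f : ℕ → ℝ}
    (h : ∀ c < V.m a * V.m a, P.Val a n e q (V.put a q s c) (f c)) :
    P.Val a n (.avg V e) q s ((∑ c ∈ range (V.m a * V.m a), f c) / (V.m a * V.m a : ℕ)) :=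
  ⟨.avg fun c hc => (h c hc).1, congrArg (· / _) (sum_congr rfl fun c hc => (h c (mem_range.1 hc)).2)⟩

theorem Val.hop (h₁ : P.Mov a n M q d s (some s')) (h₂ : P.Val a n e q s' v) :
    P.Val a n (.hop d M e) q s v := by
  refine ⟨.hop h₁.1 fun s₁ h => ?_, ?_⟩
  · obtain rfl := Option.some.inj (h₁.2.symm.trans h)
    exact h₂.1
  · change ((P.cv a M q).mv d s).elim 0 (P.cv a e q).val = v
    rw [h₁.2]
    exact h₂.2

theorem Val.hop_none (h₁ : P.Mov a n M q d s none) : P.Val a n (.hop d M e) q s 0 := by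
  refine ⟨.hop h₁.1 fun s₁ h => absurd (h₁.2.symm.trans h) (by simp), ?_⟩
  change ((P.cv a M q).mv d s).elim 0 (P.cv a e q).val = 0
  rw [h₁.2]
  rfl

theorem Val.casT {c : α → (κ → ℕ) → Bool} (hc : c a q = true) (h : P.Val a n e₁ q s v) :
    P.Val a n (.cas c e₁ e₂) q s v :=
  ⟨.casT hc h.1, by rw [← h.2]; simp [cv, ev, Tm.evI, hc]⟩

theorem Val.casF {c : α → (κ → ℕ) → Bool} (hc : c a q = false) (h : P.Val a n e₂ q s v) :
    P.Val a n (.cas c e₁ e₂) q s v :=
  ⟨.casF hc h.1, by rw [← h.2]; simp [cv, ev, Tm.evI, hc]⟩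

theorem Val.altT {p : Bool → α → (κ → ℕ) → (σ → ℕ) → Bool} (hc : p true a q s = true)
    (h : P.Val a n e₁ q s v) : P.Val a n (.alt p e₁ e₂) q s v :=
  ⟨.altT hc h.1, by rw [← h.2]; simp [cv, ev, Tm.evI, hc]⟩

theorem Val.altF {p : Bool → α → (κ → ℕ) → (σ → ℕ) → Bool} (hc : p true a q s = false)
    (h : P.Val a n e₂ q s v) : P.Val a n (.alt p e₁ e₂) q s v :=
  ⟨.altF hc h.1, by rw [← h.2]; simp [cv, ev, Tm.evI, hc]⟩

theorem Val.call (hw : P.WF a) {t : τ} {F : α → (κ → ℕ) → κ → ℕ} {sv : α → (κ → ℕ) → ℕ}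
    {rs : α → (κ → ℕ) → ℕ → κ → ℕ} (ht : P.adm t a (F a q))
    (h : P.Val a (P.sz t a (F a q)) (P.body t) (F a q) s v) : P.Val a n (.call t F sv rs) q s v :=
  ⟨.call h.1, by rw [← h.2, ← cE_eq hw ht]; rfl⟩

theorem Mov.congr {o' : Option (σ → ℕ)} (h : P.Mov a n M q d s o) (e' : o = o') :
    P.Mov a n M q d s o' := e' ▸ h

theorem Mov.mloc {dom : Bool → α → (κ → ℕ) → (σ → ℕ) → Bool}
    {map : Bool → α → (κ → ℕ) → (σ → ℕ) → σ → ℕ} :
    P.Mov a n (.mloc dom map) q d s (if dom d a q s then some (map d a q s) else none) :=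
  ⟨.mloc, rfl⟩

theorem Mov.seqT (h₁ : P.Mov a n M₁ q true s (some s')) (h₂ : P.Mov a n M₂ q true s' o) :
    P.Mov a n (.seq M₁ M₂) q true s o := by
  refine ⟨.seqT h₁.1 fun s₁ h => ?_, ?_⟩
  · obtain rfl := Option.some.inj (h₁.2.symm.trans h)
    exact h₂.1
  · change ((P.cv a M₁ q).mv true s).bind ((P.cv a M₂ q).mv true) = o
    rw [h₁.2]
    exact h₂.2

theorem Mov.seqF (h₂ : P.Mov a n M₂ q false s (some s')) (h₁ : P.Mov a n M₁ q false s' o) :
    P.Mov a n (.seq M₁ M₂) q false s o := by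
  refine ⟨.seqF h₂.1 fun s₁ h => ?_, ?_⟩
  · obtain rfl := Option.some.inj (h₂.2.symm.trans h)
    exact h₁.1
  · change ((P.cv a M₂ q).mv false s).bind ((P.cv a M₁ q).mv false) = o
    rw [h₂.2]
    exact h₁.2

theorem Mov.casT {c : α → (κ → ℕ) → Bool} (hc : c a q = true) (h : P.Mov a n M₁ q d s o) :
    P.Mov a n (.cas c M₁ M₂) q d s o :=
  ⟨.casT hc h.1, by rw [← h.2]; simp [cv, ev, Tm.evI, hc]⟩

theorem Mov.casF {c : α → (κ → ℕ) → Bool} (hc : c a q = false) (h : P.Mov a n M₂ q d s o) :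
    P.Mov a n (.cas c M₁ M₂) q d s o :=
  ⟨.casF hc h.1, by rw [← h.2]; simp [cv, ev, Tm.evI, hc]⟩

theorem Mov.altT {p : Bool → α → (κ → ℕ) → (σ → ℕ) → Bool} (hc : p d a q s = true)
    (hc' : p (!d) a q s' = true) (h : P.Mov a n M₁ q d s (some s')) :
    P.Mov a n (.alt p M₁ M₂) q d s (some s') := by
  refine ⟨.altT hc h.1, ?_⟩
  have h2 := h.2
  simp only [cv, ev] at h2
  simp [cv, ev, Tm.evI, hc, hc', h2]

theorem Mov.altF {p : Bool → α → (κ → ℕ) → (σ → ℕ) → Bool} (hc : p d a q s = false)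
    (hc' : p (!d) a q s' = false) (h : P.Mov a n M₂ q d s (some s')) :
    P.Mov a n (.alt p M₁ M₂) q d s (some s') := by
  refine ⟨.altF hc h.1, ?_⟩
  have h2 := h.2
  simp only [cv, ev] at h2
  simp [cv, ev, Tm.evI, hc, hc', h2]

theorem Mov.call (hw : P.WF a) {t : τ} {F : α → (κ → ℕ) → κ → ℕ} {sv : α → (κ → ℕ) → ℕ}
    {rs : α → (κ → ℕ) → ℕ → κ → ℕ} (ht : P.adm t a (F a q))
    (h : P.Mov a (P.sz t a (F a q)) (P.body t) (F a q) d s o) :
    P.Mov a n (.call t F sv rs) q d s o :=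
  ⟨.call h.1, by rw [← h.2, ← cE_eq hw ht]; rfl⟩

theorem Mov.search {V : View α σ κ} {nl : α → (κ → ℕ) → ℕ} {x : κ} {tF tB : Tm α σ κ τ}
    {G : Finset ℕ} (hv : V.Ok a q (P.box a))
    (h : Pair (P.box a) (V.m a * V.m a) (V.get a q) (V.put a q) (nl a q)
      (fun u => P.cv a tF (update q x u)) (fun u => P.cv a tB (update q x u))
      (fun u => P.cv a M (update q x u)) s s' G) (hG : V.m a * V.m a ≤ 2 ^ n * #G) :
    P.Mov a n (.search V nl x tF tB M) q true s (some s') ∧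
      P.Mov a n (.search V nl x tF tB M) q false s' (some s) :=
  ⟨⟨.search s' G h hG, (ev_search hv h).1⟩, ⟨.search s G h hG, (ev_search hv h).2⟩⟩

end Pg

end Vale.Agent.P313.Full
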