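import Vale.Agent.P313.Full.DslSpE
import Vale.Agent.P313.F43.Iter

/-!
The translated programs compute the approximate meaning: all terms, and the space theorem.
-/

namespace Vale.Agent.P313.Full

open Function Finset Vale.Agent.Lib.Space Prog Pg

variable {α γ σ κ τ ρ : Type} [DecidableEq κ] [DecidableEq σ] [Fintype σ]

namespace Sp.Env

variable {U : Env α γ σ κ τ ρ} {e e₁ e₂ : Tm α σ κ τ} {X X₁ X₂ : AV σ} {m d : Bool} {q : κ → ℕ}
  {s : σ → ℕ} {r j y n w w' t : ℕ} {l : Loc → ℕ} {E : τ → (κ → ℕ) → ℕ → ℕ → AV σ}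

/-- **The programs are correct.** -/
theorem tsp (f : ℕ) : ∀ (e : Tm α σ κ τ) (n r : ℕ) (q : κ → ℕ) (m : Bool), subs e ⊆ U.S →
    wt e ≤ U.W → U.P.Str U.a n (r + n + 1) e q m → r + n + 1 ≤ f → (∀ x, q x ≤ U.V) →
    ∀ j y, y ≤ U.V → U.TSp e (e.evA U.a (U.P.apx U.a f) n q j y) m q r j y n (wt e) := by
  induction f with
  | zero => intro _ _ _ _ _ _ _ _ h; omega
  | succ f ihf =>
  intro e n r q m hS hW he hf hq j y hy
  have ok : ∀ {e : Tm α σ κ τ} {q m}, U.P.Str U.a n (r + n + 1) e q m → ∀ j y,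
      AOk (U.P.box U.a) (n * e.dp) (e.evA U.a (U.P.apx U.a (f + 1)) n q j y) :=
    fun h => evA_ok (apx_ok U.wf _) h
  have s1 : ∀ {A B : Set (Tm α σ κ τ)} {e}, insert e (A ∪ B) ⊆ U.S → A ⊆ U.S ∧ B ⊆ U.S :=
    fun h => Set.union_subset_iff.1 (Set.insert_subset_iff.1 h).2
  induction e generalizing q m j y with
  | loc φ =>
    obtain rfl := he.1
    exact tsp_loc hW (ok he j y)
  | app Φ e₁ e₂ i1 i2 =>
    obtain rfl := he.1
    simp only [wt] at hW
    intro d s hs g hg hk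
    exact wp_code2 (s := s) ((i1 q _ (s1 hS).1 (by omega) he.2.2.1 hq j y hy).mono (Nat.le_add_right _ _))
      ((i2 q _ (s1 hS).2 (by omega) he.2.2.2 hq j y hy).mono (Nat.le_add_left _ _))
      ((s1 hS).1 (mem_subs _)) ((s1 hS).2 (mem_subs _)) (ok he.2.2.1 j y) (ok he.2.2.2 j y)
      (by omega) (fun g h => by rw [h.hq, h.hs]) hs ((ok he j y).apx s hs)
      (bd_mono (ok he j y) hW hs) (Nat.lt_succ_self _) hk hg
  | guard e₁ e₂ i1 i2 =>
    obtain rfl := he.1
    simp only [wt] at hW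
    intro d s hs g hg hk
    have h1 := U.cst_ge r j (g (cv 2)) n (w := wt (e₁.guard e₂)) (by simp [wt])
    exact wp_code2 ((i1 q _ (s1 hS).1 (by omega) he.2.1 hq j y hy).mono (Nat.le_add_right _ _))
      ((i2 q _ (s1 hS).2 (by omega) he.2.2 hq j y hy).mono (Nat.le_add_left _ _))
      ((s1 hS).1 (mem_subs _)) ((s1 hS).2 (mem_subs _)) (ok he.2.1 j y) (ok he.2.2 j y)
      (by omega) (fun g h => by
        rw [h.hn, cpow_dp (by omega) (by omega), cpow_dp (by omega) (by omega)]) hs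
      ((ok he j y).apx s hs) (bd_mono (ok he j y) hW hs) (Nat.lt_succ_self _) hk hg
  | sum nl x e i1 =>
    obtain rfl := he.1
    have hS' := (Set.insert_subset_iff.1 hS).2
    exact tsp_sum (hS' (mem_subs _)) hW he.2.1 he.2.2.1 (fun u hu hV => i1 _ _ hS'
      (Nat.le_of_succ_le hW) (he.2.2.2 u hu) (ok_update hq hV) j y hy)
      (fun u hu => ok (he.2.2.2 u hu) j y) (ok he j y)
  | avg v e i1 =>
    obtain rfl := he.1
    have hS' := (Set.insert_subset_iff.1 hS).2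
    exact tsp_avg (hS' (mem_subs _)) hW he.2.1
      (fun j => i1 _ _ hS' (Nat.le_of_succ_le hW) he.2.2 hq j y hy) (fun j => ok he.2.2 j y)
      (ok he j y)
  | hop d e₁ e₂ i1 i2 =>
    obtain rfl := he.1
    simp only [wt] at hW
    exact tsp_hop ((s1 hS).1 (mem_subs _)) ((s1 hS).2 (mem_subs _)) hW
      (i1 q _ (s1 hS).1 (by omega) he.2.1 hq j y hy) (i2 q _ (s1 hS).2 (by omega) he.2.2 hq j y hy)
      (ok he.2.1 j y) (ok he.2.2 j y)
  | mloc dom map =>
    obtain rfl := he.1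
    refine TSp.of_mv rfl fun d s hs t hk g hg => WP.ifP (fun h => ?_) fun h => ?_
    · rw [hg.1.hq, hg.1.hs] at h
      refine WP.seq (wp_setS (by rw [hg.1.hq, hg.1.hs]) (box_le (he.2 d s hs h).1)
        (wp_setG rfl (by have := U.two_le_V; omega) ?_))
      simp only [Tm.evA, h, if_true]
      exact ⟨⟨(hg.1.putS _).upR _, by simp [hg.2]⟩, by simp, trivial⟩
    · rw [hg.1.hq, hg.1.hs] at h
      refine wp_setG rfl (Nat.zero_le _) ?_
      simp only [Tm.evA, h]
      exact ⟨Rt.ret _ _ _ hg, by simp, trivial⟩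
  | seq e₁ e₂ i1 i2 =>
    obtain rfl := he.1
    simp only [wt] at hW
    exact tsp_seq ((s1 hS).1 (mem_subs _)) ((s1 hS).2 (mem_subs _))
      (i1 q _ (s1 hS).1 (by omega) he.2.1 hq j y hy) (i2 q _ (s1 hS).2 (by omega) he.2.2 hq j y hy)
      (ok he.2.1 j y).inj (ok he.2.2 j y).inj
  | search v nl x tF tB M i1 i2 i3 =>
    obtain ⟨rfl, h1, h2, h3, h4⟩ := id he
    simp only [wt] at hW
    have a := Set.union_subset_iff.1 (s1 hS).1
    exact tsp_search hS hW h1 h2 h3 (fun u hu hV j y hy =>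
      ⟨i1 _ _ a.1 (by omega) (h4 u hu).1 (ok_update hq hV) j y hy,
        i2 _ _ a.2 (by omega) (h4 u hu).2.1 (ok_update hq hV) j y hy,
        i3 _ _ (s1 hS).2 (by omega) (h4 u hu).2.2 (ok_update hq hV) j y hy⟩)
      (fun u hu j y => ⟨ok (h4 u hu).1 j y, ok (h4 u hu).2.1 j y, (ok (h4 u hu).2.2 j y).inj⟩)
      (fun j y => (ok he j y).inj) j y hy
  | cas c e₁ e₂ i1 i2 =>
    simp only [wt] at hW
    intro d s hs g hg hk
    refine WP.ifP (fun h => ?_) fun h => ?_
    · rw [hg.hq] at h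
      simp only [Str, Tm.evA, h, if_true] at he ⊢
      exact (i1 q _ (s1 hS).1 (by omega) he hq j y hy).mono (by simp only [wt]; omega) d s hs g hg hk
    · rw [hg.hq] at h
      simp only [Str, Tm.evA, h] at he ⊢
      exact (i2 q _ (s1 hS).2 (by omega) he hq j y hy).mono (by simp only [wt]; omega) d s hs g hg hk
  | alt p e₁ e₂ i1 i2 =>
    simp only [wt] at hW
    exact tsp_alt ((s1 hS).1 (mem_subs _)) ((s1 hS).2 (mem_subs _))
      (i1 q _ (s1 hS).1 (by omega) he.1 hq j y hy) (i2 q _ (s1 hS).2 (by omega) he.2 hq j y hy)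
      (ok he.1 j y).inj (ok he.2 j y).inj
  | call t F sv rs =>
    obtain ⟨rfl, h1, h2, -, b, h3, h4⟩ := he
    obtain ⟨w1, w2, -⟩ := U.wf t _ h1
    obtain ⟨r', hr'⟩ : ∃ r', U.P.pot t U.a (F U.a q) = r' + U.P.sz t U.a (F U.a q) + 1 :=
      ⟨U.P.pot t U.a (F U.a q) - U.P.sz t U.a (F U.a q) - 1, by omega⟩
    have ih := ihf _ _ r' _ _ (U.hS t) (U.hW t) (hr' ▸ w2) (by omega) (U.hadm t _ h1) j y hy
    intro d s hs g hg hk
    have k1 := U.cst_ge r j (g (cv 2)) n (w := 1) le_rfl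
    have c := U.cst_call (j := j) (t := g (cv 2)) (n := n) (U.hW t)
      (show r' + U.P.sz t U.a (F U.a q) + 1 + b ≤ r by omega)
    have p1 : 2 ^ b ≤ 2 ^ (b + n + 2) := Nat.pow_le_pow_right (by norm_num) (by omega)
    have p2 : n < 2 ^ (b + n + 2) :=
      Nat.lt_two_pow_self.trans_le (Nat.pow_le_pow_right (by norm_num) (by omega))
    have a1 := (hg.putQ (F U.a q)).upN (U.P.sz t U.a (F U.a q))
    refine WP.seq (wp_setL (by rw [hg.hq]) (h3.le.trans ((pow_le_cap' (c := 1) (z := b) (by omega)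
      (by simp only [wt] at hk; omega) (by omega)).trans U.hV)) (WP.seq (wp_setL hg.hn
      (le_V (by simp only [wt] at hk; omega)) (WP.seq (wp_setQ (by rw [hg.hq]) (U.hadm t _ h1)
      (WP.seq (wp_setG (v := U.P.sz t U.a (F U.a q)) (by rw [(hg.putQ _).hq])
        (le_V (by simp only [wt] at hk; omega)) ?_)))))))
    have := ih.cal (U.hS t (mem_subs _)) d hs a1 (by simp only [wt] at hk; simpa using by omega)
      (update_lt (update_lt (ini_lt (md_le (U.P.mvp t) d) (by omega)) (h3.trans_le p1) 10) p2 14)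
      (f := fun _ _ l => ini (l 7)) (by simp [ini])
    refine (this.cost (by simpa [wt] using c)).seq' ?_
    rintro g1 _ ⟨⟨r1, t1, e1⟩, rfl⟩
    refine WP.seq (wp_setG (update_self _ _ _) (le_V (by simp only [wt] at hk; omega))
      (wp_setQ (q := q) ?_ hq ⟨(r1.upN n).putQ q, by simpa using t1, by simpa [Tm.evA, apx] using e1⟩))
    rw [(r1.upN n).hq, update_of_ne (by decide), update_self, h2]

end Sp.Env

open Sp

variable {A : Type} [Enc A α] {B : Bud A}

omit [DecidableEq σ] in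
theorem Sp.sp_sum {f : α → σ → ℕ} (hf : ∀ r, SP B fun a => f a r) : SP B fun a => ∑ r, f a r := by
  classical
  induction (univ : Finset σ) using Finset.induction_on with
  | empty => exact (SP.const 0).congr fun _ => by simp
  | insert r I hr ih => exact ((hf r).add ih).congr fun _ => by rw [sum_insert hr]

theorem Sp.pbd_two_pow_add {f g : α → ℕ} (hf : PBd B fun a => 2 ^ f a)
    (hg : PBd B fun a => 2 ^ g a) : PBd B fun a => 2 ^ (f a + g a) :=
  (hf.mul hg).mono fun _ => (pow_add _ _ _).le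

theorem Sp.pbd_two_pow_mul (c : ℕ) {f : α → ℕ} (hf : PBd B fun a => 2 ^ f a) :
    PBd B fun a => 2 ^ (c * f a) := (hf.pow c).mono fun _ => by rw [← pow_mul, mul_comm]

/-- **The space theorem**: the approximations are computable. -/
theorem Pg.space_thm [Fintype κ] [Finite τ] (P : Pg α σ κ τ) (hP : P.IsSP B) (t₀ : τ)
    (hm : P.mvp t₀ = false) {q₀ : α → κ → ℕ} {p₀ j₀ T₀ V : α → ℕ} (hq : SP B q₀) (hp : SP B p₀)
    (hj : SP B j₀) (hT : SP B T₀) (hp' : PBd B fun a => 2 ^ p₀ a) (hj' : PBd B fun a => 2 ^ j₀ a)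
    (hT' : PBd B fun a => 2 ^ T₀ a) (hV : PBd B V)
    (h : ∀ (x : List A) (a : α), Enc.ok x a → P.WF a ∧ P.adm t₀ a (q₀ a) ∧
      P.pot t₀ a (q₀ a) ≤ p₀ a ∧ ∀ t q, P.adm t a q → ∀ x, q x ≤ V a) :
    ∃ r : α × (σ → ℕ) × ℕ → ℤ, ZSP B r ∧ ∀ (x : List A) (a : α), Enc.ok x a → ∀ s ∈ P.box a,
      ∀ y < nD ^ j₀ a, r (a, s, y) = (P.apx a (p₀ a + 1) t₀ (q₀ a) (j₀ a) y).ap s (T₀ a) := by
  classical
  obtain ⟨W, hW⟩ := (Set.finite_range fun t => wt (P.body t)).bddAbove
  obtain ⟨Z, rfl⟩ := exists_con W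
  let S : Set (Tm α σ κ τ) := ⋃ t, subs (P.body t)
  have : Finite S := (Set.finite_iUnion fun t => subs_finite _).to_subtype
  let nm : Tm α σ κ τ → Option S := fun e => if h : e ∈ S then some ⟨e, h⟩ else none
  let k₀ : α → ℕ := fun a => (Z.C + Z.W) * p₀ a + Z.bj * j₀ a + (Z.fr + 1) * T₀ a + 5
  let cap : α → ℕ := fun a => 2 ^ (Z.bj * (k₀ a + 1))
  let V' : α → ℕ := fun a => V a + cap a + ∑ r, P.bd a r
  have hk : PBd B fun a => 2 ^ k₀ a := pbd_two_pow_add (pbd_two_pow_add (pbd_two_pow_add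
    (pbd_two_pow_mul _ hp') (pbd_two_pow_mul _ hj')) (pbd_two_pow_mul _ hT')) (PBd.const _)
  have hcap : SP B cap := F43.sp_pow (SP.const 2) ((SP.const _).mul ((((((SP.const _).mul hp).add
    ((SP.const _).mul hj)).add ((SP.const _).mul hT)).add (SP.const 5)).add (SP.const 1)))
    (pbd_two_pow_mul _ (pbd_two_pow_add hk (PBd.const _)))
  let ok : α × (σ → ℕ) × ℕ → Prop := fun z =>
    (∑ r, if z.2.1 r < P.bd z.1 r then 0 else 1) = 0 ∧ z.2.2 ≤ cap z.1
  have hok : SP B fun z => decide (ok z) := SP.decide_and ((sp_sum fun r => SP.ite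
    ((sp_app SP.snd'.fst r).decide_lt (sp_app (hP.bd.comp SP.fst') r)) (SP.const 0)
    (SP.const 1)).decide_eq (SP.const 0)) (SP.snd'.snd.decide_le (hcap.comp SP.fst'))
  have ok_iff : ∀ z, ok z ↔ z.2.1 ∈ P.box z.1 ∧ z.2.2 ≤ cap z.1 := fun z => by
    simp [ok, mem_box, sum_eq_zero_iff]
  let body : Option S → Prog (α × (σ → ℕ) × ℕ) (GV κ σ) Loc (Option S) := fun o => o.elim
    (ifP (fun z _ _ => ok z) (readP (cv 2) (cv 3) (fun z => cap z.1) 11 12 13 (fun z _ _ => T₀ z.1)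
      (cT nm (P.body t₀) 2)) skip) fun e => comp nm cap P e.1
  let res : α × (σ → ℕ) × ℕ → ℕ := fun z => if ok z then
    enZ ((P.apx z.1 (p₀ z.1 + 1) t₀ (q₀ z.1) (j₀ z.1) z.2.2).ap z.2.1 (T₀ z.1)) else 0
  let g₀ : α × (σ → ℕ) × ℕ → GV κ σ → ℕ := fun z => Sum.elim (q₀ z.1) (Sum.elim
    (fun r => if ok z then z.2.1 r else 0) fun i => if i = 0 then j₀ z.1 else if i = 1 then
      (if ok z then z.2.2 else 0) else if i = 4 then P.sz t₀ z.1 (q₀ z.1) else 0)
  have hres : SP B res := by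
    refine sp_of_wp (body := body) (g0 := g₀) (l0 := fun _ => ini 0) (V := fun z => V' z.1)
      (K := fun z => k₀ z.1) ?_ none (cv 3) (sp_vec ?_) (sp_ini (SP.const 0))
      (((hV.add hcap.pbd).add (sp_sum (sp_app hP.bd)).pbd).comp SP.fst') (hk.comp SP.fst') ?_
    · rintro (_ | ⟨e, he⟩)
      · simp only [body, Option.elim]
        refine isSP_ifP ?_ (isSP_readP (hcap.comp SP.fst') ?_ (isSP_cT _ _)) isSP_skip
        exacts [hok.comp SP.fst', hT.comp SP.fst'.fst]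
      · obtain ⟨t, ht⟩ := Set.mem_iUnion.1 he
        exact isSP_comp hcap hP e (isSP_subs (hP.body t) e ht)
    · rintro (x | r | i)
      · exact sp_app (hq.comp SP.fst') x
      · exact SP.ite hok (sp_app SP.snd'.fst r) (SP.const 0)
      · exact SP.ite (SP.const _) (hj.comp SP.fst') (SP.ite (SP.const _)
          (SP.ite hok SP.snd'.snd (SP.const 0)) (SP.ite (SP.const _)
            ((hP.sz t₀).comp (SP.fst'.pair (hq.comp SP.fst'))) (SP.const 0)))
    rintro x ⟨a, s, y⟩ hx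
    obtain ⟨wf, h1, h2, h3⟩ := h x a hx.1
    obtain ⟨w1, w2, -⟩ := wf t₀ _ h1
    let U : Env α ((σ → ℕ) × ℕ) σ κ τ (Option S) :=
      { Z with
        P := P, a := a, b := (s, y), body := body, nm := nm, cap := cap, V := V' a, k₀ := k₀ a
        S := S, wf := wf
        hnm := fun e he => by simp only [nm, dif_pos he, body, Option.elim]
        hS := Set.subset_iUnion fun t => subs (P.body t)
        hW := fun t => hW ⟨t, rfl⟩
        hcap := le_rfl
        hV := by simp only [V']; omega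
        hbd := fun r => (single_le_sum (f := P.bd a) (fun _ _ => Nat.zero_le _) (mem_univ r)).trans
          (Nat.le_add_left _ _)
        hadm := fun t q hq x => (h3 t q hq x).trans (by simp only [V']; omega) }
    obtain ⟨r, hr⟩ : ∃ r, P.pot t₀ a (q₀ a) = r + P.sz t₀ a (q₀ a) + 1 :=
      ⟨P.pot t₀ a (q₀ a) - P.sz t₀ a (q₀ a) - 1, by omega⟩
    have c1 : ∀ t, Z.cst r (j₀ a) t (wt (P.body t₀)) (P.sz t₀ a (q₀ a)) ≤
        Z.C * p₀ a + Z.bj * j₀ a + Z.fr * t := fun t => by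
      have := Z.cst_call (r := p₀ a) (r' := r) (j := j₀ a) (t := t) (n := 0) (b := 0)
        (n' := P.sz t₀ a (q₀ a)) (U.hW t₀) (by omega)
      have a1 : Z.D * (wt (P.body t₀) * (P.sz t₀ a (q₀ a) + 1)) ≤ Z.C * (P.sz t₀ a (q₀ a) + 1) := by
        rw [← mul_assoc]
        exact Nat.mul_le_mul_right _ ((Nat.mul_le_mul_left _ (U.hW t₀)).trans
          (Nat.le_of_succ_le Z.hC))
      have a2 : Z.C * (r + (P.sz t₀ a (q₀ a) + 1)) ≤ Z.C * p₀ a := Nat.mul_le_mul_left _ (by omega)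
      rw [mul_add] at a2
      unfold Con.cst
      omega
    have e0 : k₀ a = Z.C * p₀ a + Z.W * p₀ a + Z.bj * j₀ a + (Z.fr * T₀ a + T₀ a) + 5 := by
      simp only [k₀]
      ring
    have a1 : 1 * j₀ a ≤ Z.bj * j₀ a := Nat.mul_le_mul_right _ (by have := Z.bj_ge; omega)
    have a2 : 1 * p₀ a ≤ Z.C * p₀ a := Nat.mul_le_mul_right _ (by have := Z.hC; omega)
    have a3 : P.sz t₀ a (q₀ a) * Z.W ≤ Z.W * p₀ a := by
      rw [mul_comm]; exact Nat.mul_le_mul_left _ (by omega)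
    refine ⟨?_, fun z => by simp [ini], ?_⟩
    rotate_left
    simp only [body, Option.elim]
    refine WP.ifP (fun ho => ?_) fun ho => WP.skip ?_
    rotate_right
    · rintro (x | r | i)
      · exact U.hadm _ _ h1 x
      · simp only [g₀, Sum.elim_inr, Sum.elim_inl]
        split_ifs with ho
        exacts [U.box_le ((ok_iff _).1 ho).1 r, Nat.zero_le _]
      · simp only [g₀, Sum.elim_inr]
        split_ifs with _ _ ho
        exacts [U.le_V (show _ ≤ k₀ a + 1 by omega), ((ok_iff _).1 ho).2.trans U.hV, Nat.zero_le _,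
          U.le_V (show _ ≤ k₀ a + 1 by omega), Nat.zero_le _]
    · obtain ⟨hs, hy⟩ := (ok_iff _).1 ho
      have sp := U.tsp (p₀ a) _ _ r _ _ (U.hS t₀) (U.hW t₀) (hr ▸ w2) (by omega) (U.hadm _ _ h1)
        (j₀ a) y (hy.trans U.hV)
      have o := evA_ok (apx_ok wf (p₀ a)) w2 (j₀ a) y
      rw [hm] at sp
      refine (wp_readP (R := At (q₀ a) s (j₀ a) y (P.sz t₀ a (q₀ a))) (T := T₀ a) (w0 := 0)
        (g := g₀ (a, s, y)) (K := fun t => Z.cst r (j₀ a) t (wt (P.body t₀)) (P.sz t₀ a (q₀ a)))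
        (c := P.sz t₀ a (q₀ a) * Z.W + 2) (by simp) (by decide) (by decide) (by decide)
        (fun _ _ h => h.upT _) (fun _ _ h => h.upR _)
        (dig_le (o.apx s hs) (U.bd_mono o (U.hW t₀) hs) le_rfl)
        (fun g' l' b h' ht _ hb => sp.num (U.hS t₀ (mem_subs _)) hs h' ((c1 _).trans ?_) hb)
        (fun _ _ => rfl) (U.pow_le_cap' (c := 1) (z := k₀ a) (by omega) (Nat.le_succ _) (by omega))
        U.hV (Nat.zero_le _) (fun δ hδ => ?_) (fun z _ _ _ => by simp [ini]) Nat.one_pos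
        ⟨rfl, funext fun r => if_pos ho, rfl, if_pos ho, rfl⟩).mono fun g' _ h' => ?_
      · have := Nat.mul_le_mul_left Z.fr ht
        show _ ≤ k₀ a
        omega
      · have := c1 (T₀ a - δ)
        have := Nat.mul_le_mul_left Z.fr (Nat.sub_le (T₀ a) δ)
        show _ ≤ k₀ a
        omega
      · exact h'.2.2.1.trans (if_pos ho).symm
    · exact (if_neg ho).symm
  refine ⟨fun z => deZ (res z), ZSP.deZ hres, fun x a _ s hs y hy => ?_⟩
  have : ok (a, s, y) := (ok_iff _).2 ⟨hs, hy.le.trans (by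
    rw [nD_eq, ← pow_mul]
    refine Nat.pow_le_pow_right (by norm_num) (Nat.mul_le_mul (by have := Z.bj_ge; omega) ?_)
    have : 1 * j₀ a ≤ Z.bj * j₀ a := Nat.mul_le_mul_right _ (by have := Z.bj_ge; omega)
    simp only [k₀]
    omega)⟩
  simp only [res, if_pos this, deZ_enZ]

end Vale.Agent.P313.Full
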