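import Vale.Agent.P313.Full.DslBasic

/-!
Programs for injective moves which may fail: composition, first candidate, class, tower.
-/

namespace Vale.Agent.P313.Full.Sp

open Function Finset Vale.Agent.Lib.Space Prog

variable {α ι ρ β : Type} [DecidableEq ι]

/-- The result of a move: one for success. -/
def bv (o : Option β) : ℕ := if o.isSome then 1 else 0

@[simp] theorem bv_none : bv (none : Option β) = 0 := rfl

@[simp] theorem bv_some (s : β) : bv (some s) = 1 := rfl

theorem bv_le (o : Option β) : bv o ≤ 1 := by cases o <;> simp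

theorem bv_map {γ : Type} (o : Option β) (f : β → γ) : bv (o.map f) = bv o := by cases o <;> rfl

theorem first_some {N u : ℕ} {f : ℕ → Option β} (hu : u < N) (h1 : (f u).isSome)
    (h2 : ∀ u' < u, f u' = none) : first N f = some u := by
  rw [first, List.find?_range_eq_some]
  exact ⟨h1, List.mem_range.2 hu, fun j hj => by simp [h2 j hj]⟩

theorem first_none {N : ℕ} {f : ℕ → Option β} (h : ∀ u < N, f u = none) : first N f = none := by
  rw [first, List.find?_range_eq_none]
  exact fun j hj => by simp [h j hj]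

theorem of_first {N u : ℕ} {f : ℕ → Option β} (h : first N f = some u) : u < N ∧ (f u).isSome := by
  rw [first, List.find?_range_eq_some] at h
  exact ⟨List.mem_range.1 h.2.1, h.1⟩

section progs

variable (ret : ι)

/-- Run `A` and `B`; if `B` fails, undo `A` by `A'`. -/
def sqP (A B A' : Prog α ι Loc ρ) : Prog α ι Loc ρ :=
  .seq A (ifP (fun _ g _ => g ret = 1)
    (.seq B (ifP (fun _ g _ => g ret = 1) skip (.seq A' (setG ret fun _ _ _ => 0)))) skip)

/-- Search the first successful candidate. -/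
def firstP (N : α → (ι → ℕ) → ℕ) (y : Loc) (c : Prog α ι Loc ρ) : Prog α ι Loc ρ :=
  seqs [setL y (fun _ _ _ => 0), setG ret (fun _ _ _ => 0),
    whP (fun a g l => g ret = 0 ∧ l y < N a g)
      (.seq c (ifP (fun _ g _ => g ret = 0) (setL y fun _ _ l => l y + 1) skip))]

variable (N : α → (ι → ℕ) → ℕ) (c : Bool → Loc → Prog α ι Loc ρ)

/-- Search the first successful candidate and go back. -/
def tstP (d : Bool) : Prog α ι Loc ρ :=
  .seq (firstP ret N 9 (c d 9)) (ifP (fun _ g _ => g ret = 1) (c (!d) 9) skip)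

/-- One class of the tower; `r` is the rest of the tower. -/
def topP (r : Bool → Prog α ι Loc ρ) (d : Bool) : Prog α ι Loc ρ :=
  .seq (firstP ret N 8 (c d 8)) (ifP (fun _ g _ => g ret = 1)
    (.seq (tstP ret N c (!d)) (ifP (fun _ _ l => l 9 = l 8) skip
      (.seq (c (!d) 8) (setG ret fun _ _ _ => 0))))
    (seqs [setL 8 (fun _ _ _ => 0), r d, ifP (fun _ g _ => g ret = 1)
      (seqs [tstP ret N c (!d), setL 9 (fun _ _ _ => 0), ifP (fun _ g _ => g ret = 1)
        (.seq (r (!d)) (setG ret fun _ _ _ => 0)) (setG ret fun _ _ _ => 1)]) skip]))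

end progs

section sp

variable {A : Type} [Enc A α] [Fintype ι] {B : Bud A} {ret : ι} {N : α → (ι → ℕ) → ℕ}
  {c : Bool → Loc → Prog α ι Loc ρ}

omit [DecidableEq ι] in
theorem sp_ret (ret : ι) (n : ℕ) : SP B fun z : α × PSt ι Loc => decide (z.2.1 ret = n) :=
  (sp_app SP.snd'.fst ret).decide_eq (SP.const n)

theorem isSP_sqP {p q r : Prog α ι Loc ρ} (hp : p.IsSP B) (hq : q.IsSP B) (hr : r.IsSP B) :
    (sqP ret p q r).IsSP B :=
  ⟨hp, sp_ret ret 1, ⟨hq, sp_ret ret 1, isSP_skip, hr, isSP_setG (SP.const 0)⟩, isSP_skip⟩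

theorem isSP_firstP (hN : SP B fun z : α × (ι → ℕ) => N z.1 z.2) (y : Loc) {p : Prog α ι Loc ρ}
    (hp : p.IsSP B) : (firstP ret N y p).IsSP B :=
  ⟨isSP_setL (SP.const 0), isSP_setG (SP.const 0), isSP_whP (SP.decide_and (sp_ret ret 0)
    ((sp_app SP.snd'.snd y).decide_lt (hN.comp (SP.fst'.pair SP.snd'.fst))))
    ⟨hp, sp_ret ret 0, isSP_setL ((sp_app SP.snd'.snd y).add (SP.const 1)), isSP_skip⟩⟩

theorem isSP_tstP (hN : SP B fun z : α × (ι → ℕ) => N z.1 z.2) (hc : ∀ d y, (c d y).IsSP B)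
    (d : Bool) : (tstP ret N c d).IsSP B :=
  ⟨isSP_firstP hN _ (hc _ _), sp_ret ret 1, hc _ _, isSP_skip⟩

theorem isSP_topP (hN : SP B fun z : α × (ι → ℕ) => N z.1 z.2) (hc : ∀ d y, (c d y).IsSP B)
    {r : Bool → Prog α ι Loc ρ} (hr : ∀ d, (r d).IsSP B) (d : Bool) : (topP ret N c r d).IsSP B :=
  ⟨isSP_firstP hN _ (hc _ _), sp_ret ret 1, ⟨isSP_tstP hN hc _,
    (sp_app SP.snd'.snd 9).decide_eq (sp_app SP.snd'.snd 8), isSP_skip, hc _ _,
    isSP_setG (SP.const 0)⟩, isSP_setL (SP.const 0), hr _, sp_ret ret 1, ⟨isSP_tstP hN hc _,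
    isSP_setL (SP.const 0), sp_ret ret 1, ⟨hr _, isSP_setG (SP.const 0)⟩, isSP_setG (SP.const 1)⟩,
    isSP_skip⟩

end sp

/-- The program makes the move `o` from the state `s`; if the move fails, it stays in `s`. -/
def MvSp (body : ρ → Prog α ι Loc ρ) (a : α) (V : ℕ) (ret : ι) (R : β → (ι → ℕ) → Prop)
    (p : Prog α ι Loc ρ) (k : ℕ) (s : β) (o : Option β) (l : Loc → ℕ) : Prop :=
  ∀ g, R s g → WP body a V p k (fun g' l' => R (o.getD s) g' ∧ g' ret = bv o ∧ l' = l) g l

variable {body : ρ → Prog α ι Loc ρ} {a : α} {V k : ℕ} {ret : ι} {R : β → (ι → ℕ) → Prop}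
  {s : β} {l : Loc → ℕ}

omit [DecidableEq ι] in
theorem MvSp.cost {p : Prog α ι Loc ρ} {o : Option β} {k' : ℕ} (h : MvSp body a V ret R p k s o l)
    (hk : k ≤ k') : MvSp body a V ret R p k' s o l := fun g hg => (h g hg).cost hk

omit [DecidableEq ι] in
theorem MvSp.congr {p : Prog α ι Loc ρ} {o o' : Option β} (h : MvSp body a V ret R p k s o l)
    (e : o = o') : MvSp body a V ret R p k s o' l := e ▸ h

theorem MvSp.sq (hR : ∀ s g n, R s g → R s (update g ret n)) {A B A' : Prog α ι Loc ρ}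
    {o : Option β} {f : β → Option β} (hA : MvSp body a V ret R A k s o l)
    (hB : ∀ s', o = some s' → MvSp body a V ret R B k s' (f s') l ∧
      MvSp body a V ret R A' k s' (some s) l) :
    MvSp body a V ret R (sqP ret A B A') k s (o.bind f) l := by
  intro g hg
  refine (hA g hg).seq' ?_
  rintro g1 l1 ⟨r1, e1, rfl⟩
  cases o with
  | none => exact WP.ifF (by simp [e1]) (WP.skip ⟨r1, e1, rfl⟩)
  | some s' =>
    refine WP.ifT e1 (((hB s' rfl).1 g1 r1).seq' ?_)
    rintro g2 l2 ⟨r2, e2, rfl⟩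
    rw [Option.bind_some]
    cases h : f s' with
    | some s'' =>
      rw [h] at r2 e2
      exact WP.ifT e2 (WP.skip ⟨r2, e2, rfl⟩)
    | none =>
      rw [h] at r2 e2
      refine WP.ifF (by simp [e2]) (((hB s' rfl).2 g2 r2).seq' ?_)
      rintro g3 l3 ⟨r3, -, rfl⟩
      exact WP.setG (Nat.zero_le _) ⟨hR _ _ _ r3, update_self _ _ _, rfl⟩

/-- A test which does not move. -/
theorem MvSp.test (hR : ∀ s g n, R s g → R s (update g ret n)) (hV : 1 ≤ V)
    {e : α → (ι → ℕ) → (Loc → ℕ) → ℕ} {p : Prop} [Decidable p]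
    (he : ∀ g, R s g → e a g l = if p then 1 else 0) :
    MvSp body a V ret R (setG ret e) k s (if p then some s else none) l := by
  intro g hg
  refine WP.setG (by rw [he g hg]; split_ifs <;> omega) ?_
  rw [he g hg]
  split_ifs
  · exact ⟨hR _ _ _ hg, update_self _ _ _, rfl⟩
  · exact ⟨hR _ _ _ hg, update_self _ _ _, rfl⟩

omit [DecidableEq ι] in
/-- A move in other coordinates. -/
theorem MvSp.conj {R' : β → (ι → ℕ) → Prop} {en p lv : Prog α ι Loc ρ} {s₁ : β} {o : Option β}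
    {f : β → β} {l₁ : Loc → ℕ} (hf : f s₁ = s)
    (h1 : ∀ g, R s g → WP body a V en k (fun g' l' => R' s₁ g' ∧ l' = l₁) g l)
    (h2 : MvSp body a V ret R' p k s₁ o l₁)
    (h3 : ∀ g, R' (o.getD s₁) g → WP body a V lv k
      (fun g' l' => R (f (o.getD s₁)) g' ∧ g' ret = g ret ∧ l' = l) g l₁) :
    MvSp body a V ret R (seqs [en, p, lv]) k s (o.map f) l := by
  intro g hg
  refine (h1 g hg).seq' ?_
  rintro g1 l1 ⟨r1, rfl⟩
  refine (h2 g1 r1).seq' ?_
  rintro g2 l2 ⟨r2, e2, rfl⟩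
  refine (h3 g2 r2).mono fun g3 l3 h => ⟨?_, by rw [h.2.1, e2, bv_map], h.2.2⟩
  cases o with
  | none => exact hf ▸ h.1
  | some s' => exact h.1

theorem wp_firstP (hR : ∀ s g n, R s g → R s (update g ret n)) {N : α → (ι → ℕ) → ℕ} {N₀ : ℕ}
    (hN : ∀ g, R s g → N a g = N₀) (hV : N₀ ≤ V) {y : Loc} {c : Prog α ι Loc ρ}
    {ac : ℕ → Option β} (hc : ∀ u < N₀, MvSp body a V ret R c k s (ac u) (update l y u))
    {g : ι → ℕ} (hg : R s g) : WP body a V (firstP ret N y c) k
      (fun g' l' => R (((first N₀ ac).bind ac).getD s) g' ∧ g' ret = bv (first N₀ ac) ∧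
        l' = update l y ((first N₀ ac).getD N₀)) g l := by
  refine WP.seq (WP.setL (Nat.zero_le _) (WP.seq (WP.setG (Nat.zero_le _) ?_)))
  refine WP.wh (fun g l' => ∃ u ≤ N₀, l' = update l y u ∧ (∀ u' < u, ac u' = none) ∧
      ((g ret = 0 ∧ R s g) ∨ (u < N₀ ∧ (ac u).isSome ∧ g ret = 1 ∧ R ((ac u).getD s) g)))
    (fun g l' => if g ret = 0 then N₀ + 1 - l' y else 0)
    ⟨0, Nat.zero_le _, rfl, by simp, .inl ⟨update_self _ _ _, hR _ _ _ hg⟩⟩ ?_ ?_
  · rintro g _ ⟨u, -, rfl, h1, h2⟩ ⟨h3, h4⟩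
    obtain ⟨-, r⟩ := h2.resolve_right fun h => by omega
    rw [update_self, hN g r] at h4
    refine (hc u h4 g r).seq' ?_
    rintro g1 _ ⟨r1, e1, rfl⟩
    cases h : ac u with
    | none =>
      rw [h] at r1 e1
      refine WP.ifT e1 (WP.setL (by rw [update_self]; omega) ⟨⟨u + 1, h4, by simp, ?_,
        .inl ⟨e1, r1⟩⟩, ?_⟩)
      · intro u' hu'
        rcases Nat.lt_succ_iff_lt_or_eq.1 hu' with h' | rfl
        · exact h1 u' h'
        · exact h
      · rw [if_pos (show g1 ret = 0 from e1), if_pos h3]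
        simp only [update_self]
        omega
    | some s' =>
      have e1' : g1 ret = 1 := by simpa [h] using e1
      refine WP.ifF (by omega) (WP.skip ⟨⟨u, h4.le, rfl, h1, .inr ⟨h4, by simp [h], e1', r1⟩⟩, ?_⟩)
      rw [if_neg (by omega), if_pos h3, update_self]
      omega
  · rintro g _ ⟨u, hu, rfl, h1, ⟨e, r⟩ | ⟨h2, h3, e, r⟩⟩ h4
    · rw [update_self, hN g r] at h4
      obtain rfl : u = N₀ := by omega
      rw [first_none h1]
      exact ⟨r, e, rfl⟩
    · rw [first_some h2 h3 h1]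
      exact ⟨r, e, rfl⟩

/-- The specification of the programs for the candidates. -/
structure CandSp (body : ρ → Prog α ι Loc ρ) (a : α) (V : ℕ) (ret : ι) (R : β → (ι → ℕ) → Prop)
    (N : α → (ι → ℕ) → ℕ) (c : Bool → Loc → Prog α ι Loc ρ) (k N₀ : ℕ)
    (ac : ℕ → Bool → β → Option β) (Bx : β → Prop) (L : (Loc → ℕ) → Prop) : Prop where
  hR : ∀ s g n, R s g → R s (update g ret n)
  hN : ∀ s g, R s g → N a g = N₀
  hV : N₀ < V
  up : ∀ l y u, L l → y = 8 ∨ y = 9 → u ≤ N₀ → L (update l y u)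
  inv : ∀ u < N₀, ∀ d s s', Bx s → ac u d s = some s' → Bx s' ∧ ac u (!d) s' = some s
  sp : ∀ d y, y = 8 ∨ y = 9 → ∀ s l, Bx s → L l → l y < N₀ →
    MvSp body a V ret R (c d y) k s (ac (l y) d s) l

variable {σ : Type} {N : α → (ι → ℕ) → ℕ} {c : Bool → Loc → Prog α ι Loc ρ} {N₀ : ℕ}
  {R : (σ → ℕ) → (ι → ℕ) → Prop} {s : σ → ℕ} {ac : ℕ → Bool → (σ → ℕ) → Option (σ → ℕ)}
  {Bx : (σ → ℕ) → Prop} {L : (Loc → ℕ) → Prop}

theorem CandSp.first (h : CandSp body a V ret R N c k N₀ ac Bx L) (d : Bool) {y : Loc}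
    (hy : y = 8 ∨ y = 9) (hs : Bx s) (hl : L l) {g : ι → ℕ} (hg : R s g) :
    WP body a V (firstP ret N y (c d y)) k
      (fun g' l' => R (((first N₀ fun u => ac u d s).bind fun u => ac u d s).getD s) g' ∧
        g' ret = bv (first N₀ fun u => ac u d s) ∧
        l' = update l y ((first N₀ fun u => ac u d s).getD N₀)) g l :=
  wp_firstP h.hR (h.hN s) h.hV.le (fun u hu => by
    have := h.sp d y hy s _ hs (h.up l y u hl hy hu.le) (by rwa [update_self])
    rwa [update_self] at this) hg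

theorem CandSp.tst (h : CandSp body a V ret R N c k N₀ ac Bx L) (d : Bool) (hs : Bx s) (hl : L l)
    {g : ι → ℕ} (hg : R s g) : WP body a V (tstP ret N c d) k
      (fun g' l' => R s g' ∧ g' ret = bv (Full.first N₀ fun u => ac u d s) ∧
        l' = update l 9 ((Full.first N₀ fun u => ac u d s).getD N₀)) g l := by
  refine (h.first d (.inr rfl) hs hl hg).seq' ?_
  rintro g1 _ ⟨r1, e1, rfl⟩
  cases hf : Full.first N₀ fun u => ac u d s with
  | none =>
    rw [hf] at r1 e1
    exact WP.ifF (by simp [e1]) (WP.skip ⟨r1, e1, rfl⟩)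
  | some u =>
    rw [hf] at r1 e1
    obtain ⟨hu, h1⟩ := of_first hf
    obtain ⟨s', h2⟩ := Option.isSome_iff_exists.1 h1
    obtain ⟨h3, h4⟩ := h.inv u hu d s s' hs h2
    rw [Option.bind_some, h2] at r1
    have := h.sp (!d) 9 (.inr rfl) s' _ h3 (h.up l 9 u hl (.inr rfl) hu.le) (by rwa [update_self])
    rw [update_self, h4] at this
    exact WP.ifT e1 (this g1 r1)

/-- **One class of the tower.** -/
theorem CandSp.top (h : CandSp body a V ret R N c k N₀ ac Bx L) {r : Bool → Prog α ι Loc ρ}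
    {T : Bool → (σ → ℕ) → Option (σ → ℕ)}
    (hT : ∀ d s s', Bx s → T d s = some s' → Bx s' ∧ T (!d) s' = some s)
    (hr : ∀ d s, Bx s → MvSp body a V ret R (r d) k s (T d s) l) (hl : L l) (h8 : l 8 = 0)
    (h9 : l 9 = 0) (d : Bool) (hs : Bx s) {o : Option (σ → ℕ)}
    (ho : o = if (Full.first N₀ fun u => ac u d s).isSome then cls N₀ ac d s
      else (T d s).bind fun s' =>
        if (Full.first N₀ fun u => ac u (!d) s').isSome then none else some s')
    {g : ι → ℕ} (hg : R s g) : WP body a V (topP ret N c r d) k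
      (fun g' _ => R (o.getD s) g' ∧ g' ret = bv o) g l := by
  refine (h.first d (.inl rfl) hs hl hg).seq' ?_
  rintro g1 _ ⟨r1, e1, rfl⟩
  cases hf : Full.first N₀ fun u => ac u d s with
  | some u =>
    rw [hf] at r1 e1
    obtain ⟨hu, h1⟩ := of_first hf
    obtain ⟨s', h2⟩ := Option.isSome_iff_exists.1 h1
    obtain ⟨h3, h4⟩ := h.inv u hu d s s' hs h2
    rw [Option.bind_some, h2] at r1
    rw [hf, if_pos Option.isSome_some, cls, hf, Option.bind_some, h2, Option.bind_some] at ho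
    have hl1 := h.up l 8 u hl (.inl rfl) hu.le
    refine WP.ifT e1 ((h.tst (!d) h3 hl1 r1).seq' ?_)
    rintro g2 _ ⟨r2, e2, rfl⟩
    refine WP.ifP (fun h5 => ?_) fun h5 => ?_
    · have h6 : (Full.first N₀ fun u => ac u (!d) s') = some u := by
        rw [update_self, update_of_ne (by decide), update_self] at h5
        cases h7 : Full.first N₀ fun u => ac u (!d) s' with
        | none => rw [h7, Option.getD_none] at h5; omega
        | some u' => rw [h7, Option.getD_some] at h5; rw [h5]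
      rw [if_pos h6] at ho
      rw [h6] at e2
      exact WP.skip ⟨ho ▸ r2, ho ▸ e2⟩
    · rw [if_neg fun h6 => h5 (by
        rw [h6, update_self, update_of_ne (by decide), Option.getD_some, update_self])] at ho
      have hb : (Full.first N₀ fun u => ac u (!d) s').getD N₀ ≤ N₀ := by
        cases h7 : Full.first N₀ fun u => ac u (!d) s' with
        | none => exact le_rfl
        | some u' => exact (of_first h7).1.le
      have := h.sp (!d) 8 (.inl rfl) s' _ h3 (h.up _ 9 _ hl1 (.inr rfl) hb)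
        (by rwa [update_of_ne (by decide), update_self])
      rw [update_of_ne (by decide), update_self, h4] at this
      refine (this g2 r2).seq' ?_
      rintro g3 _ ⟨r3, -, rfl⟩
      exact WP.setG (Nat.zero_le _) ⟨ho ▸ h.hR _ _ _ r3, ho ▸ update_self _ _ _⟩
  | none =>
    rw [hf] at r1 e1
    rw [hf, if_neg (by simp)] at ho
    refine WP.ifF (by simp [e1]) (WP.seq (WP.setL (Nat.zero_le _) ?_))
    rw [update_idem, update_eq_self_iff.2 h8.symm]
    refine (hr d s hs g1 r1).seq' ?_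
    rintro g2 _ ⟨r2, e2, rfl⟩
    cases h2 : T d s with
    | none =>
      rw [h2] at r2 e2 ho
      exact WP.ifF (by simp [e2]) (WP.skip ⟨ho ▸ r2, ho ▸ e2⟩)
    | some s' =>
      rw [h2] at r2 e2
      rw [h2, Option.bind_some] at ho
      obtain ⟨h3, h4⟩ := hT d s s' hs h2
      refine WP.ifT e2 ((h.tst (!d) h3 hl r2).seq' ?_)
      rintro g3 _ ⟨r3, e3, rfl⟩
      refine WP.seq (WP.setL (Nat.zero_le _) ?_)
      rw [update_idem, update_eq_self_iff.2 h9.symm]
      cases h5 : Full.first N₀ fun u => ac u (!d) s' with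
      | none =>
        rw [h5] at e3
        rw [h5, if_neg (by simp)] at ho
        exact WP.ifF (by simp [e3]) (WP.setG (by have := h.hV; omega)
          ⟨ho ▸ h.hR _ _ _ r3, ho ▸ update_self _ _ _⟩)
      | some u =>
        rw [h5] at e3
        rw [h5, if_pos Option.isSome_some] at ho
        have := hr (!d) s' h3 g3 r3
        rw [h4] at this
        refine WP.ifT e3 (this.seq' ?_)
        rintro g4 _ ⟨r4, -, rfl⟩
        exact WP.setG (Nat.zero_le _) ⟨ho ▸ h.hR _ _ _ r4, ho ▸ update_self _ _ _⟩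

end Vale.Agent.P313.Full.Sp
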