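import Vale.Agent.P313.Full.DslSpA

/-!
The translation of the terms into recursive programs.
-/

namespace Vale.Agent.P313.Full.Sp

open Function Finset Vale.Agent.Lib.Space Prog

/-- The global variables: context, state, and budget, tape, precision, result, size. -/
abbrev GV (κ σ : Type) : Type := κ ⊕ σ ⊕ Fin 5

variable {α γ σ κ τ ρ : Type}

/-- The context. -/
def gq (g : GV κ σ → ℕ) : κ → ℕ := fun x => g (.inl x)

/-- The state. -/
def gs (g : GV κ σ → ℕ) : σ → ℕ := fun r => g (.inr (.inl r))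

/-- The control variables. -/
def cv (i : Fin 5) : GV κ σ := .inr (.inr i)

/-- Replace the state. -/
def putS (g : GV κ σ → ℕ) (s : σ → ℕ) : GV κ σ → ℕ := Sum.elim (gq g) (Sum.elim s fun i => g (cv i))

/-- Replace the context. -/
def putQ (g : GV κ σ → ℕ) (q : κ → ℕ) : GV κ σ → ℕ := Sum.elim q (Sum.elim (gs g) fun i => g (cv i))

/-- Assignment to the state. -/
def setS (f : γ → (GV κ σ → ℕ) → (Loc → ℕ) → σ → ℕ) : Prog γ (GV κ σ) Loc ρ :=
  .op fun a z => (putS z.1 (f a z.1 z.2), z.2)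

/-- Assignment to the context. -/
def setQ (f : γ → (GV κ σ → ℕ) → (Loc → ℕ) → κ → ℕ) : Prog γ (GV κ σ) Loc ρ :=
  .op fun a z => (putQ z.1 (f a z.1 z.2), z.2)

/-- The first local variables of a procedure: the mode `0`, `1` (direction) or `2` (number). -/
def ini (c : ℕ) : Loc → ℕ := fun y => if y = 7 then c else 0

/-- The case distinction on the direction. -/
def both (p : Bool → Prog γ (GV κ σ) Loc ρ) : Prog γ (GV κ σ) Loc ρ :=
  ifP (fun _ _ l => l 7 = 1) (p true) (p false)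

/-- The state of the child of an average, with a bound for the power. -/
def chc (v : View α σ κ) (a : α) (q : κ → ℕ) (c i u : ℕ) (s : σ → ℕ) : σ → ℕ :=
  if u < cpow c nD i then v.wk a q i u s else v.wk a q (i - 1) (u - cpow c nD i) s

/-- The way back from the child of an average. -/
def uhc (v : View α σ κ) (a : α) (q : κ → ℕ) (c i u : ℕ) (s : σ → ℕ) : σ → ℕ :=
  if u < cpow c nD i then v.uw a q i u s else v.uw a q (i - 1) (u - cpow c nD i) s

variable [DecidableEq κ] [DecidableEq σ] (nm : Tm α σ κ τ → ρ) (cap : α → ℕ)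

/-- The call of the procedure for a term. -/
def cT (e : Tm α σ κ τ) (c : ℕ) : Prog (α × γ) (GV κ σ) Loc ρ := cal (nm e) fun _ _ _ => ini c

/-- The code of a node with two children. -/
def code2 (s : ℕ) (Φ : α × γ → (GV κ σ → ℕ) → ℝ → ℝ → ℝ) (e₁ e₂ : Tm α σ κ τ) :
    NodeCode (α × γ) (GV κ σ) ρ :=
  ⟨cv 2, cv 3, fun a => cap a.1, s, 0, fun _ g => g (cv 4) + 1,
    fun _ g i => if i = g (cv 4) then 2 else 0, fun _ _ _ u => if u = 0 then 1 else 0,
    fun _ _ _ u => if u = 0 then 0 else 1, Φ, skip,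
    ifP (fun _ _ l => l 2 = 0) (cT nm e₁ 2) (cT nm e₂ 2), skip⟩

/-- The code of a sum. -/
def codeS (nl : α → (κ → ℕ) → ℕ) (x : κ) (e : Tm α σ κ τ) : NodeCode (α × γ) (GV κ σ) ρ :=
  ⟨cv 2, cv 3, fun a => cap a.1, Tm.sOf e.dp, 0, fun _ g => g (cv 4) + 1,
    fun a g i => if i = g (cv 4) then nl a.1 (gq g) else 0, fun _ _ _ _ => 1, fun _ _ _ _ => 0,
    fun _ _ y _ => y, setG (.inl x) fun _ _ l => l 2, cT nm e 2, setG (.inl x) fun _ _ _ => 0⟩

/-- The code of an average. -/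
noncomputable def codeA (v : View α σ κ) (e : Tm α σ κ τ) : NodeCode (α × γ) (GV κ σ) ρ :=
  ⟨cv 2, cv 3, fun a => cap a.1, Tm.sOf e.dp, 2 * lt, fun _ g => g (cv 4) + g (cv 0) + 1,
    fun a g i => if i < g (cv 4) then 0 else if i = g (cv 4) then 1 else
      cpow (cap a.1) nD (i - g (cv 4)) + cpow (cap a.1) nD (i - g (cv 4) - 1),
    fun a g i u => if u < cpow (cap a.1) nD (i - g (cv 4)) then
      (cpow (cap a.1) nD (g (cv 4) + 1) : ℕ) else -(cpow (cap a.1) nD (g (cv 4) + 2) : ℕ),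
    fun _ _ _ _ => 0, fun a g y _ => clp (cpow (cap a.1) 2 (g (cv 4) * e.dp) : ℕ) y,
    .seq (setS fun a g l => chc v a.1 (gq g) (cap a.1) (l 1 - g (cv 4)) (l 2) (gs g))
      (setG (cv 0) fun _ g l => g (cv 0) - (l 1 - g (cv 4))), cT nm e 2,
    .seq (setG (cv 0) fun _ g l => g (cv 0) + (l 1 - g (cv 4)))
      (setS fun a g l => uhc v a.1 (gq g) (cap a.1) (l 1 - g (cv 4)) (l 2) (gs g))⟩

/-- Read a test. -/
def rdP (e : Tm α σ κ τ) : Prog (α × γ) (GV κ σ) Loc ρ :=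
  .seq (readP (cv 2) (cv 3) (fun a => cap a.1) 11 12 13 (fun _ _ _ => 3) (cT nm e 2))
    (setG (cv 3) fun _ g _ => if 4 ≤ deZ (g (cv 3)) then 1 else 0)

/-- A candidate of a search; its number is in the local variable `z`. -/
def candP (v : View α σ κ) (nl : α → (κ → ℕ) → ℕ) (x : κ) (tF tB M : Tm α σ κ τ) (d : Bool)
    (z : Loc) : Prog (α × γ) (GV κ σ) Loc ρ :=
  seqs [.seq (setS fun a g l => v.wk a.1 (gq g) (g (cv 4) + 1) (l z / nl a.1 (gq g)) (gs g))
      (setG (.inl x) fun a g l => l z % nl a.1 (gq g)),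
    sqP (cv 3) (rdP nm cap (if d then tF else tB))
      (sqP (cv 3) (cT nm M d.toNat) (rdP nm cap (if d then tB else tF)) (cT nm M (!d).toNat))
      (setG (cv 3) fun _ _ _ => 1),
    .seq (setG (.inl x) fun _ _ _ => 0)
      (setS fun a g l => v.uw a.1 (gq g) (g (cv 4) + 1) (l z / nl a.1 (gq g)) (gs g))]

/-- The rest of the tower. -/
def restP (v : View α σ κ) (e : Tm α σ κ τ) (d : Bool) : Prog (α × γ) (GV κ σ) Loc ρ :=
  ifP (fun _ g _ => g (cv 0) = 0) (setG (cv 3) fun _ _ _ => 0)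
    (seqs [seqs [setL 10 fun _ g _ => g (cv 1) % nD, setG (cv 1) fun _ g _ => g (cv 1) / nD,
        setG (cv 0) fun _ g _ => g (cv 0) - 1, setS fun a g l => v.wk a.1 (gq g) 1 (l 10) (gs g)],
      cT nm e d.toNat,
      seqs [setS fun a g l => v.uw a.1 (gq g) 1 (l 10) (gs g), setG (cv 0) fun _ g _ => g (cv 0) + 1,
        setG (cv 1) fun _ g l => nD * g (cv 1) + l 10, setL 10 fun _ _ _ => 0]])

/-- A test of the state. -/
def chkP (p : α → (κ → ℕ) → (σ → ℕ) → Bool) (b : Bool) : Prog (α × γ) (GV κ σ) Loc ρ :=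
  setG (cv 3) fun a g _ => if p a.1 (gq g) (gs g) = b then 1 else 0

/-- The program for a term. -/
noncomputable def comp (P : Pg α σ κ τ) : Tm α σ κ τ → Prog (α × γ) (GV κ σ) Loc ρ
  | .loc f => setG (cv 3) fun a g _ => enZ (round ((cpow (cap a.1) 2 (g (cv 2)) : ℕ) *
      f a.1 (gq g) (gs g)) - if g (cv 2) = 0 then 0 else
        2 * round ((cpow (cap a.1) 2 (g (cv 2) - 1) : ℕ) * f a.1 (gq g) (gs g)))
  | .app Φ e₁ e₂ =>
    (code2 nm cap (Tm.sOf (e₁.dp + e₂.dp)) (fun a g => Φ a.1 (gq g) (gs g)) e₁ e₂).prog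
  | .guard e₁ e₂ => (code2 nm cap (Tm.sOf (e₁.dp + e₂.dp)) (fun a g y₁ y₂ =>
      clp (cpow (cap a.1) 2 (g (cv 4) * e₁.dp) : ℕ) y₁ *
        clp (cpow (cap a.1) 2 (g (cv 4) * e₂.dp) : ℕ) y₂) e₁ e₂).prog
  | .sum nl x e => (codeS nm cap nl x e).prog
  | .avg v e => (codeA nm cap v e).prog
  | .hop d M e => .seq (cT nm M d.toNat) (ifP (fun _ g _ => g (cv 3) = 1)
      (seqs [cT nm e 2, setL 10 fun _ g _ => g (cv 3), cT nm M (!d).toNat,
        setG (cv 3) fun _ _ l => l 10]) skip)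
  | .mloc dom map => both fun d => ifP (fun a g _ => dom d a.1 (gq g) (gs g) = true)
      (.seq (setS fun a g _ => map d a.1 (gq g) (gs g)) (setG (cv 3) fun _ _ _ => 1))
      (setG (cv 3) fun _ _ _ => 0)
  | .seq M₁ M₂ => both fun d => sqP (cv 3) (cT nm (if d then M₁ else M₂) d.toNat)
      (cT nm (if d then M₂ else M₁) d.toNat) (cT nm (if d then M₁ else M₂) (!d).toNat)
  | .search v nl x tF tB M => both (topP (cv 3)
      (fun a g => cpow (cap a.1) nD (g (cv 4) + 1) * nl a.1 (gq g)) (candP nm cap v nl x tF tB M)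
      (restP nm v (.search v nl x tF tB M)))
  | .cas c e₁ e₂ => ifP (fun a g _ => c a.1 (gq g) = true) (comp P e₁) (comp P e₂)
  | .alt p e₁ e₂ => ifP (fun _ _ l => l 7 = 2)
      (ifP (fun a g _ => p true a.1 (gq g) (gs g) = true) (comp P e₁) (comp P e₂))
      (both fun d => ifP (fun a g _ => p d a.1 (gq g) (gs g) = true)
        (sqP (cv 3) (cT nm e₁ d.toNat) (chkP (p (!d)) true) (cT nm e₁ (!d).toNat))
        (sqP (cv 3) (cT nm e₂ d.toNat) (chkP (p (!d)) false) (cT nm e₂ (!d).toNat)))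
  | .call t F sv rs => seqs [setL 10 fun a g _ => sv a.1 (gq g), setL 14 fun _ g _ => g (cv 4),
      setQ fun a g _ => F a.1 (gq g), setG (cv 4) fun a g _ => P.sz t a.1 (gq g),
      cal (nm (P.body t)) fun _ _ l => ini (l 7), setG (cv 4) fun _ _ l => l 14,
      setQ fun a g l => rs a.1 (gq g) (l 10)]

section sp

variable {A : Type} [Enc A α] [Enc A γ] [Fintype σ] [Fintype κ] {B : Bud A} {nm cap}

omit [DecidableEq κ] [DecidableEq σ]

theorem sp_gq {β : Type} [Enc A β] {g : β → GV κ σ → ℕ} (h : SP B g) : SP B fun a => gq (g a) :=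
  sp_vec fun x => sp_app h (.inl x)

theorem sp_gs {β : Type} [Enc A β] {g : β → GV κ σ → ℕ} (h : SP B g) : SP B fun a => gs (g a) :=
  sp_vec fun x => sp_app h (.inr (.inl x))

theorem isSP_setS {f : γ → (GV κ σ → ℕ) → (Loc → ℕ) → σ → ℕ}
    (h : SP B fun z : γ × PSt (GV κ σ) Loc => f z.1 z.2.1 z.2.2) :
    (setS f : Prog γ (GV κ σ) Loc ρ).IsSP B :=
  SP.pair (sp_vec fun x => by
    rcases x with x | x | x
    · exact sp_app SP.snd'.fst (Sum.inl x)
    · exact sp_app h x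
    · exact sp_app SP.snd'.fst (cv x)) SP.snd'.snd

theorem isSP_setQ {f : γ → (GV κ σ → ℕ) → (Loc → ℕ) → κ → ℕ}
    (h : SP B fun z : γ × PSt (GV κ σ) Loc => f z.1 z.2.1 z.2.2) :
    (setQ f : Prog γ (GV κ σ) Loc ρ).IsSP B :=
  SP.pair (sp_vec fun x => by
    rcases x with x | x | x
    · exact sp_app h x
    · exact sp_app SP.snd'.fst (Sum.inr (Sum.inl x))
    · exact sp_app SP.snd'.fst (cv x)) SP.snd'.snd

theorem sp_ini {β : Type} [Enc A β] {c : β → ℕ} (h : SP B c) : SP B fun a => ini (c a) :=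
  sp_vec fun y => by
    by_cases hy : y = 7
    · exact h.congr fun _ => by simp [ini, hy]
    · exact (SP.const 0).congr fun _ => by simp [ini, hy]

theorem isSP_cT (e : Tm α σ κ τ) (c : ℕ) : (cT nm e c : Prog (α × γ) (GV κ σ) Loc ρ).IsSP B :=
  isSP_cal (sp_ini (SP.const c))

theorem isSP_both {p : Bool → Prog γ (GV κ σ) Loc ρ} (h : ∀ d, (p d).IsSP B) : (both p).IsSP B :=
  isSP_ifP ((sp_app SP.snd'.snd 7).decide_eq (SP.const 1)) (h _) (h _)

section view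

variable {β : Type} [Enc A β] {v : View α σ κ} (hv : v.IsSP B) {a : β → α} {q : β → κ → ℕ}
  {s : β → σ → ℕ} {c i w : β → ℕ} (ha : SP B a) (hq : SP B q) (hs : SP B s) (hi : SP B i)
  (hw : SP B w)
include hv ha hq hs hi hw

theorem sp_wk : SP B fun z => v.wk (a z) (q z) (i z) (w z) (s z) :=
  hv.put.comp ((ha.pair (hq.pair hs)).pair (Mix.sp_walk (hv.m.comp ha) ((SP.const lt).mul hi) hw
    (hv.get.comp (ha.pair (hq.pair hs)))))

theorem sp_uw : SP B fun z => v.uw (a z) (q z) (i z) (w z) (s z) :=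
  hv.put.comp ((ha.pair (hq.pair hs)).pair (Mix.sp_unwalk (hv.m.comp ha) ((SP.const lt).mul hi) hw
    (hv.get.comp (ha.pair (hq.pair hs)))))

theorem sp_chc (hc : SP B c) : SP B fun z => chc v (a z) (q z) (c z) (i z) (w z) (s z) :=
  SP.ite (hw.decide_lt (sp_cpow hc (SP.const _) hi)) (sp_wk hv ha hq hs hi hw)
    (sp_wk hv ha hq hs (hi.sub (SP.const 1)) (hw.sub (sp_cpow hc (SP.const _) hi)))

theorem sp_uhc (hc : SP B c) : SP B fun z => uhc v (a z) (q z) (c z) (i z) (w z) (s z) :=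
  SP.ite (hw.decide_lt (sp_cpow hc (SP.const _) hi)) (sp_uw hv ha hq hs hi hw)
    (sp_uw hv ha hq hs (hi.sub (SP.const 1)) (hw.sub (sp_cpow hc (SP.const _) hi)))

end view

theorem rsp_clp {β : Type} [Enc A β] {b x : β → ℝ} (hb : RSP B b) (hx : RSP B x) :
    RSP B fun z => clp (b z) (x z) := hb.neg.max (hb.min hx)

variable [DecidableEq κ] [DecidableEq σ] (hcap : SP B cap)
include hcap

theorem isSP_code2 {s : ℕ} {Φ : α × γ → (GV κ σ → ℕ) → ℝ → ℝ → ℝ} {e₁ e₂ : Tm α σ κ τ}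
    (hΦ : RSP B fun z : ((α × γ) × (GV κ σ → ℕ)) × ℕ × ℕ × ℕ =>
      Φ z.1.1 z.1.2 ((deZ z.2.1 : ℝ) / z.2.2.2) ((deZ z.2.2.1 : ℝ) / z.2.2.2)) :
    (code2 nm cap s Φ e₁ e₂).prog.IsSP B :=
  NodeCode.isSP_prog _ (hcap.comp SP.fst') ((sp_app SP.snd' _).add (SP.const 1))
    (SP.ite (SP.snd'.snd.decide_eq (sp_app SP.snd'.fst _)) (SP.const 2) (SP.const 0))
    (ZSP.ite (SP.snd'.snd.snd.decide_eq (SP.const 0)) (ZSP.const 1) (ZSP.const 0))
    (ZSP.ite (SP.snd'.snd.snd.decide_eq (SP.const 0)) (ZSP.const 0) (ZSP.const 1)) hΦ isSP_skip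
    ⟨(sp_app SP.snd'.snd (2 : Loc)).decide_eq (SP.const 0), isSP_cT _ _, isSP_cT _ _⟩ isSP_skip

theorem isSP_rdP (e : Tm α σ κ τ) : (rdP nm cap e : Prog (α × γ) (GV κ σ) Loc ρ).IsSP B :=
  ⟨isSP_readP (hcap.comp SP.fst') (SP.const 3) (isSP_cT _ _), isSP_setG (SP.ite
    ((ZSP.const 4).decide_le (ZSP.deZ (sp_app SP.snd'.fst _))) (SP.const 1) (SP.const 0))⟩

theorem isSP_comp {P : Pg α σ κ τ} (hP : P.IsSP B) (e : Tm α σ κ τ) (he : e.IsSP B) :
    (comp nm cap P e : Prog (α × γ) (GV κ σ) Loc ρ).IsSP B := by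
  have l : ∀ y, SP B fun z : (α × γ) × PSt (GV κ σ) Loc => z.2.2 y := fun y => sp_app SP.snd'.snd y
  have g : ∀ y, SP B fun z : (α × γ) × PSt (GV κ σ) Loc => z.2.1 y := fun y => sp_app SP.snd'.fst y
  have a : SP B fun z : (α × γ) × PSt (GV κ σ) Loc => z.1.1 := SP.fst'.fst
  have q : SP B fun z : (α × γ) × PSt (GV κ σ) Loc => gq z.2.1 := sp_gq SP.snd'.fst
  have s : SP B fun z : (α × γ) × PSt (GV κ σ) Loc => gs z.2.1 := sp_gs SP.snd'.fst
  have c := hcap.comp a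
  have aq := a.pair q
  have aqs := a.pair (q.pair s)
  have k : ∀ n, (setG (cv 3) fun _ _ _ => n : Prog (α × γ) (GV κ σ) Loc ρ).IsSP B := fun n =>
    isSP_setG (SP.const n)
  have y1 : RSP B fun z : ((α × γ) × (GV κ σ → ℕ)) × ℕ × ℕ × ℕ => (deZ z.2.1 : ℝ) / z.2.2.2 :=
    (RSP.intCast (ZSP.deZ SP.snd'.fst)).div (RSP.natCast SP.snd'.snd.snd)
  have y2 : RSP B fun z : ((α × γ) × (GV κ σ → ℕ)) × ℕ × ℕ × ℕ => (deZ z.2.2.1 : ℝ) / z.2.2.2 :=
    (RSP.intCast (ZSP.deZ SP.snd'.snd.fst)).div (RSP.natCast SP.snd'.snd.snd)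
  have cp : ∀ n, RSP B fun z : ((α × γ) × (GV κ σ → ℕ)) × ℕ × ℕ × ℕ =>
      ((cpow (cap z.1.1.1) 2 (z.1.2 (cv 4) * n) : ℕ) : ℝ) := fun n => RSP.natCast
    (sp_cpow (hcap.comp SP.fst'.fst.fst) (SP.const 2) ((sp_app SP.fst'.snd _).mul (SP.const _)))
  induction e with
  | loc f =>
    have hf := RSP.comp he aqs
    exact isSP_setG (((RSP.natCast (sp_cpow c (SP.const 2) (g _))).mul hf).round.sub (ZSP.ite
      ((g _).decide_eq (SP.const 0)) (ZSP.const 0) ((ZSP.const 2).mul ((RSP.natCast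
        (sp_cpow c (SP.const 2) ((g _).sub (SP.const 1)))).mul hf).round))).enZ
  | app Φ e₁ e₂ =>
    exact isSP_code2 hcap (he.1.comp ((SP.fst'.fst.fst.pair
      ((sp_gq SP.fst'.snd).pair (sp_gs SP.fst'.snd))).pair SP.snd'))
  | guard e₁ e₂ =>
    exact isSP_code2 hcap ((rsp_clp (cp _) y1).mul (rsp_clp (cp _) y2))
  | sum nl x e =>
    exact NodeCode.isSP_prog _ (hcap.comp SP.fst') ((sp_app SP.snd' _).add (SP.const 1))
      (SP.ite (SP.snd'.snd.decide_eq (sp_app SP.snd'.fst _))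
        (he.1.comp (SP.fst'.fst.pair (sp_gq SP.snd'.fst))) (SP.const 0)) (ZSP.const 1) (ZSP.const 0)
      y1 (isSP_setG (e := fun _ _ l => l 2) (l 2)) (isSP_cT _ _)
      (isSP_setG (e := fun _ _ _ => 0) (SP.const 0))
  | avg v e =>
    have n1 : SP B fun z : (α × γ) × (GV κ σ → ℕ) × ℕ => z.2.1 (cv 4) := sp_app SP.snd'.fst _
    have n2 : SP B fun z : (α × γ) × (GV κ σ → ℕ) × ℕ × ℕ => z.2.1 (cv 4) := sp_app SP.snd'.fst _
    have d := (l 1).sub (g (cv 4))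
    exact NodeCode.isSP_prog _ (hcap.comp SP.fst')
      (((sp_app SP.snd' _).add (sp_app SP.snd' _)).add (SP.const 1))
      (SP.ite (SP.snd'.snd.decide_lt n1) (SP.const 0) (SP.ite (SP.snd'.snd.decide_eq n1) (SP.const 1)
        ((sp_cpow (hcap.comp SP.fst'.fst) (SP.const _) (SP.snd'.snd.sub n1)).add
          (sp_cpow (hcap.comp SP.fst'.fst) (SP.const _) ((SP.snd'.snd.sub n1).sub (SP.const 1))))))
      (ZSP.ite (SP.snd'.snd.snd.decide_lt
        (sp_cpow (hcap.comp SP.fst'.fst) (SP.const _) (SP.snd'.snd.fst.sub n2)))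
        (ZSP.natCast (sp_cpow (hcap.comp SP.fst'.fst) (SP.const _) (n2.add (SP.const 1))))
        (ZSP.natCast (sp_cpow (hcap.comp SP.fst'.fst) (SP.const _) (n2.add (SP.const 2)))).neg)
      (ZSP.const 0) (rsp_clp (cp _) y1)
      ⟨isSP_setS (sp_chc he.1 a q s d (l 2) c), isSP_setG ((g _).sub d)⟩ (isSP_cT _ _)
      ⟨isSP_setG ((g _).add d), isSP_setS (sp_uhc he.1 a q s d (l 2) c)⟩
  | hop d M e =>
    exact ⟨isSP_cT _ _, sp_ret _ 1, ⟨isSP_cT _ _, isSP_setL (g _), isSP_cT _ _, isSP_setG (l _)⟩,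
      isSP_skip⟩
  | mloc dom map =>
    exact isSP_both fun d => isSP_ifP ((he d).1.comp aqs).decide_true
      ⟨isSP_setS ((he d).2.comp aqs), k 1⟩ (k 0)
  | seq M₁ M₂ => exact isSP_both fun d => isSP_sqP (isSP_cT _ _) (isSP_cT _ _) (isSP_cT _ _)
  | search v nl x tF tB M =>
    have n := he.2.1.comp aq
    have n1 := (g (cv 4)).add (SP.const 1)
    have hc : ∀ d z, (candP nm cap v nl x tF tB M d z : Prog (α × γ) (GV κ σ) Loc ρ).IsSP B :=
      fun d z => ⟨⟨isSP_setS (sp_wk he.1 a q s n1 ((l z).div n)), isSP_setG ((l z).mod n)⟩,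
        isSP_sqP (isSP_rdP hcap _) (isSP_sqP (isSP_cT _ _) (isSP_rdP hcap _) (isSP_cT _ _)) (k 1),
        isSP_setG (SP.const 0), isSP_setS (sp_uw he.1 a q s n1 ((l z).div n))⟩
    exact isSP_both (isSP_topP ((sp_cpow (hcap.comp SP.fst'.fst) (SP.const _)
      ((sp_app SP.snd' _).add (SP.const 1))).mul (he.2.1.comp (SP.fst'.fst.pair (sp_gq SP.snd'))))
      hc fun d => isSP_ifP (sp_ret _ 0) (k 0) ⟨⟨isSP_setL ((g _).mod (SP.const _)),
        isSP_setG ((g _).div (SP.const _)), isSP_setG ((g _).sub (SP.const 1)),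
        isSP_setS (sp_wk he.1 a q s (SP.const 1) (l 10))⟩, isSP_cT _ _,
        isSP_setS (sp_uw he.1 a q s (SP.const 1) (l 10)), isSP_setG ((g _).add (SP.const 1)),
        isSP_setG (((SP.const _).mul (g _)).add (l _)), isSP_setL (SP.const 0)⟩)
  | cas p e₁ e₂ ih1 ih2 => exact isSP_ifP (he.1.comp aq).decide_true (ih1 he.2.1) (ih2 he.2.2)
  | alt p e₁ e₂ ih1 ih2 =>
    have ck : ∀ d b, (chkP (p d) b : Prog (α × γ) (GV κ σ) Loc ρ).IsSP B := fun d b =>
      isSP_setG (SP.ite ((((he.1 d).comp aqs).toNat.decide_eq (SP.const b.toNat)).congr fun z => by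
        cases p d z.1.1 (gq z.2.1) (gs z.2.1) <;> cases b <;> rfl) (SP.const 1) (SP.const 0))
    exact isSP_ifP ((l 7).decide_eq (SP.const 2))
      (isSP_ifP ((he.1 true).comp aqs).decide_true (ih1 he.2.1) (ih2 he.2.2))
      (isSP_both fun d => isSP_ifP ((he.1 d).comp aqs).decide_true
        (isSP_sqP (isSP_cT _ _) (ck _ _) (isSP_cT _ _))
        (isSP_sqP (isSP_cT _ _) (ck _ _) (isSP_cT _ _)))
  | call t F sv rs =>
    exact ⟨isSP_setL (he.2.1.comp aq), isSP_setL (g _), isSP_setQ (he.1.comp aq),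
      isSP_setG ((hP.sz t).comp aq), isSP_cal (sp_ini (l 7)), isSP_setG (l _),
      isSP_setQ (he.2.2.comp (a.pair (q.pair (l 10))))⟩

end sp

end Vale.Agent.P313.Full.Sp
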