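import Vale.Agent.P313.Full.DslSpB

/-!
The rules for the translated programs: states, costs, nodes, reading of tests.
-/

namespace Vale.Agent.P313.Full.Sp

open Function Finset Vale.Agent.Lib.Space Prog

variable {α γ σ κ τ ρ : Type}

/-- The global variables have the given values. -/
structure At (q : κ → ℕ) (s : σ → ℕ) (j y n : ℕ) (g : GV κ σ → ℕ) : Prop where
  hq : gq g = q
  hs : gs g = s
  hj : g (cv 0) = j
  hy : g (cv 1) = y
  hn : g (cv 4) = n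

@[simp] theorem cv_inj {i i' : Fin 5} : (cv i : GV κ σ) = cv i' ↔ i = i' := by simp [cv]

@[simp] theorem cv_ne (i : Fin 5) (x : κ) : (cv i : GV κ σ) ≠ .inl x := by simp [cv]

@[simp] theorem putS_cv (g : GV κ σ → ℕ) (s : σ → ℕ) (i : Fin 5) : putS g s (cv i) = g (cv i) := rfl

@[simp] theorem putQ_cv (g : GV κ σ → ℕ) (q : κ → ℕ) (i : Fin 5) : putQ g q (cv i) = g (cv i) := rfl

section St

variable {q q' : κ → ℕ} {s s' : σ → ℕ} {j y n : ℕ} {g : GV κ σ → ℕ}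

theorem At.putS (h : At q s j y n g) (s' : σ → ℕ) : At q s' j y n (putS g s') :=
  ⟨h.hq, rfl, h.hj, h.hy, h.hn⟩

theorem At.putQ (h : At q s j y n g) (q' : κ → ℕ) : At q' s j y n (putQ g q') :=
  ⟨rfl, h.hs, h.hj, h.hy, h.hn⟩

variable [DecidableEq κ] [DecidableEq σ]

theorem gq_cv (g : GV κ σ → ℕ) (i : Fin 5) (v : ℕ) : gq (update g (cv i) v) = gq g :=
  funext fun x => update_of_ne (cv_ne i x).symm _ _

theorem gs_cv (g : GV κ σ → ℕ) (i : Fin 5) (v : ℕ) : gs (update g (cv i) v) = gs g :=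
  funext fun x => update_of_ne (by simp [cv]) _ _

theorem At.upT (h : At q s j y n g) (v : ℕ) : At q s j y n (update g (cv 2) v) :=
  ⟨(gq_cv ..).trans h.hq, (gs_cv ..).trans h.hs, by simp [h.hj], by simp [h.hy], by simp [h.hn]⟩

theorem At.upR (h : At q s j y n g) (v : ℕ) : At q s j y n (update g (cv 3) v) :=
  ⟨(gq_cv ..).trans h.hq, (gs_cv ..).trans h.hs, by simp [h.hj], by simp [h.hy], by simp [h.hn]⟩

theorem At.upJ (h : At q s j y n g) (v : ℕ) : At q s v y n (update g (cv 0) v) :=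
  ⟨(gq_cv ..).trans h.hq, (gs_cv ..).trans h.hs, by simp, by simp [h.hy], by simp [h.hn]⟩

theorem At.upY (h : At q s j y n g) (v : ℕ) : At q s j v n (update g (cv 1) v) :=
  ⟨(gq_cv ..).trans h.hq, (gs_cv ..).trans h.hs, by simp [h.hj], by simp, by simp [h.hn]⟩

theorem At.upN (h : At q s j y n g) (v : ℕ) : At q s j y v (update g (cv 4) v) :=
  ⟨(gq_cv ..).trans h.hq, (gs_cv ..).trans h.hs, by simp [h.hj], by simp [h.hy], by simp⟩

theorem At.upX (h : At q s j y n g) (x : κ) (v : ℕ) :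
    At (update q x v) s j y n (update g (.inl x) v) := by
  refine ⟨funext fun x' => ?_, funext fun r => ?_, by simp [h.hj], by simp [h.hy], by simp [h.hn]⟩
  · by_cases e : x' = x
    · simp [gq, e]
    · simp [gq, e, ← h.hq]
  · simp [gs, ← h.hs]

end St

section rules

variable {body : ρ → Prog γ (GV κ σ) Loc ρ} {a : γ} {V k : ℕ}
  {Q : (GV κ σ → ℕ) → (Loc → ℕ) → Prop} {g : GV κ σ → ℕ} {l : Loc → ℕ}

theorem wp_setS {f : γ → (GV κ σ → ℕ) → (Loc → ℕ) → σ → ℕ} {s : σ → ℕ} (e : f a g l = s)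
    (hs : ∀ r, s r ≤ V) (h : Q (putS g s) l) : WP body a V (setS f) k Q g l := by
  subst e
  refine ⟨_, _, .op fun ho => ⟨fun x => ?_, ho.2⟩, h⟩
  rcases x with x | x | x
  · exact ho.1 (.inl x)
  · exact hs x
  · exact ho.1 (cv x)

theorem wp_setQ {f : γ → (GV κ σ → ℕ) → (Loc → ℕ) → κ → ℕ} {q : κ → ℕ} (e : f a g l = q)
    (hq : ∀ r, q r ≤ V) (h : Q (putQ g q) l) : WP body a V (setQ f) k Q g l := by
  subst e
  refine ⟨_, _, .op fun ho => ⟨fun x => ?_, ho.2⟩, h⟩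
  rcases x with x | x | x
  · exact hq x
  · exact ho.1 (.inr (.inl x))
  · exact ho.1 (cv x)

theorem wp_setG [DecidableEq κ] [DecidableEq σ] {x : GV κ σ}
    {f : γ → (GV κ σ → ℕ) → (Loc → ℕ) → ℕ} {v : ℕ} (e : f a g l = v)
    (hv : v ≤ V) (h : Q (update g x v) l) : WP body a V (setG x f) k Q g l := by
  subst e
  exact WP.setG hv h

theorem wp_setL {x : Loc} {f : γ → (GV κ σ → ℕ) → (Loc → ℕ) → ℕ} {v : ℕ} (e : f a g l = v)
    (hv : v ≤ V) (h : Q g (update l x v)) : WP body a V (setL x f) k Q g l := by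
  subst e
  exact WP.setL hv h

theorem wp_both {p : Bool → Prog γ (GV κ σ) Loc ρ} {d : Bool}
    (h : WP body a V (p d) k Q g (ini d.toNat)) : WP body a V (both p) k Q g (ini d.toNat) := by
  cases d
  · exact WP.ifF (by simp [ini]) h
  · exact WP.ifT (by simp [ini]) h

end rules

theorem ini_lt {c w : ℕ} (hc : c ≤ 2) (hw : 2 ≤ w) (y : Loc) : ini c y < 2 ^ w := by
  have : 2 ^ 2 ≤ 2 ^ w := Nat.pow_le_pow_right (by norm_num) hw
  unfold ini
  split_ifs <;> omega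

theorem update_lt {l : Loc → ℕ} {w v : ℕ} (hl : ∀ y, l y < 2 ^ w) (hv : v < 2 ^ w) (x y : Loc) :
    update l x v y < 2 ^ w := by
  by_cases h : y = x
  · simpa [h] using hv
  · simpa [h] using hl y

/-- The mode of a call. -/
def md (m d : Bool) : ℕ := if m then d.toNat else 2

theorem md_le (m d : Bool) : md m d ≤ 2 := by cases m <;> cases d <;> simp [md]

/-- The weight of a term. -/
def wt : Tm α σ κ τ → ℕ
  | .loc _ => 1
  | .app _ e₁ e₂ => wt e₁ + wt e₂ + 1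
  | .guard e₁ e₂ => wt e₁ + wt e₂ + 1
  | .sum _ _ e => wt e + 1
  | .avg _ e => wt e + 1
  | .hop _ e₁ e₂ => wt e₁ + wt e₂ + 1
  | .mloc _ _ => 1
  | .seq e₁ e₂ => wt e₁ + wt e₂ + 1
  | .search _ _ _ e₁ e₂ e₃ => wt e₁ + wt e₂ + wt e₃ + 1
  | .cas _ e₁ e₂ => wt e₁ + wt e₂ + 1
  | .alt _ e₁ e₂ => wt e₁ + wt e₂ + 1
  | .call _ _ _ _ => 1

theorem dp_le_wt (e : Tm α σ κ τ) : e.dp ≤ wt e := by
  induction e <;> simp only [Tm.dp, wt] <;> omega

/-- The subterms of a term. -/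
def subs : Tm α σ κ τ → Set (Tm α σ κ τ)
  | .loc f => {.loc f}
  | .app f e₁ e₂ => insert (.app f e₁ e₂) (subs e₁ ∪ subs e₂)
  | .guard e₁ e₂ => insert (.guard e₁ e₂) (subs e₁ ∪ subs e₂)
  | .sum f x e => insert (.sum f x e) (subs e)
  | .avg v e => insert (.avg v e) (subs e)
  | .hop d e₁ e₂ => insert (.hop d e₁ e₂) (subs e₁ ∪ subs e₂)
  | .mloc f g => {.mloc f g}
  | .seq e₁ e₂ => insert (.seq e₁ e₂) (subs e₁ ∪ subs e₂)
  | .search v f x e₁ e₂ e₃ => insert (.search v f x e₁ e₂ e₃) (subs e₁ ∪ subs e₂ ∪ subs e₃)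
  | .cas f e₁ e₂ => insert (.cas f e₁ e₂) (subs e₁ ∪ subs e₂)
  | .alt f e₁ e₂ => insert (.alt f e₁ e₂) (subs e₁ ∪ subs e₂)
  | .call t f g h => {.call t f g h}

theorem mem_subs (e : Tm α σ κ τ) : e ∈ subs e := by cases e <;> simp [subs]

theorem subs_finite (e : Tm α σ κ τ) : (subs e).Finite := by
  induction e <;> simp [subs, *]

theorem isSP_subs {A : Type} [Enc A α] [Fintype σ] [Fintype κ] {B : Bud A} {e : Tm α σ κ τ}
    (he : e.IsSP B) : ∀ e' ∈ subs e, e'.IsSP B := by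
  induction e with
  | loc | mloc | call => exact fun e' h => h ▸ he
  | app _ _ _ i1 i2 | cas _ _ _ i1 i2 | alt _ _ _ i1 i2 =>
    rintro e' (rfl | h | h)
    exacts [he, i1 he.2.1 _ h, i2 he.2.2 _ h]
  | guard _ _ i1 i2 | hop _ _ _ i1 i2 | seq _ _ i1 i2 =>
    rintro e' (rfl | h | h)
    exacts [he, i1 he.1 _ h, i2 he.2 _ h]
  | sum _ _ _ i1 | avg _ _ i1 =>
    rintro e' (rfl | h)
    exacts [he, i1 he.2 _ h]
  | search _ _ _ _ _ _ i1 i2 i3 =>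
    rintro e' (rfl | (h | h) | h)
    exacts [he, i1 he.2.2.1 _ h, i2 he.2.2.2.1 _ h, i3 he.2.2.2.2 _ h]

/-- The constants of the space bound. -/
structure Con where
  /-- the bound for the weights -/
  W : ℕ
  /-- the cost of a digit -/
  fr : ℕ
  /-- the cost of a unit of the budget -/
  bj : ℕ
  /-- the cost of a node -/
  D : ℕ
  /-- the cost of a unit of the potential -/
  C : ℕ
  hfr : Tm.sOf W + 2 * lt + 3 * (W + 2 * lt + 2) + 4 ≤ fr
  hbj : fr + fr * Tm.sOf W ≤ bj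
  hD : bj + 4 * fr ≤ D
  hC : D * W + 1 ≤ C

namespace Con

variable (Z : Con)

/-- The cost of a term. -/
def cst (r j t w n : ℕ) : ℕ := Z.C * r + Z.bj * j + Z.fr * t + Z.D * (w * (n + 1))

theorem fr_ge : 3 * Z.W + 8 * lt + 10 ≤ Z.fr := by have := Z.hfr; omega

theorem bj_ge : 3 * Z.W + 8 * lt + 10 ≤ Z.bj := by have := Z.hbj; have := Z.fr_ge; omega

theorem cst_add {w w' x : ℕ} (r j t n : ℕ) (hw : w < w') (hx : x ≤ Z.D * (n + 1)) :
    x + Z.cst r j t w n ≤ Z.cst r j t w' n := by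
  have h1 : Z.D * ((w + 1) * (n + 1)) ≤ Z.D * (w' * (n + 1)) :=
    Nat.mul_le_mul_left _ (Nat.mul_le_mul_right _ hw)
  rw [add_mul, mul_add, one_mul] at h1
  unfold cst
  omega

theorem cst_ge (r j t n : ℕ) {w : ℕ} (hw : 1 ≤ w) : r + j + t + n + 1 ≤ Z.cst r j t w n := by
  have h1 := Z.fr_ge
  have h2 := Z.bj_ge
  have h3 := Z.hD
  have h4 := Z.hC
  have a1 : 1 * r ≤ Z.C * r := Nat.mul_le_mul_right _ (by omega)
  have a2 : 1 * j ≤ Z.bj * j := Nat.mul_le_mul_right _ (by omega)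
  have a3 : 1 * t ≤ Z.fr * t := Nat.mul_le_mul_right _ (by omega)
  have a4 : 1 * (1 * (n + 1)) ≤ Z.D * (w * (n + 1)) :=
    Nat.mul_le_mul (by omega) (Nat.mul_le_mul_right _ hw)
  unfold cst
  omega

theorem cst_node {r j t w w' n i δ s f : ℕ} (hw : w < w') (hi : i < n + j + 1)
    (hs : s ≤ Tm.sOf Z.W) (hf : f ≤ Z.fr) (hδ : δ ≤ t + s * (i + 1)) :
    2 + f * (i + δ + 1) + 1 + Z.cst r (j - (i - n)) (t + s * (i + 1) - δ) w n ≤
      Z.cst r j t w' n := by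
  refine le_trans ?_ (Z.cst_add r j t n hw le_rfl)
  obtain ⟨i', hi', h1⟩ : ∃ i', i - n = i' ∧ i + 1 ≤ n + 1 + i' := ⟨_, rfl, by omega⟩
  obtain ⟨j', rfl⟩ : ∃ j', j = j' + i' := ⟨j - i', by omega⟩
  obtain ⟨u, hu⟩ : ∃ u, t + s * (i + 1) = u + δ := ⟨t + s * (i + 1) - δ, by omega⟩
  rw [hi', hu, Nat.add_sub_cancel, Nat.add_sub_cancel]
  have a1 : f * (i + δ + 1) ≤ Z.fr * (n + 1 + i' + δ) := Nat.mul_le_mul hf (by omega)
  have a2 : Z.fr * (u + δ) ≤ Z.fr * (t + Tm.sOf Z.W * (n + 1 + i')) :=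
    Nat.mul_le_mul_left _ (hu ▸ Nat.add_le_add_left (Nat.mul_le_mul hs h1) _)
  have a3 : (Z.fr + Z.fr * Tm.sOf Z.W) * (n + 1 + i') ≤ Z.bj * (n + 1 + i') :=
    Nat.mul_le_mul_right _ Z.hbj
  have a4 : (Z.bj + 3) * (n + 1) ≤ Z.D * (n + 1) :=
    Nat.mul_le_mul_right _ (by have := Z.hD; have := Z.fr_ge; omega)
  unfold cst
  nlinarith

theorem cst_read {r j t w w' n δ : ℕ} (hw : w < w') (hδ : δ ≤ 3) :
    (2 * lt + 2) * (n + 1) + t + (n * Z.W + 2 + δ + 2) + 1 + Z.cst r j (3 - δ) w n ≤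
      Z.cst r j t w' n := by
  refine le_trans ?_ (Z.cst_add r j t n hw le_rfl)
  have h1 := Z.fr_ge
  have a1 : Z.fr * (3 - δ) ≤ Z.fr * 3 := Nat.mul_le_mul_left _ (by omega)
  have a2 : 1 * t ≤ Z.fr * t := Nat.mul_le_mul_right _ (by omega)
  have a3 : (2 * lt + 2 + Z.W + 8 + 3 * Z.fr) * (n + 1) ≤ Z.D * (n + 1) :=
    Nat.mul_le_mul_right _ (by have := Z.hD; omega)
  unfold cst
  nlinarith

theorem cst_succ (r j t w n : ℕ) : 2 * lt + 2 + 1 + Z.cst r j t w n ≤ Z.cst r (j + 1) t w n := by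
  have := Z.bj_ge
  unfold cst
  rw [mul_add Z.bj]
  omega

theorem cst_call {r r' j t w n n' b : ℕ} (hw : w ≤ Z.W) (h : r' + n' + 1 + b ≤ r) :
    b + n + 2 + 1 + Z.cst r' j t w n' ≤ Z.cst r j t 1 n := by
  have h1 := Z.hC
  have a1 : Z.D * (w * (n' + 1)) ≤ Z.C * (n' + 1) := by
    rw [← mul_assoc]
    exact Nat.mul_le_mul_right _ ((Nat.mul_le_mul_left _ hw).trans (by omega))
  have a2 : Z.C * (r' + n' + 1 + b) ≤ Z.C * r := Nat.mul_le_mul_left _ h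
  have a3 : 1 * b ≤ Z.C * b := Nat.mul_le_mul_right _ (by omega)
  have a4 : 3 * (1 * (n + 1)) ≤ Z.D * (1 * (n + 1)) :=
    Nat.mul_le_mul_right _ (by have := Z.hD; have := Z.fr_ge; omega)
  unfold cst
  nlinarith

end Con

theorem exists_con (W : ℕ) : ∃ Z : Con, Z.W = W := ⟨⟨W, _, _, _, _, le_rfl, le_rfl, le_rfl, le_rfl⟩, rfl⟩

theorem dig_le {ap : ℕ → ℤ} {v : ℝ} (h : Apx ap v) {b c : ℕ} (hv : |v| ≤ 2 ^ b) (hc : b + 2 ≤ c)
    (t : ℕ) : |dig ap t| ≤ 2 ^ c := by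
  have h1 := h.abs_dig_le (F := 2 ^ b) (by exact_mod_cast hv) t
  have h2 : (1 : ℤ) ≤ 2 ^ b := one_le_pow₀ (by norm_num)
  have h3 : (2 : ℤ) ^ (b + 2) ≤ 2 ^ c := pow_le_pow_right₀ (by norm_num) hc
  rw [pow_add] at h3
  push_cast at h1
  linarith

theorem enZ_lt {z : ℤ} {c : ℕ} (h : |z| ≤ 2 ^ c) : enZ z < 2 ^ (c + 2) := by
  have := enZ_le_of_abs (M := 2 ^ c) (by exact_mod_cast h)
  have h2 : 0 < 2 ^ c := by positivity
  rw [pow_add]
  omega

end Vale.Agent.P313.Full.Sp
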