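import Vale.Agent.P313.Full.DslSpC

/-!
The translated programs compute the approximate meaning: numbers.
-/

namespace Vale.Agent.P313.Full.Sp

open Function Finset Vale.Agent.Lib.Space Prog Pg

variable {α γ σ κ τ ρ : Type} [DecidableEq κ] [DecidableEq σ] [Fintype σ]

/-- The data of a run. -/
structure Env (α γ σ κ τ ρ : Type) [DecidableEq κ] [DecidableEq σ] [Fintype σ] extends Con where
  /-- the program -/
  P : Pg α σ κ τ
  /-- the input -/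
  a : α
  /-- the rest of the input -/
  b : γ
  /-- the procedures -/
  body : ρ → Prog (α × γ) (GV κ σ) Loc ρ
  /-- the names of the procedures -/
  nm : Tm α σ κ τ → ρ
  /-- the bound for the powers -/
  cap : α → ℕ
  /-- the bound for the variables -/
  V : ℕ
  /-- the bound for the cost -/
  k₀ : ℕ
  /-- the terms with a procedure -/
  S : Set (Tm α σ κ τ)
  wf : P.WF a
  hnm : ∀ e ∈ S, body (nm e) = comp nm cap P e
  hS : ∀ t, subs (P.body t) ⊆ S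
  hW : ∀ t, wt (P.body t) ≤ W
  hcap : 2 ^ (bj * (k₀ + 1)) ≤ cap a
  hV : cap a ≤ V
  hbd : ∀ r, P.bd a r ≤ V
  hadm : ∀ t q, P.adm t a q → ∀ x, q x ≤ V

namespace Env

variable (U : Env α γ σ κ τ ρ)

/-- The result of the program for a term. -/
def Post (X : AV σ) (m d : Bool) (q : κ → ℕ) (s : σ → ℕ) (j y n t : ℕ) (g : GV κ σ → ℕ) : Prop :=
  At q (if m then (X.mv d s).getD s else s) j y n g ∧ g (cv 2) = t ∧
    g (cv 3) = if m then bv (X.mv d s) else enZ (dig (X.ap s) t)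

/-- The specification of the program for a term. -/
def TSp (e : Tm α σ κ τ) (X : AV σ) (m : Bool) (q : κ → ℕ) (r j y n w : ℕ) : Prop :=
  ∀ d, ∀ s ∈ U.P.box U.a, ∀ g, At q s j y n g → U.cst r j (g (cv 2)) w n ≤ U.k₀ →
    WP U.body (U.a, U.b) U.V (comp U.nm U.cap U.P e) (U.cst r j (g (cv 2)) w n)
      (fun g' _ => Post X m d q s j y n (g (cv 2)) g') g (ini (md m d))

variable {U} {e e₁ e₂ : Tm α σ κ τ} {X X₁ X₂ : AV σ} {m d : Bool} {q : κ → ℕ} {s : σ → ℕ}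
  {r j y n w w' t k : ℕ} {g : GV κ σ → ℕ} {l : Loc → ℕ}

theorem pow_le_cap {x : ℕ} (h : x ≤ U.bj * (U.k₀ + 1)) : 2 ^ x ≤ U.cap U.a :=
  (Nat.pow_le_pow_right (by norm_num) h).trans U.hcap

theorem pow_le_cap' {x c z : ℕ} (hc : c ≤ 3 * U.W + 8 * lt + 10) (hz : z ≤ U.k₀ + 1)
    (h : x ≤ c * z) : 2 ^ x ≤ U.cap U.a :=
  pow_le_cap (h.trans (Nat.mul_le_mul (hc.trans U.bj_ge) hz))

theorem le_V {x : ℕ} (h : x ≤ U.k₀ + 1) : x ≤ U.V :=
  Nat.lt_two_pow_self.le.trans ((pow_le_cap' (c := 1) (by omega) h (by omega)).trans U.hV)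

theorem two_le_V : 2 ≤ U.V :=
  (pow_le_cap' (x := 1) (c := 1) (z := 1) (by omega) (by omega) le_rfl).trans U.hV

theorem box_le (hs : s ∈ U.P.box U.a) (x : σ) : s x ≤ U.V := (Pg.mem_box.1 hs x).le.trans (U.hbd x)

theorem cpow_nD {i : ℕ} (h : i ≤ U.k₀ + 1) : cpow (U.cap U.a) nD i = nD ^ i :=
  cpow_eq (by rw [nD_eq, ← pow_mul]; exact pow_le_cap' (by omega) h le_rfl)

theorem cpow_dp (hw : wt e ≤ U.W) (h : n ≤ U.k₀) :
    ((cpow (U.cap U.a) 2 (n * e.dp) : ℕ) : ℝ) = 2 ^ (n * e.dp) := by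
  rw [cpow_eq (pow_le_cap' (c := U.W) (z := n) (by omega) (by omega)
    (by rw [mul_comm]; exact Nat.mul_le_mul_right _ ((dp_le_wt e).trans hw)))]
  simp

theorem TSp.mono (h : U.TSp e X m q r j y n w) (hw : w ≤ w') : U.TSp e X m q r j y n w' :=
  fun d s hs g hg hk => by
    have : U.cst r j (g (cv 2)) w n ≤ U.cst r j (g (cv 2)) w' n :=
      Nat.add_le_add_left (Nat.mul_le_mul_left _ (Nat.mul_le_mul_right _ hw)) _
    exact (h d s hs g hg (this.trans hk)).cost this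

theorem TSp.cal (h : U.TSp e X m q r j y n w) (he : e ∈ U.S) (d : Bool) (hs : s ∈ U.P.box U.a)
    (hg : At q s j y n g) (hk : U.cst r j (g (cv 2)) w n ≤ U.k₀) {b : ℕ} (hl : ∀ z, l z < 2 ^ b)
    {f : α × γ → (GV κ σ → ℕ) → (Loc → ℕ) → Loc → ℕ} (hf : f (U.a, U.b) g l = ini (md m d)) :
    WP U.body (U.a, U.b) U.V (cal (U.nm e) f) (b + 1 + U.cst r j (g (cv 2)) w n)
      (fun g' l' => Post X m d q s j y n (g (cv 2)) g' ∧ l' = l) g l := by
  refine WP.cal b _ (fun _ _ z => ?_) hl le_rfl ?_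
  · rw [hf, ini]
    split_ifs
    exacts [(md_le m d).trans two_le_V, Nat.zero_le _]
  · rw [hf, U.hnm e he]
    exact (h d s hs g hg hk).mono fun _ _ h => ⟨h, rfl⟩

theorem TSp.num (h : U.TSp e X false q r j y n w) (he : e ∈ U.S) (hs : s ∈ U.P.box U.a)
    (hg : At q s j y n g) (hk : U.cst r j (g (cv 2)) w n ≤ U.k₀) {b : ℕ} (hl : ∀ z, l z < 2 ^ b) :
    WP U.body (U.a, U.b) U.V (cT U.nm e 2) (b + 1 + U.cst r j (g (cv 2)) w n)
      (fun g' l' => At q s j y n g' ∧ g' (cv 2) = g (cv 2) ∧ l' = l ∧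
        g' (cv 3) = enZ (dig (X.ap s) (g (cv 2)))) g l :=
  (h.cal he true hs hg hk hl rfl).mono fun _ _ h => ⟨h.1.1, h.1.2.1, h.2, h.1.2.2⟩

/-- The states with the precision `t`. -/
def Rt (q : κ → ℕ) (j y n t : ℕ) (s : σ → ℕ) (g : GV κ σ → ℕ) : Prop :=
  At q s j y n g ∧ g (cv 2) = t

omit [Fintype σ] in
theorem Rt.ret (s : σ → ℕ) (g : GV κ σ → ℕ) (v : ℕ) (h : Rt q j y n t s g) :
    Rt q j y n t s (update g (cv 3) v) := ⟨h.1.upR v, by simp [h.2]⟩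

theorem TSp.mv (h : U.TSp e X true q r j y n w) (he : e ∈ U.S) (d : Bool) (hs : s ∈ U.P.box U.a)
    {b : ℕ} (hl : ∀ z, l z < 2 ^ b) (hk : b + 1 + U.cst r j t w n ≤ k) (hk' : k ≤ U.k₀) :
    MvSp U.body (U.a, U.b) U.V (cv 3) (Rt q j y n t) (cT U.nm e d.toNat) k s (X.mv d s) l := by
  rintro g ⟨hg, rfl⟩
  exact ((h.cal he d hs hg (by omega) hl rfl).cost hk).mono fun _ _ h =>
    ⟨⟨h.1.1, h.1.2.1⟩, h.1.2.2, h.2⟩

theorem wp_node {Y : NodeCode (α × γ) (GV κ σ) ρ} {N : Node} {ac : ℕ → ℕ → ℕ → ℤ}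
    {R₀ : (GV κ σ → ℕ) → Prop} {R : ℕ → ℕ → (GV κ σ → ℕ) → Prop}
    (hY : Y.Spec U.body (U.a, U.b) U.V N ac R₀ R
      (fun i t' => U.cst r (j - (i - n)) t' w n) (g Y.tv))
    (hc : Y.cap (U.a, U.b) = U.cap U.a) (hs : Y.s ≤ Tm.sOf U.W) (he : Y.e ≤ 2 * lt)
    (hb : N.Bd (U.W + 2 * lt + 2)) (hI : N.I ≤ n + j + 1) (hI' : n + 1 ≤ N.I)
    (hd : ∀ i < N.I, ∀ u < N.cnt i, n ≤ i ∧ ∃ v, Apx (ac i u) v ∧ |v| ≤ 2 ^ (n * U.W))
    {v : ℝ} (hr : Apx (N.ap Y.s Y.e ac) v) (hv : |v| ≤ 2 ^ (n * U.W)) (hw : w < w')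
    (hk : U.cst r j (g Y.tv) w' n ≤ U.k₀) (h0 : R₀ g) :
    WP U.body (U.a, U.b) U.V Y.prog (U.cst r j (g Y.tv) w' n) (fun g' _ => R₀ g' ∧
      g' Y.tv = g Y.tv ∧ g' Y.ret = enZ (dig (N.ap Y.s Y.e ac) (g Y.tv))) g (ini 2) := by
  have hf : Y.s + Y.e + 3 * (U.W + 2 * lt + 2) + 4 ≤ U.fr := by have := U.hfr; omega
  have key : ∀ i, n ≤ i → n * U.W + 2 ≤ (U.W + 2 * lt + 2) * (i + 1) := fun i hi => by
    have := Nat.mul_le_mul_right U.W hi
    nlinarith [Nat.zero_le (lt * (i + 1))]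
  have h1 := U.cst_ge r j (g Y.tv) n (w := w') (by omega)
  refine (NodeCode.wp_prog (w0 := 2) hY hb (fun i hi u hu t => ?_) (dig_le hr hv (key _ (by omega)) _)
    ?_ (hc ▸ U.hV) (fun i hi δ hδ => U.cst_node hw (by omega) hs hf hδ)
    (fun z _ => ini_lt le_rfl le_rfl z) h0 rfl).mono fun _ _ h => ⟨h.1, h.2.1, h.2.2.1⟩
  · obtain ⟨a1, v, a2, a3⟩ := hd i hi u hu
    exact dig_le a2 a3 (key i a1) t
  · rw [hc]
    refine pow_le_cap (le_trans (Nat.mul_le_mul hf (show _ ≤ (1 + Tm.sOf U.W) * (U.k₀ + 1) from ?_))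
      ?_)
    · have := Nat.mul_le_mul hs (show N.I ≤ U.k₀ + 1 by omega)
      rw [add_mul]
      omega
    · rw [← mul_assoc, mul_add U.fr, mul_one]
      exact Nat.mul_le_mul_right _ U.hbj

theorem child_le {i t' s' : ℕ} (hw : w < w') (hi : i < n + j + 1) (hs : s' ≤ Tm.sOf U.W)
    (ht : t' ≤ t + s' * (i + 1)) (hk : U.cst r j t w' n ≤ U.k₀) :
    U.cst r (j - (i - n)) t' w n ≤ U.k₀ := by
  have := U.cst_node (r := r) (f := 0) (δ := t + s' * (i + 1) - t') hw hi hs (Nat.zero_le _)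
    (Nat.sub_le _ _)
  rw [Nat.sub_sub_self ht] at this
  omega

theorem sOf_le {x : ℕ} (h : x ≤ U.W) : Tm.sOf x ≤ Tm.sOf U.W := by
  unfold Tm.sOf
  omega

theorem bd_mono (h : AOk (U.P.box U.a) (n * e.dp) X) (hw : wt e ≤ U.W) (hs : s ∈ U.P.box U.a) :
    |X.val s| ≤ 2 ^ (n * U.W) :=
  (h.bd s hs).trans (two_pow_mono (Nat.mul_le_mul_left _ ((dp_le_wt e).trans hw)))

theorem wp_code2 (h₁ : U.TSp e₁ X₁ false q r j y n w) (h₂ : U.TSp e₂ X₂ false q r j y n w)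
    (m₁ : e₁ ∈ U.S) (m₂ : e₂ ∈ U.S) (o₁ : AOk (U.P.box U.a) (n * e₁.dp) X₁)
    (o₂ : AOk (U.P.box U.a) (n * e₂.dp) X₂) (hW : wt e₁ + wt e₂ ≤ U.W)
    {Φ : α × γ → (GV κ σ → ℕ) → ℝ → ℝ → ℝ} {Ψ : ℝ → ℝ → ℝ}
    (hΦ : ∀ g, At q s j y n g → Φ (U.a, U.b) g = Ψ) (hs : s ∈ U.P.box U.a) {v : ℝ}
    (hr : Apx ((node2 n Ψ).ap (Tm.sOf (e₁.dp + e₂.dp)) 0 fun _ u =>
      if u = 0 then X₁.ap s else X₂.ap s) v) (hv : |v| ≤ 2 ^ (n * U.W)) (hw : w < w')
    (hk : U.cst r j (g (cv 2)) w' n ≤ U.k₀) (hg : At q s j y n g) :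
    WP U.body (U.a, U.b) U.V (code2 U.nm U.cap (Tm.sOf (e₁.dp + e₂.dp)) Φ e₁ e₂).prog
      (U.cst r j (g (cv 2)) w' n) (fun g' _ => At q s j y n g' ∧ g' (cv 2) = g (cv 2) ∧
        g' (cv 3) = enZ (dig ((node2 n Ψ).ap (Tm.sOf (e₁.dp + e₂.dp)) 0 fun _ u =>
          if u = 0 then X₁.ap s else X₂.ap s) (g (cv 2)))) g (ini 2) := by
  have hs' : Tm.sOf (e₁.dp + e₂.dp) ≤ Tm.sOf U.W :=
    sOf_le ((add_le_add (dp_le_wt _) (dp_le_wt _)).trans hW)
  have cn : ∀ i u, u < (node2 n Ψ).cnt i → i = n := fun i u h => by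
    by_contra h'
    simp [node2, h'] at h
  refine wp_node (Y := code2 U.nm U.cap _ Φ e₁ e₂) (R := fun _ _ => At q s j y n)
    ⟨by simp [code2], fun _ _ h => h.upT _, fun _ _ h => h.upR _,
      fun _ h => congrArg (· + 1) h.hn, fun _ h i _ => by simp only [code2, node2, h.hn], hΦ,
      fun _ _ _ _ _ _ => rfl, fun _ _ _ _ _ _ => rfl,
      fun _ _ _ _ _ _ _ h _ _ _ _ => WP.skip ⟨h, rfl, rfl⟩, fun i hi u hu g' l b h ht _ l2 hl => ?_,
      fun _ _ _ _ _ _ _ h _ _ _ _ => WP.skip ⟨h, rfl, rfl⟩⟩ rfl hs' (Nat.zero_le _)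
    (node2_bd _ _ (by omega)) (by simp [node2]) le_rfl (fun i hi u hu => ⟨(cn i u hu).ge, ?_⟩) hr hv
    hw hk hg
  · obtain rfl := cn i u hu
    have hk' := child_le hw (by omega) hs' ht hk
    simp only [Nat.sub_self, Nat.sub_zero, code2] at hk' ⊢
    refine WP.ifP (fun h0 => ?_) fun h0 => ?_
    · rw [if_pos (l2 ▸ h0)]
      exact h₁.num m₁ hs h hk' hl
    · rw [if_neg (l2 ▸ h0)]
      exact h₂.num m₂ hs h hk' hl
  · split_ifs
    exacts [⟨_, o₁.apx s hs, bd_mono o₁ (by omega) hs⟩, ⟨_, o₂.apx s hs, bd_mono o₂ (by omega) hs⟩]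

variable {E : τ → (κ → ℕ) → ℕ → ℕ → AV σ}

theorem tsp_loc {f : α → (κ → ℕ) → (σ → ℕ) → ℝ} (hW : 1 ≤ U.W)
    (o : AOk (U.P.box U.a) (n * (Tm.loc f : Tm α σ κ τ).dp) ((Tm.loc f).evA U.a E n q j y)) :
    U.TSp (.loc f) ((Tm.loc f).evA U.a E n q j y) false q r j y n 1 := by
  intro d s hs g hg hk
  have h1 := U.cst_ge r j (g (cv 2)) n le_rfl
  have c : ∀ t ≤ g (cv 2), ((cpow (U.cap U.a) 2 t : ℕ) : ℝ) = 2 ^ t := fun t ht => by
    rw [cpow_eq (pow_le_cap' (c := 1) (z := t) (by omega) (by omega) (by omega))]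
    simp
  refine wp_setG (v := enZ (dig (((Tm.loc f).evA U.a E n q j y).ap s) (g (cv 2)))) ?_ ?_
    ⟨hg.upR _, by simp, by simp⟩
  · simp only [c _ le_rfl, c _ (Nat.sub_le _ _), hg.hq, hg.hs, Tm.evA, dig]
    split_ifs with h <;> simp [h]
  · exact (enZ_lt (dig_le (o.apx s hs) (o.bd s hs) le_rfl _)).le.trans ((pow_le_cap' (c := 5)
      (z := n + 1) (by omega) (by omega) (by simp only [Tm.dp]; omega)).trans U.hV)

theorem tsp_sum {nl : α → (κ → ℕ) → ℕ} {x : κ} (he : e ∈ U.S) (hW : wt e + 1 ≤ U.W) (hx : q x = 0)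
    (hn : nl U.a q ≤ 2 ^ n)
    (h : ∀ u < nl U.a q, u ≤ U.V → U.TSp e (e.evA U.a E n (update q x u) j y) false (update q x u)
      r j y n (wt e))
    (o' : ∀ u < nl U.a q, AOk (U.P.box U.a) (n * e.dp) (e.evA U.a E n (update q x u) j y))
    (o : AOk (U.P.box U.a) (n * (Tm.sum nl x e).dp) ((Tm.sum nl x e).evA U.a E n q j y)) :
    U.TSp (.sum nl x e) ((Tm.sum nl x e).evA U.a E n q j y) false q r j y n (wt e + 1) := by
  intro d s hs g hg hk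
  have h1 := U.cst_ge r j (g (cv 2)) n (w := wt e + 1) (by omega)
  have hs' : Tm.sOf e.dp ≤ Tm.sOf U.W := sOf_le ((dp_le_wt _).trans (by omega))
  have cn : ∀ i u, u < (nodeS n (nl U.a q)).cnt i → i = n ∧ u < nl U.a q := fun i u h => by
    by_cases h' : i = n
    · exact ⟨h', by simpa [nodeS, h'] using h⟩
    · simp [nodeS, h'] at h
  have hV : ∀ u < nl U.a q, u ≤ U.V := fun u hu => hu.le.trans (hn.trans
    ((pow_le_cap' (c := 1) (z := n) (by omega) (by omega) (by omega)).trans U.hV))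
  refine wp_node (Y := codeS U.nm U.cap nl x e) (R₀ := At q s j y n)
    (R := fun _ u => At (update q x u) s j y n)
    ⟨by simp [codeS], fun _ _ h => h.upT _, fun _ _ h => h.upR _,
      fun _ h => congrArg (· + 1) h.hn, fun _ h i _ => by simp only [codeS, nodeS, h.hn, h.hq],
      fun _ _ => rfl, fun _ _ _ _ _ _ => rfl, fun _ _ _ _ _ _ => rfl,
      fun i _ u hu g' l b h _ _ l2 _ => ?_,
      fun i hi u hu g' l b h' ht _ l2 hl => ?_,
      fun i _ u hu g' l b h _ _ l2 _ => ?_⟩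
    rfl hs' (Nat.zero_le _) (nodeS_bd hn (by omega)) (by simp [nodeS]) le_rfl
    (fun i hi u hu => ⟨(cn i u hu).1.ge, _, (o' u (cn i u hu).2).apx s hs,
      bd_mono (o' u (cn i u hu).2) (by omega) hs⟩) (o.apx s hs) (bd_mono o hW hs)
    (Nat.lt_succ_self _) hk hg
  · refine wp_setG (f := fun _ _ l => l 2) l2 (hV u (cn i u hu).2) ?_
    exact ⟨h.upX _ _, by simp [codeS], rfl⟩
  · obtain ⟨rfl, hu'⟩ := cn i u hu
    have hk' := child_le (Nat.lt_succ_self _) (by omega) hs' ht hk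
    simp only [Nat.sub_self, Nat.sub_zero] at hk' ⊢
    exact (h u hu' (hV u hu')).num he hs h' hk' hl
  · have := h.upX x 0
    rw [update_idem, update_eq_self_iff.2 hx.symm] at this
    refine wp_setG (f := fun _ _ _ => 0) rfl (Nat.zero_le _) ?_
    exact ⟨this, by simp [codeS], rfl⟩

theorem tsp_avg {v : View α σ κ} (he : e ∈ U.S) (hW : wt e + 1 ≤ U.W)
    (hv : v.Ok U.a q (U.P.box U.a))
    (h : ∀ j, U.TSp e (e.evA U.a E n q j y) false q r j y n (wt e))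
    (o' : ∀ j, AOk (U.P.box U.a) (n * e.dp) (e.evA U.a E n q j y))
    (o : AOk (U.P.box U.a) (n * (Tm.avg v e).dp) ((Tm.avg v e).evA U.a E n q j y)) :
    U.TSp (.avg v e) ((Tm.avg v e).evA U.a E n q j y) false q r j y n (wt e + 1) := by
  intro d s hs g hg hk
  have h1 := U.cst_ge r j (g (cv 2)) n (w := wt e + 1) (by omega)
  have hs' : Tm.sOf e.dp ≤ Tm.sOf U.W := sOf_le ((dp_le_wt _).trans (by omega))
  have cn : ∀ i u, u < (nodeA n j (2 ^ (n * e.dp))).cnt i → n ≤ i := fun i u h => by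
    by_contra h'
    simp [nodeA, not_le.1 h'] at h
  have hI : ∀ i, i < (nodeA n j (2 ^ (n * e.dp))).I → i < n + j + 1 := fun _ h => h
  refine wp_node (Y := codeA U.nm U.cap v e) (R₀ := At q s j y n)
    (R := fun i u => At q (v.ch U.a q (i - n) u s) (j - (i - n)) y n)
    ⟨by simp [codeA], fun _ _ h => h.upT _, fun _ _ h => h.upR _,
      fun _ h => by simp only [codeA, nodeA, h.hn, h.hj], fun _ h i hi => ?_, fun _ h => ?_,
      fun i hi _ _ _ h => ?_, fun _ _ _ _ _ _ => rfl, fun i hi u hu g' l b h _ l1 l2 _ => ?_,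
      fun i hi u hu g' l b h' ht _ l2 hl => (h _).num he (hv.ch_mem _ _ hs) h'
        (child_le (Nat.lt_succ_self _) hi hs' ht hk) hl,
      fun i hi u hu g' l b h _ l1 l2 _ => ?_⟩
    rfl hs' le_rfl (nodeA_bd _ _ _ (by omega)) le_rfl (by simp [nodeA])
    (fun i hi u hu => ⟨cn i u hu, _, (o' _).apx _ (hv.ch_mem _ _ hs),
      bd_mono (o' _) (by omega) (hv.ch_mem _ _ hs)⟩) (o.apx s hs) (bd_mono o hW hs)
    (Nat.lt_succ_self _) hk hg
  · have := hI i hi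
    simp only [codeA, nodeA, h.hn]
    rw [cpow_nD (by omega), cpow_nD (by omega)]
  · simp only [codeA, nodeA, h.hn]
    rw [cpow_dp (by omega) (by omega)]
  · have := hI i hi
    simp only [codeA, nodeA, h.hn]
    rw [cpow_nD (by omega), cpow_nD (by omega), cpow_nD (by omega)]
    push_cast
    rfl
  · have := hI i hi
    refine WP.seq (wp_setS (s := v.ch U.a q (i - n) u s) ?_ (box_le (hv.ch_mem _ _ hs))
      (wp_setG (v := j - (i - n)) (by simp [h.hj, h.hn, l1]) (le_V (by omega))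
        ⟨(h.putS _).upJ _, by simp [codeA], rfl⟩))
    rw [h.hq, h.hs, h.hn, l1, l2, chc, cpow_nD (by omega), View.ch]
  · have := hI i hi
    refine WP.seq (wp_setG (v := j) (by rw [h.hj, h.hn, l1]; omega) (le_V (by omega))
      (wp_setS (s := s) ?_ (box_le hs) ⟨(h.upJ _).putS _, by simp [codeA], rfl⟩))
    rw [(h.upJ j).hq, (h.upJ j).hs, (h.upJ j).hn, l1, l2, uhc, cpow_nD (by omega), View.ch]
    split_ifs <;> exact (hv.wk_mem _ _ s hs).2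

theorem tsp_hop (m₁ : e₁ ∈ U.S) (m₂ : e₂ ∈ U.S) (hW : wt e₁ + wt e₂ + 1 ≤ U.W)
    (h₁ : U.TSp e₁ (e₁.evA U.a E n q j y) true q r j y n (wt e₁))
    (h₂ : U.TSp e₂ (e₂.evA U.a E n q j y) false q r j y n (wt e₂))
    (o₁ : AOk (U.P.box U.a) (n * e₁.dp) (e₁.evA U.a E n q j y))
    (o₂ : AOk (U.P.box U.a) (n * e₂.dp) (e₂.evA U.a E n q j y)) :
    U.TSp (.hop d e₁ e₂) ((Tm.hop d e₁ e₂).evA U.a E n q j y) false q r j y n
      (wt e₁ + wt e₂ + 1) := by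
  intro d' s hs g hg hk
  have h1 := U.cst_ge r j (g (cv 2)) n (w := wt e₁ + wt e₂ + 1) (by omega)
  have hD : n * U.W + 2 + 2 + 1 ≤ U.D * (n + 1) := by
    have : (U.W + 5) * (n + 1) ≤ U.D * (n + 1) :=
      Nat.mul_le_mul_right _ (by have := U.hD; have := U.fr_ge; omega)
    nlinarith
  have c1 := U.cst_add r j (g (cv 2)) n (show wt e₁ < wt e₁ + wt e₂ + 1 by omega) hD
  have c2 := U.cst_add r j (g (cv 2)) n (show wt e₂ < wt e₁ + wt e₂ + 1 by omega) hD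
  have i0 := ini_lt (c := 2) (w := n * U.W + 2 + 2) le_rfl (by omega)
  refine (h₁.mv m₁ d hs i0 c1 hk g ⟨hg, rfl⟩).seq' ?_
  rintro g1 _ ⟨⟨r1, t1⟩, e1, rfl⟩
  cases hm : (e₁.evA U.a E n q j y).mv d s with
  | none =>
    rw [hm] at r1 e1
    refine WP.ifF (by simp [e1]) (WP.skip ⟨r1, t1, ?_⟩)
    simp [e1, Tm.evA, hm, dig]
  | some s' =>
    rw [hm] at r1 e1
    obtain ⟨b1, b2⟩ := o₁.inj d s hs s' hm
    refine WP.ifT e1 (((h₂.num m₂ b1 r1 (by rw [t1]; omega) i0).cost (by rw [t1]; exact c2)).seq' ?_)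
    rintro g2 _ ⟨r2, t2, rfl, e2⟩
    have hd := enZ_lt (dig_le (o₂.apx s' b1) (bd_mono o₂ (by omega) b1) le_rfl (g1 (cv 2)))
    have hdV := hd.le.trans ((pow_le_cap' (c := U.W + 4) (z := n + 1) (by omega) (by omega)
      (by nlinarith)).trans U.hV)
    refine WP.seq (wp_setL e2 hdV ?_)
    have := h₁.mv m₁ (!d) b1 (update_lt i0 hd 10) c1 hk g2 ⟨r2, t2.trans t1⟩
    rw [b2] at this
    refine this.seq' ?_
    rintro g3 _ ⟨⟨r3, t3⟩, -, rfl⟩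
    refine wp_setG (update_self _ _ _) hdV ⟨r3.upR _, by simp [t3], ?_⟩
    simp [Tm.evA, hm, t1]

end Env

end Vale.Agent.P313.Full.Sp
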