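import Vale.Agent.P313.Full.DslSpD

/-!
The translated programs compute the approximate meaning: moves.
-/

namespace Vale.Agent.P313.Full

open Function Finset Vale.Agent.Lib.Space Prog Pg

variable {α γ σ κ τ ρ : Type} [DecidableEq κ] [DecidableEq σ] [Fintype σ]

namespace Sp.Env

variable {U : Env α γ σ κ τ ρ} {e e₁ e₂ : Tm α σ κ τ} {X X₁ X₂ : AV σ} {m d : Bool} {q : κ → ℕ}
  {s : σ → ℕ} {r j y n w w' t : ℕ} {l : Loc → ℕ} {E : τ → (κ → ℕ) → ℕ → ℕ → AV σ}

theorem TSp.of_mv' {p : Bool → Prog (α × γ) (GV κ σ) Loc ρ} (he : comp U.nm U.cap U.P e = both p)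
    (h : ∀ d, ∀ s ∈ U.P.box U.a, ∀ t g, U.cst r j t w n ≤ U.k₀ → Rt q j y n t s g →
      WP U.body (U.a, U.b) U.V (p d) (U.cst r j t w n) (fun g' _ =>
        Rt q j y n t ((X.mv d s).getD s) g' ∧ g' (cv 3) = bv (X.mv d s)) g (ini d.toNat)) :
    U.TSp e X true q r j y n w := fun d s hs g hg hk => by
  rw [he]
  exact wp_both ((h d s hs _ g hk ⟨hg, rfl⟩).mono fun _ _ h => ⟨h.1.1, h.1.2, h.2⟩)

theorem TSp.of_mv {p : Bool → Prog (α × γ) (GV κ σ) Loc ρ} (he : comp U.nm U.cap U.P e = both p)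
    (h : ∀ d, ∀ s ∈ U.P.box U.a, ∀ t, U.cst r j t w n ≤ U.k₀ → MvSp U.body (U.a, U.b) U.V (cv 3)
      (Rt q j y n t) (p d) (U.cst r j t w n) s (X.mv d s) (ini d.toNat)) :
    U.TSp e X true q r j y n w := fun d s hs g hg hk => by
  rw [he]
  exact wp_both ((h d s hs _ hk g ⟨hg, rfl⟩).mono fun _ _ h => ⟨h.1.1, h.1.2, h.2.1⟩)

theorem three_le (n : ℕ) : 2 + 1 ≤ U.D * (n + 1) := by
  have : 3 * 1 ≤ U.D * (n + 1) := Nat.mul_le_mul (by have := U.hD; have := U.fr_ge; omega) (by omega)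
  omega

theorem ini_two (d : Bool) (z : Loc) : ini d.toNat z < 2 ^ 2 :=
  ini_lt (by cases d <;> simp) le_rfl z

theorem mv_chk {p : α → (κ → ℕ) → (σ → ℕ) → Bool} {b : Bool} {k : ℕ} :
    MvSp U.body (U.a, U.b) U.V (cv 3) (Rt q j y n t) (chkP p b) k s
      (if p U.a q s = b then some s else none) l :=
  MvSp.test Rt.ret (by have := U.two_le_V; omega) fun g hg => by rw [hg.1.hq, hg.1.hs]

theorem mv_rd (h : U.TSp e X false q r j y n w) (he : e ∈ U.S) (hW : wt e ≤ U.W)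
    (o : AOk (U.P.box U.a) (n * e.dp) X) (hs : s ∈ U.P.box U.a) (hw : w < w')
    (hk : U.cst r j t w' n ≤ U.k₀) (hl : ∀ z, l z < 2 ^ ((2 * lt + 2) * (n + 1)))
    (l1 : l 11 = 0) (l2 : l 12 = 0) (l3 : l 13 = 0) :
    MvSp U.body (U.a, U.b) U.V (cv 3) (Rt q j y n t) (rdP U.nm U.cap e) (U.cst r j t w' n) s
      (if 4 ≤ X.ap s 3 then some s else none) l := by
  rintro g ⟨hg, rfl⟩
  have h1 := U.cst_ge r j (g (cv 2)) n (w := w') (by omega)
  refine (wp_readP (R := At q s j y n) (K := fun t' => U.cst r j t' w n) (ap := X.ap s) (T := 3)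
    (c := n * U.W + 2) (w0 := (2 * lt + 2) * (n + 1) + g (cv 2)) (by simp) (by decide) (by decide)
    (by decide) (fun _ _ h => h.upT _) (fun _ _ h => h.upR _)
    (dig_le (o.apx s hs) (bd_mono o hW hs) le_rfl) (fun g' l' b h' ht _ hb => h.num he hs h' ?_ hb)
    (fun _ _ => rfl) (pow_le_cap' (c := U.W + 8) (z := n + 1) (by omega) (by omega) (by nlinarith))
    U.hV (le_V (by omega)) (fun δ hδ => U.cst_read hw hδ) (fun z _ _ _ => (hl z).trans_le
      (Nat.pow_le_pow_right (by norm_num) (by omega))) (Nat.lt_two_pow_self.trans_le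
      (Nat.pow_le_pow_right (by norm_num) (by omega))) hg).seq' ?_
  · have := U.cst_read (r := r) (j := j) (t := g (cv 2)) (n := n) hw (Nat.sub_le 3 (g' (cv 2)))
    rw [Nat.sub_sub_self ht] at this
    omega
  · rintro g1 _ ⟨r1, t1, e1, rfl⟩
    rw [(update_eq_self_iff (f := l)).2 l1.symm, (update_eq_self_iff (f := l)).2 l2.symm,
      (update_eq_self_iff (f := l)).2 l3.symm]
    refine wp_setG (v := if 4 ≤ X.ap s 3 then 1 else 0) (by rw [e1, deZ_enZ])
      (by have := U.two_le_V; split_ifs <;> omega) ?_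
    split_ifs <;> exact ⟨⟨r1.upR _, by simp [t1]⟩, by simp, rfl⟩

theorem tsp_seq (m₁ : e₁ ∈ U.S) (m₂ : e₂ ∈ U.S)
    (h₁ : U.TSp e₁ (e₁.evA U.a E n q j y) true q r j y n (wt e₁))
    (h₂ : U.TSp e₂ (e₂.evA U.a E n q j y) true q r j y n (wt e₂))
    (o₁ : Inj (U.P.box U.a) (e₁.evA U.a E n q j y).mv)
    (o₂ : Inj (U.P.box U.a) (e₂.evA U.a E n q j y).mv) :
    U.TSp (.seq e₁ e₂) ((Tm.seq e₁ e₂).evA U.a E n q j y) true q r j y n (wt e₁ + wt e₂ + 1) := by
  refine TSp.of_mv rfl fun d s hs t hk => ?_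
  have c1 := U.cst_add r j t n (show wt e₁ < wt e₁ + wt e₂ + 1 by omega) (three_le n)
  have c2 := U.cst_add r j t n (show wt e₂ < wt e₁ + wt e₂ + 1 by omega) (three_le n)
  cases d
  · refine MvSp.sq Rt.ret (h₂.mv m₂ false hs (ini_two _) c2 hk) fun s' h => ?_
    obtain ⟨b1, b2⟩ := o₂ _ s hs s' h
    exact ⟨h₁.mv m₁ false b1 (ini_two _) c1 hk, b2 ▸ h₂.mv m₂ (!false) b1 (ini_two _) c2 hk⟩
  · refine MvSp.sq Rt.ret (h₁.mv m₁ true hs (ini_two _) c1 hk) fun s' h => ?_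
    obtain ⟨b1, b2⟩ := o₁ _ s hs s' h
    exact ⟨h₂.mv m₂ true b1 (ini_two _) c2 hk, b2 ▸ h₁.mv m₁ (!true) b1 (ini_two _) c1 hk⟩

theorem tsp_alt {p : Bool → α → (κ → ℕ) → (σ → ℕ) → Bool} (m₁ : e₁ ∈ U.S) (m₂ : e₂ ∈ U.S)
    (h₁ : U.TSp e₁ (e₁.evA U.a E n q j y) m q r j y n (wt e₁))
    (h₂ : U.TSp e₂ (e₂.evA U.a E n q j y) m q r j y n (wt e₂))
    (o₁ : Inj (U.P.box U.a) (e₁.evA U.a E n q j y).mv)
    (o₂ : Inj (U.P.box U.a) (e₂.evA U.a E n q j y).mv) :
    U.TSp (.alt p e₁ e₂) ((Tm.alt p e₁ e₂).evA U.a E n q j y) m q r j y n (wt e₁ + wt e₂ + 1) := by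
  intro d s hs g hg hk
  cases m
  · refine WP.ifT rfl (WP.ifP (fun h => ?_) fun h => ?_)
    · rw [hg.hq, hg.hs] at h
      refine (h₁.mono (by omega) d s hs g hg hk).mono fun g' _ h' => ⟨h'.1, h'.2.1, ?_⟩
      simpa [Tm.evA, h] using h'.2.2
    · rw [hg.hq, hg.hs] at h
      refine (h₂.mono (by omega) d s hs g hg hk).mono fun g' _ h' => ⟨h'.1, h'.2.1, ?_⟩
      simpa [Tm.evA, h] using h'.2.2
  have key : ∀ {e : Tm α σ κ τ} (b : Bool), e ∈ U.S → wt e < wt e₁ + wt e₂ + 1 →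
      U.TSp e (e.evA U.a E n q j y) true q r j y n (wt e) →
      Inj (U.P.box U.a) (e.evA U.a E n q j y).mv → WP U.body (U.a, U.b) U.V
        (sqP (cv 3) (cT U.nm e d.toNat) (chkP (p (!d)) b) (cT U.nm e (!d).toNat))
        (U.cst r j (g (cv 2)) (wt e₁ + wt e₂ + 1) n) (fun g' _ => At q
          ((((e.evA U.a E n q j y).mv d s).filter fun s' => p (!d) U.a q s' = b).getD s) j y n g' ∧
          g' (cv 2) = g (cv 2) ∧
          g' (cv 3) = bv (((e.evA U.a E n q j y).mv d s).filter fun s' => p (!d) U.a q s' = b))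
        g (ini d.toNat) := by
    intro e b he hw h o
    have c := U.cst_add r j (g (cv 2)) n hw (three_le n)
    have := MvSp.sq (f := fun s' => if p (!d) U.a q s' = b then some s' else none) Rt.ret
      (h.mv he d hs (ini_two d) c hk) (fun s' h' => ⟨mv_chk,
        (o _ s hs s' h').2 ▸ h.mv he (!d) (o _ s hs s' h').1 (ini_two d) c hk⟩) g ⟨hg, rfl⟩
    rw [show (((e.evA U.a E n q j y).mv d s).filter fun s' => p (!d) U.a q s' = b) =
      ((e.evA U.a E n q j y).mv d s).bind fun s' => if p (!d) U.a q s' = b then some s' else none by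
        cases (e.evA U.a E n q j y).mv d s <;> simp [Option.filter_some]]
    exact this.mono fun _ _ h => ⟨h.1.1, h.1.2, h.2.1⟩
  refine WP.ifF (by cases d <;> simp [md, ini]) (wp_both (WP.ifP (fun h => ?_) fun h => ?_))
  · rw [hg.hq, hg.hs] at h
    simpa [Post, Tm.evA, h] using key true m₁ (by omega) h₁ o₁
  · rw [hg.hq, hg.hs] at h
    simpa [Post, Tm.evA, h] using key false m₂ (by omega) h₂ o₂

omit [DecidableEq σ] [Fintype σ] in
theorem cand_eq (wk uw : (σ → ℕ) → σ → ℕ) (F B M : AV σ) (d : Bool) (s : σ → ℕ) :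
    ((if 4 ≤ (if d then F else B).ap (wk s) 3 then some (wk s) else none).bind fun s' =>
      (M.mv d s').bind fun s₂ => if 4 ≤ (if (!d) then F else B).ap s₂ 3 then some s₂ else none).map
        uw = cand wk uw F B M d s := by
  unfold cand
  cases d <;> simp only [Bool.not_true, Bool.not_false, if_true, Bool.false_eq_true, if_false] <;>
    split_ifs <;> simp [Option.map_bind, apply_ite (Option.map _)]

omit [DecidableEq σ] [Fintype σ] in
theorem tower_succ (N : ℕ) (ac : ℕ → ℕ → ℕ → Bool → (σ → ℕ) → Option (σ → ℕ))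
    (wk uw : ℕ → (σ → ℕ) → σ → ℕ) (j y : ℕ) (d : Bool) (s : σ → ℕ) :
    tower N ac wk uw (j + 1) y d s =
      if (first N fun u => ac (j + 1) y u d s).isSome then cls N (ac (j + 1) y) d s
      else ((tower N ac wk uw j (y / nD) d (wk (y % nD) s)).map (uw (y % nD))).bind fun s' =>
        if (first N fun u => ac (j + 1) y u (!d) s').isSome then none else some s' := by
  rw [tower, Option.bind_map]
  rfl

omit [DecidableEq σ] [Fintype σ] in
theorem tower_zero (N : ℕ) (ac : ℕ → ℕ → ℕ → Bool → (σ → ℕ) → Option (σ → ℕ))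
    (wk uw : ℕ → (σ → ℕ) → σ → ℕ) (y : ℕ) (d : Bool) (s : σ → ℕ) :
    tower N ac wk uw 0 y d s =
      if (first N fun u => ac 0 y u d s).isSome then cls N (ac 0 y) d s
      else (none : Option (σ → ℕ)).bind fun s' =>
        if (first N fun u => ac 0 y u (!d) s').isSome then none else some s' := by
  rw [tower, Option.bind_none]
  split_ifs with h0
  · rfl
  · rw [cls, Option.not_isSome_iff_eq_none.1 h0, Option.bind_none]

theorem mv_cand {v : View α σ κ} {nl : α → (κ → ℕ) → ℕ} {x : κ} {tF tB M : Tm α σ κ τ}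
    {F B : AV σ} {u i : ℕ} {z : Loc} (mF : tF ∈ U.S) (mB : tB ∈ U.S) (mM : M ∈ U.S)
    (hW : wt tF + wt tB + wt M + 1 ≤ U.W) (hx : q x = 0) (hv : v.Ok U.a q (U.P.box U.a))
    (hu : l z % nl U.a q = u) (hi : l z / nl U.a q = i) (huV : u ≤ U.V)
    (hF : U.TSp tF F false (update q x u) r j y n (wt tF))
    (hB : U.TSp tB B false (update q x u) r j y n (wt tB))
    (hM : U.TSp M X true (update q x u) r j y n (wt M))
    (oF : AOk (U.P.box U.a) (n * tF.dp) F) (oB : AOk (U.P.box U.a) (n * tB.dp) B)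
    (oM : Inj (U.P.box U.a) X.mv) (hs : s ∈ U.P.box U.a)
    (hk : U.cst r j t (wt tF + wt tB + wt M + 1) n ≤ U.k₀)
    (hl : (∀ z, l z < 2 ^ ((2 * lt + 2) * (n + 1))) ∧ l 11 = 0 ∧ l 12 = 0 ∧ l 13 = 0) :
    MvSp U.body (U.a, U.b) U.V (cv 3) (Rt q j y n t) (candP U.nm U.cap v nl x tF tB M d z)
      (U.cst r j t (wt tF + wt tB + wt M + 1) n) s
      (cand (v.wk U.a q (n + 1) i) (v.uw U.a q (n + 1) i) F B X d s) l := by
  obtain ⟨b0, b0'⟩ := hv.wk_mem (n + 1) i s hs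
  have rd : ∀ (d : Bool), ∀ s ∈ U.P.box U.a, MvSp U.body (U.a, U.b) U.V (cv 3)
      (Rt (update q x u) j y n t) (rdP U.nm U.cap (if d then tF else tB))
      (U.cst r j t (wt tF + wt tB + wt M + 1) n) s
      (if 4 ≤ (if d then F else B).ap s 3 then some s else none) l := by
    intro d s hs
    cases d
    · exact mv_rd (e := tB) hB mB (by omega) oB hs (by omega) hk hl.1 hl.2.1 hl.2.2.1 hl.2.2.2
    · exact mv_rd (e := tF) hF mF (by omega) oF hs (by omega) hk hl.1 hl.2.1 hl.2.2.1 hl.2.2.2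
  have cM := U.cst_add r j t n (show wt M < wt tF + wt tB + wt M + 1 by omega)
    (show (2 * lt + 2) * (n + 1) + 1 ≤ U.D * (n + 1) by
      have : (2 * lt + 3) * (n + 1) ≤ U.D * (n + 1) :=
        Nat.mul_le_mul_right _ (by have := U.hD; have := U.fr_ge; omega)
      nlinarith)
  have e1 : ∀ d : Bool, (if d then tB else tF) = if (!d) then tF else tB := fun d => by
    cases d <;> rfl
  rw [candP, e1, ← cand_eq]
  generalize hs₁ : v.wk U.a q (n + 1) i s = s₁ at b0 b0'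
  refine MvSp.conj (l₁ := l) (R' := Rt (update q x u) j y n t) b0' (fun g hg => ?_)
    (MvSp.sq Rt.ret (rd d _ b0) fun s' hs' => ?_) fun g hg => ?_
  · refine WP.seq (wp_setS (s := s₁) (by rw [hg.1.hq, hg.1.hs, hg.1.hn, hi, hs₁]) (box_le b0)
      (wp_setG (v := u) (by rw [(hg.1.putS _).hq, hu]) huV
        ⟨⟨(hg.1.putS _).upX _ _, by simp [hg.2]⟩, rfl⟩))
  · obtain rfl : s₁ = s' := by
      by_contra h0
      simp [h0] at hs'
    refine ⟨MvSp.sq Rt.ret (hM.mv mM d b0 hl.1 cM hk) fun s₂ h₂ => ⟨rd (!d) s₂ (oM d _ b0 _ h₂).1,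
      (oM d _ b0 _ h₂).2 ▸ hM.mv mM (!d) (oM d _ b0 _ h₂).1 hl.1 cM hk⟩, ?_⟩
    exact MvSp.test (p := True) Rt.ret (by have := U.two_le_V; omega) fun _ _ => by simp
  · have a1 := hg.1.upX x 0
    rw [update_idem, update_eq_self_iff.2 hx.symm] at a1
    refine WP.seq (wp_setG rfl (Nat.zero_le _) (wp_setS (by rw [a1.hq, a1.hs, a1.hn, hi])
      (box_le (hv.uw_mem _ _ _ ?_).1) ⟨⟨a1.putS _, by simp [hg.2]⟩, by simp, rfl⟩))
    by_cases h4 : 4 ≤ (if d then F else B).ap s₁ 3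
    · rw [if_pos h4, Option.bind_some]
      cases h₂ : X.mv d s₁ with
      | none => exact b0
      | some s₂ =>
        rw [Option.bind_some]
        by_cases h5 : 4 ≤ (if (!d) then F else B).ap s₂ 3
        · rw [if_pos h5]
          exact (oM d _ b0 _ h₂).1
        · rw [if_neg h5]
          exact b0
    · rw [if_neg h4]
      exact b0

theorem mv_rest {v : View α σ κ} {y₀ y₁ : ℕ} {d' : Bool} (h : U.TSp e X true q r j y₁ n w)
    (he : e ∈ U.S) (hw : 1 ≤ w) (hv : v.Ok U.a q (U.P.box U.a)) (o : Inj (U.P.box U.a) X.mv)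
    (hy : y ≤ U.V) (h0 : y % nD = y₀) (h1 : y / nD = y₁) (hs : s ∈ U.P.box U.a)
    (hk : U.cst r (j + 1) t w n ≤ U.k₀) :
    MvSp U.body (U.a, U.b) U.V (cv 3) (Rt q (j + 1) y n t) (restP U.nm v e d')
      (U.cst r (j + 1) t w n) s ((X.mv d' (v.wk U.a q 1 y₀ s)).map (v.uw U.a q 1 y₀))
      (ini d.toNat) := by
  intro g' hg'
  have k1 := U.cst_ge r (j + 1) t n hw
  have hm : y₀ < 2 ^ (2 * lt + 2) := (h0 ▸ Nat.mod_lt _ nD_pos : y₀ < nD).trans_le
    (nD_eq.le.trans (pow_le_pow_right₀ one_le_two (Nat.le_add_right _ _)))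
  have h2 : nD * y₁ + y₀ = y := h0 ▸ h1 ▸ Nat.div_add_mod y nD
  obtain ⟨b0, b0'⟩ := hv.wk_mem 1 y₀ s hs
  generalize hs₁ : v.wk U.a q 1 y₀ s = s₁ at b0 b0'
  refine WP.ifF (by rw [hg'.1.hj]; omega) (MvSp.conj (l₁ := update (ini d.toNat) 10 y₀) b0'
    (fun g hg => ?_) (h.mv he d' b0 (update_lt (ini_lt
      (by cases d <;> simp) (by omega)) hm 10) (U.cst_succ ..) hk) (fun g hg => ?_) g' hg')
  · have a1 := (hg.1.upY y₁).upJ j
    exact WP.seq (wp_setL (v := y₀) (by rw [hg.1.hy, h0]) (h0 ▸ (Nat.mod_le _ _).trans hy) (WP.seq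
      (wp_setG (v := y₁) (by rw [hg.1.hy, h1]) (h1 ▸ (Nat.div_le_self _ _).trans hy) (WP.seq
        (wp_setG (v := j) (by rw [(hg.1.upY _).hj, Nat.add_sub_cancel]) (le_V (by omega))
          (wp_setS (s := s₁) (by rw [a1.hq, a1.hs, update_self, hs₁]) (box_le b0)
            ⟨⟨a1.putS _, by simp [hg.2]⟩, rfl⟩))))))
  · have b1 : (X.mv d' s₁).getD s₁ ∈ U.P.box U.a := by
      cases h₂ : X.mv d' s₁ with
      | none => exact b0
      | some s₂ => exact (o _ _ b0 _ h₂).1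
    refine WP.seq (wp_setS (by rw [hg.1.hq, hg.1.hs, update_self])
      (box_le (hv.uw_mem _ _ _ b1).1) (WP.seq (wp_setG (v := j + 1) (by rw [(hg.1.putS _).hj])
        (le_V (by omega)) (WP.seq (wp_setG (v := y)
          (by rw [((hg.1.putS _).upJ _).hy, update_self, h2]) hy
          (wp_setL rfl (Nat.zero_le _) ⟨⟨((hg.1.putS _).upJ _).upY _, by simp [hg.2]⟩, by simp,
            ?_⟩))))))
    rw [update_idem]
    exact update_eq_self_iff.2 rfl

theorem tsp_search {v : View α σ κ} {nl : α → (κ → ℕ) → ℕ} {x : κ} {tF tB M : Tm α σ κ τ}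
    (hS : subs (.search v nl x tF tB M) ⊆ U.S) (hW : wt tF + wt tB + wt M + 1 ≤ U.W)
    (hx : q x = 0) (hn : nl U.a q ≤ 2 ^ n) (hv : v.Ok U.a q (U.P.box U.a))
    (h : ∀ u < nl U.a q, u ≤ U.V → ∀ j y, y ≤ U.V →
      U.TSp tF (tF.evA U.a E n (update q x u) j y) false (update q x u) r j y n (wt tF) ∧
      U.TSp tB (tB.evA U.a E n (update q x u) j y) false (update q x u) r j y n (wt tB) ∧
      U.TSp M (M.evA U.a E n (update q x u) j y) true (update q x u) r j y n (wt M))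
    (o : ∀ u < nl U.a q, ∀ j y,
      AOk (U.P.box U.a) (n * tF.dp) (tF.evA U.a E n (update q x u) j y) ∧
      AOk (U.P.box U.a) (n * tB.dp) (tB.evA U.a E n (update q x u) j y) ∧
      Inj (U.P.box U.a) (M.evA U.a E n (update q x u) j y).mv)
    (o' : ∀ j y, Inj (U.P.box U.a) ((Tm.search v nl x tF tB M).evA U.a E n q j y).mv)
    (j y : ℕ) (hy : y ≤ U.V) :
    U.TSp (.search v nl x tF tB M) ((Tm.search v nl x tF tB M).evA U.a E n q j y) true q r j y n
      (wt tF + wt tB + wt M + 1) := by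
  have mF : tF ∈ U.S := hS (by simp [subs, mem_subs])
  have mB : tB ∈ U.S := hS (by simp [subs, mem_subs])
  have mM : M ∈ U.S := hS (by simp [subs, mem_subs])
  obtain ⟨N, eN⟩ : ∃ N, nD ^ (n + 1) * nl U.a q = N := ⟨_, rfl⟩
  have hN : N < 2 ^ ((2 * lt + 1) * (n + 1)) := by
    rw [← eN, nD_eq, ← pow_mul, add_mul, one_mul, pow_add, pow_succ 2 n]
    have : 0 < 2 ^ n := by positivity
    exact Nat.mul_lt_mul_of_pos_left (by omega) (by positivity)
  have hmod : ∀ u < N, u % nl U.a q < nl U.a q := fun u hu =>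
    Nat.mod_lt _ (Nat.pos_of_ne_zero fun h0 => by rw [← eN, h0, mul_zero] at hu; omega)
  obtain ⟨ac, eac⟩ : ∃ ac : ℕ → ℕ → ℕ → Bool → (σ → ℕ) → Option (σ → ℕ), ac = fun j y u =>
      cand (v.wk U.a q (n + 1) (u / nl U.a q)) (v.uw U.a q (n + 1) (u / nl U.a q))
        (tF.evA U.a E n (update q x (u % nl U.a q)) j y)
        (tB.evA U.a E n (update q x (u % nl U.a q)) j y)
        (M.evA U.a E n (update q x (u % nl U.a q)) j y) := ⟨_, rfl⟩
  have ev : ∀ j y, ((Tm.search v nl x tF tB M).evA U.a E n q j y).mv =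
      tower N ac (v.wk U.a q 1) (v.uw U.a q 1) j y := fun j y => by rw [Tm.evA, eN, eac]
  have cs : ∀ j y t, y ≤ U.V → U.cst r j t (wt tF + wt tB + wt M + 1) n ≤ U.k₀ →
      CandSp U.body (U.a, U.b) U.V (cv 3) (Rt q j y n t)
        (fun a g => cpow (U.cap a.1) nD (g (cv 4) + 1) * nl a.1 (gq g))
        (candP U.nm U.cap v nl x tF tB M) (U.cst r j t (wt tF + wt tB + wt M + 1) n) N (ac j y)
        (· ∈ U.P.box U.a)
        fun l => (∀ z, l z < 2 ^ ((2 * lt + 2) * (n + 1))) ∧ l 11 = 0 ∧ l 12 = 0 ∧ l 13 = 0 := by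
    intro j y t hy hk
    have h1 := U.cst_ge r j t n (w := wt tF + wt tB + wt M + 1) (by omega)
    have hNV := hN.trans_le ((pow_le_cap' (z := n + 1) (by omega) (by omega) le_rfl).trans U.hV)
    subst eac
    refine ⟨Rt.ret, fun s g hg => by rw [hg.1.hn, hg.1.hq, cpow_nD (by omega), eN],
      hNV, fun l z u hl hz hu => ⟨update_lt hl.1 (hu.trans_lt (hN.trans_le (pow_le_pow_right₀
        one_le_two (Nat.mul_le_mul_right _ (by omega))))) z, ?_⟩, fun u hu d s s' hs =>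
      Inj.cand (o _ (hmod u hu) j y).2.2 (hv.wk_mem _ _) (hv.uw_mem _ _) d s hs s',
      fun d z _ s l hs hl hu => ?_⟩
    · rcases hz with rfl | rfl <;> simpa using hl.2
    have huV : l z % nl U.a q ≤ U.V := (Nat.mod_le _ _).trans (hu.trans hNV).le
    obtain ⟨hF, hB, hM⟩ := h _ (hmod _ hu) huV j y hy
    obtain ⟨oF, oB, oM⟩ := o _ (hmod _ hu) j y
    exact mv_cand mF mB mM hW hx hv rfl rfl huV hF hB hM oF oB oM hs hk hl
  have i0 : ∀ d : Bool, (∀ z, ini d.toNat z < 2 ^ ((2 * lt + 2) * (n + 1))) ∧ ini d.toNat 11 = 0 ∧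
      ini d.toNat 12 = 0 ∧ ini d.toNat 13 = 0 := fun d =>
    ⟨ini_lt (by cases d <;> simp) (by nlinarith [Nat.zero_le (lt * (n + 1))]), rfl, rfl, rfl⟩
  induction j generalizing y with
  | zero =>
    refine TSp.of_mv' rfl fun d s hs t g hk hg => (cs 0 y _ hy hk).top (T := fun _ _ => none)
      (by simp) (fun d s _ g hg => ?_) (i0 d) rfl rfl d hs (by rw [ev, tower_zero]) hg
    exact WP.ifT hg.1.hj (wp_setG rfl (Nat.zero_le _) ⟨Rt.ret _ _ _ hg, by simp, rfl⟩)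
  | succ j ih =>
    refine TSp.of_mv' rfl fun d s hs t g hk hg => (cs (j + 1) y _ hy hk).top (T := fun d s =>
      (((Tm.search v nl x tF tB M).evA U.a E n q j (y / nD)).mv d (v.wk U.a q 1 (y % nD) s)).map
        (v.uw U.a q 1 (y % nD))) (fun d s s' hs h => ?_) (fun d' s hs => mv_rest
          (ih _ ((Nat.div_le_self _ _).trans hy)) (hS (mem_subs _)) (by omega) hv (o' _ _) hy rfl rfl
          hs hk) (i0 d) rfl rfl d hs (by rw [ev, ev, tower_succ]) hg
    obtain ⟨s₁, h2, rfl⟩ := Option.map_eq_some_iff.1 h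
    obtain ⟨b1, b2⟩ := o' _ _ d _ (hv.wk_mem _ _ s hs).1 _ h2
    refine ⟨(hv.uw_mem _ _ _ b1).1, ?_⟩
    rw [(hv.uw_mem _ _ _ b1).2, b2, Option.map_some, (hv.wk_mem _ _ s hs).2]

end Sp.Env

end Vale.Agent.P313.Full
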