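import Vale.Agent.P313.Full.ErrLens

/-!
The error estimates for events, for the telescoped average and for the search in the mixed norm.
-/

namespace Vale.Agent.P313.Full

open Finset

variable {St : Type}

open Classical in
/-- The indicator function of an event. -/
noncomputable def ind (E : St → ℕ → Prop) (s : St) (τ : ℕ) : ℝ := if E s τ then 1 else 0

theorem ind_nonneg (E : St → ℕ → Prop) (s : St) (τ : ℕ) : 0 ≤ ind E s τ := by
  unfold ind
  split_ifs <;> norm_num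

theorem ind_le_one (E : St → ℕ → Prop) (s : St) (τ : ℕ) : ind E s τ ≤ 1 := by
  unfold ind
  split_ifs <;> norm_num

theorem ind_pos {E : St → ℕ → Prop} {s : St} {τ : ℕ} (h : E s τ) : ind E s τ = 1 := if_pos h

theorem ind_neg {E : St → ℕ → Prop} {s : St} {τ : ℕ} (h : ¬ E s τ) : ind E s τ = 0 := if_neg h

theorem abs_ind_le {E : St → ℕ → Prop} {s : St} {τ : ℕ} {x : ℝ} (h0 : 0 ≤ x) (h : E s τ → 1 ≤ x) :
    |ind E s τ| ≤ x := by
  rw [abs_of_nonneg (ind_nonneg _ _ _)]
  by_cases hE : E s τ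
  · rw [ind_pos hE]
    exact h hE
  · rwa [ind_neg hE]

section basic

variable {D : Finset St} {T : Finset ℕ}

/-- A pointwise bound by a multiple. -/
theorem nrm_le_mul {c : ℝ} (hc : 0 ≤ c) {g k : St → ℕ → ℝ}
    (hk : ∀ s ∈ D, ∀ τ ∈ T, |g s τ| ≤ c * |k s τ|) : nrm D T g ≤ c * nrm D T k := by
  refine (nrm_mono hk).trans (le_of_eq ?_)
  rw [nrm_smul, nrm_abs, abs_of_nonneg hc]

/-- An event which forces a large error. -/
theorem nrm_ind_le {E : St → ℕ → Prop} {g : St → ℕ → ℝ} {c : ℝ} (hc : 0 ≤ c)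
    (hE : ∀ s ∈ D, ∀ τ ∈ T, E s τ → 1 ≤ c * |g s τ|) : nrm D T (ind E) ≤ c * nrm D T g :=
  nrm_le_mul hc fun s hs τ hτ => abs_ind_le (by positivity) (hE s hs τ hτ)

theorem nrm_ind_mono {E E' : St → ℕ → Prop} (hE : ∀ s ∈ D, ∀ τ ∈ T, E s τ → E' s τ) :
    nrm D T (ind E) ≤ nrm D T (ind E') :=
  nrm_mono fun s hs τ hτ => abs_ind_le (ind_nonneg _ _ _) fun h => (ind_pos (hE s hs τ hτ h)).ge

theorem nrm_ind_or {E E₁ E₂ : St → ℕ → Prop} (hE : ∀ s ∈ D, ∀ τ ∈ T, E s τ → E₁ s τ ∨ E₂ s τ) :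
    nrm D T (ind E) ≤ nrm D T (ind E₁) + nrm D T (ind E₂) := by
  refine le_trans (nrm_mono fun s hs τ hτ => abs_ind_le
    (add_nonneg (ind_nonneg _ _ _) (ind_nonneg _ _ _)) fun h => ?_) (nrm_add_le D T _ _)
  rcases hE s hs τ hτ h with h | h
  · rw [ind_pos h]
    linarith [ind_nonneg E₂ s τ]
  · rw [ind_pos h]
    linarith [ind_nonneg E₁ s τ]

theorem nrm_ind_exists {ι : Type} (U : Finset ι) {E : St → ℕ → Prop} {E' : ι → St → ℕ → Prop}
    (hE : ∀ s ∈ D, ∀ τ ∈ T, E s τ → ∃ u ∈ U, E' u s τ) :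
    nrm D T (ind E) ≤ ∑ u ∈ U, nrm D T (ind (E' u)) := by
  refine le_trans (nrm_mono fun s hs τ hτ => abs_ind_le
    (sum_nonneg fun _ _ => ind_nonneg _ _ _) fun h => ?_) (nrm_sum_le D T U _)
  obtain ⟨u, hu, h'⟩ := hE s hs τ hτ h
  exact (ind_pos h').ge.trans
    (single_le_sum (f := fun u => ind (E' u) s τ) (fun _ _ => ind_nonneg _ _ _) hu)

open Classical in
/-- An event which can only happen on a part of the set. -/
theorem nrm_ind_filter (p : St → Prop) {E E' : St → ℕ → Prop}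
    (hE : ∀ s ∈ D, ∀ τ ∈ T, E s τ → p s ∧ E' s τ) :
    nrm D T (ind E) ≤ nrm (D.filter p) T (ind E') := by
  rw [← nrm_filter]
  refine nrm_mono fun s hs τ hτ => abs_ind_le ?_ fun h => ?_
  · split_ifs
    exacts [ind_nonneg _ _ _, le_rfl]
  · rw [if_pos (hE s hs τ hτ h).1, ind_pos (hE s hs τ hτ h).2]

theorem nrm_ind_comp {D' : Finset St} {f : St → St} (hm : ∀ s ∈ D', f s ∈ D)
    (hi : Set.InjOn f D') (E : St → ℕ → Prop) :
    nrm D' T (ind fun s => E (f s)) ≤ nrm D T (ind E) := nrm_comp_le hm hi T (ind E)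

theorem nrm_ind_pow (D : Finset St) (T : ℕ) (E : St → ℕ → Prop) :
    nrm D (range T) (ind E) ^ 4 = ∑ s ∈ D, prb T (E s) ^ 2 := by
  classical
  rw [nrm_pow_four]
  refine sum_congr rfl fun s _ => ?_
  have := ms_ind (range T) (E s)
  rw [card_range] at this
  unfold prb
  rw [← this]
  rfl

theorem nrm_ind_le_card (D : Finset St) (T : Finset ℕ) (E : St → ℕ → Prop) :
    nrm D T (ind E) ≤ √(√D.card) := by
  simpa using nrm_le_card (D := D) (T := T) (g := ind E) (c := 1)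
    (fun s _ τ _ => abs_ind_le zero_le_one fun _ => le_rfl) zero_le_one

end basic

theorem H_sub {m t : ℕ} (f g : ℕ → ℝ) (s : ℕ) :
    Mix.H m t (fun v => f v - g v) s = Mix.H m t f s - Mix.H m t g s := by
  simp only [Mix.H, sum_sub_distrib, sub_div]

theorem sum_quarter_le (n : ℕ) : ∑ i ∈ range n, (1 / 4 : ℝ) ^ (i + 1) ≤ 1 / 3 := by
  have : ∑ i ∈ range n, (1 / 4 : ℝ) ^ (i + 1) = (1 - (1 / 4) ^ n) / 3 := by
    induction n with
    | zero => simp
    | succ n ih => rw [sum_range_succ, ih]; ring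
  rw [this]
  have : (0 : ℝ) ≤ (1 / 4) ^ n := by positivity
  linarith

/-- The telescoped average. -/
theorem nrm_avg {D : Finset St} {T : Finset ℕ} {m : ℕ} {get : St → ℕ} {set : St → ℕ → St}
    (hL : IsLens D m get set) {l k j : ℕ} (hl : l = Mix.t0 * k) (hk : 6 ≤ k)
    (ah : ℕ → St → ℕ → ℝ) (a : St → ℝ)
    {X Y : ℝ} (he : ∀ i ≤ j, nrm D T (fun s τ => ah i s τ - a s) ≤ X / 2 ^ i)
    (ha : nrm D T (fun s _ => a s) ≤ Y) :
    nrm D T (fun s τ => (ah j s τ + ∑ i ∈ range j,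
      (Mix.H m (l * (i + 1)) (fun v => ah (j - (i + 1)) (set s v) τ) (get s) -
        Mix.H m (l * i) (fun v => ah (j - (i + 1)) (set s v) τ) (get s))) -
      Mix.J m fun v => a (set s v)) ≤ (7 * X + 2 * Y) / 2 ^ j := by
  have hX : 0 ≤ X := by simpa using (nrm_nonneg _ _ _).trans (he 0 (Nat.zero_le _))
  have hY : 0 ≤ Y := (nrm_nonneg _ _ _).trans ha
  have mx : ∀ (i : ℕ) (g : St → ℕ → ℝ), nrm D T (fun s τ =>
      Mix.H m (l * i) (fun v => g (set s v) τ) (get s) - Mix.J m fun v => g (set s v) τ) ≤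
      2 * (1 / 8) ^ i * nrm D T g := fun i g => by
    rw [hl, mul_assoc, show (1 / 8 : ℝ) = (1 / 2) ^ 3 by norm_num, ← pow_mul]
    exact hL.nrm_mix (by nlinarith) T g
  let e : ℕ → St → ℕ → ℝ := fun i s τ => ah i s τ - a s
  let u : ℕ → ℕ → St → ℕ → ℝ := fun i k s τ =>
    Mix.H m (l * i) (fun v => e k (set s v) τ) (get s) - Mix.J m fun v => e k (set s v) τ
  have key : ∀ s ∈ D, ∀ τ ∈ T, (ah j s τ + ∑ i ∈ range j,
      (Mix.H m (l * (i + 1)) (fun v => ah (j - (i + 1)) (set s v) τ) (get s) -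
        Mix.H m (l * i) (fun v => ah (j - (i + 1)) (set s v) τ) (get s))) -
      (Mix.J m fun v => a (set s v)) =
      (e j s τ + ∑ i ∈ range j, (u (i + 1) (j - (i + 1)) s τ - u i (j - (i + 1)) s τ)) +
        (Mix.H m (l * j) (fun v => a (set s v)) (get s) - Mix.J m fun v => a (set s v)) := by
    intro s hs τ _
    have t := sum_range_sub (fun i => Mix.H m (l * i) (fun v => a (set s v)) (get s)) j
    simp only [u, e, H_sub, mul_zero, Mix.H_zero, hL.set_get s hs, sum_sub_distrib] at t ⊢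
    linarith
  refine (nrm_congr key).trans_le ((nrm_add_le D T _ _).trans ?_)
  have b1 := mx j fun s _ => a s
  have b2 : nrm D T (fun s τ => ∑ i ∈ range j,
      (u (i + 1) (j - (i + 1)) s τ - u i (j - (i + 1)) s τ)) ≤ 6 * X / 2 ^ j := by
    refine (nrm_sum_le D T _ _).trans ((sum_le_sum
      (g := fun i => 18 * X / 2 ^ j * (1 / 4) ^ (i + 1)) fun i hi => ?_).trans ?_)
    · have hi' := mem_range.1 hi
      have c1 := mx (i + 1) (e (j - (i + 1)))
      have c2 := mx i (e (j - (i + 1)))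
      have c3 := he (j - (i + 1)) (Nat.sub_le _ _)
      refine (nrm_sub_le D T _ _).trans ((add_le_add (c1.trans (mul_le_mul_of_nonneg_left c3
        (by positivity))) (c2.trans (mul_le_mul_of_nonneg_left c3 (by positivity)))).trans
        (le_of_eq ?_))
      obtain ⟨r, rfl⟩ := Nat.exists_eq_add_of_le (show i + 1 ≤ j from hi')
      rw [Nat.add_sub_cancel_left, show (1 / 8 : ℝ) = 1 / 4 / 2 by norm_num]
      simp only [div_pow, pow_add, one_pow]
      field_simp
      ring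
    · rw [← mul_sum]
      refine (mul_le_mul_of_nonneg_left (sum_quarter_le j) (by positivity)).trans (le_of_eq ?_)
      ring
  have b3 := (nrm_add_le D T _ _).trans (add_le_add (he j le_rfl) b2)
  have b4 : 2 * (1 / 8) ^ j * nrm D T (fun s _ => a s) ≤ 2 * Y / 2 ^ j := by
    refine (mul_le_mul_of_nonneg_left ha (by positivity)).trans ?_
    rw [mul_right_comm, div_eq_mul_one_div (2 * Y), ← one_div_pow]
    exact mul_le_mul_of_nonneg_left (pow_le_pow_left₀ (by norm_num) (by norm_num) j)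
      (by positivity)
  refine (add_le_add b3 (b1.trans b4)).trans (le_of_eq ?_)
  ring

section tower

variable {P : Finset St} {m : ℕ} {get : St → ℕ} {set : St → ℕ → St}

open Classical in
/-- A walk from a sparse set contracts. -/
theorem IsLens.miss_sq (h : IsLens P m get set) {k : ℕ} (hk : 6 ≤ k) (A : St → Prop)
    (hA : ∀ s ∈ P, 1024 * ((range (m * m)).filter fun v => A (set s v)).card ≤ m * m)
    (φ : St → ℝ) :
    ∑ s ∈ P, (if A s then Mix.H m (Mix.t0 * k) (fun w => φ (set s w)) (get s) else 0) ^ 2 ≤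
      1 / 256 * ∑ s ∈ P, φ s ^ 2 := by
  have h1 := h.l2_miss k φ A (δ := (1 / 32) ^ 2) (by positivity) fun s hs => by
    have : (1024 : ℝ) * ((range (m * m)).filter fun v => A (set s v)).card ≤ (m * m : ℕ) := by
      exact_mod_cast hA s hs
    linarith
  rw [Real.sqrt_sq (by norm_num)] at h1
  have h2 : (1 / 2 : ℝ) ^ k ≤ (1 / 2) ^ 6 := pow_le_pow_of_le_one (by norm_num) (by norm_num) hk
  have h3 := h1.trans (mul_le_mul_of_nonneg_right
    (show (1 / 32 : ℝ) + (1 / 2) ^ k ≤ 1 / 16 by norm_num at h2 ⊢; linarith) (l2_nonneg _ _))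
  have h4 := pow_le_pow_left₀ (l2_nonneg _ _) h3 2
  rw [mul_pow, l2_sq, l2_sq] at h4
  norm_num at h4 ⊢
  exact h4

theorem prb_or {T : ℕ} {E E₁ E₂ : ℕ → Prop} (h : ∀ τ, E τ → E₁ τ ∨ E₂ τ) :
    prb T E ≤ prb T E₁ + prb T E₂ := by
  unfold prb
  rw [← add_div, ← sum_add_distrib]
  refine div_le_div_of_nonneg_right (sum_le_sum fun τ _ => ?_) (Nat.cast_nonneg _)
  have := h τ
  split_ifs <;> first | (norm_num; done) | tauto

/-- The first letter of the tape is independent of the rest. -/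
theorem prb_letter {B L : ℕ} (hB : 0 < B) (E : ℕ → ℕ → Prop) :
    prb (B ^ (L + 1)) (fun y => E (y % B) (y / B)) = (∑ b ∈ range B, prb (B ^ L) (E b)) / B := by
  unfold prb
  rw [pow_succ', Mix.sum_range_mul, ← sum_div, div_div, Nat.cast_mul, mul_comm (B : ℝ)]
  congr 1
  refine sum_congr rfl fun b hb => sum_congr rfl fun y _ => ?_
  beta_reduce
  rw [Nat.add_mul_mod_self_left, Nat.mod_eq_of_lt (mem_range.1 hb),
    Nat.add_mul_div_left _ _ hB, Nat.div_eq_of_lt (mem_range.1 hb), zero_add]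

open Classical in
/-- The failure of the search. -/
theorem nrm_tower (hL : IsLens P m get set) {l k B : ℕ} (hl : l = Mix.t0 * k) (hk : 6 ≤ k)
    (hB : B = 4 ^ l) (A : St → Prop)
    (hA : ∀ s ∈ P, 1024 * ((range (m * m)).filter fun v => A (set s v)).card ≤ m * m)
    {Fl Bad : ℕ → St → ℕ → Prop}
    (hrec : ∀ j, ∀ s ∈ P, ∀ y, Fl (j + 1) s y → Bad (j + 1) s y ∨
      (A s ∧ Fl j (set s (Mix.walk m l (y % B) (get s))) (y / B)))
    {X : ℝ} (hBad : ∀ j L, j ≤ L → nrm P (range (B ^ L)) (ind (Bad j)) ≤ X / 2 ^ j)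
    (h0 : √(√P.card) ≤ 2 * X) (j L : ℕ) (hj : j ≤ L) :
    nrm P (range (B ^ L)) (ind (Fl j)) ≤ 2 * X / 2 ^ j := by
  have hX : 0 ≤ X := by simpa using (nrm_nonneg _ _ _).trans (hBad 0 0 le_rfl)
  have hB0 : 0 < B := by rw [hB]; positivity
  induction j generalizing L with
  | zero =>
    rw [pow_zero, div_one]
    exact (nrm_ind_le_card _ _ _).trans h0
  | succ j ih =>
    obtain ⟨L, rfl⟩ : ∃ L', L = L' + 1 := ⟨L - 1, by omega⟩
    have h5 := hL.miss_sq hk A hA fun s => prb (B ^ L) (Fl j s)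
    rw [← hl] at h5
    have key : ∀ s ∈ P, prb (B ^ (L + 1)) (Fl (j + 1) s) ^ 2 ≤
        2 * prb (B ^ (L + 1)) (Bad (j + 1) s) ^ 2 + 2 * (if A s then
          Mix.H m l (fun w => prb (B ^ L) (Fl j (set s w))) (get s) else 0) ^ 2 := by
      intro s hs
      have e : (if A s then Mix.H m l (fun w => prb (B ^ L) (Fl j (set s w))) (get s) else 0) =
          prb (B ^ (L + 1))
            fun y => A s ∧ Fl j (set s (Mix.walk m l (y % B) (get s))) (y / B) := by
        split_ifs with hAs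
        · simp only [hAs, true_and]
          rw [prb_letter hB0 fun b y => Fl j (set s (Mix.walk m l b (get s))) y, Mix.H, hB]
          push_cast
          rfl
        · simp [hAs, prb]
      rw [e]
      have h4 := pow_le_pow_left₀ (prb_nonneg _ _) (prb_or (T := B ^ (L + 1)) (hrec j s hs)) 2
      nlinarith [sq_nonneg (prb (B ^ (L + 1)) (Bad (j + 1) s) - prb (B ^ (L + 1))
        fun y => A s ∧ Fl j (set s (Mix.walk m l (y % B) (get s))) (y / B))]
    have h1 := sum_le_sum key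
    rw [sum_add_distrib, ← mul_sum, ← mul_sum, ← nrm_ind_pow, ← nrm_ind_pow] at h1
    rw [← nrm_ind_pow] at h5
    have h2 := pow_le_pow_left₀ (nrm_nonneg _ _ _) (ih L (by omega)) 4
    have h3 := pow_le_pow_left₀ (nrm_nonneg _ _ _) (hBad _ _ hj) 4
    refine le_of_pow_le_pow_left₀ (n := 4) (by norm_num) (by positivity) ?_
    have e1 : 2 * X / 2 ^ j = 4 * (X / 2 ^ (j + 1)) := by
      rw [pow_succ]
      field_simp
      ring
    rw [e1, mul_pow] at h2
    rw [mul_div_assoc, mul_pow]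
    have h4 : 0 ≤ (X / 2 ^ (j + 1)) ^ 4 := by positivity
    generalize (X / 2 ^ (j + 1)) ^ 4 = Y at *
    norm_num at h1 h2 h5 ⊢
    linarith

end tower

end Vale.Agent.P313.Full
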