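import Vale.Agent.P313.Full.DslBasic
import Vale.Agent.P313.Full.ErrNode

/-!
The failure probability of the approximate search.
-/

namespace Vale.Agent.P313.Full

open Finset

variable {σ : Type}

/-- The approximate numbers `ah` have the error `X / 2 ^ j` on `D`. -/
def ErN (D : Finset (σ → ℕ)) (ah : ℕ → ℕ → AV σ) (a : IV σ) (X : ℝ) : Prop :=
  ∀ j L, j ≤ L → nrm D (range (nD ^ L)) (fun s y => (ah j y).val s - a.val s) ≤ X / 2 ^ j

/-- The approximate moves `ah` have the error `X / 2 ^ j` on `D`. -/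
def ErM (D : Finset (σ → ℕ)) (ah : ℕ → ℕ → AV σ) (a : IV σ) (d : Bool) (X : ℝ) : Prop :=
  ∀ j L, j ≤ L → nrm D (range (nD ^ L)) (ind fun s y => (ah j y).mv d s ≠ a.mv d s) ≤ X / 2 ^ j

theorem ErN.mono {D D' : Finset (σ → ℕ)} {ah : ℕ → ℕ → AV σ} {a : IV σ} {X X' : ℝ}
    (h : ErN D ah a X) (hD : D' ⊆ D) (hX : X ≤ X') : ErN D' ah a X' := fun j L hj =>
  (nrm_subset hD _ _).trans ((h j L hj).trans (div_le_div_of_nonneg_right hX (by positivity)))

theorem ErM.mono {D D' : Finset (σ → ℕ)} {ah : ℕ → ℕ → AV σ} {a : IV σ} {d : Bool} {X X' : ℝ}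
    (h : ErM D ah a d X) (hD : D' ⊆ D) (hX : X ≤ X') : ErM D' ah a d X' := fun j L hj =>
  (nrm_subset hD _ _).trans ((h j L hj).trans (div_le_div_of_nonneg_right hX (by positivity)))

theorem read_hi {ap : ℕ → ℤ} {v : ℝ} (h : Apx ap v) (hv : 5 / 8 ≤ v) : 4 ≤ ap 3 := by
  have h1 := (abs_le.1 (h 3)).1
  have h2 : (4 : ℝ) ≤ ap 3 := by
    norm_num at h1
    linarith
  exact_mod_cast h2

theorem cand_eq {wk uw : (σ → ℕ) → σ → ℕ} {F B M : AV σ} {d : Bool} {s s' z' : σ → ℕ}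
    (h : 4 ≤ (if d then F else B).ap (wk s) 3 → M.mv d (wk s) = some z') (hz : uw z' = s') :
    cand wk uw F B M d s = if 4 ≤ (if d then F else B).ap (wk s) 3 ∧
      4 ≤ (if d then B else F).ap z' 3 then some s' else none := by
  unfold cand
  by_cases h1 : 4 ≤ (if d then F else B).ap (wk s) 3
  · rw [if_pos h1, h h1, Option.bind_some, hz]
    simp only [h1, true_and]
  · rw [if_neg h1, if_neg fun h' => h1 h'.1]

section tower

variable {N : ℕ} {ac : ℕ → Bool → (σ → ℕ) → Option (σ → ℕ)} {d : Bool} {s s' : σ → ℕ}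
  {acc : ℕ → Prop} [DecidablePred acc]

theorem cls_eq (h1 : ∀ u < N, ac u d s = if acc u then some s' else none)
    (h2 : ∀ u < N, ac u (!d) s' = if acc u then some s else none) (h : ∃ u < N, acc u) :
    (first N fun u => ac u d s).isSome = true ∧ cls N ac d s = some s' := by
  have hN := (Nat.find_spec h).1
  have ha := (Nat.find_spec h).2
  have hm : ∀ u < Nat.find h, ¬ acc u := fun u hu h' => Nat.find_min h hu ⟨hu.trans hN, h'⟩
  have e1 : (first N fun u => ac u d s) = some (Nat.find h) :=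
    first_eq_some.2 ⟨hN, by rw [h1 _ hN, if_pos ha]; rfl,
      fun u hu => by rw [h1 u (hu.trans hN), if_neg (hm u hu)]⟩
  have e2 : (first N fun u => ac u (!d) s') = some (Nat.find h) :=
    first_eq_some.2 ⟨hN, by rw [h2 _ hN, if_pos ha]; rfl,
      fun u hu => by rw [h2 u (hu.trans hN), if_neg (hm u hu)]⟩
  refine ⟨by rw [e1]; rfl, ?_⟩
  rw [cls, e1, Option.bind_some, h1 _ hN, if_pos ha, Option.bind_some, if_pos e2]

theorem tower_succ {ac : ℕ → ℕ → ℕ → Bool → (σ → ℕ) → Option (σ → ℕ)}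
    {wk uw : ℕ → (σ → ℕ) → σ → ℕ} {j y : ℕ} {s₁ : σ → ℕ}
    (h1 : ∀ u < N, ac (j + 1) y u d s = if acc u then some s' else none)
    (h2 : ∀ u < N, ac (j + 1) y u (!d) s' = if acc u then some s else none)
    (h : (∃ u < N, acc u) ∨
      (tower N ac wk uw j (y / nD) d (wk (y % nD) s) = some s₁ ∧ uw (y % nD) s₁ = s')) :
    tower N ac wk uw (j + 1) y d s = some s' := by
  by_cases hu : ∃ u < N, acc u
  · obtain ⟨e1, e2⟩ := cls_eq h1 h2 hu
    rw [tower, if_pos e1, e2]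
  · obtain ⟨e1, e2⟩ := h.resolve_left hu
    have e3 : (first N fun u => ac (j + 1) y u d s) = none :=
      first_eq_none.2 fun u h' => by rw [h1 u h', if_neg fun h'' => hu ⟨u, h', h''⟩]
    have e4 : (first N fun u => ac (j + 1) y u (!d) s') = none :=
      first_eq_none.2 fun u h' => by rw [h2 u h', if_neg fun h'' => hu ⟨u, h', h''⟩]
    rw [tower, e3, e1, Option.bind_some, e2, e4]
    rfl

end tower

section search

variable {b : Finset (σ → ℕ)} {m nl : ℕ} {get : (σ → ℕ) → ℕ} {put : (σ → ℕ) → ℕ → σ → ℕ}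
  {F B M : ℕ → IV σ}

/-- A pair, seen from the end `d`. -/
structure PairD (b : Finset (σ → ℕ)) (mm : ℕ) (get : (σ → ℕ) → ℕ) (put : (σ → ℕ) → ℕ → σ → ℕ)
    (nl : ℕ) (T : Bool → ℕ → IV σ) (M : ℕ → IV σ) (d : Bool) (s s' : σ → ℕ) (G : Finset ℕ) :
    Prop where
  bx : s ∈ b
  bY : s' ∈ b
  get_eq : get s' = get s
  fwd : ∀ c < mm, ∀ u < nl, 1 / 4 < (T d u).val (put s c) → (M u).mv d (put s c) = some (put s' c)
  bwd : ∀ c < mm, ∀ u < nl, 1 / 4 < (T (!d) u).val (put s' c) →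
    (M u).mv (!d) (put s' c) = some (put s c)
  sub : G ⊆ range mm
  good : ∀ c ∈ G, ∃ u < nl, 3 / 4 ≤ (T d u).val (put s c) ∧ 3 / 4 ≤ (T (!d) u).val (put s' c)

theorem Pair.toD {mm : ℕ} {d : Bool} {s s' : σ → ℕ} {G : Finset ℕ}
    (h : Pair b mm get put nl F B M (if d then s else s') (if d then s' else s) G) :
    PairD b mm get put nl (fun d u => if d then F u else B u) M d s s' G := by
  cases d
  · exact ⟨h.bY, h.bx, h.get_eq.symm, h.bwd, h.fwd, h.sub,
      fun c hc => let ⟨u, h1, h2, h3⟩ := h.good c hc; ⟨u, h1, h3, h2⟩⟩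
  · exact ⟨h.bx, h.bY, h.get_eq, h.fwd, h.bwd, h.sub, h.good⟩

/-- The local accidents at the state `z`: a wrong test or a wrong move. -/
def Acc (T M : IV σ) (Th Mh : AV σ) (d : Bool) (z : σ → ℕ) : Prop :=
  1 / 8 ≤ |Th.val z - T.val z| ∨ (1 / 4 < T.val z ∧ Mh.mv d z ≠ M.mv d z)

open Classical in
theorem nrm_acc {P : Finset (σ → ℕ)} {T M : IV σ} {Th Mh : ℕ → ℕ → AV σ} {d : Bool} {X Y : ℝ}
    (hT : ErN b Th T X) (hM : ErM (b.filter fun s => 1 / 4 < T.val s) Mh M d Y)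
    {f : (σ → ℕ) → σ → ℕ} (hf : ∀ s ∈ P, f s ∈ b) (hi : Set.InjOn f P) {j L : ℕ} (hj : j ≤ L) :
    nrm P (range (nD ^ L)) (ind fun s y => Acc T M (Th j y) (Mh j y) d (f s)) ≤
      (8 * X + Y) / 2 ^ j := by
  refine (nrm_ind_comp hf hi fun z y => Acc T M (Th j y) (Mh j y) d z).trans ?_
  refine (nrm_ind_or fun _ _ _ _ h => h).trans ?_
  rw [add_div, mul_div_assoc]
  refine add_le_add ((nrm_ind_le (c := 8) (by norm_num) fun s _ y _ h => by linarith).trans
    (mul_le_mul_of_nonneg_left (hT j L hj) (by norm_num))) ?_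
  exact (nrm_ind_filter (fun s => 1 / 4 < T.val s) fun _ _ _ _ h => h).trans (hM j L hj)

theorem lt_eq : lt = Mix.t0 * 40 := by
  unfold lt
  rfl

variable {n : ℕ} {T : Bool → ℕ → IV σ} {d : Bool}

open Classical in
theorem PairD.miss {s s' : σ → ℕ} {G : Finset ℕ}
    (hG : PairD b (m * m) get put nl T M d s s' G) (hd : m * m ≤ 2 ^ n * #G) (A : ℕ → Prop)
    (hA : ∀ v < m * m, A v → ∀ w < nD ^ (n + 1), ∀ u < nl,
      ¬ (3 / 4 ≤ (T d u).val (put s (Mix.walk m (lt * (n + 1)) w v)) ∧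
        3 / 4 ≤ (T (!d) u).val (put s' (Mix.walk m (lt * (n + 1)) w v)))) :
    1024 * #((range (m * m)).filter A) ≤ m * m := by
  have e : Mix.t0 * (40 * (n + 1)) = lt * (n + 1) := by rw [lt_eq, mul_assoc]
  have h1 := ball_miss (m := m) (b := 40 * (n + 1)) (M := 2 ^ n) (fun v => v ∈ G)
    (hd.trans (Nat.mul_le_mul_left _ (card_le_card fun v hv => by
      simp only [mem_filter]
      exact ⟨hG.sub hv, hv⟩))) (by
      rw [show 4 = 2 ^ 2 from rfl, ← pow_mul, show 1024 = 2 ^ 10 from rfl, ← pow_add]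
      exact Nat.pow_le_pow_right (by norm_num) (by omega))
  rw [e, ← nD_pow] at h1
  refine le_trans (Nat.mul_le_mul_left _ (card_le_card fun v hv => ?_)) h1
  simp only [mem_filter] at hv ⊢
  refine ⟨hv.1, fun w hw hw' => ?_⟩
  obtain ⟨u, hu, h5⟩ := hG.good _ hw'
  exact hA v (mem_range.1 hv.1) hv.2 w hw u hu h5

/-- Without accidents a candidate joins the two states of the pair, or fails. -/
theorem PairD.cand (hL : IsLens b m get put) {s s' : σ → ℕ} {G : Finset ℕ}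
    (hG : PairD b (m * m) get put nl T M d s s' G) {l w u : ℕ} (hu : u < nl) {Th : Bool → AV σ}
    {Mh : AV σ} (hx : ∀ d, ∀ s ∈ b, Apx ((Th d).ap s) ((Th d).val s))
    (h1 : ¬ Acc (T d u) (M u) (Th d) Mh d (put s (Mix.walk m l w (get s))))
    (h2 : ¬ Acc (T (!d) u) (M u) (Th (!d)) Mh (!d) (put s' (Mix.walk m l w (get s')))) :
    (cand (fun s => put s (Mix.walk m l w (get s))) (fun s => put s (Mix.unwalk m l w (get s)))
      (Th true) (Th false) Mh d s = if 4 ≤ (Th d).ap (put s (Mix.walk m l w (get s))) 3 ∧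
        4 ≤ (Th (!d)).ap (put s' (Mix.walk m l w (get s'))) 3 then some s' else none) ∧
    cand (fun s => put s (Mix.walk m l w (get s))) (fun s => put s (Mix.unwalk m l w (get s)))
      (Th true) (Th false) Mh (!d) s' = if 4 ≤ (Th d).ap (put s (Mix.walk m l w (get s))) 3 ∧
        4 ≤ (Th (!d)).ap (put s' (Mix.walk m l w (get s'))) 3 then some s else none := by
  have g1 := Mix.walk_lt l w (hL.get_lt s hG.bx)
  have e1 : (if d then Th true else Th false) = Th d := by cases d <;> rfl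
  have e2 : (if d then Th false else Th true) = Th (!d) := by cases d <;> rfl
  have e3 : (if (!d) then Th true else Th false) = Th (!d) := by cases d <;> rfl
  have e4 : (if (!d) then Th false else Th true) = Th d := by cases d <;> rfl
  constructor
  · rw [cand_eq (z' := put s' (Mix.walk m l w (get s'))) ?_ (hL.unwalk_walk _ _ hG.bY), e1, e2]
    rw [e1]
    intro h4
    obtain ⟨h5, h6⟩ := not_or.1 h1
    have h7 := Apx.ge_of_read (hx d _ (hL.walk_mem _ _ s hG.bx)) h4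
    have h8 : 1 / 4 < (T d u).val (put s (Mix.walk m l w (get s))) := by
      have := (abs_lt.1 (not_le.1 h5)).2
      linarith
    rw [not_not.1 fun h => h6 ⟨h8, h⟩, hG.get_eq]
    exact hG.fwd _ g1 _ hu h8
  · rw [cand_eq (z' := put s (Mix.walk m l w (get s))) ?_ (hL.unwalk_walk _ _ hG.bx), e3, e4]
    · simp only [and_comm]
    rw [e3]
    intro h4
    obtain ⟨h5, h6⟩ := not_or.1 h2
    have h7 := Apx.ge_of_read (hx (!d) _ (hL.walk_mem _ _ _ hG.bY)) h4
    have h8 : 1 / 4 < (T (!d) u).val (put s' (Mix.walk m l w (get s'))) := by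
      have := (abs_lt.1 (not_le.1 h5)).2
      linarith
    rw [not_not.1 fun h => h6 ⟨h8, h⟩]
    rw [hG.get_eq] at h8 ⊢
    exact hG.bwd _ g1 _ hu h8

theorem read_good {T M : IV σ} {Th Mh : AV σ} {z : σ → ℕ} (hx : Apx (Th.ap z) (Th.val z))
    (h1 : ¬ Acc T M Th Mh d z) (h2 : 3 / 4 ≤ T.val z) : 4 ≤ Th.ap z 3 := by
  have h7 := (abs_lt.1 (not_le.1 (not_or.1 h1).1)).1
  exact read_hi hx (by linarith)

open Classical in
/-- The failure of the search on a set `P` of states with partners `pr s`. -/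
theorem er_tower (hL : IsLens b m get put) {Th : Bool → ℕ → ℕ → ℕ → AV σ}
    {Mh : ℕ → ℕ → ℕ → AV σ} {P : Finset (σ → ℕ)} {pr : (σ → ℕ) → σ → ℕ}
    (hP : ∀ s ∈ P, ∃ G, PairD b (m * m) get put nl T M d s (pr s) G ∧ m * m ≤ 2 ^ n * #G)
    (hc : ∀ s ∈ P, ∀ c < m * m, put s c ∈ P ∧ pr (put s c) = put (pr s) c)
    (hi : Set.InjOn pr P) {X Y W : ℝ}
    (hx : ∀ d, ∀ u < nl, ∀ j y, ∀ s ∈ b, Apx ((Th d u j y).ap s) ((Th d u j y).val s))
    (hT : ∀ d, ∀ u < nl, ErN b (Th d u) (T d u) X)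
    (hM : ∀ d, ∀ u < nl, ErM (b.filter fun s => 1 / 4 < (T d u).val s) (Mh u) (M u) d Y)
    {N : ℕ} (hN : N = nD ^ (n + 1) * nl) (hW : N * (2 * (8 * X + Y)) ≤ W) (h0 : √(√(#b)) ≤ 2 * W)
    {S : ℕ → ℕ → (σ → ℕ) → Option (σ → ℕ)} (hS : ∀ j y s, S j y s = tower N
      (fun j y u => cand (fun s => put s (Mix.walk m (lt * (n + 1)) (u / nl) (get s)))
        (fun s => put s (Mix.unwalk m (lt * (n + 1)) (u / nl) (get s)))
        (Th true (u % nl) j y) (Th false (u % nl) j y) (Mh (u % nl) j y))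
      (fun w s => put s (Mix.walk m (lt * 1) w (get s)))
      (fun w s => put s (Mix.unwalk m (lt * 1) w (get s))) j y d s)
    (j L : ℕ) (hj : j ≤ L) :
    nrm P (range (nD ^ L)) (ind fun s y => S j y s ≠ some (pr s)) ≤ 2 * W / 2 ^ j := by
  have hPb : P ⊆ b := fun s hs => let ⟨_, h, _⟩ := hP s hs; h.bx
  have hpb : ∀ s ∈ P, pr s ∈ b := fun s hs => let ⟨_, h, _⟩ := hP s hs; h.bY
  have hLP : IsLens P m get put := hL.restrict hPb fun s hs c h => (hc s hs c h).1
  have md : ∀ u < N, u % nl < nl := fun u hu => Nat.mod_lt _ (Nat.pos_of_ne_zero fun h => by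
    rw [hN, h, mul_zero] at hu
    exact Nat.not_lt_zero _ hu)
  refine nrm_tower hLP (l := lt * 1) (k := 40) (by rw [mul_one, lt_eq]) (by norm_num)
    (by rw [← nD_pow, pow_one]) (fun s => ∀ w < nD ^ (n + 1), ∀ u < nl,
      ¬ (3 / 4 ≤ (T d u).val (put s (Mix.walk m (lt * (n + 1)) w (get s))) ∧
        3 / 4 ≤ (T (!d) u).val (put (pr s) (Mix.walk m (lt * (n + 1)) w (get (pr s)))))) ?_
    (Bad := fun j s y => ∃ u ∈ range N,
      Acc (T d (u % nl)) (M (u % nl)) (Th d (u % nl) j y) (Mh (u % nl) j y) d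
        (put s (Mix.walk m (lt * (n + 1)) (u / nl) (get s))) ∨
      Acc (T (!d) (u % nl)) (M (u % nl)) (Th (!d) (u % nl) j y) (Mh (u % nl) j y) (!d)
        (put (pr s) (Mix.walk m (lt * (n + 1)) (u / nl) (get (pr s)))))
    (Fl := fun j s y => S j y s ≠ some (pr s)) ?_ ?_ ?_ j L hj
  · intro s hs
    obtain ⟨G, hG, hd⟩ := hP s hs
    refine hG.miss hd _ fun v h4 h3 w hw u hu => ?_
    have h6 := Mix.walk_lt (lt * (n + 1)) w h4
    have h7 := h3 w hw u hu
    rwa [(hc s hs v h4).2, hL.get_set s hG.bx v h4, hL.get_set _ hG.bY v h4,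
      hL.set_set s hG.bx v h4 _ h6, hL.set_set _ hG.bY v h4 _ h6] at h7
  · intro j s hs y hF
    by_contra hn
    rw [not_or, not_and_or] at hn
    obtain ⟨hB, hA⟩ := hn
    obtain ⟨G, hG, -⟩ := hP s hs
    have nb := fun u (hu : u < N) => not_or.1 fun h => hB ⟨u, mem_range.2 hu, h⟩
    have cd := fun u (hu : u < N) => hG.cand hL (md u hu) (Th := fun d => Th d (u % nl) (j + 1) y)
      (fun d => hx d _ (md u hu) _ _) (nb u hu).1 (nb u hu).2
    refine hF ?_
    rw [hS]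
    refine tower_succ (s₁ := put (pr s) (Mix.walk m (lt * 1) (y % nD) (get (pr s))))
      (fun u hu => (cd u hu).1) (fun u hu => (cd u hu).2) ?_
    rcases hA with hA | hA
    · simp only [not_forall, not_not] at hA
      obtain ⟨w, hw, u, hu, h1, h2⟩ := hA
      have h3 : u + nl * w < N := by
        rw [hN, mul_comm _ nl]
        exact lt_of_lt_of_le (by rw [Nat.mul_succ]; omega) (Nat.mul_le_mul_left nl hw)
      have h4 : (u + nl * w) % nl = u := by rw [Nat.add_mul_mod_self_left, Nat.mod_eq_of_lt hu]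
      have h5 : (u + nl * w) / nl = w := by
        rw [Nat.add_mul_div_left _ _ (Nat.zero_lt_of_lt hu), Nat.div_eq_of_lt hu, zero_add]
      have h6 := nb _ h3
      refine Or.inl ⟨_, h3, ?_⟩
      rw [h4, h5] at h6 ⊢
      exact ⟨read_good (hx d u hu _ _ _ (hL.walk_mem _ _ s hG.bx)) h6.1 h1,
        read_good (hx (!d) u hu _ _ _ (hL.walk_mem _ _ _ hG.bY)) h6.2 h2⟩
    · refine Or.inr ⟨?_, hL.unwalk_walk _ _ hG.bY⟩
      rw [← hS, not_not.1 hA, (hc s hs _ (Mix.walk_lt _ _ (hL.get_lt s hG.bx))).2, hG.get_eq]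
  · intro j L hj
    refine (nrm_ind_exists (range N) fun _ _ _ _ h => h).trans
      ((sum_le_card_nsmul _ _ (2 * (8 * X + Y) / 2 ^ j) fun u hu => ?_).trans ?_)
    · have h1 := md u (mem_range.1 hu)
      refine (nrm_ind_or fun _ _ _ _ h => h).trans ((add_le_add
        (nrm_acc (hT d _ h1) (hM d _ h1) (fun s hs => hL.walk_mem _ _ s (hPb hs))
          ((hL.walk_injOn _ _).mono hPb) hj)
        (nrm_acc (hT (!d) _ h1) (hM (!d) _ h1)
          (f := fun s => put (pr s) (Mix.walk m (lt * (n + 1)) (u / nl) (get (pr s))))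
          (fun s hs => hL.walk_mem _ _ _ (hpb s hs))
          (fun s hs s' hs' h => hi hs hs' (hL.walk_injOn _ _ (hpb s hs) (hpb s' hs') h))
          hj)).trans (le_of_eq (by ring)))
    · rw [card_range, nsmul_eq_mul, ← mul_div_assoc]
      exact div_le_div_of_nonneg_right hW (by positivity)
  · exact le_trans (Real.sqrt_le_sqrt (Real.sqrt_le_sqrt (by exact_mod_cast card_le_card hPb))) h0

end search

end Vale.Agent.P313.Full
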