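import Vale.Agent.P313.Full.ErrSearch

/-!
The error estimates for the constructions of numbers and moves.
-/

namespace Vale.Agent.P313.Full

open Finset

variable {σ : Type} {D D' : Finset (σ → ℕ)}

theorem ErN.zero {ah : ℕ → ℕ → AV σ} {a : IV σ} {X : ℝ} (hX : 0 ≤ X)
    (h : ∀ j y, ∀ s ∈ D, (ah j y).val s = a.val s) : ErN D ah a X := fun j L _ => by
  rw [nrm_congr (h := fun _ _ => 0) fun s hs y _ => by rw [h j y s hs, sub_self], nrm_zero]
  positivity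

theorem ErM.zero {ah : ℕ → ℕ → AV σ} {a : IV σ} {d : Bool} {X : ℝ} (hX : 0 ≤ X)
    (h : ∀ j y, ∀ s ∈ D, (ah j y).mv d s = a.mv d s) : ErM D ah a d X := fun j L _ => by
  rw [nrm_congr (h := fun _ _ => 0) fun s hs y _ => ind_neg (not_not.2 (h j y s hs)), nrm_zero]
  positivity

theorem ErN.app {ah a₁ a₂ : ℕ → ℕ → AV σ} {i i₁ i₂ : IV σ} {X₁ X₂ c : ℝ} (hc : 0 ≤ c)
    (h₁ : ErN D a₁ i₁ X₁) (h₂ : ErN D a₂ i₂ X₂) (Φ : (σ → ℕ) → ℝ → ℝ → ℝ)
    (hΦ : ∀ s ∈ D, ∀ x y x' y' ε : ℝ, |x - x'| ≤ ε → |y - y'| ≤ ε → |Φ s x y - Φ s x' y'| ≤ c * ε)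
    (ha : ∀ j y s, (ah j y).val s = Φ s ((a₁ j y).val s) ((a₂ j y).val s))
    (hi : ∀ s, i.val s = Φ s (i₁.val s) (i₂.val s)) : ErN D ah i (c * (X₁ + X₂)) := by
  intro j L hj
  refine (nrm_le_mul hc (k := fun s y => |(a₁ j y).val s - i₁.val s| + |(a₂ j y).val s - i₂.val s|)
    fun s hs y _ => ?_).trans ?_
  · rw [ha, hi]
    exact hΦ s hs _ _ _ _ _ ((le_add_of_nonneg_right (abs_nonneg _)).trans (le_abs_self _))
      ((le_add_of_nonneg_left (abs_nonneg _)).trans (le_abs_self _))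
  · rw [mul_div_assoc, add_div]
    refine mul_le_mul_of_nonneg_left ((nrm_add_le _ _ _ _).trans ?_) hc
    rw [nrm_abs, nrm_abs]
    exact add_le_add (h₁ j L hj) (h₂ j L hj)

theorem ErN.guard {ah a₁ a₂ : ℕ → ℕ → AV σ} {i i₁ i₂ : IV σ} {X₁ X₂ c₁ c₂ : ℝ} (hc₁ : 0 ≤ c₁)
    (hc₂ : 0 ≤ c₂) (h₁ : ErN D a₁ i₁ X₁) (h₂ : ErN D' a₂ i₂ X₂)
    (hD : ∀ s ∈ D, i₁.val s ≠ 0 → s ∈ D') (b₁ : ∀ s ∈ D, |i₁.val s| ≤ c₁)
    (b₂ : ∀ j y, ∀ s ∈ D, |(a₂ j y).val s| ≤ c₂)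
    (ha : ∀ j y s, (ah j y).val s = (a₁ j y).val s * (a₂ j y).val s)
    (hi : ∀ s, i.val s = i₁.val s * i₂.val s) : ErN D ah i (c₂ * X₁ + c₁ * X₂) := by
  classical
  intro j L hj
  rw [nrm_congr (h := fun s y => ((a₁ j y).val s - i₁.val s) * (a₂ j y).val s +
    i₁.val s * ((a₂ j y).val s - i₂.val s)) fun s _ y _ => by rw [ha, hi]; ring,
    add_div, mul_div_assoc, mul_div_assoc]
  refine (nrm_add_le _ _ _ _).trans (add_le_add ((nrm_le_mul hc₂ fun s hs y _ => ?_).trans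
    (mul_le_mul_of_nonneg_left (h₁ j L hj) hc₂)) ((nrm_le_mul hc₁ (k := fun s y =>
      if i₁.val s ≠ 0 then (a₂ j y).val s - i₂.val s else 0) fun s hs y _ => ?_).trans
        (mul_le_mul_of_nonneg_left ?_ hc₁)))
  · rw [abs_mul, mul_comm]
    exact mul_le_mul_of_nonneg_right (b₂ j y s hs) (abs_nonneg _)
  · split_ifs with h0
    · rw [abs_mul]
      exact mul_le_mul_of_nonneg_right (b₁ s hs) (abs_nonneg _)
    · simp [not_not.1 h0]
  · rw [nrm_filter]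
    exact (nrm_subset (fun s hs => hD s (mem_filter.1 hs).1 (mem_filter.1 hs).2) _ _).trans
      (h₂ j L hj)

theorem ErN.sum {ah : ℕ → ℕ → AV σ} {i : IV σ} {N : ℕ} {a' : ℕ → ℕ → ℕ → AV σ} {i' : ℕ → IV σ}
    {X : ℝ} (h : ∀ u < N, ErN D (a' u) (i' u) X)
    (ha : ∀ j y s, (ah j y).val s = ∑ u ∈ range N, (a' u j y).val s)
    (hi : ∀ s, i.val s = ∑ u ∈ range N, (i' u).val s) : ErN D ah i (N * X) := by
  intro j L hj
  rw [nrm_congr (h := fun s y => ∑ u ∈ range N, ((a' u j y).val s - (i' u).val s))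
    fun s _ y _ => by rw [ha, hi, sum_sub_distrib], mul_div_assoc]
  refine (nrm_sum_le _ _ _ _).trans ((sum_le_card_nsmul _ _ (X / 2 ^ j)
    fun u hu => h u (mem_range.1 hu) j L hj).trans ?_)
  rw [card_range, nsmul_eq_mul]

theorem ErN.avg {ah a' : ℕ → ℕ → AV σ} {i i' : IV σ} {m : ℕ} {get : (σ → ℕ) → ℕ}
    {put : (σ → ℕ) → ℕ → σ → ℕ} (hL : IsLens D m get put) {X c Z : ℝ} (hc : 0 ≤ c)
    (h : ErN D a' i' X) (hb : ∀ s ∈ D, |i'.val s| ≤ c) (hb' : ∀ s ∈ D, |i.val s| ≤ c)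
    (hZ : √(√(#D)) ≤ Z)
    (ha : ∀ j y s, (ah j y).val s = clp c ((a' j y).val s + ∑ k ∈ range j,
      (Mix.H m (lt * (k + 1)) (fun v => (a' (j - (k + 1)) y).val (put s v)) (get s) -
        Mix.H m (lt * k) (fun v => (a' (j - (k + 1)) y).val (put s v)) (get s))))
    (hi : ∀ s, i.val s = Mix.J m fun v => i'.val (put s v)) :
    ErN D ah i (7 * X + 2 * (c * Z)) := by
  intro j L hj
  refine le_trans (nrm_mono_abs fun s hs y _ => ?_) (nrm_avg (T := range (nD ^ L)) hL lt_eq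
    (by norm_num) (fun k s y => (a' k y).val s) i'.val (fun k hk => h k L (hk.trans hj))
    ((nrm_le_card (fun s hs _ _ => hb s hs) hc).trans (mul_le_mul_of_nonneg_left hZ hc)))
  rw [ha, ← hi]
  nth_rewrite 1 [← clp_eq (hb' s hs)]
  exact abs_clp_sub _ _ _

/-- The error at the end of an ideal move. -/
theorem nrm_move {M : IV σ} {d : Bool} (hD : ∀ s ∈ D, ∀ s', M.mv d s = some s' →
    s' ∈ D' ∧ M.mv (!d) s' = some s) (T : Finset ℕ) (g : (σ → ℕ) → ℕ → ℝ) :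
    nrm D T (fun s y => (M.mv d s).elim 0 fun s' => g s' y) ≤ nrm D' T g := by
  classical
  rw [nrm_congr (h := fun s y => if (M.mv d s).isSome = true then g ((M.mv d s).getD s) y else 0)
    fun s _ y _ => by cases M.mv d s <;> simp, nrm_filter]
  have key : ∀ s ∈ D.filter fun s => (M.mv d s).isSome = true, (M.mv d s).getD s ∈ D' ∧
      M.mv (!d) ((M.mv d s).getD s) = some s := fun s hs => by
    obtain ⟨s', h⟩ := Option.isSome_iff_exists.1 (mem_filter.1 hs).2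
    rw [h]
    exact hD s (mem_filter.1 hs).1 s' h
  refine nrm_comp_le (f := fun s => (M.mv d s).getD s) (fun s hs => (key s hs).1)
    (fun s hs s' hs' h => ?_) T g
  have h1 := (key s hs).2
  rw [show (M.mv d s).getD s = (M.mv d s').getD s' from h, (key s' hs').2] at h1
  exact (Option.some.inj h1).symm

theorem ErN.hop {ah a' Mh : ℕ → ℕ → AV σ} {i i' M : IV σ} {d : Bool} {X Y c : ℝ} (hc : 0 ≤ c)
    (hM : ErM D Mh M d Y) (h : ErN D' a' i' X)
    (hD : ∀ s ∈ D, ∀ s', M.mv d s = some s' → s' ∈ D' ∧ M.mv (!d) s' = some s)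
    (hb : ∀ j y, ∀ s ∈ D, |(ah j y).val s| ≤ c) (hb' : ∀ s ∈ D, |i.val s| ≤ c)
    (ha : ∀ j y s, (ah j y).val s = ((Mh j y).mv d s).elim 0 (a' j y).val)
    (hi : ∀ s, i.val s = (M.mv d s).elim 0 i'.val) : ErN D ah i (2 * c * Y + X) := by
  intro j L hj
  refine (nrm_mono (h := fun s y => 2 * c * ind (fun s y => (Mh j y).mv d s ≠ M.mv d s) s y +
    |(M.mv d s).elim 0 fun s' => (a' j y).val s' - i'.val s'|) fun s hs y _ => ?_).trans ?_
  · by_cases h0 : (Mh j y).mv d s = M.mv d s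
    · rw [ind_neg (not_not.2 h0), ha, hi, h0]
      cases M.mv d s <;> simp
    · rw [ind_pos h0]
      have h1 := abs_sub ((ah j y).val s) (i.val s)
      have h2 := abs_nonneg ((M.mv d s).elim 0 fun s' => (a' j y).val s' - i'.val s')
      linarith [hb j y s hs, hb' s hs]
  · refine (nrm_add_le _ _ _ _).trans ?_
    rw [nrm_smul, nrm_abs, abs_of_nonneg (by positivity), add_div, mul_div_assoc]
    exact add_le_add (mul_le_mul_of_nonneg_left (hM j L hj) (by positivity))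
      ((nrm_move hD _ fun s' y => (a' j y).val s' - i'.val s').trans (h j L hj))

theorem ErM.seq {ah a₁ a₂ : ℕ → ℕ → AV σ} {i i₁ i₂ : IV σ} {d : Bool} {X₁ X₂ : ℝ}
    (h₁ : ErM D a₁ i₁ d X₁) (h₂ : ErM D' a₂ i₂ d X₂)
    (hD : ∀ s ∈ D, ∀ s', i₁.mv d s = some s' → s' ∈ D' ∧ i₁.mv (!d) s' = some s)
    (ha : ∀ j y s, (ah j y).mv d s = ((a₁ j y).mv d s).bind ((a₂ j y).mv d))
    (hi : ∀ s, i.mv d s = (i₁.mv d s).bind (i₂.mv d)) : ErM D ah i d (X₁ + X₂) := by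
  intro j L hj
  refine (nrm_mono (h := fun s y => ind (fun s y => (a₁ j y).mv d s ≠ i₁.mv d s) s y +
    (i₁.mv d s).elim 0 fun s' => ind (fun s y => (a₂ j y).mv d s ≠ i₂.mv d s) s' y)
      fun s hs y _ => ?_).trans ?_
  · have h2 : 0 ≤ (i₁.mv d s).elim 0 fun s' => ind (fun s y => (a₂ j y).mv d s ≠ i₂.mv d s) s' y := by
      cases i₁.mv d s
      · exact le_rfl
      · rw [Option.elim_some]
        exact ind_nonneg _ _ _
    refine abs_ind_le (add_nonneg (ind_nonneg _ _ _) h2) fun h => ?_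
    by_cases h0 : (a₁ j y).mv d s = i₁.mv d s
    · rw [ha, hi, h0] at h
      rw [ind_neg (not_not.2 h0), zero_add]
      cases h1 : i₁.mv d s with
      | none => simp [h1] at h
      | some s' =>
        rw [h1] at h
        exact (ind_pos (E := fun s y => (a₂ j y).mv d s ≠ i₂.mv d s) h).ge
    · rw [ind_pos h0]
      linarith
  · refine (nrm_add_le _ _ _ _).trans ?_
    rw [add_div]
    exact add_le_add (h₁ j L hj) ((nrm_move hD _ _).trans (h₂ j L hj))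

theorem ErN.alt {ah a₁ a₂ : ℕ → ℕ → AV σ} {i i₁ i₂ : IV σ} {D₁ D₂ : Finset (σ → ℕ)} {X₁ X₂ : ℝ}
    (h₁ : ErN D₁ a₁ i₁ X₁) (h₂ : ErN D₂ a₂ i₂ X₂) (p : (σ → ℕ) → Bool)
    (hD₁ : ∀ s ∈ D, p s = true → s ∈ D₁) (hD₂ : ∀ s ∈ D, p s = false → s ∈ D₂)
    (ha : ∀ j y s, (ah j y).val s = (if p s then a₁ j y else a₂ j y).val s)
    (hi : ∀ s, i.val s = (if p s then i₁ else i₂).val s) : ErN D ah i (X₁ + X₂) := by
  intro j L hj
  rw [nrm_congr (h := fun s y => (if p s = true then (a₁ j y).val s - i₁.val s else 0) +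
    if p s = false then (a₂ j y).val s - i₂.val s else 0)
      fun s _ y _ => by rw [ha, hi]; cases p s <;> simp, add_div]
  refine (nrm_add_le _ _ _ _).trans ?_
  rw [nrm_filter, nrm_filter]
  exact add_le_add
    ((nrm_subset (fun s hs => hD₁ s (mem_filter.1 hs).1 (mem_filter.1 hs).2) _ _).trans (h₁ j L hj))
    ((nrm_subset (fun s hs => hD₂ s (mem_filter.1 hs).1 (mem_filter.1 hs).2) _ _).trans (h₂ j L hj))

theorem ErM.alt {ah a₁ a₂ : ℕ → ℕ → AV σ} {i i₁ i₂ : IV σ} {d : Bool} {D₁ D₂ : Finset (σ → ℕ)}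
    {X₁ X₂ : ℝ} (h₁ : ErM D₁ a₁ i₁ d X₁) (h₂ : ErM D₂ a₂ i₂ d X₂) (p : (σ → ℕ) → Bool)
    (hD₁ : ∀ s ∈ D, p s = true → s ∈ D₁) (hD₂ : ∀ s ∈ D, p s = false → s ∈ D₂)
    (r : (σ → ℕ) → (σ → ℕ) → Bool)
    (ha : ∀ j y s, (ah j y).mv d s = ((if p s then a₁ j y else a₂ j y).mv d s).filter (r s))
    (hi : ∀ s, i.mv d s = ((if p s then i₁ else i₂).mv d s).filter (r s)) :
    ErM D ah i d (X₁ + X₂) := by
  classical
  intro j L hj
  refine (nrm_ind_or (E₁ := fun s y => p s = true ∧ (a₁ j y).mv d s ≠ i₁.mv d s)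
    (E₂ := fun s y => p s = false ∧ (a₂ j y).mv d s ≠ i₂.mv d s) fun s _ y _ h => ?_).trans ?_
  · rw [ha, hi] at h
    cases hp : p s
    · exact Or.inr ⟨rfl, fun h' => h (by simp [hp, h'])⟩
    · exact Or.inl ⟨rfl, fun h' => h (by simp [hp, h'])⟩
  · rw [add_div]
    refine add_le_add ((nrm_ind_filter (fun s => p s = true) fun _ _ _ _ h => h).trans
      ((nrm_subset (fun s hs => ?_) _ _).trans (h₁ j L hj)))
      ((nrm_ind_filter (fun s => p s = false) fun _ _ _ _ h => h).trans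
      ((nrm_subset (fun s hs => ?_) _ _).trans (h₂ j L hj)))
    · simp only [mem_filter] at hs
      exact hD₁ s hs.1 hs.2
    · simp only [mem_filter] at hs
      exact hD₂ s hs.1 hs.2

end Vale.Agent.P313.Full
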