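import Vale.Agent.P313.KHash

/-! A family of additive hash functions `lin L m s : ℕ → ℕ` (slopes `s < 2 ^ (2 * L)`, values
`< 2 ^ m`) whose values at two different nonzero points are independent and uniform.  Together with
an offset this is a three-wise independent family of affine maps. -/

namespace Vale.Agent.P313.Full

open Vale.Agent.Lib.Space Finset Polynomial KH

/-- The additive part of the hash function with the slope `s`. -/
def lin (L m s v : ℕ) : ℕ := hv 3 L m (s * 2 ^ L) v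

theorem lin_lt (L m s v : ℕ) : lin L m s v < 2 ^ m := hv_lt _ _ _ _ _

theorem P_xor (v w : ℕ) : P (v ^^^ w) = P v + P w := by
  ext u
  rw [coeff_add, coeff_P, coeff_P, coeff_P, cast_bt_xor]

theorem P_zero : P 0 = 0 := by simp [P]

theorem bt_mul_pow {s L t : ℕ} (ht : t < L) : bt (s * 2 ^ L) t = 0 := by
  rw [bt_eq, Nat.testBit_mul_two_pow]
  simp [Nat.not_le.2 ht]

theorem cast_lin {L m s v i : ℕ} (hi : i < m) : (bt (lin L m s v) i : ZMod 2) =
    ∑ t ∈ range L, ((X ^ i * P v).coeff t * (bt (s * 2 ^ L) (t + L * 1) : ZMod 2) +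
      (X ^ i * P v ^ 2).coeff t * (bt (s * 2 ^ L) (t + L * 2) : ZMod 2)) := by
  rw [lin, bt_hv hi, cast_hb]
  simp only [cast_ent]
  rw [sum_range_succ, sum_range_succ, sum_range_one, sum_add_distrib,
    sum_eq_zero fun t ht => by rw [mul_zero, add_zero, bt_mul_pow (mem_range.1 ht), Nat.cast_zero,
      mul_zero], zero_add, pow_one]

theorem lin_xor (L m s v w : ℕ) : lin L m s (v ^^^ w) = lin L m s v ^^^ lin L m s w := by
  refine eq_of_bt (lin_lt _ _ _ _) (Nat.xor_lt_two_pow (lin_lt _ _ _ _) (lin_lt _ _ _ _))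
    fun i hi => cast_inj (bt_lt _ _) (bt_lt _ _) ?_
  rw [cast_bt_xor, cast_lin hi, cast_lin hi, cast_lin hi, ← sum_add_distrib]
  refine sum_congr rfl fun t _ => ?_
  rw [P_xor, add_pow_char, mul_add, mul_add, coeff_add, coeff_add]
  ring

theorem lin_zero (L m s : ℕ) : lin L m s 0 = 0 := by
  have h := lin_xor L m s 0 0
  rwa [Nat.xor_self, Nat.xor_self] at h

theorem lin_mod {L m s v r : ℕ} (hr : r ≤ m) : lin L m s v % 2 ^ r = lin L r s v := hv_mod hr

/-- The lowest block of the seed contributes a constant. -/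
theorem hv_low {L m s0 : ℕ} (hs : s0 < 2 ^ L) (v : ℕ) : hv 3 L m s0 v = hv 3 L m s0 0 := by
  refine eq_of_bt (hv_lt _ _ _ _ _) (hv_lt _ _ _ _ _) fun i hi =>
    cast_inj (bt_lt _ _) (bt_lt _ _) ?_
  rw [bt_hv hi, bt_hv hi, cast_hb, cast_hb]
  refine sum_congr rfl fun j _ => sum_congr rfl fun t _ => ?_
  rcases Nat.eq_zero_or_pos j with rfl | hj
  · simp only [cf]
  · have : L * 1 ≤ L * j := Nat.mul_le_mul_left _ hj
    rw [bt_eq_zero hs (by omega), Nat.cast_zero, mul_zero, mul_zero]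

theorem add_eq_xor {L s s0 : ℕ} (hs : s0 < 2 ^ L) : s0 + 2 ^ L * s = s0 ^^^ s * 2 ^ L := by
  refine Nat.eq_of_testBit_eq fun i => ?_
  rw [add_comm, Nat.testBit_two_pow_mul_add _ hs, Nat.testBit_xor, Nat.testBit_mul_two_pow]
  by_cases h : i < L
  · simp [h, Nat.not_le.2 h]
  · have : s0.testBit i = false :=
      Nat.testBit_lt_two_pow (hs.trans_le (Nat.pow_le_pow_right (by norm_num) (by omega)))
    simp [h, Nat.not_lt.1 h, this]

theorem hv_sub {L m s s0 : ℕ} (hs : s0 < 2 ^ L) (v : ℕ) :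
    hv 3 L m (s0 + 2 ^ L * s) v ^^^ hv 3 L m (s0 + 2 ^ L * s) 0 = lin L m s v := by
  rw [add_eq_xor hs, hv_xor, hv_xor, hv_low hs v]
  change _ ^^^ lin L m s v ^^^ (_ ^^^ lin L m s 0) = _
  rw [lin_zero, Nat.xor_zero, Nat.xor_comm, ← Nat.xor_assoc, Nat.xor_self, Nat.zero_xor]

theorem sum_range_mul (a b : ℕ) (f : ℕ → ℝ) :
    ∑ S ∈ range (a * b), f S = ∑ s ∈ range b, ∑ s0 ∈ range a, f (s0 + a * s) := by
  induction b with
  | zero => simp
  | succ b ih =>
    rw [Nat.mul_succ, sum_range_add, ih, sum_range_succ]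
    simp only [add_comm]

/-- A shift permutes the values. -/
theorem sum_xor {m c : ℕ} (hc : c < 2 ^ m) (g : ℕ → ℝ) :
    ∑ t ∈ range (2 ^ m), g (t ^^^ c) = ∑ t ∈ range (2 ^ m), g t := by
  refine sum_nbij' (· ^^^ c) (· ^^^ c) ?_ ?_ ?_ ?_ ?_
  · intro t ht
    exact mem_range.2 (Nat.xor_lt_two_pow (mem_range.1 ht) hc)
  · intro t ht
    exact mem_range.2 (Nat.xor_lt_two_pow (mem_range.1 ht) hc)
  · intro t _
    simp
  · intro t _
    simp
  · intro t _
    rfl

/-- Two different nonzero points have independent uniform values. -/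
theorem lin_two {L m n w w' : ℕ} (hw : w ≠ 0) (hw' : w' ≠ 0) (hne : w ≠ w') (h1 : w < 2 ^ n)
    (h2 : w' < 2 ^ n) (hL : m + 3 * n ≤ L) (G : ℕ → ℕ → ℝ) :
    (∑ s ∈ range (2 ^ (2 * L)), G (lin L m s w) (lin L m s w')) / 2 ^ (2 * L) =
      (∑ t ∈ range (2 ^ m), ∑ u ∈ range (2 ^ m), G t u) / (2 ^ m) ^ 2 := by
  have h := indep (ι := Fin 3) (v := ![0, w, w']) (n := n) (k := 3) (L := L) (m := m)
    (by
      intro a b e
      fin_cases a <;> fin_cases b <;> simp_all [eq_comm])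
    (fun l => by fin_cases l <;> simp [h1, h2]) (by simp) hL
    fun t => G (t 1 ^^^ t 0) (t 2 ^^^ t 0)
  have e1 : 2 ^ (3 * L) = 2 ^ L * 2 ^ (2 * L) := by rw [← pow_add]; congr 1; ring
  have e2 : ∑ t ∈ Fintype.piFinset fun _ : Fin 3 => range (2 ^ m), G (t 1 ^^^ t 0) (t 2 ^^^ t 0) =
      ∑ c ∈ range (2 ^ m), ∑ t ∈ range (2 ^ m), ∑ u ∈ range (2 ^ m), G (t ^^^ c) (u ^^^ c) := by
    rw [← sum_product', ← sum_product']
    refine sum_nbij' (fun t => ((t 0, t 1), t 2)) (fun p => ![p.1.1, p.1.2, p.2]) ?_ ?_ ?_ ?_ ?_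
    · intro t ht
      have := Fintype.mem_piFinset.1 ht
      exact mem_product.2 ⟨mem_product.2 ⟨this 0, this 1⟩, this 2⟩
    · intro p hp
      refine Fintype.mem_piFinset.2 fun l => ?_
      fin_cases l
      exacts [(mem_product.1 (mem_product.1 hp).1).1, (mem_product.1 (mem_product.1 hp).1).2,
        (mem_product.1 hp).2]
    · intro t _
      funext l
      fin_cases l <;> rfl
    · intro p _
      rfl
    · intro t _
      rfl
  have e3 : ∀ c ∈ range (2 ^ m), ∑ t ∈ range (2 ^ m), ∑ u ∈ range (2 ^ m), G (t ^^^ c) (u ^^^ c) =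
      ∑ t ∈ range (2 ^ m), ∑ u ∈ range (2 ^ m), G t u := fun c hc => by
    rw [sum_xor (mem_range.1 hc) fun t => ∑ u ∈ range (2 ^ m), G t (u ^^^ c)]
    exact sum_congr rfl fun t _ => sum_xor (mem_range.1 hc) (G t)
  simp only [Matrix.cons_val_zero, Matrix.cons_val_one, Matrix.cons_val, Fintype.card_fin] at h
  rw [e2, sum_congr rfl e3, e1, sum_range_mul, sum_congr rfl fun s _ => sum_congr rfl
    fun s0 hs0 => by rw [hv_sub (mem_range.1 hs0), hv_sub (mem_range.1 hs0)]] at h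
  simp only [sum_const, card_range, nsmul_eq_mul, ← mul_sum] at h
  push_cast at h
  have e4 : (2 : ℝ) ^ (3 * L) = 2 ^ L * 2 ^ (2 * L) := by rw [← pow_add]; congr 1; ring
  rw [e4, mul_div_mul_left _ _ (by positivity), pow_succ' ((2 : ℝ) ^ m) 2,
    mul_div_mul_left _ _ (by positivity)] at h
  exact h

/-- A nonzero point has a uniform value. -/
theorem lin_one {L m n w : ℕ} (hw : w ≠ 0) (h1 : w < 2 ^ n) (hL : m + 3 * n ≤ L) (g : ℕ → ℝ) :
    (∑ s ∈ range (2 ^ (2 * L)), g (lin L m s w)) / 2 ^ (2 * L) =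
      (∑ t ∈ range (2 ^ m), g t) / 2 ^ m := by
  have h := indep_two (k := 3) (L := L) (m := m) (n := n) (x := 0) (y := w) hw.symm
    (by positivity) h1 (by norm_num) hL fun c t => g (t ^^^ c)
  have e1 : 2 ^ (3 * L) = 2 ^ L * 2 ^ (2 * L) := by rw [← pow_add]; congr 1; ring
  rw [e1, sum_range_mul, sum_congr rfl fun s _ => sum_congr rfl
    fun s0 hs0 => by rw [hv_sub (mem_range.1 hs0)],
    sum_congr rfl fun c hc => sum_xor (mem_range.1 hc) g] at h
  simp only [sum_const, card_range, nsmul_eq_mul, ← mul_sum] at h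
  push_cast at h
  have e4 : (2 : ℝ) ^ (3 * L) = 2 ^ L * 2 ^ (2 * L) := by rw [← pow_add]; congr 1; ring
  rw [e4, mul_div_mul_left _ _ (by positivity), pow_two,
    mul_div_mul_left _ _ (by positivity)] at h
  exact h

theorem xor_ne_zero {p u : ℕ} (h : u ≠ p) : u ^^^ p ≠ 0 := fun e => h (Nat.xor_eq_zero_iff.1 e)

/-- Rotation about `p` (value `c` at `p`): the value at another point is uniform. -/
theorem rot_one {L m n p u c : ℕ} (hne : u ≠ p) (hp : p < 2 ^ n) (hu : u < 2 ^ n)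
    (hc : c < 2 ^ m) (hL : m + 3 * n ≤ L) (g : ℕ → ℝ) :
    (∑ s ∈ range (2 ^ (2 * L)), g (lin L m s u ^^^ (lin L m s p ^^^ c))) / 2 ^ (2 * L) =
      (∑ t ∈ range (2 ^ m), g t) / 2 ^ m := by
  simp only [← Nat.xor_assoc, ← lin_xor]
  rw [lin_one (xor_ne_zero hne) (Nat.xor_lt_two_pow hu hp) hL fun t => g (t ^^^ c), sum_xor hc]

/-- Rotation about `p` (value `c` at `p`): the values at two other points are independent. -/
theorem rot_two {L m n p u u' c : ℕ} (h1 : u ≠ p) (h2 : u' ≠ p) (h3 : u ≠ u') (hp : p < 2 ^ n)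
    (hu : u < 2 ^ n) (hu' : u' < 2 ^ n) (hc : c < 2 ^ m) (hL : m + 3 * n ≤ L) (G : ℕ → ℕ → ℝ) :
    (∑ s ∈ range (2 ^ (2 * L)), G (lin L m s u ^^^ (lin L m s p ^^^ c))
        (lin L m s u' ^^^ (lin L m s p ^^^ c))) / 2 ^ (2 * L) =
      (∑ t ∈ range (2 ^ m), ∑ u ∈ range (2 ^ m), G t u) / (2 ^ m) ^ 2 := by
  simp only [← Nat.xor_assoc, ← lin_xor]
  have h4 : u ^^^ p ≠ u' ^^^ p := fun e => h3 (by
    have := congrArg (· ^^^ p) e
    simpa [Nat.xor_assoc] using this)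
  rw [lin_two (xor_ne_zero h1) (xor_ne_zero h2) h4 (Nat.xor_lt_two_pow hu hp)
    (Nat.xor_lt_two_pow hu' hp) hL fun t t' => G (t ^^^ c) (t' ^^^ c),
    sum_xor hc fun t => ∑ u ∈ range (2 ^ m), G t (u ^^^ c)]
  simp only [sum_xor hc]

section Space

variable {A α : Type} [Enc A α] {B : Bud A} {L m s v M : α → ℕ}

/-- `M` is a bound for the powers of two. -/
theorem sp_lin (hL : SP B L) (hm : SP B m) (hM : SP B M)
    (h : ∀ (x : List A) a, Enc.ok x a → 2 ^ m a ≤ M a ∧ 2 ^ L a ≤ M a) (hs : SP B s)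
    (hv' : SP B v) : SP B fun a => lin (L a) (m a) (s a) (v a) := by
  refine (sp_hv 3 hL hm hM (fun x a ha => (h x a ha).1)
    (hs.mul (SP.min_pow hM (SP.const 2) hL)) hv').congr_ok fun x a ha => ?_
  rw [min_eq_right (h x a ha).2, lin]

end Space

end Vale.Agent.P313.Full
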