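import Vale.Agent.P313.Full.HiDef

/-! The ideal hierarchy of chains: ramps, digits, sums over names. -/

namespace Vale.Agent.P313.Hi

open Finset

theorem cl_nonneg (t : ℝ) : 0 ≤ cl t := le_max_left _ _

theorem cl_le_one (t : ℝ) : cl t ≤ 1 := max_le zero_le_one (min_le_left _ _)

theorem cl_mono {s t : ℝ} (h : s ≤ t) : cl s ≤ cl t := max_le_max le_rfl (min_le_min le_rfl h)

theorem cl_of_le {t : ℝ} (h : t ≤ 0) : cl t = 0 :=
  max_eq_left ((min_le_right _ _).trans h)

theorem cl_of_ge {t : ℝ} (h : 1 ≤ t) : cl t = 1 := by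
  unfold cl
  rw [min_eq_left h, max_eq_right zero_le_one]

theorem phi_nonneg (w : ℝ) : 0 ≤ phi w := cl_nonneg _

theorem phi_le_one (w : ℝ) : phi w ≤ 1 := cl_le_one _

theorem R_nonneg (g : ℕ) (t : ℝ) : 0 ≤ R g t := by
  unfold R
  split_ifs
  exacts [zero_le_one, cl_nonneg _, le_rfl]

theorem R_le_one (g : ℕ) (t : ℝ) : R g t ≤ 1 := by
  unfold R
  split_ifs
  exacts [le_rfl, cl_le_one _, zero_le_one]

theorem R_zero (t : ℝ) : R 0 t = 1 := by simp [R]

theorem R_big {g : ℕ} (h : B < g) (t : ℝ) : R g t = 0 := by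
  unfold R
  rw [if_neg (by omega), if_neg (by omega)]

theorem R_eq_one {g : ℕ} (h : g ≤ B) {t : ℝ} (ht : 2 ^ g ≤ t) : R g t = 1 := by
  unfold R
  split_ifs with h0
  · rfl
  · apply cl_of_ge
    obtain ⟨g, rfl⟩ := Nat.exists_eq_succ_of_ne_zero h0
    simp only [Nat.succ_eq_add_one, Nat.add_sub_cancel]
    rw [le_sub_iff_add_le, le_div_iff₀ (by positivity)]
    rw [pow_succ] at ht
    linarith

theorem lt_of_R_ne {g : ℕ} {t : ℝ} (h : R (g + 1) t ≠ 0) : 2 ^ g < t := by
  by_contra hc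
  apply h
  unfold R
  rw [if_neg (by omega)]
  split_ifs
  · apply cl_of_le
    simp only [Nat.add_sub_cancel]
    rw [sub_nonpos, div_le_one (by positivity)]
    exact not_lt.1 hc
  · rfl

theorem R_succ_le (g : ℕ) (t : ℝ) : R (g + 1) t ≤ R g t := by
  by_cases h : R (g + 1) t = 0
  · rw [h]
    exact R_nonneg _ _
  · have h1 : g ≤ B := by
      by_contra hc
      exact h (R_big (by omega) _)
    rw [R_eq_one h1 (lt_of_R_ne h).le]
    exact R_le_one _ _

theorem chi_nonneg (g : ℕ) (t : ℝ) : 0 ≤ chi g t := sub_nonneg.2 (R_succ_le g t)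

theorem chi_le_one (g : ℕ) (t : ℝ) : chi g t ≤ 1 := by
  unfold chi
  linarith [R_le_one g t, R_nonneg (g + 1) t]

theorem zeta_nonneg (g : ℕ) (t : ℝ) : 0 ≤ zeta g t := R_nonneg _ _

theorem zeta_le_one (g : ℕ) (t : ℝ) : zeta g t ≤ 1 := R_le_one _ _

theorem zeta_of_chi {g : ℕ} {t : ℝ} (h : chi g t ≠ 0) : zeta g t = 1 := by
  unfold zeta
  rcases g with _ | g
  · exact R_zero t
  · have h1 : R (g + 1) t ≠ 0 := by
      intro h1
      apply h
      unfold chi
      linarith [R_succ_le (g + 1) t, R_nonneg (g + 1 + 1) t]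
    have h2 : g ≤ B := by
      by_contra hc
      exact h1 (R_big (by omega) _)
    exact R_eq_one h2 (lt_of_R_ne h1).le

theorem chi_mul_zeta (g : ℕ) (t : ℝ) : chi g t * zeta g t = chi g t := by
  by_cases h : chi g t = 0
  · rw [h, zero_mul]
  · rw [zeta_of_chi h, mul_one]

theorem lt_of_chi {g : ℕ} {t : ℝ} (h : chi g t ≠ 0) (hg : g < B) : t < 2 ^ (g + 1) := by
  by_contra hc
  apply h
  have h1 : (2 : ℝ) ^ g ≤ 2 ^ (g + 1) := pow_le_pow_right₀ (by norm_num) (by omega)
  unfold chi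
  rw [R_eq_one hg (not_lt.1 hc), R_eq_one hg.le (h1.trans (not_lt.1 hc)), sub_self]

theorem sum_chi (t : ℝ) : ∑ g : Fin (B + 1), chi g t = 1 := by
  rw [Fin.sum_univ_eq_sum_range (fun g => chi g t)]
  unfold chi
  rw [sum_range_sub' (fun g => R g t), R_zero, R_big (by omega), sub_zero]

theorem sum_zeta {t : ℝ} (ht : 0 ≤ t) : ∑ g : Fin (B + 1), 2 ^ (g : ℕ) * zeta g t ≤ 3 + 8 * t := by
  rw [Fin.sum_univ_eq_sum_range (fun g => 2 ^ g * zeta g t)]
  have key : ∀ m : ℕ, ∑ g ∈ range m, 2 ^ g * zeta g t ≤ 3 + 8 * t ∧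
      ∑ g ∈ range m, 2 ^ g * zeta g t ≤ 2 ^ m - 1 := by
    intro m
    induction m with
    | zero => simp; linarith
    | succ m ih =>
      rw [sum_range_succ]
      have h1 : (2 : ℝ) ^ m * zeta m t ≤ 2 ^ m :=
        mul_le_of_le_one_right (by positivity) (zeta_le_one _ _)
      have h2 : ∑ g ∈ range m, 2 ^ g * zeta g t + 2 ^ m * zeta m t ≤ 2 ^ (m + 1) - 1 := by
        rw [pow_succ]
        linarith [ih.2]
      refine ⟨?_, h2⟩
      by_cases h : zeta m t = 0
      · rw [h]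
        linarith [ih.1]
      · rcases m with _ | _ | m
        · norm_num at h2 ⊢
          linarith
        · norm_num at h2 ⊢
          linarith
        · have h3 : (2 : ℝ) ^ m < t := lt_of_R_ne (g := m) h
          have h4 : (2 : ℝ) ^ (m + 1 + 1 + 1) = 8 * 2 ^ m := by ring
          linarith
  exact (key _).1

theorem sum_G (F : G → ℝ) : ∑ g : G, F g =
    ∑ i : Fin (B + 1), ∑ o : Fin (B + 1), (F (i, o, true) + F (i, o, false)) := by
  simp only [Fintype.sum_prod_type, Fintype.sum_bool]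

/-- The out-digit that fits. -/
noncomputable def sOf (o : Fin 3) (p q : View) : ED :=
  open Classical in
  (⟨dl o p q, by unfold dl; split_ifs <;> omega⟩, ⟨dm o p q, by unfold dm; split_ifs <;> omega⟩, o,
    decide (¬ syn o p q))

/-- The in-digit that fits. -/
noncomputable def tOf (o : Fin 3) (p q : View) : ED :=
  open Classical in
  (⟨dl o q p, by unfold dl; split_ifs <;> omega⟩, ⟨dm o q p, by unfold dm; split_ifs <;> omega⟩, o,
    decide (¬ syn o p q))

theorem fit_iff (p q : View) (s t : ED) :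
    fit p q s t ↔ s = sOf s.2.2.1 p q ∧ t = tOf s.2.2.1 p q := by
  obtain ⟨s1, s2, s3, s4⟩ := s
  obtain ⟨t1, t2, t3, t4⟩ := t
  simp only [fit, sOf, tOf, Prod.mk.injEq, Fin.ext_iff, true_and]
  constructor
  · rintro ⟨⟨h1, h2⟩, h3, h4, h5, h6, h7⟩
    have h8 : s4 = open Classical in decide (¬ syn s3 p q) := by
      cases s4 <;> simp_all
    exact ⟨⟨h4, h6, h8⟩, h5, h7, h1.symm, h2.symm.trans h8⟩
  · rintro ⟨⟨h4, h6, h8⟩, h5, h7, h1, h2⟩
    refine ⟨⟨h1.symm, h8.trans h2.symm⟩, ?_, h4, h5, h6, h7⟩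
    rw [h8]
    simp

open Classical in
theorem sum_fit_left (p q : View) (t : ED) (F : Fin 3 → ℝ) :
    ∑ s : ED, (if fit p q s t then F s.2.2.1 else 0) =
      ∑ o : Fin 3, if tOf o p q = t then F o else 0 := by
  have h : ∀ s : ED, (if fit p q s t then F s.2.2.1 else 0) =
      ∑ o : Fin 3, if sOf o p q = s then (if tOf o p q = t then F o else 0) else 0 := by
    intro s
    rw [sum_eq_single s.2.2.1]
    · simp only [fit_iff, eq_comm (a := s), eq_comm (a := t), ite_and]
    · intro o _ ho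
      rw [if_neg]
      intro h
      exact ho (by rw [← h]; rfl)
    · simp
  simp only [h]
  rw [sum_comm]
  simp

open Classical in
theorem sum_fit_right (p q : View) (s : ED) (F : Fin 3 → ℝ) :
    ∑ t : ED, (if fit p q s t then F s.2.2.1 else 0) =
      ∑ o : Fin 3, if sOf o p q = s then F o else 0 := by
  rw [sum_eq_single s.2.2.1]
  · simp only [fit_iff, eq_comm (a := s), ite_and]
    split_ifs <;> simp
  · intro o _ ho
    rw [if_neg]
    intro h
    exact ho (by rw [← h]; rfl)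
  · simp

theorem sum_range_mul_eq {n : ℕ} (hn : 0 < n) (m : ℕ) (F : ℕ → ℕ → ℝ) :
    ∑ x ∈ range (n * m), F (x % n) (x / n) = ∑ x ∈ range n, ∑ c ∈ range m, F x c := by
  induction m with
  | zero => simp
  | succ m ih =>
    rw [Nat.mul_succ, sum_range_add, ih]
    simp only [sum_range_succ, sum_add_distrib]
    congr 1
    refine sum_congr rfl fun x hx => ?_
    have hx' := mem_range.1 hx
    rw [Nat.mul_add_mod, Nat.mod_eq_of_lt hx', Nat.mul_add_div hn, Nat.div_eq_of_lt hx', add_zero]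

theorem card_le_pow : Fintype.card Dig ≤ 2 ^ a := Nat.lt_two_pow_self.le

open Classical in
theorem sum_dig (F : Dig → ℝ) : ∑ c ∈ range (2 ^ a), (if vld c then F (dig c) else 0) =
    ∑ d : Dig, if d.ok then F d else 0 := by
  have h1 : ∑ c ∈ range (2 ^ a), (if vld c then F (dig c) else 0) =
      ∑ c ∈ range (Fintype.card Dig), (if (dig c).ok then F (dig c) else 0) := by
    symm
    refine sum_subset_zero_on_sdiff (range_subset_range.2 card_le_pow) (fun c hc => ?_)
      fun c hc => ?_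
    · rw [if_neg]
      intro h
      exact (mem_sdiff.1 hc).2 (mem_range.2 h.1)
    · simp only [vld, mem_range.1 hc, true_and]
  rw [h1, ← Fin.sum_univ_eq_sum_range (fun c => if (dig c).ok then F (dig c) else 0)]
  refine Fintype.sum_equiv (Fintype.equivFin Dig).symm _ _ fun c => ?_
  simp only [dig, c.2, dif_pos, Fin.eta]

open Classical in
theorem sum_ok (F : G → ED → ED → ℝ) : ∑ d : Dig, (if d.ok then F d.1 d.2.2.1 d.2.2.2 else 0) =
    ∑ g : G, 2 ^ ((g.1 : ℕ) + g.2.1) * ∑ t : ED, ∑ s : ED, F g t s := by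
  rw [Fintype.sum_prod_type]
  refine sum_congr rfl fun g _ => ?_
  rw [Fintype.sum_prod_type]
  have h : ∀ j : Fin (2 ^ (2 * B)), (∑ y : ED × ED,
      if Dig.ok (g, j, y) then F g y.1 y.2 else 0) =
      if (j : ℕ) < 2 ^ ((g.1 : ℕ) + g.2.1) then ∑ t : ED, ∑ s : ED, F g t s else 0 := by
    intro j
    split_ifs with hj
    · rw [Fintype.sum_prod_type]
      exact sum_congr rfl fun t _ => sum_congr rfl fun s _ => if_pos hj
    · exact sum_eq_zero fun y _ => if_neg hj
  simp only [h]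
  rw [Fin.sum_univ_eq_sum_range
    (fun j => if j < 2 ^ ((g.1 : ℕ) + g.2.1) then ∑ t : ED, ∑ s : ED, F g t s else 0),
    ← sum_filter]
  have h2 : (range (2 ^ (2 * B))).filter (fun j => j < 2 ^ ((g.1 : ℕ) + g.2.1)) =
      range (2 ^ ((g.1 : ℕ) + g.2.1)) := by
    have h3 : 2 ^ ((g.1 : ℕ) + g.2.1) ≤ 2 ^ (2 * B) :=
      Nat.pow_le_pow_right (by norm_num) (by have := g.1.2; have := g.2.1.2; omega)
    ext j
    simp only [mem_filter, mem_range]
    omega
  rw [h2, sum_const, card_range, nsmul_eq_mul]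
  push_cast
  rfl

open Classical in
/-- Sums over the names of the next level. -/
theorem sum_step (L : Lv) (hn : 0 < L.n) (F : ℕ × G → ED → ED → ℝ) :
    ∑ x ∈ range (L.n * 2 ^ a), (if vld (x / L.n) then
      F (x % L.n, (dig (x / L.n)).1) (dig (x / L.n)).2.2.1 (dig (x / L.n)).2.2.2 else 0) =
    ∑ u ∈ L.cls, 2 ^ ((u.2.1 : ℕ) + u.2.2.1) * ∑ t : ED, ∑ s : ED, F u t s := by
  rw [sum_range_mul_eq hn (2 ^ a)
    (fun x c => if vld c then F (x, (dig c).1) (dig c).2.2.1 (dig c).2.2.2 else 0),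
    Lv.cls, sum_product]
  refine sum_congr rfl fun x _ => ?_
  rw [sum_dig (fun d => F (x, d.1) d.2.2.1 d.2.2.2), sum_ok (fun g t s => F (x, g) t s)]

end Vale.Agent.P313.Hi
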