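import Mathlib

/-! The ideal hierarchy of chains: definitions.

A level is a nonnegative kernel on names `x < n`.  A name of the next level is `x + n * c`, where
`c` codes a digit.  Every name has a view of its incoming edges and a view of its outgoing edges
(index, level, waiting flag); the views are functions of the digits only.  A stage depends on two
vertex statistics `hc`, `hr` (column and row load), which are parameters here. -/

namespace Vale.Agent.P313.Hi

open Finset

theorem exists_eq_nat (m : ℕ) : ∃ b : ℕ, b = m := ⟨m, rfl⟩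

/-- The size of one busy step (sealed, so that the kernel never evaluates `2 ^ B`). -/
noncomputable def B : ℕ := Classical.choose (exists_eq_nat 67108864)

theorem B_eq : B = 67108864 := Classical.choose_spec (exists_eq_nat 67108864)

/-- The speed with which levels are equalised. -/
noncomputable def C : ℕ := Classical.choose (exists_eq_nat 1024)

theorem C_eq : C = 1024 := Classical.choose_spec (exists_eq_nat 1024)

/-- Index, level and waiting flag (the two ends of the edge do not agree yet). -/
structure View where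
  l : ℕ
  lam : ℕ
  wt : Bool

/-- Edge digit: increase of the index, increase of the level, origin (`0` not free, `1` free and
passed, `2` merged), new waiting flag. -/
abbrev ED : Type := Fin (B + 1) × Fin (C + 2) × Fin 3 × Bool

/-- Class of a name: in-class, out-class, bit of the out-split. -/
abbrev G : Type := Fin (B + 1) × Fin (B + 1) × Bool

/-- Digit: class, number of the clone, in-digit, out-digit. -/
abbrev Dig : Type := G × Fin (2 ^ (2 * B)) × ED × ED

/-- The number of bits of a digit code. -/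
noncomputable def a : ℕ := Fintype.card Dig

/-- The digit with the code `c`. -/
noncomputable def dig (c : ℕ) : Dig :=
  if h : c < Fintype.card Dig then (Fintype.equivFin Dig).symm ⟨c, h⟩ else default

/-- The clone exists. -/
def Dig.ok (d : Dig) : Prop := (d.2.1 : ℕ) < 2 ^ ((d.1.1 : ℕ) + d.1.2.1)

/-- The code is the code of a digit whose clone exists. -/
def vld (c : ℕ) : Prop := c < Fintype.card Dig ∧ (dig c).ok

/-- Clamp to the unit interval. -/
noncomputable def cl (t : ℝ) : ℝ := max 0 (min 1 t)

/-- Ramps. -/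
noncomputable def R (g : ℕ) (t : ℝ) : ℝ :=
  if g = 0 then 1 else if g ≤ B then cl (t / 2 ^ (g - 1) - 1) else 0

/-- Partition of unity. -/
noncomputable def chi (g : ℕ) (t : ℝ) : ℝ := R g t - R (g + 1) t

/-- Plateau functions, equal to `1` where `chi g` does not vanish. -/
noncomputable def zeta (g : ℕ) (t : ℝ) : ℝ := R (g - 1) t

/-- The ready part of an entry of normalised weight `w`. -/
noncomputable def phi (w : ℝ) : ℝ := cl (w * 2 ^ (B + 1) - 1)

/-- The view after an edge digit. -/
noncomputable def View.upd (v : View) (d : ED) : View := ⟨v.l + d.1, v.lam + d.2.1, d.2.2.2⟩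

/-- The increase of the index on the side with the view `p` (other side `q`). -/
noncomputable def dl (o : Fin 3) (p q : View) : ℕ :=
  if o = 0 ∧ p.wt = false then B else min B (q.l - p.l)

/-- The increase of the level on the side with the view `p` (other side `q`). -/
noncomputable def dm (o : Fin 3) (p q : View) : ℕ :=
  min C (q.lam - p.lam) + if o = 0 then 1 else 0

/-- The two views agree after the stage. -/
def syn (o : Fin 3) (p q : View) : Prop :=
  p.l + dl o p q = q.l + dl o q p ∧ p.lam + dm o p q = q.lam + dm o q p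

/-- The digits `s` (out-digit of the source) and `t` (in-digit of the target) fit the views. -/
def fit (p q : View) (s t : ED) : Prop :=
  s.2.2 = t.2.2 ∧ (s.2.2.2 = false ↔ syn s.2.2.1 p q) ∧
    (s.1 : ℕ) = dl s.2.2.1 p q ∧ (t.1 : ℕ) = dl s.2.2.1 q p ∧
    (s.2.1 : ℕ) = dm s.2.2.1 p q ∧ (t.2.1 : ℕ) = dm s.2.2.1 q p

/-- A level together with its two vertex statistics. -/
structure Lv where
  n : ℕ
  S : ℕ → ℕ → ℝ
  vi : ℕ → View
  vo : ℕ → View
  e : ℕ → ℝ
  f : ℕ → ℝ
  hc : ℕ → ℝ
  hr : ℕ → ℝ

namespace Lv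

variable (L : Lv)

/-- Factor on the incoming edges of a class. -/
noncomputable def inn (u : ℕ × G) : ℝ := chi u.2.1 (L.hc u.1) * zeta u.2.2.1 (L.hr u.1)

/-- Factor on the outgoing edges of a class. -/
noncomputable def out (u : ℕ × G) : ℝ := zeta u.2.1 (L.hc u.1) * chi u.2.2.1 (L.hr u.1)

/-- The ready fraction of an entry. -/
noncomputable def rdy (x z : ℕ) : ℝ :=
  if (L.vo x).wt = false then phi (L.S x z * 2 ^ (L.vo x).l) else 0

/-- The free fraction: ready and not saturated. -/
noncomputable def fr (u w : ℕ × G) : ℝ :=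
  if (u.2.2.1 : ℕ) < B ∧ (w.2.1 : ℕ) < B then L.rdy u.1 w.1 else 0

/-- The edge approves the elimination of its target. -/
def P1 (x z : ℕ) : Prop := (L.vo z).lam ≤ (L.vi x).lam + 2

/-- The edge approves the elimination of its source. -/
def P2 (x z : ℕ) : Prop := (L.vi x).lam ≤ (L.vo z).lam + 2

open Classical in
/-- The free part of the kernel on classes. -/
noncomputable def Fb (u w : ℕ × G) : ℝ :=
  if u.2.2.2 = decide (L.P2 u.1 w.1) then L.S u.1 w.1 * L.out u * L.inn w * L.fr u w else 0

/-- The part of the kernel on classes that is not free. -/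
noncomputable def Nb (u w : ℕ × G) : ℝ :=
  if u.2.2.2 = false then L.S u.1 w.1 * L.out u * L.inn w * (1 - L.fr u w) else 0

open Classical in
/-- The part that is merged with the next edge. -/
noncomputable def Cm (u w : ℕ × G) : ℝ :=
  if L.P1 u.1 w.1 ∧ w.2.2.2 = true then L.Fb u w / 4 else 0

/-- The classes. -/
noncomputable def cls : Finset (ℕ × G) := range L.n ×ˢ univ

/-- Merged edges. -/
noncomputable def Mg (u w : ℕ × G) : ℝ := ∑ v ∈ L.cls, L.Cm u v * L.Fb v w

/-- The entry of a given origin before cloning. -/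
noncomputable def T (o : Fin 3) (u w : ℕ × G) : ℝ :=
  if o = 0 then L.Nb u w else if o = 1 then L.Fb u w - L.Cm u w else L.Mg u w

open Classical in
/-- The kernel of the next level in terms of names and digits. -/
noncomputable def Sd (x : ℕ) (d : Dig) (z : ℕ) (d' : Dig) : ℝ :=
  if fit (L.vo x) (L.vi z) d.2.2.2 d'.2.2.1 then
    L.T d.2.2.2.2.2.1 (x, d.1) (z, d'.1) / 2 ^ ((d.1.2.1 : ℕ) + d'.1.1)
  else 0

/-- Start weights on classes. -/
noncomputable def eb (u : ℕ × G) : ℝ := L.e u.1 * L.inn u

/-- End weights on classes. -/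
noncomputable def fb (u : ℕ × G) : ℝ := if u.2.2.2 = false then L.f u.1 * L.out u else 0

open Classical in
/-- The next level, with the statistics `hc'`, `hr'`. -/
noncomputable def step (hc' hr' : ℕ → ℝ) : Lv where
  n := L.n * 2 ^ a
  S x z := if vld (x / L.n) ∧ vld (z / L.n) then
    L.Sd (x % L.n) (dig (x / L.n)) (z % L.n) (dig (z / L.n)) else 0
  vi x := (L.vi (x % L.n)).upd (dig (x / L.n)).2.2.1
  vo x := (L.vo (x % L.n)).upd (dig (x / L.n)).2.2.2
  e x := if vld (x / L.n) ∧ (dig (x / L.n)).2.2.1 = 0 then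
    L.eb (x % L.n, (dig (x / L.n)).1) / 2 ^ ((dig (x / L.n)).1.1 : ℕ) else 0
  f x := if vld (x / L.n) ∧ (dig (x / L.n)).2.2.2 = 0 then
    L.fb (x % L.n, (dig (x / L.n)).1) / 2 ^ ((dig (x / L.n)).1.2.1 : ℕ) else 0
  hc := hc'
  hr := hr'

/-- The mass of the direct edges from the start to the end. -/
noncomputable def dir : ℝ := ∑ x ∈ range L.n, ∑ z ∈ range L.n, L.e x * L.S x z * L.f z

/-- The mass of the direct edges created in this stage. -/
noncomputable def ans : ℝ := ∑ u ∈ L.cls, ∑ w ∈ L.cls, L.eb u * L.Mg u w * L.fb w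

/-- Column load. -/
noncomputable def col (z : ℕ) : ℝ := ∑ x ∈ range L.n, L.S x z

/-- Row load. -/
noncomputable def row (x : ℕ) : ℝ := ∑ z ∈ range L.n, L.S x z

/-- The entry has a ready part and both statistics on it are below the cap. -/
def use (x z : ℕ) : Prop := L.rdy x z ≠ 0 ∧ L.hr x < 2 ^ B ∧ L.hc z < 2 ^ B

open Classical in
/-- The statistics bound the load of the usable entries. -/
structure Low : Prop where
  hc : ∀ z < L.n, ∑ x ∈ (range L.n).filter fun x => L.use x z, L.S x z ≤ 2 * L.hc z
  hr : ∀ x < L.n, ∑ z ∈ (range L.n).filter fun z => L.use x z, L.S x z ≤ 2 * L.hr x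

end Lv

/-- The level `0` for a graph with `N ≤ 2 ^ n0` vertices and `A0 x z` edges of weight `1 / 2`;
the vertex `0` is the start, the vertex `N - 1` the end, `K` is the number of stages. -/
noncomputable def lv0 (N n0 K : ℕ) (A0 : ℕ → ℕ → ℕ) (hc hr : ℕ → ℝ) : Lv where
  n := 2 ^ n0
  S x z := if x < N ∧ z < N then (A0 x z : ℝ) / 2 else 0
  vi x := ⟨0, if x % 2 ^ n0 = 0 then K else 0, false⟩
  vo x := ⟨0, if x % 2 ^ n0 = N - 1 then K else 0, false⟩
  e x := if x = 0 then 1 else 0
  f x := if x = N - 1 then 1 else 0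
  hc := hc
  hr := hr

/-- The levels for given statistics. -/
noncomputable def lv (N n0 K : ℕ) (A0 : ℕ → ℕ → ℕ) (hc hr : ℕ → ℕ → ℝ) : ℕ → Lv
  | 0 => lv0 N n0 K A0 (hc 0) (hr 0)
  | k + 1 => (lv N n0 K A0 hc hr k).step (hc (k + 1)) (hr (k + 1))

/-- The damping factor in the upper bounds for the statistics. -/
noncomputable def rho : ℝ := 2 ^ (a + 1)

/-- Upper bound for the column statistic: damped sum of the loads of the ancestors. -/
noncomputable def upC (L : ℕ → Lv) : ℕ → ℕ → ℝ
  | 0, z => (L 0).col z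
  | k + 1, z => (L (k + 1)).col z + upC L k (z % (L k).n) / rho

/-- Upper bound for the row statistic. -/
noncomputable def upR (L : ℕ → Lv) : ℕ → ℕ → ℝ
  | 0, x => (L 0).row x
  | k + 1, x => (L (k + 1)).row x + upR L k (x % (L k).n) / rho

/-- What the hierarchy needs from the statistics at the level `k`. -/
structure Stat (L : ℕ → Lv) (k : ℕ) : Prop where
  low : (L k).Low
  hc : ∀ z < (L k).n, (L k).hc z ≤ upC L k z
  hr : ∀ x < (L k).n, (L k).hr x ≤ upR L k x

/-- The rest of a gap, rounded up by one chunk. -/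
def fut (c p q : ℕ) : ℕ := if p = q then 0 else (p - q) + (q - p) + c

/-- Invariants of the level `k` (base names are the residues modulo `M`). -/
structure Inv (N M K k : ℕ) (L : Lv) : Prop where
  n_pos : 0 < L.n
  dvd : M ∣ L.n
  S_nonneg : ∀ x z, 0 ≤ L.S x z
  e_nonneg : ∀ x, 0 ≤ L.e x
  f_nonneg : ∀ x, 0 ≤ L.f x
  dag : ∀ x z, L.S x z ≠ 0 → x % M < z % M ∧ z % M < N
  e_supp : ∀ x, L.e x ≠ 0 → x % M = 0
  f_supp : ∀ x, L.f x ≠ 0 → x % M = N - 1
  bot : ∀ x, x % M = 0 → K ≤ (L.vi x).lam
  top : ∀ x, x % M = N - 1 → K ≤ (L.vo x).lam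
  wt : ∀ x z, L.S x z ≠ 0 → (L.vo x).wt = (L.vi z).wt
  sy : ∀ x z, L.S x z ≠ 0 →
    ((L.vo x).wt = false ↔ (L.vo x).l = (L.vi z).l ∧ (L.vo x).lam = (L.vi z).lam)
  val : ∀ x z, L.S x z * 2 ^ max (L.vo x).l (L.vi z).l ≤ 1
  lam_le : ∀ x z, L.S x z ≠ 0 → max (L.vo x).lam (L.vi z).lam ≤ k
  eb : ∀ x z, L.S x z ≠ 0 →
    B * C * max (L.vo x).lam (L.vi z).lam + C * fut B (L.vo x).l (L.vi z).l +
        B * fut C (L.vo x).lam (L.vi z).lam ≤
      C * C * max (L.vo x).l (L.vi z).l +
        2 * B * (min (max (L.vo x).lam (L.vi z).lam) (L.vi x).lam +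
          min (max (L.vo x).lam (L.vi z).lam) (L.vo z).lam) + 8 * B * k

end Vale.Agent.P313.Hi
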