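import Vale.Agent.P313.Full.HiFlow
import Vale.Agent.P313.F43.Lin

/-! The ideal hierarchy of chains: the first level and the read-out at the last level. -/

namespace Vale.Agent.P313.Hi

open Finset

theorem sum_range_ite_lt {N n : ℕ} (h : N ≤ n) (F : Fin N → ℝ) :
    ∑ x ∈ range n, (if hx : x < N then F ⟨x, hx⟩ else 0) = ∑ x, F x := by
  rw [← sum_subset (range_subset_range.2 h) fun x _ hx => dif_neg (by simpa using hx),
    sum_range fun x => if hx : x < N then F ⟨x, hx⟩ else 0]
  exact sum_congr rfl fun x _ => dif_pos x.2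

/-- The flow of the level `0`. -/
theorem flow0 {N n0 : ℕ} (K : ℕ) {A0 : ℕ → ℕ → ℕ} (hA : F43.Sub (F43.mat N A0 2)) (h2 : 2 ≤ N)
    (hN : N ≤ 2 ^ n0) (hc hr : ℕ → ℝ) : ∃ m y, Flow (lv0 N n0 K A0 hc hr) m y ∧
      (lv0 N n0 K A0 hc hr).val y =
        F43.gr (F43.mat N A0 2) ⟨0, by omega⟩ ⟨N - 1, by omega⟩ ∧
      (∀ x, m x ≤ 1) ∧ ∀ x, y x ≤ 1 := by
  refine ⟨fun x => if hx : x < N then F43.gr (F43.mat N A0 2) ⟨0, by omega⟩ ⟨x, hx⟩ else 0,
    fun x => if hx : x < N then F43.gr (F43.mat N A0 2) ⟨x, hx⟩ ⟨N - 1, by omega⟩ else 0,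
    ⟨fun x => ?_, fun x => ?_, fun z _ => ?_, fun x _ => ?_⟩, ?_, fun x => ?_, fun x => ?_⟩
  · split_ifs
    exacts [hA.gr_nonneg _ _, le_rfl]
  · split_ifs
    exacts [hA.gr_nonneg _ _, le_rfl]
  · simp only [lv0]
    by_cases hz : z < N
    · rw [dif_pos hz, hA.gr_row, ← sum_range_ite_lt hN]
      congr 1
      · simp only [Fin.mk.injEq, eq_comm]
      · refine sum_congr rfl fun x _ => ?_
        by_cases hx : x < N
        · simp only [hx, hz, dif_pos, and_self, if_true, F43.mat, Nat.cast_ofNat]
        · simp [hx]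
    · have : z ≠ 0 := by omega
      simp [hz, this]
  · simp only [lv0]
    by_cases hx : x < N
    · rw [dif_pos hx, hA.gr_col, ← sum_range_ite_lt hN]
      congr 1
      · simp only [Fin.mk.injEq]
      · refine sum_congr rfl fun z _ => ?_
        by_cases hz : z < N
        · simp only [hx, hz, dif_pos, and_self, if_true, F43.mat, Nat.cast_ofNat]
        · simp [hz]
    · have : x ≠ N - 1 := by omega
      simp [hx, this]
  · simp only [Lv.val, lv0, ite_mul, one_mul, zero_mul]
    rw [sum_ite_eq' (range (2 ^ n0)) 0, if_pos (mem_range.2 (Nat.two_pow_pos _)),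
      dif_pos (by omega)]
  · dsimp only
    split_ifs
    exacts [hA.gr_le_one _ _, zero_le_one]
  · dsimp only
    split_ifs
    exacts [hA.gr_le_one _ _, zero_le_one]

/-- Entries of a high level are small. -/
theorem Inv.small {N M K k : ℕ} {L : Lv} (hI : Inv N M K k L) {lam l : ℕ}
    (hl : C * C * l + 8 * B * k ≤ (B * C - 4 * B) * lam) (x z : ℕ)
    (h : lam ≤ max (L.vo x).lam (L.vi z).lam) : L.S x z ≤ (1 / 2) ^ l := by
  by_cases h0 : L.S x z = 0
  · rw [h0]; positivity
  have h1 := hI.eb x z h0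
  have h2 := hI.val x z
  have h3 : l ≤ max (L.vo x).l (L.vi z).l := by
    generalize max (L.vo x).l (L.vi z).l = ml at *
    generalize max (L.vo x).lam (L.vi z).lam = mm at *
    generalize fut B _ _ = f1 at *
    generalize fut C _ _ = f2 at *
    rw [B_eq, C_eq] at *
    omega
  rw [one_div_pow, le_div_iff₀ (by positivity)]
  exact (mul_le_mul_of_nonneg_left (pow_le_pow_right₀ one_le_two h3) (hI.S_nonneg x z)).trans h2

/-- The paths with an inner vertex have a small mass if the potential is small. -/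
theorem Flow.val_sub_dir {N M K k : ℕ} {L : Lv} {m y : ℕ → ℝ} (hI : Inv N M K k L)
    (hF : Flow L m y) (h2 : 2 ≤ N) (lam l : ℕ)
    (hl : C * C * l + 8 * B * k ≤ (B * C - 4 * B) * lam) :
    0 ≤ L.val y - L.dir ∧ L.val y - L.dir ≤ 4 ^ lam * L.pot N M m y +
      2 * (1 / 2) ^ l * ((∑ x ∈ range L.n, m x) * ∑ x ∈ range L.n, y x) := by
  have hS := hI.S_nonneg
  have hm := hF.m_nonneg
  have hy := hF.y_nonneg
  have hef : ∀ x, L.e x * L.f x = 0 := fun x => by
    by_contra h
    have h1 := hI.e_supp x (left_ne_zero_of_mul h)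
    have h3 := hI.f_supp x (right_ne_zero_of_mul h)
    omega
  have hr : ∀ z, 0 ≤ ∑ w ∈ range L.n, L.S z w * y w := fun z =>
    sum_nonneg fun w _ => mul_nonneg (hS _ _) (hy _)
  have hq : ∀ z, 0 ≤ ∑ x ∈ range L.n, m x * L.S x z := fun z =>
    sum_nonneg fun x _ => mul_nonneg (hm _) (hS _ _)
  have key : L.val y - L.dir = ∑ z ∈ range L.n,
      (∑ x ∈ range L.n, L.e x * L.S x z) * ∑ w ∈ range L.n, L.S z w * y w := by
    simp only [sum_mul]
    rw [sum_comm, Lv.val, Lv.dir, ← sum_sub_distrib]
    refine sum_congr rfl fun x hx => ?_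
    rw [hF.y_eq x (mem_range.1 hx), mul_add, hef, zero_add, mul_sum, ← sum_sub_distrib]
    refine sum_congr rfl fun z hz => ?_
    rw [hF.y_eq z (mem_range.1 hz)]
    ring
  rw [key]
  refine ⟨sum_nonneg fun z _ => mul_nonneg (sum_nonneg fun x _ =>
    mul_nonneg (hI.e_nonneg _) (hS _ _)) (hr z), ?_⟩
  set P := ∑ x ∈ range L.n, m x with hP
  set Q := ∑ x ∈ range L.n, y x with hQ
  have hP0 : 0 ≤ P := sum_nonneg fun x _ => hm x
  have hQ0 : 0 ≤ Q := sum_nonneg fun x _ => hy x
  have hw : ∀ z, 0 ≤ L.wgt N M z := fun z => by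
    unfold Lv.wgt; split_ifs
    exacts [le_rfl, by positivity]
  calc _ ≤ ∑ z ∈ range L.n, (4 ^ lam * (L.wgt N M z * (m z * y z)) +
        ((1 / 2) ^ l * P * y z + (1 / 2) ^ l * Q * m z)) := by
        refine sum_le_sum fun z hz => ?_
        have hz' := mem_range.1 hz
        have t1 : 0 ≤ 4 ^ lam * (L.wgt N M z * (m z * y z)) :=
          mul_nonneg (by positivity) (mul_nonneg (hw z) (mul_nonneg (hm z) (hy z)))
        have t2 : 0 ≤ (1 / 2 : ℝ) ^ l * P * y z := mul_nonneg (by positivity) (hy z)
        have t3 : 0 ≤ (1 / 2 : ℝ) ^ l * Q * m z := mul_nonneg (by positivity) (hm z)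
        by_cases hi : z % M = 0 ∨ z % M = N - 1
        · have : (∑ x ∈ range L.n, L.e x * L.S x z) * ∑ w ∈ range L.n, L.S z w * y w = 0 := by
            rcases hi with hi | hi
            · rw [sum_eq_zero, zero_mul]
              intro x _
              by_contra h
              have := (hI.dag x z (right_ne_zero_of_mul h)).1
              omega
            · rw [sum_eq_zero (s := range L.n) (f := fun w => L.S z w * y w), mul_zero]
              intro w _
              by_contra h
              have := hI.dag z w (left_ne_zero_of_mul h)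
              omega
          rw [this]
          linarith
        have a1 : ∑ x ∈ range L.n, L.e x * L.S x z ≤ ∑ x ∈ range L.n, m x * L.S x z := by
          refine sum_le_sum fun x hx => mul_le_mul_of_nonneg_right ?_ (hS _ _)
          rw [hF.m_eq x (mem_range.1 hx)]
          linarith [hq x]
        have a2 : ∑ x ∈ range L.n, m x * L.S x z ≤ m z := by
          rw [hF.m_eq z hz']; linarith [hI.e_nonneg z]
        have a3 : ∑ w ∈ range L.n, L.S z w * y w ≤ y z := by
          rw [hF.y_eq z hz']; linarith [hI.f_nonneg z]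
        refine (mul_le_mul_of_nonneg_right a1 (hr z)).trans ?_
        by_cases h1 : lam ≤ (L.vi z).lam
        · have b : ∑ x ∈ range L.n, m x * L.S x z ≤ (1 / 2) ^ l * P := by
            rw [hP, mul_sum]
            refine sum_le_sum fun x _ => ?_
            rw [mul_comm]
            exact mul_le_mul_of_nonneg_right (hI.small hl x z (h1.trans (le_max_right _ _))) (hm x)
          have := mul_le_mul b a3 (hr z) (by positivity)
          linarith
        by_cases h3 : lam ≤ (L.vo z).lam
        · have b : ∑ w ∈ range L.n, L.S z w * y w ≤ (1 / 2) ^ l * Q := by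
            rw [hQ, mul_sum]
            exact sum_le_sum fun w _ =>
              mul_le_mul_of_nonneg_right (hI.small hl z w (h3.trans (le_max_left _ _))) (hy w)
          have := mul_le_mul a2 b (hr z) (hm z)
          linarith
        have b : 1 ≤ 4 ^ lam * L.wgt N M z := by
          rw [Lv.wgt, if_neg hi, one_div_pow, mul_one_div, le_div_iff₀ (by positivity), one_mul,
            show (4 : ℝ) = 2 ^ 2 by norm_num, ← pow_mul]
          exact pow_le_pow_right₀ one_le_two (by omega)
        have c := mul_le_mul a2 a3 (hr z) (hm z)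
        have d := le_mul_of_one_le_left (mul_nonneg (hm z) (hy z)) b
        rw [mul_assoc] at d
        linarith
    _ = _ := by
        rw [sum_add_distrib, sum_add_distrib, ← mul_sum, ← mul_sum, ← mul_sum, Lv.pot]
        ring

end Vale.Agent.P313.Hi
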