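import Vale.Agent.P313.Full.HiInv

/-! The ideal hierarchy of chains: flows on classes. -/

namespace Vale.Agent.P313.Hi

open Finset

/-- Visit weights `m` and end weights `y` of a level. -/
structure Flow (L : Lv) (m y : ℕ → ℝ) : Prop where
  m_nonneg : ∀ x, 0 ≤ m x
  y_nonneg : ∀ x, 0 ≤ y x
  m_eq : ∀ z < L.n, m z = L.e z + ∑ x ∈ range L.n, m x * L.S x z
  y_eq : ∀ x < L.n, y x = L.f x + ∑ z ∈ range L.n, L.S x z * y z

namespace Lv

variable (L : Lv)

/-- The weight of a name in the potential; names of the start and of the end do not count. -/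
noncomputable def wgt (N M x : ℕ) : ℝ :=
  if x % M = 0 ∨ x % M = N - 1 then 0 else (1 / 2) ^ ((L.vi x).lam + (L.vo x).lam)

/-- The potential. -/
noncomputable def pot (N M : ℕ) (m y : ℕ → ℝ) : ℝ := ∑ x ∈ range L.n, L.wgt N M x * (m x * y x)

/-- The value: total mass of the paths from the start to the end. -/
noncomputable def val (y : ℕ → ℝ) : ℝ := ∑ x ∈ range L.n, L.e x * y x

theorem sum_cls (F : ℕ × G → ℝ) : ∑ u ∈ L.cls, F u = ∑ x ∈ range L.n,
    ∑ i : Fin (B + 1), ∑ o : Fin (B + 1), (F (x, i, o, true) + F (x, i, o, false)) := by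
  rw [cls, sum_product]
  exact sum_congr rfl fun x _ => sum_G fun g => F (x, g)

theorem mem_cls {u : ℕ × G} : u ∈ L.cls ↔ u.1 < L.n := by
  simp [cls, mem_product]

theorem sum_inn_mul_out (x : ℕ) (b b' : Bool) :
    ∑ i : Fin (B + 1), ∑ o : Fin (B + 1), L.inn (x, i, o, b) * L.out (x, i, o, b') = 1 := by
  have h : ∀ i o : Fin (B + 1), L.inn (x, i, o, b) * L.out (x, i, o, b') =
      chi i (L.hc x) * chi o (L.hr x) := by
    intro i o
    simp only [inn, out]
    rw [← chi_mul_zeta i, ← chi_mul_zeta o]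
    by_cases h1 : chi i (L.hc x) = 0
    · simp [h1]
    by_cases h2 : chi o (L.hr x) = 0
    · simp [h2]
    rw [zeta_of_chi h1, zeta_of_chi h2]
    ring
  simp only [h, ← mul_sum, sum_chi, mul_one]

/-- The kernel on classes. -/
noncomputable def Sb (u w : ℕ × G) : ℝ := L.Fb u w + L.Nb u w

theorem Sb_add (x : ℕ) (i o : Fin (B + 1)) (w : ℕ × G) :
    L.Sb (x, i, o, true) w + L.Sb (x, i, o, false) w =
      L.S x w.1 * L.out (x, i, o, true) * L.inn w := by
  have h1 : L.out (x, i, o, false) = L.out (x, i, o, true) := rfl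
  have h2 : L.fr (x, i, o, false) w = L.fr (x, i, o, true) w := rfl
  by_cases h : L.P2 x w.1 <;> simp [Sb, Fb, Nb, h, h1, h2] <;> ring

theorem Cm_true {u w : ℕ × G} (h : L.Cm u w ≠ 0) : L.P1 u.1 w.1 ∧ w.2.2.2 = true := by
  by_contra hc
  exact h (if_neg hc)

theorem Nb_true {u : ℕ × G} (h : u.2.2.2 = true) (w : ℕ × G) : L.Nb u w = 0 :=
  if_neg (by simp [h])

theorem fb_true {u : ℕ × G} (h : u.2.2.2 = true) : L.fb u = 0 := if_neg (by simp [h])

theorem sum_T (u w : ℕ × G) : ∑ o : Fin 3, L.T o u w = L.Sb u w - L.Cm u w + L.Mg u w := by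
  simp [Fin.sum_univ_three, T, Sb]
  ring

theorem S_of_Fb {u w : ℕ × G} (h : L.Fb u w ≠ 0) : L.S u.1 w.1 ≠ 0 := by
  intro h0
  apply h
  simp [Fb, h0]

theorem Fb_of_Cm {u w : ℕ × G} (h : L.Cm u w ≠ 0) : L.Fb u w ≠ 0 := by
  intro h0
  apply h
  simp [Cm, h0]

/-- Visit weights of classes. -/
noncomputable def ma (m : ℕ → ℝ) (u : ℕ × G) : ℝ := m u.1 * L.inn u

/-- End weights of classes before the out-split. -/
noncomputable def ya (y : ℕ → ℝ) (u : ℕ × G) : ℝ := y u.1 * L.out u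

/-- End weights of classes. -/
noncomputable def yb (y : ℕ → ℝ) (u : ℕ × G) : ℝ :=
  L.fb u + ∑ w ∈ L.cls, L.Sb u w * (L.ya y w / 2)

variable {L} {N M K k : ℕ} {m y : ℕ → ℝ}

theorem Sb_nonneg (h : Inv N M K k L) (u w : ℕ × G) : 0 ≤ L.Sb u w :=
  add_nonneg (Fb_nonneg h.S_nonneg u w) (Nb_nonneg h.S_nonneg u w)

theorem eb_nonneg (h : Inv N M K k L) (u : ℕ × G) : 0 ≤ L.eb u :=
  mul_nonneg (h.e_nonneg _) (L.inn_nonneg _)

theorem fb_nonneg (h : Inv N M K k L) (u : ℕ × G) : 0 ≤ L.fb u := by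
  unfold fb
  split_ifs
  exacts [mul_nonneg (h.f_nonneg _) (L.out_nonneg _), le_rfl]

theorem ma_nonneg (hF : Flow L m y) (u : ℕ × G) : 0 ≤ L.ma m u :=
  mul_nonneg (hF.m_nonneg _) (L.inn_nonneg _)

theorem ma_le (hF : Flow L m y) (u : ℕ × G) : L.ma m u ≤ m u.1 :=
  mul_le_of_le_one_right (hF.m_nonneg _) (L.inn_le_one _)

theorem ya_nonneg (hF : Flow L m y) (u : ℕ × G) : 0 ≤ L.ya y u :=
  mul_nonneg (hF.y_nonneg _) (L.out_nonneg _)

theorem ya_le (hF : Flow L m y) (u : ℕ × G) : L.ya y u ≤ y u.1 :=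
  mul_le_of_le_one_right (hF.y_nonneg _) (L.out_le_one _)

theorem yb_nonneg (h : Inv N M K k L) (hF : Flow L m y) (u : ℕ × G) : 0 ≤ L.yb y u :=
  add_nonneg (fb_nonneg h u) (sum_nonneg fun w _ =>
    mul_nonneg (Sb_nonneg h u w) (by linarith [ya_nonneg hF w]))

theorem ma_eq (hF : Flow L m y) {w : ℕ × G} (hw : w ∈ L.cls) :
    L.ma m w = L.eb w + ∑ u ∈ L.cls, L.ma m u * L.Sb u w := by
  rw [sum_cls, ma, hF.m_eq _ (L.mem_cls.1 hw), add_mul, eb, sum_mul]
  congr 1
  refine sum_congr rfl fun x _ => ?_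
  have h : ∀ i o : Fin (B + 1), L.ma m (x, i, o, true) * L.Sb (x, i, o, true) w +
      L.ma m (x, i, o, false) * L.Sb (x, i, o, false) w =
      m x * L.S x w.1 * L.inn w * (L.inn (x, i, o, true) * L.out (x, i, o, true)) := by
    intro i o
    have h1 : L.ma m (x, i, o, false) = L.ma m (x, i, o, true) := rfl
    rw [h1, ← mul_add, Sb_add, ma]
    ring
  simp only [h, ← mul_sum, sum_inn_mul_out, mul_one]

theorem yb_add (hF : Flow L m y) {x : ℕ} (hx : x < L.n) (i o : Fin (B + 1)) :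
    L.yb y (x, i, o, true) + L.yb y (x, i, o, false) = L.ya y (x, i, o, true) := by
  have h1 : L.fb (x, i, o, true) = 0 := L.fb_true rfl
  have h2 : L.fb (x, i, o, false) = L.f x * L.out (x, i, o, true) := if_pos rfl
  rw [yb, yb, h1, h2, zero_add, add_left_comm, ← sum_add_distrib, ya, hF.y_eq x hx, add_mul,
    sum_mul, sum_cls]
  congr 1
  refine sum_congr rfl fun z _ => ?_
  have h : ∀ (i' o' : Fin (B + 1)) (b : Bool),
      L.Sb (x, i, o, true) (z, i', o', b) * (L.ya y (z, i', o', b) / 2) +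
      L.Sb (x, i, o, false) (z, i', o', b) * (L.ya y (z, i', o', b) / 2) =
      L.S x z * y z * L.out (x, i, o, true) / 2 *
        (L.inn (z, i', o', true) * L.out (z, i', o', true)) := by
    intro i' o' b
    have h3 : L.inn (z, i', o', b) = L.inn (z, i', o', true) := rfl
    have h4 : L.out (z, i', o', b) = L.out (z, i', o', true) := rfl
    rw [← add_mul, Sb_add, ya, h3, h4]
    ring
  simp only [h, ← two_mul, ← mul_assoc]
  simp only [mul_assoc, ← mul_sum, sum_inn_mul_out]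
  ring

theorem yb_le (h : Inv N M K k L) (hF : Flow L m y) {u : ℕ × G} (hu : u ∈ L.cls) :
    L.yb y u ≤ y u.1 := by
  obtain ⟨x, i, o, b⟩ := u
  have h1 := yb_add hF (L.mem_cls.1 hu) i o
  have h2 := ya_le hF (x, i, o, true)
  have h3 := yb_nonneg h hF (x, i, o, true)
  have h4 := yb_nonneg h hF (x, i, o, false)
  cases b <;> simp only at h1 h2 ⊢ <;> linarith

/-- Sums of functions that do not depend on the bit of the out-split. -/
theorem sum_mul_yb (hF : Flow L m y) (F : ℕ × G → ℝ)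
    (hb : ∀ x i o, F (x, i, o, false) = F (x, i, o, true)) :
    ∑ w ∈ L.cls, F w * L.yb y w = ∑ w ∈ L.cls, F w * (L.ya y w / 2) := by
  rw [sum_cls, sum_cls]
  refine sum_congr rfl fun x hx => sum_congr rfl fun i _ => sum_congr rfl fun o _ => ?_
  have h1 : L.ya y (x, i, o, false) = L.ya y (x, i, o, true) := rfl
  rw [hb, h1, ← mul_add, yb_add hF (mem_range.1 hx)]
  ring

theorem yb_eq (hF : Flow L m y) (u : ℕ × G) :
    L.yb y u = L.fb u + ∑ w ∈ L.cls, L.Sb u w * L.yb y w := by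
  rw [sum_mul_yb hF (fun w => L.Sb u w) fun _ _ _ => rfl, yb]

theorem yb_eq_T (hF : Flow L m y) (u : ℕ × G) :
    L.yb y u = L.fb u + ∑ w ∈ L.cls, (∑ o : Fin 3, L.T o u w) * L.yb y w := by
  simp only [sum_T, add_mul, sub_mul, sum_add_distrib, sum_sub_distrib]
  have h : ∑ w ∈ L.cls, L.Mg u w * L.yb y w = ∑ v ∈ L.cls, L.Cm u v * L.yb y v := by
    simp only [Mg, sum_mul]
    rw [sum_comm]
    refine sum_congr rfl fun v _ => ?_
    by_cases hv : L.Cm u v = 0
    · simp [hv]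
    · have h1 := (L.Cm_true hv).2
      rw [yb_eq hF v, L.fb_true h1, zero_add, mul_sum]
      refine sum_congr rfl fun w _ => ?_
      rw [Sb, L.Nb_true h1, add_zero, mul_assoc]
  rw [h, sub_add_cancel, ← yb_eq hF u]

end Lv

/-- Solving the triangular system of the merge. -/
theorem exists_merge {ι : Type*} (s : Finset ι) (rk : ι → ℕ) (M : ℕ) (hM : ∀ v, rk v < M)
    (c : ι → ι → ℝ) (m : ι → ℝ) (hc : ∀ u v, 0 ≤ c u v) (hd : ∀ u v, c u v ≠ 0 → rk u < rk v)
    (hm : ∀ v, 0 ≤ m v) (hb : ∀ v ∈ s, ∑ u ∈ s, m u * c u v ≤ m v / 4) :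
    ∃ m' : ι → ℝ, ∀ v ∈ s, 3 / 4 * m v ≤ m' v ∧ m' v ≤ m v ∧ m' v + ∑ u ∈ s, m' u * c u v = m v := by
  let it : ℕ → ι → ℝ := fun n => Nat.rec m (fun _ p v => m v - ∑ u ∈ s, p u * c u v) n
  have hs : ∀ n v, it (n + 1) v = m v - ∑ u ∈ s, it n u * c u v := fun _ _ => rfl
  have h1 : ∀ n, ∀ v ∈ s, 3 / 4 * m v ≤ it n v ∧ it n v ≤ m v := by
    intro n
    induction n with
    | zero => exact fun v _ => ⟨by change _ ≤ m v; linarith [hm v], le_rfl⟩
    | succ n ih =>
      intro v hv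
      have h2 : 0 ≤ ∑ u ∈ s, it n u * c u v :=
        sum_nonneg fun u hu => mul_nonneg (by linarith [(ih u hu).1, hm u]) (hc u v)
      have h3 : ∑ u ∈ s, it n u * c u v ≤ ∑ u ∈ s, m u * c u v :=
        sum_le_sum fun u hu => mul_le_mul_of_nonneg_right (ih u hu).2 (hc u v)
      rw [hs]
      constructor <;> linarith [hb v hv]
  have h2 : ∀ n v, rk v < n → it (n + 1) v = it n v := by
    intro n
    induction n with
    | zero => intro v hv; omega
    | succ n ih =>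
      intro v hv
      rw [hs (n + 1) v, hs n v]
      congr 1
      refine sum_congr rfl fun u _ => ?_
      by_cases h : c u v = 0
      · rw [h, mul_zero, mul_zero]
      · rw [ih u (by have := hd u v h; omega)]
  refine ⟨it M, fun v hv => ⟨(h1 M v hv).1, (h1 M v hv).2, ?_⟩⟩
  have h3 := h2 M v (hM v)
  rw [hs] at h3
  linarith

/-- Visit weights of classes after the merge. -/
structure Merge (L : Lv) (m : ℕ → ℝ) (m' : ℕ × G → ℝ) : Prop where
  ge : ∀ v ∈ L.cls, 3 / 4 * L.ma m v ≤ m' v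
  le : ∀ v ∈ L.cls, m' v ≤ L.ma m v
  eq : ∀ v ∈ L.cls, m' v + ∑ u ∈ L.cls, m' u * L.Cm u v = L.ma m v

namespace Lv

variable {L : Lv} {N M K k : ℕ} {m y : ℕ → ℝ} {m' : ℕ × G → ℝ}

theorem exists_Merge (h : Inv N M K k L) (hF : Flow L m y) : ∃ m', Merge L m m' := by
  have hM : 0 < M := Nat.pos_of_dvd_of_pos h.dvd h.n_pos
  obtain ⟨m', hm⟩ := exists_merge L.cls (fun u => u.1 % M) M (fun u => Nat.mod_lt _ hM) L.Cm
    (L.ma m) (Cm_nonneg h.S_nonneg) (fun u v huv => (h.dag _ _ (L.S_of_Fb (L.Fb_of_Cm huv))).1)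
    (ma_nonneg hF) (fun v hv => by
      rw [ma_eq hF hv, add_div, sum_div]
      have h1 : ∑ u ∈ L.cls, L.ma m u * L.Cm u v ≤ ∑ u ∈ L.cls, L.ma m u * L.Sb u v / 4 := by
        refine sum_le_sum fun u _ => ?_
        rw [mul_div_assoc]
        refine mul_le_mul_of_nonneg_left ?_ (ma_nonneg hF u)
        have := Cm_le h.S_nonneg u v
        have := Nb_nonneg h.S_nonneg u v
        rw [Sb]
        linarith
      linarith [eb_nonneg h v])
  exact ⟨m', fun v hv => (hm v hv).1, fun v hv => (hm v hv).2.1, fun v hv => (hm v hv).2.2⟩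

theorem mm_nonneg (hF : Flow L m y) (hm : Merge L m m') {u : ℕ × G} (hu : u ∈ L.cls) :
    0 ≤ m' u := by
  linarith [hm.ge u hu, ma_nonneg hF u]

theorem mm_eq_T (hF : Flow L m y) (hm : Merge L m m') {w : ℕ × G} (hw : w ∈ L.cls) :
    m' w = L.eb w + ∑ u ∈ L.cls, m' u * ∑ o : Fin 3, L.T o u w := by
  simp only [sum_T, mul_add, mul_sub, sum_add_distrib, sum_sub_distrib]
  have h : ∑ u ∈ L.cls, m' u * L.Mg u w = ∑ v ∈ L.cls, (L.ma m v - m' v) * L.Sb v w := by
    simp only [Mg, mul_sum]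
    rw [sum_comm]
    refine sum_congr rfl fun v hv => ?_
    rw [← hm.eq v hv, add_sub_cancel_left, sum_mul]
    refine sum_congr rfl fun u _ => ?_
    by_cases huv : L.Cm u v = 0
    · simp [huv]
    · rw [Sb, L.Nb_true (L.Cm_true huv).2, add_zero, mul_assoc]
  simp only [h, sub_mul, sum_sub_distrib]
  linarith [ma_eq hF hw, hm.eq w hw]

end Lv

end Vale.Agent.P313.Hi
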