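import Vale.Agent.P313.Full.HiBasic
import Vale.Agent.P313.F43.LinDef

/-! The invariants of the ideal hierarchy. -/

namespace Vale.Agent.P313.Hi

open Finset

theorem mul_one_sub_phi_le {w : ℝ} (hw : 0 ≤ w) : w * 2 ^ B * (1 - phi w) ≤ 1 := by
  by_cases h : 1 ≤ w * 2 ^ B
  · have : phi w = 1 := by
      apply cl_of_ge; rw [pow_succ]; linarith
    rw [this]; simp
  · have h1 := phi_nonneg w
    have h2 : 0 ≤ w * 2 ^ B := by positivity
    nlinarith

namespace Lv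

variable (L : Lv)

theorem inn_nonneg (u : ℕ × G) : 0 ≤ L.inn u := mul_nonneg (chi_nonneg _ _) (zeta_nonneg _ _)

theorem inn_le_one (u : ℕ × G) : L.inn u ≤ 1 :=
  mul_le_one₀ (chi_le_one _ _) (zeta_nonneg _ _) (zeta_le_one _ _)

theorem out_nonneg (u : ℕ × G) : 0 ≤ L.out u := mul_nonneg (zeta_nonneg _ _) (chi_nonneg _ _)

theorem out_le_one (u : ℕ × G) : L.out u ≤ 1 :=
  mul_le_one₀ (zeta_le_one _ _) (chi_nonneg _ _) (chi_le_one _ _)

theorem rdy_nonneg (x z : ℕ) : 0 ≤ L.rdy x z := by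
  unfold rdy; split_ifs
  · exact phi_nonneg _
  · exact le_rfl

theorem rdy_le_one (x z : ℕ) : L.rdy x z ≤ 1 := by
  unfold rdy; split_ifs
  · exact phi_le_one _
  · exact zero_le_one

theorem fr_nonneg (u w : ℕ × G) : 0 ≤ L.fr u w := by
  unfold fr; split_ifs
  · exact L.rdy_nonneg _ _
  · exact le_rfl

theorem fr_le_one (u w : ℕ × G) : L.fr u w ≤ 1 := by
  unfold fr; split_ifs
  · exact L.rdy_le_one _ _
  · exact zero_le_one

variable {L}

theorem Fb_nonneg (hS : ∀ x z, 0 ≤ L.S x z) (u w : ℕ × G) : 0 ≤ L.Fb u w := by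
  unfold Fb; split_ifs
  · exact mul_nonneg (mul_nonneg (mul_nonneg (hS _ _) (L.out_nonneg _)) (L.inn_nonneg _))
      (L.fr_nonneg _ _)
  · exact le_rfl

theorem Nb_nonneg (hS : ∀ x z, 0 ≤ L.S x z) (u w : ℕ × G) : 0 ≤ L.Nb u w := by
  unfold Nb; split_ifs
  · exact mul_nonneg (mul_nonneg (mul_nonneg (hS _ _) (L.out_nonneg _)) (L.inn_nonneg _))
      (sub_nonneg.2 (L.fr_le_one _ _))
  · exact le_rfl

theorem Cm_nonneg (hS : ∀ x z, 0 ≤ L.S x z) (u w : ℕ × G) : 0 ≤ L.Cm u w := by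
  have := Fb_nonneg hS u w
  unfold Cm; split_ifs
  · positivity
  · exact le_rfl

theorem Cm_le (hS : ∀ x z, 0 ≤ L.S x z) (u w : ℕ × G) : L.Cm u w ≤ L.Fb u w / 4 := by
  have := Fb_nonneg hS u w
  unfold Cm; split_ifs
  · exact le_rfl
  · positivity

theorem Mg_nonneg (hS : ∀ x z, 0 ≤ L.S x z) (u w : ℕ × G) : 0 ≤ L.Mg u w :=
  sum_nonneg fun _ _ => mul_nonneg (Cm_nonneg hS _ _) (Fb_nonneg hS _ _)

theorem T_nonneg (hS : ∀ x z, 0 ≤ L.S x z) (o : Fin 3) (u w : ℕ × G) : 0 ≤ L.T o u w := by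
  unfold T; split_ifs
  · exact Nb_nonneg hS _ _
  · have := Cm_le hS u w
    have := Fb_nonneg hS u w
    linarith
  · exact Mg_nonneg hS _ _

theorem Sd_nonneg (hS : ∀ x z, 0 ≤ L.S x z) (x : ℕ) (d : Dig) (z : ℕ) (d' : Dig) :
    0 ≤ L.Sd x d z d' := by
  unfold Sd; split_ifs
  · exact div_nonneg (T_nonneg hS _ _ _) (by positivity)
  · exact le_rfl

theorem Fb_le (hS : ∀ x z, 0 ≤ L.S x z) (u w : ℕ × G) :
    L.Fb u w ≤ L.S u.1 w.1 * L.out u * L.inn w := by
  have h : 0 ≤ L.S u.1 w.1 * L.out u * L.inn w :=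
    mul_nonneg (mul_nonneg (hS _ _) (L.out_nonneg _)) (L.inn_nonneg _)
  unfold Fb; split_ifs
  · exact mul_le_of_le_one_right h (L.fr_le_one _ _)
  · exact h

theorem Fb_le_S (hS : ∀ x z, 0 ≤ L.S x z) (u w : ℕ × G) : L.Fb u w ≤ L.S u.1 w.1 := by
  refine (Fb_le hS u w).trans ?_
  rw [mul_assoc]
  exact mul_le_of_le_one_right (hS _ _)
    (mul_le_one₀ (L.out_le_one _) (L.inn_nonneg _) (L.inn_le_one _))

/-- What a nonzero free entry means. -/
structure Free (L : Lv) (u w : ℕ × G) : Prop where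
  S : L.S u.1 w.1 ≠ 0
  sig : u.2.2.2 = true ↔ L.P2 u.1 w.1
  go : (u.2.2.1 : ℕ) < B
  gi : (w.2.1 : ℕ) < B
  rdy : L.rdy u.1 w.1 ≠ 0
  wt : (L.vo u.1).wt = false
  out : L.out u ≠ 0
  inn : L.inn w ≠ 0

theorem free_of_Fb {u w : ℕ × G} (h : L.Fb u w ≠ 0) : L.Free u w := by
  unfold Fb at h
  split_ifs at h with h1
  · simp only [ne_eq, mul_eq_zero, not_or] at h
    obtain ⟨⟨⟨hS, ho⟩, hi⟩, hf⟩ := h
    unfold fr at hf
    split_ifs at hf with h2
    · refine ⟨hS, by rw [h1]; simp, h2.1, h2.2, hf, ?_, ho, hi⟩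
      by_contra hw
      exact hf (by unfold rdy; rw [if_neg hw])
    · exact absurd rfl hf
  · exact absurd rfl h

theorem Free.hr_lt {u w : ℕ × G} (h : L.Free u w) : L.hr u.1 < 2 ^ ((u.2.2.1 : ℕ) + 1) :=
  lt_of_chi (right_ne_zero_of_mul h.out) h.go

theorem Free.hc_lt {u w : ℕ × G} (h : L.Free u w) : L.hc w.1 < 2 ^ ((w.2.1 : ℕ) + 1) :=
  lt_of_chi (left_ne_zero_of_mul h.inn) h.gi

theorem Free.use {u w : ℕ × G} (h : L.Free u w) : L.use u.1 w.1 :=
  ⟨h.rdy, h.hr_lt.trans_le (pow_le_pow_right₀ one_le_two h.go),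
    h.hc_lt.trans_le (pow_le_pow_right₀ one_le_two h.gi)⟩

theorem of_Cm {u w : ℕ × G} (h : L.Cm u w ≠ 0) :
    L.P1 u.1 w.1 ∧ w.2.2.2 = true ∧ L.Fb u w ≠ 0 := by
  unfold Cm at h
  split_ifs at h with h1
  · exact ⟨h1.1, h1.2, fun h0 => h (by rw [h0]; simp)⟩
  · exact absurd rfl h

theorem of_Mg {u w : ℕ × G} (h : L.Mg u w ≠ 0) : ∃ v : ℕ × G, v.1 < L.n ∧ L.Free u v ∧ L.Free v w ∧
    L.P1 u.1 v.1 ∧ L.P2 v.1 w.1 := by
  obtain ⟨v, hv, h1⟩ := exists_ne_zero_of_sum_ne_zero h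
  obtain ⟨h2, h3, h4⟩ := of_Cm (left_ne_zero_of_mul h1)
  have h5 := free_of_Fb (right_ne_zero_of_mul h1)
  exact ⟨v, mem_range.1 (mem_product.1 hv).1, free_of_Fb h4, h5, h2, h5.sig.1 h3⟩

theorem S_of_Nb {u w : ℕ × G} (h : L.Nb u w ≠ 0) : L.S u.1 w.1 ≠ 0 := by
  intro h0
  apply h
  unfold Nb; rw [h0]; simp

theorem Fb_of_sub {u w : ℕ × G} (h : L.Fb u w - L.Cm u w ≠ 0) : L.Fb u w ≠ 0 := by
  intro h0
  apply h
  unfold Cm; rw [h0]; simp

/-- The sum of the two factors over the classes with the out-bit `true`. -/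
theorem sum_inn_out (m : ℕ) :
    ∑ g : G, (if g.2.2 = true then L.inn (m, g) * L.out (m, g) else 0) ≤ 1 := by
  calc ∑ g : G, (if g.2.2 = true then L.inn (m, g) * L.out (m, g) else 0)
      ≤ ∑ g : G, (if g.2.2 = true then chi g.1 (L.hc m) * chi g.2.1 (L.hr m) else 0) := by
        refine sum_le_sum fun g _ => ?_
        split_ifs
        · unfold inn out
          exact mul_le_mul (mul_le_of_le_one_right (chi_nonneg _ _) (zeta_le_one _ _))
            (mul_le_of_le_one_left (chi_nonneg _ _) (zeta_le_one _ _))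
            (mul_nonneg (zeta_nonneg _ _) (chi_nonneg _ _)) (chi_nonneg _ _)
        · exact le_rfl
    _ = 1 := by
        simp only [Fintype.sum_prod_type, Fintype.sum_bool, if_true, Bool.false_eq_true, if_false,
          add_zero]
        simp_rw [← mul_sum, sum_chi, mul_one, sum_chi]

open Classical in
/-- A bound for the merged entries: `c1` and `c2` bound the two factors. -/
theorem Mg_le (hS : ∀ x z, 0 ≤ L.S x z) (u w : ℕ × G) (c : ℕ → ℝ) (hc0 : ∀ m, 0 ≤ c m)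
    (hc : ∀ v : ℕ × G, L.Free u v → L.Free v w → L.S u.1 v.1 * L.S v.1 w.1 ≤ c v.1) :
    L.Mg u w ≤ (∑ m ∈ range L.n, c m) / 4 := by
  unfold Mg cls
  rw [sum_product, sum_div]
  refine sum_le_sum fun m _ => ?_
  calc ∑ g : G, L.Cm u (m, g) * L.Fb (m, g) w
      ≤ ∑ g : G, c m / 4 * (if g.2.2 = true then L.inn (m, g) * L.out (m, g) else 0) := by
        refine sum_le_sum fun g _ => ?_
        by_cases h : L.Cm u (m, g) * L.Fb (m, g) w = 0
        · rw [h]
          refine mul_nonneg (by have := hc0 m; positivity) ?_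
          split_ifs
          · exact mul_nonneg (L.inn_nonneg _) (L.out_nonneg _)
          · exact le_rfl
        obtain ⟨-, h3, h4⟩ := of_Cm (left_ne_zero_of_mul h)
        have h5 := hc (m, g) (free_of_Fb h4) (free_of_Fb (right_ne_zero_of_mul h))
        rw [if_pos h3]
        have a1 : L.Cm u (m, g) ≤ L.S u.1 m * L.inn (m, g) / 4 := by
          refine (Cm_le hS _ _).trans (div_le_div_of_nonneg_right ((Fb_le hS _ _).trans ?_)
            (by norm_num))
          exact mul_le_mul_of_nonneg_right (mul_le_of_le_one_right (hS _ _) (L.out_le_one _))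
            (L.inn_nonneg _)
        have a2 : L.Fb (m, g) w ≤ L.S m w.1 * L.out (m, g) :=
          (Fb_le hS _ _).trans (mul_le_of_le_one_right (mul_nonneg (hS _ _) (L.out_nonneg _))
            (L.inn_le_one _))
        have a3 : 0 ≤ L.inn (m, g) * L.out (m, g) := mul_nonneg (L.inn_nonneg _) (L.out_nonneg _)
        calc L.Cm u (m, g) * L.Fb (m, g) w
            ≤ L.S u.1 m * L.inn (m, g) / 4 * (L.S m w.1 * L.out (m, g)) :=
              mul_le_mul a1 a2 (Fb_nonneg hS _ _)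
                (div_nonneg (mul_nonneg (hS _ _) (L.inn_nonneg _)) (by norm_num))
          _ = L.S u.1 m * L.S m w.1 / 4 * (L.inn (m, g) * L.out (m, g)) := by ring
          _ ≤ _ := mul_le_mul_of_nonneg_right (by linarith) a3
    _ ≤ c m / 4 := by
        rw [← mul_sum]
        exact mul_le_of_le_one_right (by have := hc0 m; positivity) (sum_inn_out m)

open Classical in
theorem Mg_val {N M K k : ℕ} (hI : Inv N M K k L) (hL : L.Low) (u w : ℕ × G) (hu : u.1 < L.n)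
    (hw : w.1 < L.n) : L.Mg u w * 2 ^ max (L.vo u.1).l (L.vi w.1).l ≤
      2 ^ ((u.2.2.1 : ℕ) + w.2.1) := by
  have hS := hI.S_nonneg
  by_cases h0 : L.Mg u w = 0
  · rw [h0, zero_mul]; positivity
  obtain ⟨v0, -, f1, f2, -, -⟩ := of_Mg h0
  have b1 : ∀ x z, L.S x z * 2 ^ (L.vo x).l ≤ 1 := fun x z =>
    (mul_le_mul_of_nonneg_left (pow_le_pow_right₀ one_le_two (le_max_left _ _)) (hS x z)).trans
      (hI.val x z)
  have b2 : ∀ x z, L.S x z * 2 ^ (L.vi z).l ≤ 1 := fun x z =>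
    (mul_le_mul_of_nonneg_left (pow_le_pow_right₀ one_le_two (le_max_right _ _)) (hS x z)).trans
      (hI.val x z)
  rcases le_total (L.vo u.1).l (L.vi w.1).l with hl | hl
  · rw [max_eq_right hl]
    have hp : (0 : ℝ) < 2 ^ (L.vi w.1).l := by positivity
    have h1 := Mg_le hS u w (fun m => (if L.use u.1 m then L.S u.1 m else 0) / 2 ^ (L.vi w.1).l)
      (fun m => div_nonneg (by split_ifs; exacts [hS _ _, le_rfl]) hp.le)
      (fun v g1 _ => by
        rw [if_pos g1.use, le_div_iff₀ hp, mul_assoc]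
        exact mul_le_of_le_one_right (hS _ _) (b2 _ _))
    rw [← sum_div, ← sum_filter] at h1
    have h2 := hL.hr _ hu
    have h3 := f1.hr_lt
    have h4 : (2 : ℝ) ^ (u.2.2.1 : ℕ) ≤ 2 ^ ((u.2.2.1 : ℕ) + w.2.1) :=
      pow_le_pow_right₀ one_le_two (Nat.le_add_right _ _)
    rw [div_div, le_div_iff₀ (by positivity)] at h1
    rw [pow_succ] at h3
    nlinarith
  · rw [max_eq_left hl]
    have hp : (0 : ℝ) < 2 ^ (L.vo u.1).l := by positivity
    have h1 := Mg_le hS u w (fun m => (if L.use m w.1 then L.S m w.1 else 0) / 2 ^ (L.vo u.1).l)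
      (fun m => div_nonneg (by split_ifs; exacts [hS _ _, le_rfl]) hp.le)
      (fun v _ g2 => by
        rw [if_pos g2.use, le_div_iff₀ hp, mul_right_comm]
        exact mul_le_of_le_one_left (hS _ _) (b1 _ _))
    rw [← sum_div, ← sum_filter] at h1
    have h2 := hL.hc _ hw
    have h3 := f2.hc_lt
    have h4 : (2 : ℝ) ^ (w.2.1 : ℕ) ≤ 2 ^ ((u.2.2.1 : ℕ) + w.2.1) :=
      pow_le_pow_right₀ one_le_two (Nat.le_add_left _ _)
    rw [div_div, le_div_iff₀ (by positivity)] at h1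
    rw [pow_succ] at h3
    nlinarith

end Lv

theorem fut_self (c p : ℕ) : fut c p p = 0 := by simp [fut]

theorem fut_chunk_le (c p q e : ℕ) :
    fut c (p + (min c (q - p) + e)) (q + (min c (p - q) + e)) ≤ (p - q) + (q - p) := by
  unfold fut; split_ifs <;> omega

theorem fut_chunk (c p q e : ℕ) (h : p ≠ q) :
    fut c (p + (min c (q - p) + e)) (q + (min c (p - q) + e)) + c ≤ fut c p q := by
  have := fut_chunk_le c p q e
  have h2 : fut c p q = (p - q) + (q - p) + c := by simp [fut, h]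
  omega

theorem fut_chunk_mono (c p q e : ℕ) :
    fut c (p + (min c (q - p) + e)) (q + (min c (p - q) + e)) ≤ fut c p q := by
  by_cases h : p = q
  · subst h; simp [fut]
  · have := fut_chunk c p q e h
    omega

theorem max_chunk (c p q e : ℕ) :
    max (p + (min c (q - p) + e)) (q + (min c (p - q) + e)) = max p q + e := by omega

/-- The arithmetic of a merge. -/
theorem merge_arith {l1 l2 m0 m1 m2 m3 k : ℕ} (p1 : m2 ≤ m0 + 2) (p2 : m1 ≤ m3 + 2)
    (h1 : B * C * m1 ≤ C * C * l1 + 2 * B * (min m1 m0 + min m1 m2) + 8 * B * k)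
    (h2 : B * C * m2 ≤ C * C * l2 + 2 * B * (min m2 m1 + min m2 m3) + 8 * B * k) :
    B * C * max m1 m2 + C * ((l1 - l2) + (l2 - l1)) + B * ((m1 - m2) + (m2 - m1)) ≤
      C * C * max l1 l2 + 2 * B * (min (max m1 m2) m0 + min (max m1 m2) m3) + 8 * B * (k + 1) := by
  rw [B_eq, C_eq] at *
  rcases le_total m1 m2 with hm | hm <;> rcases le_total l1 l2 with hl | hl
  all_goals
    obtain ⟨s, rfl⟩ := Nat.exists_eq_add_of_le hm
    obtain ⟨t, rfl⟩ := Nat.exists_eq_add_of_le hl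
    simp only [Nat.le_add_right, min_eq_left, min_eq_right, max_eq_left, max_eq_right,
      Nat.add_sub_cancel_left, Nat.sub_eq_zero_of_le] at *
    omega

/-- The structure of a nonzero entry of the next level. -/
theorem step_ne_zero {L : Lv} {hc hr : ℕ → ℝ} {x z : ℕ} (h : (L.step hc hr).S x z ≠ 0) :
    fit (L.vo (x % L.n)) (L.vi (z % L.n)) (dig (x / L.n)).2.2.2 (dig (z / L.n)).2.2.1 ∧
    L.T (dig (x / L.n)).2.2.2.2.2.1 (x % L.n, (dig (x / L.n)).1) (z % L.n, (dig (z / L.n)).1) ≠ 0 ∧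
    (L.step hc hr).S x z =
      L.T (dig (x / L.n)).2.2.2.2.2.1 (x % L.n, (dig (x / L.n)).1) (z % L.n, (dig (z / L.n)).1) /
        2 ^ (((dig (x / L.n)).1.2.1 : ℕ) + (dig (z / L.n)).1.1) := by
  simp only [Lv.step] at h ⊢
  split_ifs at h with h1
  · rw [if_pos h1]
    unfold Lv.Sd at h ⊢
    split_ifs at h with h2
    · rw [if_pos h2]
      exact ⟨h2, fun h0 => h (by rw [h0, zero_div]), rfl⟩
    · exact absurd rfl h
  · exact absurd rfl h

theorem T_cases {L : Lv} {o : Fin 3} {u w : ℕ × G} (h : L.T o u w ≠ 0) :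
    (o = 0 ∧ L.T o u w = L.Nb u w ∧ L.S u.1 w.1 ≠ 0) ∨
    (o ≠ 0 ∧ L.T o u w = L.Fb u w - L.Cm u w ∧ L.Free u w) ∨
    (o ≠ 0 ∧ L.T o u w = L.Mg u w ∧ L.Mg u w ≠ 0) := by
  unfold Lv.T at h ⊢
  split_ifs at h ⊢ with h0 h1
  · exact Or.inl ⟨h0, rfl, Lv.S_of_Nb h⟩
  · exact Or.inr (Or.inl ⟨h0, rfl, Lv.free_of_Fb (Lv.Fb_of_sub h)⟩)
  · exact Or.inr (Or.inr ⟨h0, rfl, h⟩)

theorem dl_wait {o : Fin 3} {p q : View} (h : o ≠ 0 ∨ p.wt ≠ false) :
    dl o p q = min B (q.l - p.l) + 0 := by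
  unfold dl; rw [if_neg (by tauto)]; rfl

theorem dl_busy {p q : View} (h : p.wt = false) : dl 0 p q = B := by
  unfold dl; rw [if_pos ⟨rfl, h⟩]

theorem dm_zero (p q : View) : dm 0 p q = min C (q.lam - p.lam) + 1 := by simp [dm]

theorem dm_ne {o : Fin 3} (h : o ≠ 0) (p q : View) : dm o p q = min C (q.lam - p.lam) + 0 := by
  simp [dm, h]

theorem Nb_busy {L : Lv} {u w : ℕ × G} (hS : 0 ≤ L.S u.1 w.1) (hw : (L.vo u.1).wt = false)
    (h1 : L.S u.1 w.1 * 2 ^ (L.vo u.1).l ≤ 1) :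
    L.Nb u w * 2 ^ ((L.vo u.1).l + B) ≤ 2 ^ ((u.2.2.1 : ℕ) + w.2.1) := by
  have hN : L.Nb u w ≤ L.S u.1 w.1 * (1 - L.fr u w) := by
    have := sub_nonneg.2 (L.fr_le_one u w)
    unfold Lv.Nb; split_ifs
    · refine mul_le_mul_of_nonneg_right ?_ this
      rw [mul_assoc]
      exact mul_le_of_le_one_right hS
        (mul_le_one₀ (L.out_le_one _) (L.inn_nonneg _) (L.inn_le_one _))
    · exact mul_nonneg hS this
  refine (mul_le_mul_of_nonneg_right hN (by positivity)).trans ?_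
  have hw0 : 0 ≤ L.S u.1 w.1 * 2 ^ (L.vo u.1).l := by positivity
  have e : L.S u.1 w.1 * (1 - L.fr u w) * 2 ^ ((L.vo u.1).l + B) =
      L.S u.1 w.1 * 2 ^ (L.vo u.1).l * 2 ^ B * (1 - L.fr u w) := by rw [pow_add]; ring
  rw [e]
  by_cases h : (u.2.2.1 : ℕ) < B ∧ (w.2.1 : ℕ) < B
  · have : L.fr u w = phi (L.S u.1 w.1 * 2 ^ (L.vo u.1).l) := by
      unfold Lv.fr Lv.rdy; rw [if_pos h, if_pos hw]
    rw [this]
    exact (mul_one_sub_phi_le hw0).trans (one_le_pow₀ one_le_two)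
  · have : L.fr u w = 0 := by unfold Lv.fr; rw [if_neg h]
    rw [this, sub_zero, mul_one]
    have h2 : (2 : ℝ) ^ B ≤ 2 ^ ((u.2.2.1 : ℕ) + w.2.1) := pow_le_pow_right₀ one_le_two (by omega)
    exact (mul_le_of_le_one_left (by positivity) h1).trans h2

theorem Nb_le_S {L : Lv} {u w : ℕ × G} (hS : 0 ≤ L.S u.1 w.1) : L.Nb u w ≤ L.S u.1 w.1 := by
  unfold Lv.Nb; split_ifs
  · rw [mul_assoc, mul_assoc]
    refine mul_le_of_le_one_right hS (mul_le_one₀ (L.out_le_one _) (mul_nonneg (L.inn_nonneg _)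
      (sub_nonneg.2 (L.fr_le_one u w))) (mul_le_one₀ (L.inn_le_one _)
      (sub_nonneg.2 (L.fr_le_one u w)) ?_))
    have := L.fr_nonneg u w
    linarith
  · exact hS

theorem Inv.step {N M K k : ℕ} {L : Lv} (hI : Inv N M K k L) (hL : L.Low) (hc hr : ℕ → ℝ) :
    Inv N M K (k + 1) (L.step hc hr) := by
  have hS := hI.S_nonneg
  have hmod : ∀ x, x % L.n % M = x % M := fun x => Nat.mod_mod_of_dvd x hI.dvd
  have hlt : ∀ x, x % L.n < L.n := fun x => Nat.mod_lt _ hI.n_pos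
  have hvo : ∀ x, (L.step hc hr).vo x = (L.vo (x % L.n)).upd (dig (x / L.n)).2.2.2 := fun _ => rfl
  have hvi : ∀ x, (L.step hc hr).vi x = (L.vi (x % L.n)).upd (dig (x / L.n)).2.2.1 := fun _ => rfl
  refine ⟨Nat.mul_pos hI.n_pos (Nat.two_pow_pos _), Dvd.dvd.mul_right hI.dvd _, fun x z => ?_,
    fun x => ?_, fun x => ?_, fun x z h => ?_, fun x h => ?_, fun x h => ?_, fun x h => ?_,
    fun x h => ?_, fun x z h => ?_, fun x z h => ?_, fun x z => ?_, fun x z h => ?_,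
    fun x z h => ?_⟩
  · simp only [Lv.step]
    split_ifs
    · exact Lv.Sd_nonneg hS _ _ _ _
    · exact le_rfl
  · simp only [Lv.step]
    split_ifs
    · exact div_nonneg (mul_nonneg (hI.e_nonneg _) (L.inn_nonneg _)) (by positivity)
    · exact le_rfl
  · simp only [Lv.step]
    split_ifs
    · refine div_nonneg ?_ (by positivity)
      unfold Lv.fb; split_ifs
      · exact mul_nonneg (hI.f_nonneg _) (L.out_nonneg _)
      · exact le_rfl
    · exact le_rfl
  · obtain ⟨-, hT, -⟩ := step_ne_zero h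
    rw [← hmod x, ← hmod z]
    rcases T_cases hT with ⟨-, -, h1⟩ | ⟨-, -, h1⟩ | ⟨-, -, h1⟩
    · exact hI.dag _ _ h1
    · exact hI.dag _ _ h1.S
    · obtain ⟨v, -, f1, f2, -, -⟩ := Lv.of_Mg h1
      exact ⟨(hI.dag _ _ f1.S).1.trans (hI.dag _ _ f2.S).1, (hI.dag _ _ f2.S).2⟩
  · rw [← hmod x]
    apply hI.e_supp
    intro h0
    apply h
    simp only [Lv.step, Lv.eb, h0, zero_mul, zero_div, ite_self]
  · rw [← hmod x]
    apply hI.f_supp
    intro h0
    apply h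
    simp only [Lv.step, Lv.fb, h0, zero_mul, ite_self, zero_div]
  · rw [hvi]
    exact (hI.bot _ (by rw [hmod, h])).trans (Nat.le_add_right _ _)
  · rw [hvo]
    exact (hI.top _ (by rw [hmod, h])).trans (Nat.le_add_right _ _)
  · obtain ⟨hf, -, -⟩ := step_ne_zero h
    rw [hvo, hvi]
    exact congrArg Prod.snd hf.1
  · obtain ⟨⟨-, h2, h3, h4, h5, h6⟩, -, -⟩ := step_ne_zero h
    rw [hvo, hvi]
    simp only [View.upd]
    rw [h2, h3, h4, h5, h6]
    exact Iff.rfl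
  · by_cases h : (L.step hc hr).S x z = 0
    · rw [h, zero_mul]; exact zero_le_one
    obtain ⟨⟨-, -, h3, h4, -, -⟩, hT, hv⟩ := step_ne_zero h
    rw [hv, hvo, hvi, div_mul_eq_mul_div, div_le_one (by positivity)]
    simp only [View.upd]
    rw [h3, h4]
    have one : (1 : ℝ) ≤ 2 ^ (((dig (x / L.n)).1.2.1 : ℕ) + (dig (z / L.n)).1.1) :=
      one_le_pow₀ one_le_two
    rcases T_cases hT with ⟨h0, e, h1⟩ | ⟨h0, e, h1⟩ | ⟨h0, e, h1⟩
    · rw [e, h0]
      have hw := hI.wt _ _ h1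
      dsimp only at hw
      by_cases hp : (L.vo (x % L.n)).wt = false
      · have hs := ((hI.sy _ _ h1).1 hp).1
        dsimp only at hs
        rw [dl_busy hp, dl_busy (hw ▸ hp), ← hs, max_self]
        refine Nb_busy (u := (x % L.n, (dig (x / L.n)).1)) (hS _ _) hp ?_
        have := hI.val (x % L.n) (z % L.n)
        rwa [← hs, max_self] at this
      · rw [dl_wait (Or.inr hp), dl_wait (Or.inr (hw ▸ hp)), max_chunk, add_zero]
        exact ((mul_le_mul_of_nonneg_right (Nb_le_S (hS _ _)) (by positivity)).trans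
          (hI.val _ _)).trans one
    · rw [e, dl_wait (Or.inl h0), dl_wait (Or.inl h0), max_chunk, add_zero]
      refine ((mul_le_mul_of_nonneg_right ?_ (by positivity)).trans (hI.val _ _)).trans one
      exact (sub_le_self _ (Lv.Cm_nonneg hS _ _)).trans (Lv.Fb_le_S hS _ _)
    · rw [e, dl_wait (Or.inl h0), dl_wait (Or.inl h0), max_chunk, add_zero]
      exact Lv.Mg_val hI hL (x % L.n, (dig (x / L.n)).1) (z % L.n, (dig (z / L.n)).1) (hlt _)
        (hlt _)
  · obtain ⟨⟨-, -, -, -, h5, h6⟩, hT, -⟩ := step_ne_zero h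
    rw [hvo, hvi]
    simp only [View.upd]
    rw [h5, h6]
    rcases T_cases hT with ⟨h0, -, h1⟩ | ⟨h0, -, h1⟩ | ⟨h0, -, h1⟩
    · rw [h0, dm_zero, dm_zero, max_chunk]
      exact Nat.succ_le_succ (hI.lam_le _ _ h1)
    · rw [dm_ne h0, dm_ne h0, max_chunk]
      exact (hI.lam_le _ _ h1.S).trans (Nat.le_succ _)
    · obtain ⟨v, -, f1, f2, -, -⟩ := Lv.of_Mg h1
      have a1 := hI.lam_le _ _ f1.S
      have a2 := hI.lam_le _ _ f2.S
      rw [dm_ne h0, dm_ne h0, max_chunk]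
      dsimp only at a1 a2
      omega
  · obtain ⟨⟨-, -, h3, h4, h5, h6⟩, hT, -⟩ := step_ne_zero h
    simp only [hvo, hvi, View.upd]
    rw [h3, h4, h5, h6]
    generalize ((dig (x / L.n)).2.2.1.2.1 : ℕ) = i0
    generalize ((dig (z / L.n)).2.2.2.2.1 : ℕ) = i3
    rcases T_cases hT with ⟨h0, -, h1⟩ | ⟨h0, -, h1⟩ | ⟨h0, -, h1⟩
    · have hw := hI.wt _ _ h1
      have hs := hI.sy _ _ h1
      have he := hI.eb _ _ h1
      dsimp only at hw hs he
      rw [h0, dm_zero, dm_zero, max_chunk]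
      by_cases hp : (L.vo (x % L.n)).wt = false
      · obtain ⟨s1, s2⟩ := hs.1 hp
        rw [dl_busy hp, dl_busy (hw ▸ hp)]
        rw [← s1, ← s2] at he ⊢
        simp only [fut_self, max_self] at he ⊢
        rw [B_eq, C_eq] at he ⊢
        omega
      · rw [dl_wait (Or.inr hp), dl_wait (Or.inr (hw ▸ hp)), max_chunk]
        have m1 := fut_chunk_mono B (L.vo (x % L.n)).l (L.vi (z % L.n)).l 0
        have m2 := fut_chunk_mono C (L.vo (x % L.n)).lam (L.vi (z % L.n)).lam 1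
        have m3 := fut_chunk B (L.vo (x % L.n)).l (L.vi (z % L.n)).l 0
        have m4 := fut_chunk C (L.vo (x % L.n)).lam (L.vi (z % L.n)).lam 1
        rw [hs, not_and_or] at hp
        generalize fut B ((L.vo (x % L.n)).l + _) _ = f1 at *
        generalize fut C ((L.vo (x % L.n)).lam + _) _ = f2 at *
        generalize fut B (L.vo (x % L.n)).l _ = f3 at *
        generalize fut C (L.vo (x % L.n)).lam _ = f4 at *
        generalize max (L.vo (x % L.n)).l (L.vi (z % L.n)).l = ml at *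
        generalize max (L.vo (x % L.n)).lam (L.vi (z % L.n)).lam = mm at *
        rw [B_eq, C_eq] at *
        rcases hp with hp | hp
        · have := m3 hp
          omega
        · have := m4 hp
          omega
    · have hs := (hI.sy _ _ h1.S).1 h1.wt
      have he := hI.eb _ _ h1.S
      dsimp only at hs he
      obtain ⟨s1, s2⟩ := hs
      rw [dm_ne h0, dm_ne h0, dl_wait (Or.inl h0), dl_wait (Or.inl h0), max_chunk, max_chunk]
      rw [← s1, ← s2] at he ⊢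
      simp only [fut_self, max_self] at he ⊢
      rw [B_eq, C_eq] at he ⊢
      omega
    · obtain ⟨v, -, f1, f2, p1, p2⟩ := Lv.of_Mg h1
      obtain ⟨s1, s2⟩ := (hI.sy _ _ f1.S).1 f1.wt
      obtain ⟨s3, s4⟩ := (hI.sy _ _ f2.S).1 f2.wt
      have e1 := hI.eb _ _ f1.S
      have e2 := hI.eb _ _ f2.S
      unfold Lv.P1 at p1
      unfold Lv.P2 at p2
      dsimp only at s1 s2 s3 s4 e1 e2 p1 p2
      rw [← s1, ← s2] at e1
      rw [s3, s4] at e2
      rw [s4] at e1 p1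
      rw [← s2] at e2 p2
      simp only [fut_self, max_self, mul_zero, add_zero] at e1 e2
      have key := merge_arith p1 p2 e1 e2
      rw [dm_ne h0, dm_ne h0, dl_wait (Or.inl h0), dl_wait (Or.inl h0), max_chunk, max_chunk]
      have m1 := fut_chunk_le B (L.vo (x % L.n)).l (L.vi (z % L.n)).l 0
      have m2 := fut_chunk_le C (L.vo (x % L.n)).lam (L.vi (z % L.n)).lam 0
      generalize fut B ((L.vo (x % L.n)).l + _) _ = f1 at *
      generalize fut C ((L.vo (x % L.n)).lam + _) _ = f2 at *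
      generalize max (L.vo (x % L.n)).l (L.vi (z % L.n)).l = ml at *
      generalize max (L.vo (x % L.n)).lam (L.vi (z % L.n)).lam = mm at *
      generalize (L.vo (x % L.n)).l - (L.vi (z % L.n)).l +
        ((L.vi (z % L.n)).l - (L.vo (x % L.n)).l) = g1 at *
      generalize (L.vo (x % L.n)).lam - (L.vi (z % L.n)).lam +
        ((L.vi (z % L.n)).lam - (L.vo (x % L.n)).lam) = g2 at *
      rw [B_eq, C_eq] at *
      omega

theorem inv0 {N n0 : ℕ} (K : ℕ) {A0 : ℕ → ℕ → ℕ} (hA : F43.Sub (F43.mat N A0 2)) (hN : N ≤ 2 ^ n0)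
    (hc hr : ℕ → ℝ) : Inv N (2 ^ n0) K 0 (lv0 N n0 K A0 hc hr) := by
  have hp : 0 < 2 ^ n0 := Nat.two_pow_pos _
  have hS : ∀ x z, (lv0 N n0 K A0 hc hr).S x z ≠ 0 → x < z ∧ z < N := by
    intro x z h
    simp only [lv0] at h
    split_ifs at h with h1
    · refine ⟨?_, h1.2⟩
      by_contra h2
      exact h (hA.tri ⟨x, h1.1⟩ ⟨z, h1.2⟩ (Nat.le_of_not_lt h2))
    · exact absurd rfl h
  have hv : ∀ x z, (lv0 N n0 K A0 hc hr).S x z ≠ 0 →
      (lv0 N n0 K A0 hc hr).vo x = ⟨0, 0, false⟩ ∧ (lv0 N n0 K A0 hc hr).vi z = ⟨0, 0, false⟩ := by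
    intro x z h
    obtain ⟨h1, h2⟩ := hS x z h
    simp only [lv0]
    rw [Nat.mod_eq_of_lt (by omega), Nat.mod_eq_of_lt (by omega), if_neg (by omega),
      if_neg (by omega)]
    exact ⟨rfl, rfl⟩
  refine ⟨hp, dvd_rfl, fun x z => ?_, fun x => ?_, fun x => ?_, fun x z h => ?_, fun x h => ?_,
    fun x h => ?_, fun x h => ?_, fun x h => ?_, fun x z h => rfl, fun x z h => ?_,
    fun x z => ?_, fun x z h => ?_, fun x z h => ?_⟩
  · simp only [lv0]; split_ifs <;> positivity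
  · simp only [lv0]; split_ifs <;> norm_num
  · simp only [lv0]; split_ifs <;> norm_num
  · obtain ⟨h1, h2⟩ := hS x z h
    rw [Nat.mod_eq_of_lt (by omega), Nat.mod_eq_of_lt (by omega)]
    exact ⟨h1, h2⟩
  · simp only [lv0] at h
    split_ifs at h with h1
    · rw [h1, Nat.zero_mod]
    · exact absurd rfl h
  · simp only [lv0] at h
    split_ifs at h with h1
    · rw [h1, Nat.mod_eq_of_lt (by omega)]
    · exact absurd rfl h
  · simp only [lv0, if_pos h, le_refl]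
  · simp only [lv0, if_pos h, le_refl]
  · rw [(hv x z h).1, (hv x z h).2]; simp
  · simp only [lv0, max_self, pow_zero, mul_one]
    split_ifs with h1
    · exact (single_le_sum (fun v _ => hA.nonneg ⟨x, h1.1⟩ v) (mem_univ (⟨z, h1.2⟩ : Fin N))).trans
        (hA.row ⟨x, h1.1⟩)
    · exact zero_le_one
  · rw [(hv x z h).1, (hv x z h).2]; simp
  · rw [(hv x z h).1, (hv x z h).2]; simp [fut]

/-- The invariants hold at all levels. -/
theorem inv_lv {N n0 : ℕ} (K : ℕ) {A0 : ℕ → ℕ → ℕ} (hA : F43.Sub (F43.mat N A0 2))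
    (hN : N ≤ 2 ^ n0) (hc hr : ℕ → ℕ → ℝ) :
    ∀ k, (∀ i < k, (lv N n0 K A0 hc hr i).Low) → Inv N (2 ^ n0) K k (lv N n0 K A0 hc hr k)
  | 0, _ => inv0 K hA hN _ _
  | k + 1, h => (inv_lv K hA hN hc hr k fun i hi => h i (by omega)).step (h k (by omega)) _ _

end Vale.Agent.P313.Hi
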