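import Vale.Agent.P313.Full.HiPot
import Vale.Agent.P313.Full.HiEnd

/-! The ideal hierarchy of chains: after a logarithmic number of stages almost all the mass is on
direct edges. -/

namespace Vale.Agent.P313.Hi

open Finset

/-- What the hierarchy needs from the statistics, with a constant factor in the upper bounds. -/
structure StatK (κ : ℝ) (L : ℕ → Lv) (k : ℕ) : Prop where
  low : (L k).Low
  hc : ∀ z < (L k).n, (L k).hc z ≤ κ * upC L k z
  hr : ∀ x < (L k).n, (L k).hr x ≤ κ * upR L k x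

theorem Stat.statK {L : ℕ → Lv} {k : ℕ} (h : Stat L k) : StatK 1 L k :=
  ⟨h.low, fun z hz => by rw [one_mul]; exact h.hc z hz,
    fun z hz => by rw [one_mul]; exact h.hr z hz⟩

theorem card_ED_le : (Fintype.card ED : ℝ) ≤ 2 ^ 41 := by
  have h : Fintype.card ED ≤ 2 ^ 41 := by
    simp only [Fintype.card_prod, Fintype.card_fin, Fintype.card_bool]
    rw [B_eq, C_eq]
    norm_num
  exact_mod_cast h

theorem sum_parent {n : ℕ} (hn : 0 < n) (F : ℕ → ℝ) :
    ∑ x ∈ range (n * 2 ^ a), F (x % n) / rho = (∑ x ∈ range n, F x) / 2 := by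
  rw [sum_range_mul_eq hn (2 ^ a) fun x _ => F x / rho, sum_div]
  refine sum_congr rfl fun x _ => ?_
  rw [sum_const, card_range, nsmul_eq_mul, rho, pow_succ]
  push_cast
  field_simp

theorem Flow.sum_col {L : Lv} {N M K k : ℕ} {m y : ℕ → ℝ} (h : Inv N M K k L) (hF : Flow L m y) :
    ∑ z ∈ range L.n, y z * L.col z ≤ ∑ x ∈ range L.n, y x := by
  simp only [Lv.col, mul_sum]
  rw [sum_comm]
  refine sum_le_sum fun x hx => ?_
  rw [hF.y_eq x (mem_range.1 hx)]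
  exact le_add_of_nonneg_of_le (h.f_nonneg x) (le_of_eq (sum_congr rfl fun z _ => mul_comm _ _))

theorem Flow.sum_row {L : Lv} {N M K k : ℕ} {m y : ℕ → ℝ} (h : Inv N M K k L) (hF : Flow L m y) :
    ∑ x ∈ range L.n, m x * L.row x ≤ ∑ z ∈ range L.n, m z := by
  simp only [Lv.row, mul_sum]
  rw [sum_comm]
  refine sum_le_sum fun z hz => ?_
  rw [hF.m_eq z (mem_range.1 hz)]
  exact le_add_of_nonneg_left (h.e_nonneg z)

theorem upC_nonneg {L : ℕ → Lv} : ∀ k, (∀ i ≤ k, ∀ x z, 0 ≤ (L i).S x z) → ∀ z, 0 ≤ upC L k z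
  | 0, h, z => by
    rw [upC]
    exact sum_nonneg fun x _ => h 0 le_rfl x z
  | k + 1, h, z => add_nonneg (sum_nonneg fun x _ => h _ le_rfl x z)
      (div_nonneg (upC_nonneg k (fun i hi => h i (by omega)) _) (by unfold rho; positivity))

theorem upR_nonneg {L : ℕ → Lv} : ∀ k, (∀ i ≤ k, ∀ x z, 0 ≤ (L i).S x z) → ∀ x, 0 ≤ upR L k x
  | 0, h, x => by
    rw [upR]
    exact sum_nonneg fun z _ => h 0 le_rfl x z
  | k + 1, h, x => add_nonneg (sum_nonneg fun z _ => h _ le_rfl x z)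
      (div_nonneg (upR_nonneg k (fun i hi => h i (by omega)) _) (by unfold rho; positivity))

theorem Lv.Low.hc_nonneg {L : Lv} (h : L.Low) (hS : ∀ x z, 0 ≤ L.S x z) {z : ℕ} (hz : z < L.n) :
    0 ≤ L.hc z := by
  have h1 := (sum_nonneg fun x _ => hS x z).trans (h.hc z hz)
  linarith

theorem Lv.Low.hr_nonneg {L : Lv} (h : L.Low) (hS : ∀ x z, 0 ≤ L.S x z) {x : ℕ} (hx : x < L.n) :
    0 ≤ L.hr x := by
  have h1 := (sum_nonneg fun z _ => hS x z).trans (h.hr x hx)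
  linarith

/-- The quantities that are followed through the levels. -/
structure Good (L : ℕ → Lv) (N n0 k : ℕ) (v : ℝ) (m y : ℕ → ℝ) : Prop where
  flow : Flow (L k) m y
  val : (L k).val y = v
  pot : (L k).pot N (2 ^ n0) m y ≤ (55 / 64) ^ k * 2 ^ n0
  sy : ∑ x ∈ range (L k).n, y x ≤ 2 ^ n0 * (2 ^ 147) ^ k
  sm : ∑ x ∈ range (L k).n, m x ≤ 2 ^ n0 * (2 ^ 147) ^ k
  wc : ∑ x ∈ range (L k).n, y x * upC L k x ≤ 2 * (2 ^ n0 * (2 ^ 147) ^ k)
  wr : ∑ x ∈ range (L k).n, m x * upR L k x ≤ 2 * (2 ^ n0 * (2 ^ 147) ^ k)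

theorem growth {n : ℕ} {κ P c : ℝ} {y h u : ℕ → ℝ} (hκ : κ ≤ 2 ^ 100) (hc0 : 0 ≤ c)
    (hc : c ≤ 2 ^ 42) (hy : ∀ x, 0 ≤ y x) (hu : ∀ x, 0 ≤ u x) (hh : ∀ x < n, h x ≤ κ * u x)
    (h1 : ∑ x ∈ range n, y x ≤ P) (h2 : ∑ x ∈ range n, y x * u x ≤ 2 * P) :
    c * ∑ x ∈ range n, y x * (3 + 8 * h x) ≤ P * 2 ^ 147 := by
  have hP : 0 ≤ P := (sum_nonneg fun x _ => hy x).trans h1
  have h3 : ∑ x ∈ range n, y x * (3 + 8 * h x) ≤
      3 * ∑ x ∈ range n, y x + 8 * 2 ^ 100 * ∑ x ∈ range n, y x * u x := by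
    rw [mul_sum, mul_sum, ← sum_add_distrib]
    refine sum_le_sum fun x hx => ?_
    have h4 := mul_le_mul_of_nonneg_left
      ((hh x (mem_range.1 hx)).trans (mul_le_mul_of_nonneg_right hκ (hu x))) (hy x)
    linarith
  have h5 : ∑ x ∈ range n, y x * (3 + 8 * h x) ≤ P * 2 ^ 105 := by linarith
  calc c * ∑ x ∈ range n, y x * (3 + 8 * h x) ≤ c * (P * 2 ^ 105) :=
        mul_le_mul_of_nonneg_left h5 hc0
    _ ≤ 2 ^ 42 * (P * 2 ^ 105) := mul_le_mul_of_nonneg_right hc (by positivity)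
    _ = P * 2 ^ 147 := by ring

section

variable {N n0 K : ℕ} {A0 : ℕ → ℕ → ℕ} {hc hr : ℕ → ℕ → ℝ} {κ : ℝ}

theorem exists_good (hA : F43.Sub (F43.mat N A0 2)) (h2 : 2 ≤ N) (hN : N ≤ 2 ^ n0)
    (hκ : κ ≤ 2 ^ 100) : ∀ k ≤ K, (∀ i < k, StatK κ (lv N n0 K A0 hc hr) i) →
    ∃ m y, Good (lv N n0 K A0 hc hr) N n0 k
      (F43.gr (F43.mat N A0 2) ⟨0, by omega⟩ ⟨N - 1, by omega⟩) m y
  | 0, _, _ => by
    obtain ⟨m, y, hF, hv, hm, hy⟩ := flow0 K hA h2 hN (hc 0) (hr 0)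
    have hI := inv0 K hA hN (hc 0) (hr 0)
    have h1 : ∀ F : ℕ → ℝ, (∀ x, F x ≤ 1) → ∑ x ∈ range (2 ^ n0), F x ≤ 2 ^ n0 := fun F hF => by
      have := sum_le_card_nsmul (range (2 ^ n0)) F 1 fun x _ => hF x
      simpa using this
    have h3 : (0 : ℝ) < 2 ^ n0 := by positivity
    refine ⟨m, y, hF, hv, ?_, ?_, ?_, ?_, ?_⟩
    · rw [pow_zero, one_mul]
      exact h1 _ fun x => mul_le_one₀ (Lv.wgt_le_one x) (mul_nonneg (hF.m_nonneg x) (hF.y_nonneg x))
        (mul_le_one₀ (hm x) (hF.y_nonneg x) (hy x))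
    · rw [pow_zero, mul_one]
      exact h1 y hy
    · rw [pow_zero, mul_one]
      exact h1 m hm
    · rw [pow_zero, mul_one]
      exact ((hF.sum_col hI).trans (h1 y hy)).trans (by linarith)
    · rw [pow_zero, mul_one]
      exact ((hF.sum_row hI).trans (h1 m hm)).trans (by linarith)
  | k + 1, hk, hs => by
    obtain ⟨m, y, hG⟩ := exists_good hA h2 hN hκ k (by omega) fun i hi => hs i (by omega)
    have hI : ∀ i ≤ k + 1, Inv N (2 ^ n0) K i (lv N n0 K A0 hc hr i) := fun i hi =>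
      inv_lv K hA hN hc hr i fun j hj => (hs j (by omega)).low
    have hI0 := hI k (by omega)
    have hI1 := hI (k + 1) le_rfl
    have hst := hs k (by omega)
    have hF := hG.flow
    obtain ⟨m', hm⟩ := Lv.exists_Merge hI0 hF
    have hF1 := Lv.flow_step hI0 hF hm (hc (k + 1)) (hr (k + 1))
    have hC := upC_nonneg (L := lv N n0 K A0 hc hr) k fun i hi => (hI i (by omega)).S_nonneg
    have hR := upR_nonneg (L := lv N n0 K A0 hc hr) k fun i hi => (hI i (by omega)).S_nonneg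
    have hE := card_ED_le
    have hE0 : (0 : ℝ) ≤ Fintype.card ED := Nat.cast_nonneg _
    have hsy := (Lv.sum_upO_le hI0 hF fun x hx => hst.low.hc_nonneg hI0.S_nonneg hx).trans
      (growth hκ hE0 (by linarith) hF.y_nonneg hC hst.hc hG.sy hG.wc)
    have hsm := (Lv.sum_upI_le hI0 hF hm fun x hx => hst.low.hr_nonneg hI0.S_nonneg hx).trans
      (growth hκ (by linarith) (by linarith) hF.m_nonneg hR hst.hr hG.sm hG.wr)
    have hP : (0 : ℝ) ≤ 2 ^ n0 * (2 ^ 147) ^ k := by positivity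
    have hr0 : 0 ≤ rho := by unfold rho; positivity
    refine ⟨_, _, hF1, (Lv.val_step hI0 hF _ _).trans hG.val, ?_, ?_, ?_, ?_, ?_⟩
    · refine (Lv.pot_step hI0 (by omega) hF hm _ _).trans ?_
      rw [pow_succ _ k]
      linarith [hG.pot]
    · rw [pow_succ _ k, ← mul_assoc]
      exact hsy
    · rw [pow_succ _ k, ← mul_assoc]
      exact hsm
    · simp only [upC, mul_add, sum_add_distrib]
      have h3 := (hF1.sum_col hI1).trans hsy
      have h4 := (sum_le_sum (s := range ((lv N n0 K A0 hc hr k).n * 2 ^ a)) fun x _ =>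
        div_le_div_of_nonneg_right (mul_le_mul_of_nonneg_right (Lv.upO_yO_le hI0 hF x)
          (hC (x % (lv N n0 K A0 hc hr k).n))) hr0).trans_eq
        (sum_parent hI0.n_pos fun x => y x * upC (lv N n0 K A0 hc hr) k x)
      simp only [mul_div_assoc] at h4
      refine (add_le_add h3 h4).trans ?_
      rw [pow_succ _ k, ← mul_assoc (2 ^ n0 : ℝ)]
      have h5 := hG.wc
      generalize (2 : ℝ) ^ n0 * (2 ^ 147) ^ k = P at h5 hP ⊢
      linarith
    · simp only [upR, mul_add, sum_add_distrib]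
      have h3 := (hF1.sum_row hI1).trans hsm
      have h4 := (sum_le_sum (s := range ((lv N n0 K A0 hc hr k).n * 2 ^ a)) fun x _ =>
        div_le_div_of_nonneg_right (mul_le_mul_of_nonneg_right (Lv.upI_mI_le hI0 hF hm x)
          (hR (x % (lv N n0 K A0 hc hr k).n))) hr0).trans_eq
        (sum_parent hI0.n_pos fun x => m x * upR (lv N n0 K A0 hc hr) k x)
      simp only [mul_div_assoc] at h4
      refine (add_le_add h3 h4).trans ?_
      rw [pow_succ _ k, ← mul_assoc (2 ^ n0 : ℝ)]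
      have h5 := hG.wr
      generalize (2 : ℝ) ^ n0 * (2 ^ 147) ^ k = P at h5 hP ⊢
      linarith

/-- Main theorem of the hierarchy: the mass of the direct edges at the last level approximates
the acceptance probability from below. -/
theorem gr_sub_dir (hA : F43.Sub (F43.mat N A0 2)) (h2 : 2 ≤ N) (hN : N ≤ 2 ^ n0)
    (hκ : κ ≤ 2 ^ 100) (hK : 6 * n0 + 70 ≤ K) (hs : ∀ i < K, StatK κ (lv N n0 K A0 hc hr) i) :
    0 ≤ F43.gr (F43.mat N A0 2) ⟨0, by omega⟩ ⟨N - 1, by omega⟩ - (lv N n0 K A0 hc hr K).dir ∧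
    F43.gr (F43.mat N A0 2) ⟨0, by omega⟩ ⟨N - 1, by omega⟩ - (lv N n0 K A0 hc hr K).dir ≤
      1 / 128 := by
  obtain ⟨m, y, hG⟩ := exists_good hA h2 hN hκ K le_rfl hs
  have hI := inv_lv K hA hN hc hr K fun j hj => (hs j hj).low
  have h := hG.flow.val_sub_dir hI h2 (K / 64 + 1) (294 * K + 2 * n0 + 9) (by
    rw [B_eq, C_eq]
    omega)
  rw [hG.val] at h
  refine ⟨h.1, h.2.trans ?_⟩
  have h3 : (55 / 64 : ℝ) ^ K ≤ (1 / 2) ^ (K / 5) := by
    calc (55 / 64 : ℝ) ^ K ≤ (55 / 64) ^ (5 * (K / 5)) :=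
          pow_le_pow_of_le_one (by norm_num) (by norm_num) (by omega)
      _ = ((55 / 64) ^ 5) ^ (K / 5) := pow_mul _ _ _
      _ ≤ (1 / 2) ^ (K / 5) := pow_le_pow_left₀ (by norm_num) (by norm_num) _
  have h4 : (1 / 2 : ℝ) ^ (K / 5) ≤ (1 / 2) ^ (2 * (K / 64 + 1) + n0 + 8) :=
    pow_le_pow_of_le_one (by norm_num) (by norm_num) (by omega)
  have h5 : (4 : ℝ) ^ (K / 64 + 1) * (lv N n0 K A0 hc hr K).pot N (2 ^ n0) m y ≤ 1 / 256 := by
    refine (mul_le_mul_of_nonneg_left (hG.pot.trans (mul_le_mul_of_nonneg_right (h3.trans h4)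
      (by positivity))) (by positivity)).trans (le_of_eq ?_)
    rw [show (4 : ℝ) = 2 ^ 2 by norm_num, ← pow_mul, pow_add, pow_add]
    simp only [one_div, inv_pow]
    field_simp
    norm_num
  have h6 : (∑ x ∈ range (lv N n0 K A0 hc hr K).n, m x) * ∑ x ∈ range (lv N n0 K A0 hc hr K).n, y x ≤
      (2 ^ n0 * (2 ^ 147) ^ K) * (2 ^ n0 * (2 ^ 147) ^ K) :=
    mul_le_mul hG.sm hG.sy (sum_nonneg fun x _ => hG.flow.y_nonneg x) (by positivity)
  have h7 : 2 * (1 / 2 : ℝ) ^ (294 * K + 2 * n0 + 9) *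
      ((2 ^ n0 * (2 ^ 147) ^ K) * (2 ^ n0 * (2 ^ 147) ^ K)) = 1 / 256 := by
    rw [← pow_mul, show 294 * K + 2 * n0 + 9 = n0 + 147 * K + (n0 + 147 * K) + 9 by ring]
    simp only [pow_add, one_div, inv_pow]
    field_simp
    norm_num
  have h8 := mul_le_mul_of_nonneg_left h6
    (show 0 ≤ 2 * (1 / 2 : ℝ) ^ (294 * K + 2 * n0 + 9) by positivity)
  linarith

theorem lv_n_pow (k : ℕ) : (lv N n0 K A0 hc hr k).n = 2 ^ (n0 + a * k) := by
  induction k with
  | zero => rfl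
  | succ k ih =>
    change (lv N n0 K A0 hc hr k).n * 2 ^ a = _
    rw [ih, ← pow_add, Nat.mul_succ, add_assoc]

/-- The direct mass is the sum of the masses created in the stages. -/
theorem dir_eq (k : ℕ) : (lv N n0 K A0 hc hr k).dir =
    (lv N n0 K A0 hc hr 0).dir + ∑ i ∈ range k, (lv N n0 K A0 hc hr i).ans := by
  induction k with
  | zero => simp
  | succ k ih =>
    rw [sum_range_succ, ← add_assoc, ← ih]
    exact Lv.dir_step (by rw [lv_n_pow]; positivity) _ _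

theorem dir_zero (h2 : 2 ≤ N) (hN : N ≤ 2 ^ n0) :
    (lv N n0 K A0 hc hr 0).dir = (A0 0 (N - 1) : ℝ) / 2 := by
  have h1 : N - 1 < 2 ^ n0 := by omega
  have h3 : 0 < N := by omega
  have h4 : N - 1 < N := by omega
  simp only [lv, lv0, Lv.dir]
  rw [sum_eq_single 0, sum_eq_single (N - 1)] <;> simp +contextual [h1, h3, h4]

end

end Vale.Agent.P313.Hi
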