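import Vale.Agent.P313.Full.HiFlow

/-! The ideal hierarchy of chains: closed forms for merged entries and for the answer. -/

namespace Vale.Agent.P313.Hi

open Finset

theorem sum_chi_lt (t : ℝ) : ∑ g : Fin (B + 1), (if (g : ℕ) < B then chi g t else 0) = 1 - chi B t := by
  rw [← sum_chi t, Fin.sum_univ_castSucc, Fin.sum_univ_castSucc]
  simp

theorem one_sub_chi_nonneg (t : ℝ) : 0 ≤ 1 - chi B t := sub_nonneg.2 (chi_le_one _ _)

theorem one_sub_chi_le_one (t : ℝ) : 1 - chi B t ≤ 1 := by linarith [chi_nonneg B t]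

theorem lt_of_one_sub_chi {t : ℝ} (h : 1 - chi B t ≠ 0) : t < 2 ^ B := by
  by_contra hc
  apply h
  rw [chi, R_eq_one le_rfl (not_lt.1 hc), R_big (Nat.lt_succ_self B), sub_zero, sub_self]

namespace Lv

variable (L : Lv)

/-- The ready part of an entry. -/
noncomputable def om (x z : ℕ) : ℝ := L.S x z * L.rdy x z

/-- The part of a midpoint which is not saturated. -/
noncomputable def mid (m : ℕ) : ℝ := (1 - chi B (L.hc m)) * (1 - chi B (L.hr m))

open Classical in
/-- The factor of the source class of a free entry. -/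
noncomputable def fo (u : ℕ × G) : ℝ := if (u.2.2.1 : ℕ) < B then L.out u else 0

open Classical in
/-- The factor of the target class of a free entry. -/
noncomputable def fi (w : ℕ × G) : ℝ := if (w.2.1 : ℕ) < B then L.inn w else 0

open Classical in
theorem Fb_eq (u w : ℕ × G) : L.Fb u w =
    if u.2.2.2 = decide (L.P2 u.1 w.1) then L.fo u * L.om u.1 w.1 * L.fi w else 0 := by
  simp only [Fb, fo, fi, om, fr, ite_and]
  split_ifs <;> ring

theorem sum_fi_fo (m : ℕ) (b b' : Bool) :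
    ∑ i : Fin (B + 1), ∑ o : Fin (B + 1), L.fi (m, i, o, b) * L.fo (m, i, o, b') = L.mid m := by
  have h : ∀ i o : Fin (B + 1), L.fi (m, i, o, b) * L.fo (m, i, o, b') =
      (if (i : ℕ) < B then chi i (L.hc m) else 0) * if (o : ℕ) < B then chi o (L.hr m) else 0 := by
    intro i o
    simp only [fi, fo, inn, out]
    split_ifs
    · rw [← chi_mul_zeta i, ← chi_mul_zeta o]
      by_cases h1 : chi i (L.hc m) = 0
      · simp [h1]
      by_cases h2 : chi o (L.hr m) = 0
      · simp [h2]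
      rw [zeta_of_chi h1, zeta_of_chi h2]
      ring
    all_goals simp
  simp only [h, ← mul_sum, ← sum_mul, sum_chi_lt, mid]

open Classical in
/-- Merged entries as sums over midpoints. -/
theorem Mg_eq (u w : ℕ × G) : L.Mg u w = ∑ m ∈ range L.n,
    if L.P1 u.1 m ∧ u.2.2.2 = decide (L.P2 u.1 m) ∧ L.P2 m w.1 then
      L.fo u * L.fi w * (L.om u.1 m * L.mid m * L.om m w.1) / 4 else 0 := by
  rw [Mg, sum_cls]
  refine sum_congr rfl fun m _ => ?_
  have h : ∀ i o : Fin (B + 1), L.Cm u (m, i, o, true) * L.Fb (m, i, o, true) w +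
      L.Cm u (m, i, o, false) * L.Fb (m, i, o, false) w =
      (if L.P1 u.1 m ∧ u.2.2.2 = decide (L.P2 u.1 m) ∧ L.P2 m w.1 then
        L.fo u * L.fi w * (L.om u.1 m * L.om m w.1) / 4 else 0) *
        (L.fi (m, i, o, true) * L.fo (m, i, o, true)) := by
    intro i o
    simp only [Cm, Fb_eq]
    by_cases h1 : L.P1 u.1 m <;> by_cases h2 : u.2.2.2 = decide (L.P2 u.1 m) <;>
      by_cases h3 : L.P2 m w.1 <;> simp [h1, h2, h3]
    ring
  simp only [h, ← mul_sum, sum_fi_fo]
  split_ifs <;> ring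

theorem sum_inn_fo (x : ℕ) (b b' : Bool) :
    ∑ i : Fin (B + 1), ∑ o : Fin (B + 1), L.inn (x, i, o, b) * L.fo (x, i, o, b') =
      1 - chi B (L.hr x) := by
  have h : ∀ i o : Fin (B + 1), L.inn (x, i, o, b) * L.fo (x, i, o, b') =
      chi i (L.hc x) * if (o : ℕ) < B then chi o (L.hr x) else 0 := by
    intro i o
    simp only [fo, inn, out]
    split_ifs
    · rw [← chi_mul_zeta i, ← chi_mul_zeta o]
      by_cases h1 : chi i (L.hc x) = 0
      · simp [h1]
      by_cases h2 : chi o (L.hr x) = 0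
      · simp [h2]
      rw [zeta_of_chi h1, zeta_of_chi h2]
      ring
    · simp
  simp only [h, ← mul_sum, ← sum_mul, sum_chi_lt, sum_chi, one_mul]

theorem sum_fi_out (z : ℕ) (b b' : Bool) :
    ∑ i : Fin (B + 1), ∑ o : Fin (B + 1), L.fi (z, i, o, b) * L.out (z, i, o, b') =
      1 - chi B (L.hc z) := by
  have h : ∀ i o : Fin (B + 1), L.fi (z, i, o, b) * L.out (z, i, o, b') =
      (if (i : ℕ) < B then chi i (L.hc z) else 0) * chi o (L.hr z) := by
    intro i o
    simp only [fi, inn, out]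
    split_ifs
    · rw [← chi_mul_zeta i, ← chi_mul_zeta o]
      by_cases h1 : chi i (L.hc z) = 0
      · simp [h1]
      by_cases h2 : chi o (L.hr z) = 0
      · simp [h2]
      rw [zeta_of_chi h1, zeta_of_chi h2]
      ring
    · simp
  simp only [h, ← mul_sum, sum_chi, mul_one, sum_chi_lt]

open Classical in
/-- The mass of the direct edges created in a stage as a sum over three names. -/
theorem ans_eq : L.ans = ∑ x ∈ range L.n, ∑ z ∈ range L.n, ∑ m ∈ range L.n,
    if L.P1 x m ∧ L.P2 m z then L.e x * (1 - chi B (L.hr x)) *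
      (L.om x m * L.mid m * L.om m z) * ((1 - chi B (L.hc z)) * L.f z) / 4 else 0 := by
  have h1 : ∀ (u : ℕ × G) (z : ℕ), ∑ i : Fin (B + 1), ∑ o : Fin (B + 1),
      (L.eb u * L.Mg u (z, i, o, true) * L.fb (z, i, o, true) +
        L.eb u * L.Mg u (z, i, o, false) * L.fb (z, i, o, false)) =
      ∑ m ∈ range L.n, (if L.P1 u.1 m ∧ L.P2 m z then L.e u.1 *
        (L.om u.1 m * L.mid m * L.om m z) * ((1 - chi B (L.hc z)) * L.f z) / 4 else 0) *
        if u.2.2.2 = decide (L.P2 u.1 m) then L.inn u * L.fo u else 0 := by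
    intro u z
    have h : ∀ i o : Fin (B + 1), L.eb u * L.Mg u (z, i, o, true) * L.fb (z, i, o, true) +
        L.eb u * L.Mg u (z, i, o, false) * L.fb (z, i, o, false) =
        (∑ m ∈ range L.n, (if L.P1 u.1 m ∧ L.P2 m z then L.e u.1 *
          (L.om u.1 m * L.mid m * L.om m z) * L.f z / 4 else 0) *
          if u.2.2.2 = decide (L.P2 u.1 m) then L.inn u * L.fo u else 0) *
          (L.fi (z, i, o, false) * L.out (z, i, o, false)) := by
      intro i o
      rw [L.fb_true rfl, mul_zero, zero_add, Mg_eq, fb, if_pos rfl, eb]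
      simp only [mul_sum, sum_mul]
      refine sum_congr rfl fun m _ => ?_
      by_cases h1 : L.P1 u.1 m <;> by_cases h2 : u.2.2.2 = decide (L.P2 u.1 m) <;>
        by_cases h3 : L.P2 m z <;> simp only [h1, h3, and_true, and_false, true_and, false_and,
          if_false, if_pos, mul_zero, zero_mul] <;>
        first | (rw [if_pos h2, if_pos h2]; ring) | (rw [if_neg h2, if_neg h2]; ring)
    simp only [h, ← mul_sum, sum_fi_out]
    rw [sum_mul]
    refine sum_congr rfl fun m _ => ?_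
    split_ifs <;> ring
  rw [ans]
  simp only [sum_cls (L := L) fun w => L.eb _ * L.Mg _ w * L.fb w, h1]
  rw [sum_cls]
  refine sum_congr rfl fun x _ => ?_
  simp only [← sum_add_distrib, ← mul_add]
  have h2 : ∀ (i o : Fin (B + 1)) (m : ℕ),
      ((if true = decide (L.P2 x m) then L.inn (x, i, o, true) * L.fo (x, i, o, true) else 0) +
        if false = decide (L.P2 x m) then L.inn (x, i, o, false) * L.fo (x, i, o, false) else 0) =
      L.inn (x, i, o, true) * L.fo (x, i, o, true) := by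
    intro i o m
    have h3 : L.inn (x, i, o, false) * L.fo (x, i, o, false) =
      L.inn (x, i, o, true) * L.fo (x, i, o, true) := rfl
    by_cases h : L.P2 x m <;> simp [h, h3]
  simp only [h2, ← sum_mul, ← mul_sum, sum_inn_fo]
  rw [sum_mul]
  refine sum_congr rfl fun z _ => ?_
  rw [sum_mul]
  refine sum_congr rfl fun m _ => ?_
  split_ifs <;> ring

theorem om_nonneg (hS : ∀ x z, 0 ≤ L.S x z) (x z : ℕ) : 0 ≤ L.om x z :=
  mul_nonneg (hS x z) (L.rdy_nonneg x z)

theorem om_le (hS : ∀ x z, 0 ≤ L.S x z) (x z : ℕ) : L.om x z ≤ L.S x z :=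
  mul_le_of_le_one_right (hS x z) (L.rdy_le_one x z)

theorem mid_nonneg (m : ℕ) : 0 ≤ L.mid m := mul_nonneg (one_sub_chi_nonneg _) (one_sub_chi_nonneg _)

theorem mid_le_one (m : ℕ) : L.mid m ≤ 1 :=
  mul_le_one₀ (one_sub_chi_le_one _) (one_sub_chi_nonneg _) (one_sub_chi_le_one _)

theorem of_mid {m : ℕ} (h : L.mid m ≠ 0) : L.hc m < 2 ^ B ∧ L.hr m < 2 ^ B :=
  ⟨lt_of_one_sub_chi (left_ne_zero_of_mul h), lt_of_one_sub_chi (right_ne_zero_of_mul h)⟩

theorem fo_nonneg (u : ℕ × G) : 0 ≤ L.fo u := by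
  unfold fo
  split_ifs
  exacts [L.out_nonneg u, le_rfl]

theorem fo_le_one (u : ℕ × G) : L.fo u ≤ 1 := by
  unfold fo
  split_ifs
  exacts [L.out_le_one u, zero_le_one]

theorem fi_nonneg (u : ℕ × G) : 0 ≤ L.fi u := by
  unfold fi
  split_ifs
  exacts [L.inn_nonneg u, le_rfl]

theorem fi_le_one (u : ℕ × G) : L.fi u ≤ 1 := by
  unfold fi
  split_ifs
  exacts [L.inn_le_one u, zero_le_one]

theorem of_fo {u : ℕ × G} (h : L.fo u ≠ 0) :
    (u.2.2.1 : ℕ) < B ∧ L.hr u.1 < 2 ^ ((u.2.2.1 : ℕ) + 1) := by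
  unfold fo at h
  split_ifs at h with h1
  · exact ⟨h1, lt_of_chi (right_ne_zero_of_mul h) h1⟩
  · exact absurd rfl h

theorem of_fi {u : ℕ × G} (h : L.fi u ≠ 0) :
    (u.2.1 : ℕ) < B ∧ L.hc u.1 < 2 ^ ((u.2.1 : ℕ) + 1) := by
  unfold fi at h
  split_ifs at h with h1
  · exact ⟨h1, lt_of_chi (left_ne_zero_of_mul h) h1⟩
  · exact absurd rfl h

theorem of_om {x z : ℕ} (h : L.om x z ≠ 0) :
    (L.vo x).wt = false ∧ 1 < L.S x z * 2 ^ (L.vo x).l * 2 ^ (B + 1) := by
  have h1 := right_ne_zero_of_mul h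
  unfold rdy at h1
  split_ifs at h1 with h2
  · refine ⟨h2, ?_⟩
    by_contra hc
    exact h1 (cl_of_le (by linarith))
  · exact absurd rfl h1

/-- A nonzero summand of a merged entry consists of two usable entries. -/
theorem use_of_term {u w : ℕ × G} {m : ℕ}
    (h : L.fo u * L.fi w * (L.om u.1 m * L.mid m * L.om m w.1) ≠ 0) :
    L.use u.1 m ∧ L.use m w.1 := by
  simp only [ne_eq, mul_eq_zero, not_or] at h
  obtain ⟨⟨h1, h2⟩, ⟨h3, h4⟩, h5⟩ := h
  have h6 := L.of_fo h1
  have h7 := L.of_fi h2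
  have h8 := L.of_mid h4
  exact ⟨⟨right_ne_zero_of_mul h3, h6.2.trans_le (pow_le_pow_right₀ one_le_two h6.1), h8.1⟩,
    right_ne_zero_of_mul h5, h8.2, h7.2.trans_le (pow_le_pow_right₀ one_le_two h7.1)⟩

end Lv

end Vale.Agent.P313.Hi
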