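import Vale.Agent.P313.Full.RecWP
import Mathlib.Algebra.Order.Round
import Mathlib.Algebra.Order.Archimedean.Real.Basic

/-!
Integers and rational numbers in the space bounded layer: `ZSP` for integer valued functions, `RSP`
for real valued functions with rational values.
-/

namespace Vale.Agent.P313.Full

open Function Finset Vale.Agent.Lib.Space

/-- The code of an integer. -/
def enZ (z : ℤ) : ℕ := 2 * z.toNat + (2 * (-z).toNat - 1)

/-- The integer with a given code. -/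
def deZ (n : ℕ) : ℤ := if n % 2 = 0 then ((n / 2 : ℕ) : ℤ) else -(((n + 1) / 2 : ℕ) : ℤ)

@[simp] theorem deZ_enZ (z : ℤ) : deZ (enZ z) = z := by
  unfold deZ enZ
  split_ifs <;> omega

@[simp] theorem enZ_zero : enZ 0 = 0 := rfl

@[simp] theorem deZ_zero : deZ 0 = 0 := rfl

theorem enZ_le (z : ℤ) : enZ z ≤ 2 * z.natAbs := by
  unfold enZ
  omega

theorem enZ_le_of_abs {z : ℤ} {M : ℕ} (h : |z| ≤ M) : enZ z ≤ 2 * M := by
  have := enZ_le z
  have h2 : z.natAbs ≤ M := by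
    rw [Int.abs_eq_natAbs] at h
    exact_mod_cast h
  omega

theorem abs_deZ_le (n : ℕ) : |deZ n| ≤ n := by
  unfold deZ
  split_ifs <;> rw [abs_le] <;> omega

variable {A α β : Type} [Enc A α] [Enc A β] {B : Bud A}

/-- Integer valued functions computed with polynomially bounded registers. -/
@[fun_prop]
def ZSP (B : Bud A) {α : Type} [Enc A α] (f : α → ℤ) : Prop :=
  ∃ p n : α → ℕ, SP B p ∧ SP B n ∧ ∀ (x : List A) a, Enc.ok x a → f a = p a - n a

theorem ZSP.congr_ok {f g : α → ℤ} (hf : ZSP B f)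
    (h : ∀ (x : List A) a, Enc.ok x a → f a = g a) : ZSP B g :=
  let ⟨p, n, hp, hn, e⟩ := hf
  ⟨p, n, hp, hn, fun x a ha => (h x a ha).symm.trans (e x a ha)⟩

theorem ZSP.congr {f g : α → ℤ} (hf : ZSP B f) (h : ∀ a, f a = g a) : ZSP B g :=
  hf.congr_ok fun _ a _ => h a

@[fun_prop]
theorem ZSP.natCast {f : α → ℕ} (hf : SP B f) : ZSP B fun a => (f a : ℤ) :=
  ⟨f, fun _ => 0, hf, SP.const 0, fun _ _ _ => by simp⟩

@[fun_prop]
theorem ZSP.const (z : ℤ) : ZSP B fun _ : α => z :=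
  ⟨fun _ => z.toNat, fun _ => (-z).toNat, SP.const _, SP.const _, fun _ _ _ => by
    beta_reduce; omega⟩

theorem ZSP.comp {f : β → ℤ} {g : α → β} (hf : ZSP B f) (hg : SP B g) :
    ZSP B fun a => f (g a) :=
  let ⟨p, n, hp, hn, e⟩ := hf
  ⟨fun a => p (g a), fun a => n (g a), hp.comp hg, hn.comp hg, fun x _ ha => e x _ (hg.ok ha)⟩

@[fun_prop]
theorem ZSP.neg {f : α → ℤ} (hf : ZSP B f) : ZSP B fun a => -f a :=
  let ⟨p, n, hp, hn, e⟩ := hf
  ⟨n, p, hn, hp, fun x a ha => by beta_reduce; rw [e x a ha]; ring⟩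

@[fun_prop]
theorem ZSP.add {f g : α → ℤ} (hf : ZSP B f) (hg : ZSP B g) : ZSP B fun a => f a + g a :=
  let ⟨p, n, hp, hn, e⟩ := hf
  let ⟨p', n', hp', hn', e'⟩ := hg
  ⟨fun a => p a + p' a, fun a => n a + n' a, hp.add hp', hn.add hn', fun x a ha => by
    beta_reduce; rw [e x a ha, e' x a ha]; push_cast; ring⟩

@[fun_prop]
theorem ZSP.sub {f g : α → ℤ} (hf : ZSP B f) (hg : ZSP B g) : ZSP B fun a => f a - g a :=
  (hf.add hg.neg).congr fun _ => (sub_eq_add_neg _ _).symm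

@[fun_prop]
theorem ZSP.mul {f g : α → ℤ} (hf : ZSP B f) (hg : ZSP B g) : ZSP B fun a => f a * g a :=
  let ⟨p, n, hp, hn, e⟩ := hf
  let ⟨p', n', hp', hn', e'⟩ := hg
  ⟨fun a => p a * p' a + n a * n' a, fun a => p a * n' a + n a * p' a,
    (hp.mul hp').add (hn.mul hn'), (hp.mul hn').add (hn.mul hp'), fun x a ha => by
    beta_reduce; rw [e x a ha, e' x a ha]; push_cast; ring⟩

@[fun_prop]
theorem ZSP.toNat {f : α → ℤ} (hf : ZSP B f) : SP B fun a => (f a).toNat :=
  let ⟨p, n, hp, hn, e⟩ := hf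
  (hp.sub hn).congr_ok fun x a ha => by rw [e x a ha]; omega

@[fun_prop]
theorem ZSP.enZ {f : α → ℤ} (hf : ZSP B f) : SP B fun a => enZ (f a) :=
  ((SP.const 2).mul hf.toNat).add (((SP.const 2).mul hf.neg.toNat).sub (SP.const 1))

@[fun_prop]
theorem ZSP.natAbs {f : α → ℤ} (hf : ZSP B f) : SP B fun a => (f a).natAbs :=
  (hf.toNat.add hf.neg.toNat).congr fun a => by omega

@[fun_prop]
theorem ZSP.ite {c : α → Prop} [DecidablePred c] {f g : α → ℤ} (hc : SP B fun a => decide (c a))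
    (hf : ZSP B f) (hg : ZSP B g) : ZSP B fun a => if c a then f a else g a :=
  let ⟨p, n, hp, hn, e⟩ := hf
  let ⟨p', n', hp', hn', e'⟩ := hg
  ⟨fun a => if c a then p a else p' a, fun a => if c a then n a else n' a, SP.ite hc hp hp',
    SP.ite hc hn hn', fun x a ha => by
      by_cases h : c a <;> simp only [h, if_true, if_false, e x a ha, e' x a ha]⟩

@[fun_prop]
theorem ZSP.deZ {f : α → ℕ} (hf : SP B f) : ZSP B fun a => deZ (f a) :=
  ZSP.ite ((hf.mod (SP.const 2)).decide_eq (SP.const 0)) (ZSP.natCast (hf.div (SP.const 2)))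
    (ZSP.natCast ((hf.add (SP.const 1)).div (SP.const 2))).neg

theorem ZSP.decide_le {f g : α → ℤ} (hf : ZSP B f) (hg : ZSP B g) :
    SP B fun a => decide (f a ≤ g a) :=
  ((hf.sub hg).toNat.decide_eq (SP.const 0)).congr fun a => by
    simp only [decide_eq_decide]; omega

theorem ZSP.decide_lt {f g : α → ℤ} (hf : ZSP B f) (hg : ZSP B g) :
    SP B fun a => decide (f a < g a) :=
  ((SP.const 0).decide_lt (hg.sub hf).toNat).congr fun a => by
    simp only [decide_eq_decide]; omega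

theorem ZSP.decide_eq {f g : α → ℤ} (hf : ZSP B f) (hg : ZSP B g) :
    SP B fun a => decide (f a = g a) :=
  ((hf.sub hg).natAbs.decide_eq (SP.const 0)).congr fun a => by
    simp only [decide_eq_decide]; omega

/-- Division with rounding down by a natural number. -/
theorem ZSP.div {f : α → ℤ} {d : α → ℕ} (hf : ZSP B f) (hd : SP B d) :
    ZSP B fun a => f a / (d a : ℤ) := by
  obtain ⟨p, n, hp, hn, e⟩ := hf
  refine (ZSP.ite (hd.decide_eq (SP.const 0)) (ZSP.const 0) ((ZSP.natCast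
    ((hp.add (hn.mul (hd.sub (SP.const 1)))).div hd)).sub (ZSP.natCast hn))).congr_ok
    fun x a ha => ?_
  split_ifs with h
  · simp [h]
  · have h1 : 1 ≤ d a := Nat.pos_of_ne_zero h
    have h2 : ((p a + n a * (d a - 1) : ℕ) : ℤ) = (p a - n a) + n a * (d a : ℤ) := by
      push_cast [Nat.cast_sub h1]
      ring
    rw [e x a ha, Int.natCast_div, h2, Int.add_mul_ediv_right _ _ (by omega), add_sub_cancel_right]

/-- Real valued functions with rational values computed with polynomially bounded registers. -/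
@[fun_prop]
def RSP (B : Bud A) {α : Type} [Enc A α] (f : α → ℝ) : Prop :=
  ∃ (z : α → ℤ) (d : α → ℕ), ZSP B z ∧ SP B d ∧
    ∀ (x : List A) a, Enc.ok x a → 0 < d a ∧ f a = z a / d a

theorem RSP.congr_ok {f g : α → ℝ} (hf : RSP B f)
    (h : ∀ (x : List A) a, Enc.ok x a → f a = g a) : RSP B g :=
  let ⟨z, d, hz, hd, e⟩ := hf
  ⟨z, d, hz, hd, fun x a ha => ⟨(e x a ha).1, (h x a ha).symm.trans (e x a ha).2⟩⟩

theorem RSP.congr {f g : α → ℝ} (hf : RSP B f) (h : ∀ a, f a = g a) : RSP B g :=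
  hf.congr_ok fun _ a _ => h a

@[fun_prop]
theorem RSP.intCast {f : α → ℤ} (hf : ZSP B f) : RSP B fun a => (f a : ℝ) :=
  ⟨f, fun _ => 1, hf, SP.const 1, fun _ _ _ => ⟨one_pos, by simp⟩⟩

@[fun_prop]
theorem RSP.natCast {f : α → ℕ} (hf : SP B f) : RSP B fun a => (f a : ℝ) :=
  (RSP.intCast (ZSP.natCast hf)).congr fun _ => by simp

theorem RSP.ratCast (q : ℚ) : RSP B fun _ : α => (q : ℝ) :=
  ⟨fun _ => q.num, fun _ => q.den, ZSP.const _, SP.const _, fun _ _ _ =>
    ⟨q.den_pos, Rat.cast_def q⟩⟩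

/-- A rational constant. -/
theorem RSP.const {r : ℝ} (q : ℚ) (h : r = q) : RSP B fun _ : α => r := h ▸ RSP.ratCast q

@[fun_prop]
theorem RSP.zero : RSP B fun _ : α => (0 : ℝ) := RSP.const 0 (by simp)

@[fun_prop]
theorem RSP.one : RSP B fun _ : α => (1 : ℝ) := RSP.const 1 (by simp)

@[fun_prop]
theorem RSP.ofNat (n : ℕ) [n.AtLeastTwo] : RSP B fun _ : α => (OfNat.ofNat n : ℝ) :=
  RSP.const (OfNat.ofNat n) (by simp)

theorem RSP.comp {f : β → ℝ} {g : α → β} (hf : RSP B f) (hg : SP B g) :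
    RSP B fun a => f (g a) :=
  let ⟨z, d, hz, hd, e⟩ := hf
  ⟨fun a => z (g a), fun a => d (g a), hz.comp hg, hd.comp hg, fun x _ ha => e x _ (hg.ok ha)⟩

@[fun_prop]
theorem RSP.neg {f : α → ℝ} (hf : RSP B f) : RSP B fun a => -f a :=
  let ⟨z, d, hz, hd, e⟩ := hf
  ⟨fun a => -z a, d, hz.neg, hd, fun x a ha => ⟨(e x a ha).1, by
    beta_reduce; rw [(e x a ha).2]; push_cast; ring⟩⟩

@[fun_prop]
theorem RSP.add {f g : α → ℝ} (hf : RSP B f) (hg : RSP B g) : RSP B fun a => f a + g a := by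
  obtain ⟨z, d, hz, hd, e⟩ := hf
  obtain ⟨z', d', hz', hd', e'⟩ := hg
  refine ⟨fun a => z a * d' a + z' a * d a, fun a => d a * d' a, by fun_prop, hd.mul hd',
    fun x a ha => ⟨Nat.mul_pos (e x a ha).1 (e' x a ha).1, ?_⟩⟩
  have h1 : (d a : ℝ) ≠ 0 := by exact_mod_cast (e x a ha).1.ne'
  have h2 : (d' a : ℝ) ≠ 0 := by exact_mod_cast (e' x a ha).1.ne'
  beta_reduce
  rw [(e x a ha).2, (e' x a ha).2]
  push_cast
  field_simp

@[fun_prop]
theorem RSP.sub {f g : α → ℝ} (hf : RSP B f) (hg : RSP B g) : RSP B fun a => f a - g a :=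
  (hf.add hg.neg).congr fun _ => (sub_eq_add_neg _ _).symm

@[fun_prop]
theorem RSP.mul {f g : α → ℝ} (hf : RSP B f) (hg : RSP B g) : RSP B fun a => f a * g a := by
  obtain ⟨z, d, hz, hd, e⟩ := hf
  obtain ⟨z', d', hz', hd', e'⟩ := hg
  refine ⟨fun a => z a * z' a, fun a => d a * d' a, hz.mul hz', hd.mul hd',
    fun x a ha => ⟨Nat.mul_pos (e x a ha).1 (e' x a ha).1, ?_⟩⟩
  beta_reduce
  rw [(e x a ha).2, (e' x a ha).2]
  push_cast
  rw [div_mul_div_comm]

@[fun_prop]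
theorem RSP.pow {f : α → ℝ} (hf : RSP B f) (n : ℕ) : RSP B fun a => f a ^ n := by
  induction n with
  | zero => exact RSP.one.congr fun a => (pow_zero _).symm
  | succ n ih => exact (ih.mul hf).congr fun a => (pow_succ _ _).symm

@[fun_prop]
theorem RSP.ite {c : α → Prop} [DecidablePred c] {f g : α → ℝ} (hc : SP B fun a => decide (c a))
    (hf : RSP B f) (hg : RSP B g) : RSP B fun a => if c a then f a else g a :=
  let ⟨z, d, hz, hd, e⟩ := hf
  let ⟨z', d', hz', hd', e'⟩ := hg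
  ⟨fun a => if c a then z a else z' a, fun a => if c a then d a else d' a, ZSP.ite hc hz hz',
    SP.ite hc hd hd', fun x a ha => by
      by_cases h : c a <;> simp only [h, if_true, if_false, e x a ha, e' x a ha, and_self]⟩

@[fun_prop]
theorem RSP.inv {f : α → ℝ} (hf : RSP B f) : RSP B fun a => (f a)⁻¹ := by
  obtain ⟨z, d, hz, hd, e⟩ := hf
  refine ⟨fun a => if z a = 0 then 0 else if 0 < z a then d a else -d a,
    fun a => if z a = 0 then 1 else (z a).natAbs,
    ZSP.ite (hz.decide_eq (ZSP.const 0)) (ZSP.const 0)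
      (ZSP.ite ((ZSP.const 0).decide_lt hz) (ZSP.natCast hd) (ZSP.natCast hd).neg),
    SP.ite (hz.decide_eq (ZSP.const 0)) (SP.const 1) hz.natAbs, fun x a ha => ?_⟩
  beta_reduce
  rw [(e x a ha).2]
  by_cases h0 : z a = 0
  · simp [h0]
  · simp only [h0, if_false]
    refine ⟨by omega, ?_⟩
    rw [inv_div, Nat.cast_natAbs]
    split_ifs with h1
    · rw [abs_of_pos h1]
      simp
    · rw [abs_of_nonpos (not_lt.1 h1)]
      simp

@[fun_prop]
theorem RSP.div {f g : α → ℝ} (hf : RSP B f) (hg : RSP B g) : RSP B fun a => f a / g a :=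
  (hf.mul hg.inv).congr fun _ => (div_eq_mul_inv _ _).symm

theorem RSP.decide_nonneg {f : α → ℝ} (hf : RSP B f) : SP B fun a => decide (0 ≤ f a) := by
  obtain ⟨z, d, hz, hd, e⟩ := hf
  refine ((ZSP.const 0).decide_le hz).congr_ok fun x a ha => ?_
  have h1 : (0 : ℝ) < d a := by exact_mod_cast (e x a ha).1
  simp only [decide_eq_decide, (e x a ha).2, le_div_iff₀ h1, zero_mul]
  exact Int.cast_nonneg_iff.symm

theorem RSP.decide_le {f g : α → ℝ} (hf : RSP B f) (hg : RSP B g) :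
    SP B fun a => decide (f a ≤ g a) :=
  (hg.sub hf).decide_nonneg.congr fun a => by simp

theorem RSP.decide_lt {f g : α → ℝ} (hf : RSP B f) (hg : RSP B g) :
    SP B fun a => decide (f a < g a) :=
  (hg.decide_le hf).decide_not.congr fun a => by simp

@[fun_prop]
theorem RSP.max {f g : α → ℝ} (hf : RSP B f) (hg : RSP B g) : RSP B fun a => max (f a) (g a) :=
  (RSP.ite (hf.decide_le hg) hg hf).congr fun _ => (max_def _ _).symm

@[fun_prop]
theorem RSP.min {f g : α → ℝ} (hf : RSP B f) (hg : RSP B g) : RSP B fun a => min (f a) (g a) :=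
  (RSP.ite (hf.decide_le hg) hf hg).congr fun _ => (min_def _ _).symm

@[fun_prop]
theorem RSP.abs {f : α → ℝ} (hf : RSP B f) : RSP B fun a => |f a| :=
  (hf.max hf.neg).congr fun _ => (abs_eq_max_neg).symm

@[fun_prop]
theorem RSP.floor {f : α → ℝ} (hf : RSP B f) : ZSP B fun a => ⌊f a⌋ := by
  obtain ⟨z, d, hz, hd, e⟩ := hf
  refine (hz.div hd).congr_ok fun x a ha => ?_
  rw [(e x a ha).2, Int.floor_div_natCast, Int.floor_intCast]

@[fun_prop]
theorem RSP.round {f : α → ℝ} (hf : RSP B f) : ZSP B fun a => round (f a) :=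
  (hf.add (RSP.const (r := 1 / 2) (1 / 2) (by norm_num))).floor.congr fun a => (round_eq _).symm

end Vale.Agent.P313.Full
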