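import Vale.Agent.P313.Full.HiMain
import Vale.Agent.P313.Full.Num

/-! The ideal hierarchy of chains: names, closed forms of the views, computability of the local
parts. -/

namespace Vale.Agent.P313.Hi

open Finset Vale.Agent.Lib.Space Vale.Agent.P313.Full

/-- The number of names of the level `k`. -/
noncomputable def nm (n0 k : ℕ) : ℕ := 2 ^ (n0 + a * k)

/-- The code of the digit of the stage `i`. -/
noncomputable def cd (n0 i x : ℕ) : ℕ := x / nm n0 i % 2 ^ a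

/-- The digit of the stage `i`. -/
noncomputable def dg (n0 i x : ℕ) : Dig := dig (cd n0 i x)

/-- The out-digit (`d = true`) or the in-digit (`d = false`). -/
def Dig.ed (d : Bool) (g : Dig) : ED := if d then g.2.2.2 else g.2.2.1

/-- The out-view (`d = true`) or the in-view (`d = false`) of the level `k`. -/
noncomputable def vw (d : Bool) (N n0 K : ℕ) : ℕ → ℕ → View
  | 0, x => ⟨0, if x % 2 ^ n0 = (if d then N - 1 else 0) then K else 0, false⟩
  | k + 1, x => (vw d N n0 K k x).upd ((dg n0 k x).ed d)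

theorem nm_pos (n0 k : ℕ) : 0 < nm n0 k := Nat.two_pow_pos _

theorem nm_zero (n0 : ℕ) : nm n0 0 = 2 ^ n0 := by simp [nm]

theorem nm_add (n0 k b : ℕ) : nm n0 (k + b) = nm n0 k * 2 ^ (a * b) := by
  rw [nm, nm, ← pow_add, mul_add, add_assoc]

theorem nm_succ (n0 k : ℕ) : nm n0 (k + 1) = nm n0 k * 2 ^ a := by rw [nm_add, mul_one]

theorem nm_dvd (n0 : ℕ) {i k : ℕ} (h : i ≤ k) : nm n0 i ∣ nm n0 k := by
  obtain ⟨b, rfl⟩ := Nat.exists_eq_add_of_le h
  exact ⟨_, nm_add n0 i b⟩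

theorem nm_le (n0 : ℕ) {i k : ℕ} (h : i ≤ k) : nm n0 i ≤ nm n0 k :=
  Nat.le_of_dvd (nm_pos _ _) (nm_dvd n0 h)

theorem mod_nm_mod (n0 : ℕ) {i k : ℕ} (h : i ≤ k) (x : ℕ) : x % nm n0 k % nm n0 i = x % nm n0 i :=
  Nat.mod_mod_of_dvd x (nm_dvd n0 h)

theorem mod_nm_lt (n0 k x : ℕ) : x % nm n0 k < nm n0 k := Nat.mod_lt _ (nm_pos _ _)

theorem lv_nm (N n0 K : ℕ) (A0 : ℕ → ℕ → ℕ) (hc hr : ℕ → ℕ → ℝ) :
    ∀ k, (lv N n0 K A0 hc hr k).n = nm n0 k
  | 0 => (nm_zero n0).symm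
  | k + 1 => by
    rw [nm_succ, ← lv_nm N n0 K A0 hc hr k]
    rfl

theorem cd_lt (n0 i x : ℕ) : cd n0 i x < 2 ^ a := Nat.mod_lt _ (Nat.two_pow_pos _)

theorem mod_nm_succ_div (n0 i x : ℕ) : x % nm n0 (i + 1) / nm n0 i = cd n0 i x := by
  rw [nm_succ, Nat.mod_mul_right_div_self, cd]

theorem mod_nm_succ (n0 i x : ℕ) : x % nm n0 (i + 1) = x % nm n0 i + nm n0 i * cd n0 i x := by
  rw [nm_succ, Nat.mod_mul, cd]

theorem cd_of_lt {n0 i x : ℕ} (h : x < nm n0 (i + 1)) : cd n0 i x = x / nm n0 i := by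
  rw [← mod_nm_succ_div, Nat.mod_eq_of_lt h]

theorem cd_mod {n0 i k : ℕ} (h : i < k) (x : ℕ) : cd n0 i (x % nm n0 k) = cd n0 i x := by
  rw [← mod_nm_succ_div, ← mod_nm_succ_div, mod_nm_mod n0 h]

theorem dg_mod {n0 i k : ℕ} (h : i < k) (x : ℕ) : dg n0 i (x % nm n0 k) = dg n0 i x := by
  rw [dg, cd_mod h, dg]

theorem cd_congr {n0 i k x y : ℕ} (h : i < k) (e : x % nm n0 k = y % nm n0 k) :
    cd n0 i x = cd n0 i y := by rw [← cd_mod h, e, cd_mod h]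

theorem cd_xor (n0 i x y : ℕ) : cd n0 i (x ^^^ y) = cd n0 i x ^^^ cd n0 i y := by
  simp only [cd, nm, Nat.xor_div_two_pow, Nat.xor_mod_two_pow]

theorem xor_mod_nm (n0 k x y : ℕ) : (x ^^^ y) % nm n0 k = x % nm n0 k ^^^ y % nm n0 k :=
  Nat.xor_mod_two_pow

theorem mul_nm_mod {n0 i k : ℕ} (h : i ≤ k) (c : ℕ) : c * nm n0 k % nm n0 i = 0 :=
  Nat.mod_eq_zero_of_dvd (Dvd.dvd.mul_left (nm_dvd n0 h) c)

/-- A change of the digits of the stages `≥ k` does not change the name of a level `i ≤ k`. -/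
theorem xor_mul_mod {n0 i k : ℕ} (h : i ≤ k) (x c : ℕ) :
    (x ^^^ c * nm n0 k) % nm n0 i = x % nm n0 i := by
  rw [xor_mod_nm, mul_nm_mod h, Nat.xor_zero]

theorem add_mul_eq_xor {n0 k x : ℕ} (h : x < nm n0 k) (c : ℕ) :
    x + nm n0 k * c = x ^^^ c * nm n0 k := by
  refine Nat.eq_of_testBit_eq fun i => ?_
  rw [nm] at h
  rw [nm, add_comm, Nat.testBit_two_pow_mul_add _ h, Nat.testBit_xor, Nat.testBit_mul_two_pow]
  by_cases hi : i < n0 + a * k
  · simp [hi, Nat.not_le.2 hi]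
  · rw [if_neg hi, Nat.testBit_lt_two_pow (h.trans_le (Nat.pow_le_pow_right two_pos
      (Nat.le_of_not_lt hi)))]
    simp [Nat.le_of_not_lt hi]

theorem vw_mod (d : Bool) (N n0 K : ℕ) {k : ℕ} (x : ℕ) :
    ∀ {i : ℕ}, i ≤ k → vw d N n0 K i (x % nm n0 k) = vw d N n0 K i x
  | 0, h => by
    have := mod_nm_mod n0 h x
    rw [nm_zero] at this
    simp only [vw, this]
  | i + 1, h => by rw [vw, vw, vw_mod d N n0 K x (by omega), dg_mod h]

theorem vw_congr (d : Bool) (N n0 K : ℕ) {i k x y : ℕ} (h : i ≤ k)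
    (e : x % nm n0 k = y % nm n0 k) : vw d N n0 K i x = vw d N n0 K i y := by
  rw [← vw_mod d N n0 K x h, e, vw_mod d N n0 K y h]

theorem lv_vo {N n0 K : ℕ} {A0 : ℕ → ℕ → ℕ} {hc hr : ℕ → ℕ → ℝ} :
    ∀ {k x : ℕ}, x < nm n0 k → (lv N n0 K A0 hc hr k).vo x = vw true N n0 K k x
  | 0, _, _ => rfl
  | k + 1, x, h => by
    change ((lv N n0 K A0 hc hr k).vo (x % (lv N n0 K A0 hc hr k).n)).upd
      (dig (x / (lv N n0 K A0 hc hr k).n)).2.2.2 = _
    rw [lv_nm, lv_vo (mod_nm_lt _ _ _), vw_mod _ _ _ _ _ le_rfl, ← cd_of_lt h]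
    rfl

theorem lv_vi {N n0 K : ℕ} {A0 : ℕ → ℕ → ℕ} {hc hr : ℕ → ℕ → ℝ} :
    ∀ {k x : ℕ}, x < nm n0 k → (lv N n0 K A0 hc hr k).vi x = vw false N n0 K k x
  | 0, _, _ => rfl
  | k + 1, x, h => by
    change ((lv N n0 K A0 hc hr k).vi (x % (lv N n0 K A0 hc hr k).n)).upd
      (dig (x / (lv N n0 K A0 hc hr k).n)).2.2.1 = _
    rw [lv_nm, lv_vi (mod_nm_lt _ _ _), vw_mod _ _ _ _ _ le_rfl, ← cd_of_lt h]
    rfl

theorem lv_vo_mod (N n0 K : ℕ) (A0 : ℕ → ℕ → ℕ) (hc hr : ℕ → ℕ → ℝ) (k x : ℕ) :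
    (lv N n0 K A0 hc hr k).vo (x % nm n0 k) = vw true N n0 K k x := by
  rw [lv_vo (mod_nm_lt _ _ _), vw_mod _ _ _ _ _ le_rfl]

theorem lv_vi_mod (N n0 K : ℕ) (A0 : ℕ → ℕ → ℕ) (hc hr : ℕ → ℕ → ℝ) (k x : ℕ) :
    (lv N n0 K A0 hc hr k).vi (x % nm n0 k) = vw false N n0 K k x := by
  rw [lv_vi (mod_nm_lt _ _ _), vw_mod _ _ _ _ _ le_rfl]

theorem vw_l_succ (d : Bool) (N n0 K k x : ℕ) :
    (vw d N n0 K (k + 1) x).l = (vw d N n0 K k x).l + ((dg n0 k x).ed d).1 := rfl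

theorem vw_lam_succ (d : Bool) (N n0 K k x : ℕ) :
    (vw d N n0 K (k + 1) x).lam = (vw d N n0 K k x).lam + ((dg n0 k x).ed d).2.1 := rfl

theorem vw_wt_succ (d : Bool) (N n0 K k x : ℕ) :
    (vw d N n0 K (k + 1) x).wt = ((dg n0 k x).ed d).2.2.2 := rfl

theorem vw_l (d : Bool) (N n0 K x : ℕ) :
    ∀ k, (vw d N n0 K k x).l = ∑ i ∈ range k, (((dg n0 i x).ed d).1 : ℕ)
  | 0 => rfl
  | k + 1 => by rw [vw_l_succ, vw_l d N n0 K x k, sum_range_succ]

theorem vw_lam (d : Bool) (N n0 K x : ℕ) : ∀ k, (vw d N n0 K k x).lam =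
    (if x % 2 ^ n0 = (if d then N - 1 else 0) then K else 0) +
      ∑ i ∈ range k, (((dg n0 i x).ed d).2.1 : ℕ)
  | 0 => rfl
  | k + 1 => by rw [vw_lam_succ, vw_lam d N n0 K x k, sum_range_succ, add_assoc]

theorem vw_wt (d : Bool) (N n0 K x k : ℕ) :
    (vw d N n0 K k x).wt = (decide (k ≠ 0) && ((dg n0 (k - 1) x).ed d).2.2.2) := by
  cases k with
  | zero => rfl
  | succ k => simp [vw_wt_succ]

theorem vw_l_add (d : Bool) (N n0 K x k : ℕ) : ∀ b, (vw d N n0 K k x).l ≤ (vw d N n0 K (k + b) x).l ∧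
    (vw d N n0 K (k + b) x).l ≤ (vw d N n0 K k x).l + B * b
  | 0 => by simp
  | b + 1 => by
    have := vw_l_add d N n0 K x k b
    have h2 := ((dg n0 (k + b) x).ed d).1.2
    rw [← add_assoc, vw_l_succ, mul_add]
    omega

theorem vw_lam_add (d : Bool) (N n0 K x k : ℕ) :
    ∀ b, (vw d N n0 K k x).lam ≤ (vw d N n0 K (k + b) x).lam ∧
      (vw d N n0 K (k + b) x).lam ≤ (vw d N n0 K k x).lam + (C + 1) * b
  | 0 => by simp
  | b + 1 => by
    have := vw_lam_add d N n0 K x k b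
    have h2 := ((dg n0 (k + b) x).ed d).2.1.2
    rw [← add_assoc, vw_lam_succ, mul_add (C + 1)]
    omega

theorem vw_l_le (d : Bool) (N n0 K k x : ℕ) : (vw d N n0 K k x).l ≤ B * k := by
  have := (vw_l_add d N n0 K x 0 k).2
  rw [zero_add] at this
  exact this.trans (by simp [vw])

theorem vw_lam_le (d : Bool) (N n0 K k x : ℕ) : (vw d N n0 K k x).lam ≤ K + (C + 1) * k := by
  have := (vw_lam_add d N n0 K x 0 k).2
  rw [zero_add] at this
  refine this.trans (Nat.add_le_add_right ?_ _)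
  simp only [vw]
  split_ifs <;> omega

open Classical in
/-- The kernel of the next level in terms of the digits of arbitrary long names. -/
theorem lv_S_succ (N n0 K : ℕ) (A0 : ℕ → ℕ → ℕ) (hc hr : ℕ → ℕ → ℝ) (k x z : ℕ) :
    (lv N n0 K A0 hc hr (k + 1)).S (x % nm n0 (k + 1)) (z % nm n0 (k + 1)) =
      if vld (cd n0 k x) ∧ vld (cd n0 k z) ∧ fit (vw true N n0 K k x) (vw false N n0 K k z)
        ((dg n0 k x).ed true) ((dg n0 k z).ed false) then
        (lv N n0 K A0 hc hr k).T ((dg n0 k x).ed true).2.2.1 (x % nm n0 k, (dg n0 k x).1)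
          (z % nm n0 k, (dg n0 k z).1) / 2 ^ (((dg n0 k x).1.2.1 : ℕ) + (dg n0 k z).1.1)
      else 0 := by
  simp only [lv, Lv.step, lv_nm, mod_nm_succ_div, mod_nm_mod n0 (Nat.le_succ k), Lv.Sd,
    lv_vo_mod, lv_vi_mod, vw_mod _ N n0 K _ (Nat.le_succ k), dg, Dig.ed, if_true,
    Bool.false_eq_true, if_false, ite_and]

open Classical in
theorem lv_e_succ (N n0 K : ℕ) (A0 : ℕ → ℕ → ℕ) (hc hr : ℕ → ℕ → ℝ) (k x : ℕ) :
    (lv N n0 K A0 hc hr (k + 1)).e (x % nm n0 (k + 1)) =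
      if vld (cd n0 k x) ∧ (dg n0 k x).ed false = 0 then
        (lv N n0 K A0 hc hr k).e (x % nm n0 k) *
          (lv N n0 K A0 hc hr k).inn (x % nm n0 k, (dg n0 k x).1) / 2 ^ ((dg n0 k x).1.1 : ℕ)
      else 0 := by
  simp only [lv, Lv.step, lv_nm, mod_nm_succ_div, mod_nm_mod n0 (Nat.le_succ k), Lv.eb, dg, Dig.ed,
    Bool.false_eq_true, if_false]

open Classical in
theorem lv_f_succ (N n0 K : ℕ) (A0 : ℕ → ℕ → ℕ) (hc hr : ℕ → ℕ → ℝ) (k x : ℕ) :
    (lv N n0 K A0 hc hr (k + 1)).f (x % nm n0 (k + 1)) =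
      if vld (cd n0 k x) ∧ (dg n0 k x).ed true = 0 ∧ (dg n0 k x).1.2.2 = false then
        (lv N n0 K A0 hc hr k).f (x % nm n0 k) *
          (lv N n0 K A0 hc hr k).out (x % nm n0 k, (dg n0 k x).1) / 2 ^ ((dg n0 k x).1.2.1 : ℕ)
      else 0 := by
  simp only [lv, Lv.step, lv_nm, mod_nm_succ_div, mod_nm_mod n0 (Nat.le_succ k), Lv.fb, dg, Dig.ed,
    if_true, ite_and]
  split_ifs <;> simp

theorem lv_hc (N n0 K : ℕ) (A0 : ℕ → ℕ → ℕ) (hc hr : ℕ → ℕ → ℝ) (k : ℕ) :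
    (lv N n0 K A0 hc hr k).hc = hc k := by cases k <;> rfl

theorem lv_hr (N n0 K : ℕ) (A0 : ℕ → ℕ → ℕ) (hc hr : ℕ → ℕ → ℝ) (k : ℕ) :
    (lv N n0 K A0 hc hr k).hr = hr k := by cases k <;> rfl

/-! ### Lipschitz bounds -/

theorem abs_cl_sub (s t : ℝ) : |cl s - cl t| ≤ |s - t| := by
  unfold cl
  refine (abs_max_sub_max_le_max _ _ _ _).trans (max_le (by simp) ?_)
  exact (abs_min_sub_min_le_max _ _ _ _).trans (max_le (by simp) le_rfl)

theorem abs_R_sub (g : ℕ) (s t : ℝ) : |R g s - R g t| ≤ |s - t| := by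
  unfold R
  split_ifs
  · simp
  · refine (abs_cl_sub _ _).trans ?_
    rw [sub_sub_sub_cancel_right, ← sub_div, abs_div, abs_of_pos (show (0 : ℝ) < 2 ^ (g - 1) by
      positivity)]
    exact div_le_self (abs_nonneg _) (one_le_pow₀ one_le_two)
  · simp

theorem abs_chi_sub (g : ℕ) (s t : ℝ) : |chi g s - chi g t| ≤ 2 * |s - t| := by
  have h1 := abs_le.1 (abs_R_sub g s t)
  have h2 := abs_le.1 (abs_R_sub (g + 1) s t)
  unfold chi
  rw [abs_le]
  constructor <;> linarith [h1.1, h1.2, h2.1, h2.2]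

theorem abs_zeta_sub (g : ℕ) (s t : ℝ) : |zeta g s - zeta g t| ≤ |s - t| := abs_R_sub _ _ _

theorem abs_phi_sub (s t : ℝ) : |phi s - phi t| ≤ 2 ^ (B + 1) * |s - t| := by
  refine (abs_cl_sub _ _).trans_eq ?_
  rw [sub_sub_sub_cancel_right, ← sub_mul, abs_mul, abs_of_pos (show (0 : ℝ) < 2 ^ (B + 1) by
    positivity), mul_comm]

/-! ### Computability -/

section sp

variable {A α : Type} [Enc A α] {Bu : Bud A}

theorem sp_mod_two_pow {x e : α → ℕ} (hx : SP Bu x) (he : SP Bu e) :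
    SP Bu fun p => x p % 2 ^ e p := by
  refine (hx.mod ((hx.add (SP.const 1)).min_pow (SP.const 2) he)).congr fun p => ?_
  rcases le_total (x p + 1) (2 ^ e p) with h | h
  · rw [min_eq_left h, Nat.mod_eq_of_lt (by omega), Nat.mod_eq_of_lt (by omega)]
  · rw [min_eq_right h]

/-- Powers of two with a bounded exponent. -/
theorem sp_two_pow_le (b : ℕ) {e : α → ℕ} (he : SP Bu e) (h : ∀ p, e p ≤ b) :
    SP Bu fun p => 2 ^ e p :=
  ((SP.const (2 ^ b)).min_pow (SP.const 2) he).congr fun p =>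
    min_eq_right (Nat.pow_le_pow_right two_pos (h p))

theorem sp_mod_nm {n0 k x : α → ℕ} (h0 : SP Bu n0) (hk : SP Bu k) (hx : SP Bu x) :
    SP Bu fun p => x p % nm (n0 p) (k p) :=
  sp_mod_two_pow hx (h0.add ((SP.const a).mul hk))

theorem sp_div_nm {n0 k x : α → ℕ} (h0 : SP Bu n0) (hk : SP Bu k) (hx : SP Bu x) :
    SP Bu fun p => x p / nm (n0 p) (k p) :=
  hx.div_pow (SP.const 2) (h0.add ((SP.const a).mul hk))

theorem sp_cd {n0 i x : α → ℕ} (h0 : SP Bu n0) (hi : SP Bu i) (hx : SP Bu x) :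
    SP Bu fun p => cd (n0 p) (i p) (x p) :=
  (sp_div_nm h0 hi hx).mod (SP.const _)

/-- Every function of a digit is computable. -/
theorem sp_dig (f : Dig → ℕ) {c : α → ℕ} (hc : SP Bu c) : SP Bu fun p => f (dig (c p)) := by
  refine (SP.ite (hc.decide_lt (SP.const (Fintype.card Dig)))
    (SP.table (Fintype.card Dig) (fun c => f (dig c)) hc) (SP.const (f default))).congr fun p => ?_
  split_ifs with h
  · rfl
  · rw [dig, dif_neg h]

theorem sp_dig_bool (f : Dig → Bool) {c : α → ℕ} (hc : SP Bu c) :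
    SP Bu fun p => f (dig (c p)) :=
  ((sp_dig (fun g => (f g).toNat) hc).decide_eq (SP.const 1)).congr fun p => by
    cases f (dig (c p)) <;> rfl

theorem sp_dig_prop (f : Dig → Prop) {c : α → ℕ} (hc : SP Bu c)
    [DecidablePred fun p => f (dig (c p))] : SP Bu fun p => decide (f (dig (c p))) := by
  classical
  exact (sp_dig_bool (fun g => decide (f g)) hc).congr fun p => by congr

theorem sp_vld {c : α → ℕ} (hc : SP Bu c) [DecidablePred fun p => vld (c p)] :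
    SP Bu fun p => decide (vld (c p)) := by
  classical
  exact (SP.decide_and (hc.decide_lt (SP.const (Fintype.card Dig)))
    (sp_dig_prop Dig.ok hc)).congr fun p => by congr

theorem sp_dg (f : Dig → ℕ) {n0 i x : α → ℕ} (h0 : SP Bu n0) (hi : SP Bu i) (hx : SP Bu x) :
    SP Bu fun p => f (dg (n0 p) (i p) (x p)) := sp_dig f (sp_cd h0 hi hx)

theorem sp_dg_bool (f : Dig → Bool) {n0 i x : α → ℕ} (h0 : SP Bu n0) (hi : SP Bu i)
    (hx : SP Bu x) : SP Bu fun p => f (dg (n0 p) (i p) (x p)) := sp_dig_bool f (sp_cd h0 hi hx)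

theorem sp_vw_l (d : Bool) {N n0 K k x : α → ℕ} (h0 : SP Bu n0) (hk : SP Bu k) (hx : SP Bu x) :
    SP Bu fun p => (vw d (N p) (n0 p) (K p) (k p) (x p)).l :=
  (SP.sum_range hk (sp_dg (fun g => (g.ed d).1) (h0.comp SP.fst') SP.snd'
    (hx.comp SP.fst'))).congr fun _ => (vw_l _ _ _ _ _ _).symm

theorem sp_vw_lam (d : Bool) {N n0 K k x : α → ℕ} (hN : SP Bu N) (h0 : SP Bu n0) (hK : SP Bu K)
    (hk : SP Bu k) (hx : SP Bu x) : SP Bu fun p => (vw d (N p) (n0 p) (K p) (k p) (x p)).lam := by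
  have h1 : SP Bu fun p => if d then N p - 1 else 0 := by
    cases d
    · exact SP.const 0
    · exact hN.sub (SP.const 1)
  exact ((SP.ite ((sp_mod_two_pow hx h0).decide_eq h1) hK (SP.const 0)).add
    (SP.sum_range hk (sp_dg (fun g => (g.ed d).2.1) (h0.comp SP.fst') SP.snd'
      (hx.comp SP.fst')))).congr fun _ => (vw_lam _ _ _ _ _ _).symm

theorem sp_vw_wt (d : Bool) {N n0 K k x : α → ℕ} (h0 : SP Bu n0) (hk : SP Bu k) (hx : SP Bu x) :
    SP Bu fun p => (vw d (N p) (n0 p) (K p) (k p) (x p)).wt :=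
  ((hk.decide_ne (SP.const 0)).and (sp_dg_bool (fun g => (g.ed d).2.2.2) h0 (hk.sub (SP.const 1))
    hx)).congr fun _ => (vw_wt _ _ _ _ _ _).symm

theorem rsp_cl {t : α → ℝ} (ht : RSP Bu t) : RSP Bu fun p => cl (t p) :=
  RSP.zero.max (RSP.one.min ht)

theorem rsp_two_pow {e : α → ℕ} (he : SP Bu fun p => 2 ^ e p) : RSP Bu fun p => (2 : ℝ) ^ e p :=
  (RSP.natCast he).congr fun _ => by push_cast; rfl

theorem rsp_R {g : α → ℕ} {t : α → ℝ} (hg : SP Bu g) (ht : RSP Bu t) :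
    RSP Bu fun p => R (g p) (t p) := by
  have h1 : RSP Bu fun p => (2 : ℝ) ^ min (g p - 1) B :=
    rsp_two_pow (sp_two_pow_le B ((hg.sub (SP.const 1)).min (SP.const B)) fun _ => min_le_right _ _)
  refine (RSP.ite (hg.decide_eq (SP.const 0)) RSP.one (RSP.ite (hg.decide_le (SP.const B))
    (rsp_cl ((ht.div h1).sub RSP.one)) RSP.zero)).congr fun p => ?_
  unfold R
  split_ifs with h0 h2
  · rfl
  · rw [min_eq_left (by omega)]
  · rfl

theorem rsp_chi {g : α → ℕ} {t : α → ℝ} (hg : SP Bu g) (ht : RSP Bu t) :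
    RSP Bu fun p => chi (g p) (t p) := (rsp_R hg ht).sub (rsp_R (hg.add (SP.const 1)) ht)

theorem rsp_zeta {g : α → ℕ} {t : α → ℝ} (hg : SP Bu g) (ht : RSP Bu t) :
    RSP Bu fun p => zeta (g p) (t p) := rsp_R (hg.sub (SP.const 1)) ht

theorem rsp_phi {t : α → ℝ} (ht : RSP Bu t) : RSP Bu fun p => phi (t p) :=
  rsp_cl ((ht.mul (rsp_two_pow (SP.const (2 ^ (B + 1))))).sub RSP.one)

end sp

end Vale.Agent.P313.Hi
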