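import Vale.Agent.P313.Full.HiFlow

/-! The ideal hierarchy of chains: the flows of the next level. -/

namespace Vale.Agent.P313.Hi

open Finset

namespace Lv

variable (L : Lv)

/-- The class of a name of the next level. -/
noncomputable def cOf (x : ℕ) : ℕ × G := (x % L.n, (dig (x / L.n)).1)

open Classical in
/-- A function of the class and the in-digit, divided among the clones. -/
noncomputable def upI (X : ℕ × G → ED → ℝ) (x : ℕ) : ℝ :=
  if vld (x / L.n) then X (L.cOf x) (dig (x / L.n)).2.2.1 / 2 ^ ((L.cOf x).2.1 : ℕ) else 0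

open Classical in
/-- A function of the class and the out-digit, divided among the clones. -/
noncomputable def upO (Y : ℕ × G → ED → ℝ) (x : ℕ) : ℝ :=
  if vld (x / L.n) then Y (L.cOf x) (dig (x / L.n)).2.2.2 / 2 ^ ((L.cOf x).2.2.1 : ℕ) else 0

open Classical in
/-- The entries with a given in-digit. -/
noncomputable def TI (u w : ℕ × G) (t : ED) : ℝ :=
  ∑ o : Fin 3, if tOf o (L.vo u.1) (L.vi w.1) = t then L.T o u w else 0

open Classical in
/-- The entries with a given out-digit. -/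
noncomputable def TO (u w : ℕ × G) (s : ED) : ℝ :=
  ∑ o : Fin 3, if sOf o (L.vo u.1) (L.vi w.1) = s then L.T o u w else 0

theorem sum_TI (u w : ℕ × G) (c : ED → ℝ) : ∑ t : ED, L.TI u w t * c t =
    ∑ o : Fin 3, L.T o u w * c (tOf o (L.vo u.1) (L.vi w.1)) := by
  simp only [TI, sum_mul]
  rw [sum_comm]
  simp

theorem sum_TO (u w : ℕ × G) (c : ED → ℝ) : ∑ s : ED, L.TO u w s * c s =
    ∑ o : Fin 3, L.T o u w * c (sOf o (L.vo u.1) (L.vi w.1)) := by
  simp only [TO, sum_mul]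
  rw [sum_comm]
  simp

open Classical in
/-- Start weights by in-digits. -/
noncomputable def eI (u : ℕ × G) (t : ED) : ℝ := if t = 0 then L.eb u else 0

open Classical in
/-- End weights by out-digits. -/
noncomputable def fO (u : ℕ × G) (s : ED) : ℝ := if s = 0 then L.fb u else 0

theorem sum_eI (u : ℕ × G) (c : ED → ℝ) : ∑ t : ED, L.eI u t * c t = L.eb u * c 0 := by
  simp [eI]

theorem sum_fO (u : ℕ × G) (c : ED → ℝ) : ∑ s : ED, L.fO u s * c s = L.fb u * c 0 := by
  simp [fO]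

theorem step_e (hc hr : ℕ → ℝ) : (L.step hc hr).e = L.upI L.eI := by
  funext x
  simp only [step, upI, eI, cOf, ite_and]
  split_ifs <;> simp

theorem step_f (hc hr : ℕ → ℝ) : (L.step hc hr).f = L.upO L.fO := by
  funext x
  simp only [step, upO, fO, cOf, ite_and]
  split_ifs <;> simp

variable {L}

theorem cOf_mem (hn : 0 < L.n) (x : ℕ) : L.cOf x ∈ L.cls := L.mem_cls.2 (Nat.mod_lt _ hn)

theorem sum_upI_upO (hn : 0 < L.n) (X Y : ℕ × G → ED → ℝ) :
    ∑ x ∈ range (L.n * 2 ^ a), L.upI X x * L.upO Y x =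
      ∑ u ∈ L.cls, (∑ t : ED, X u t) * ∑ s : ED, Y u s := by
  classical
  have h := sum_step L hn fun u t s => X u t / 2 ^ (u.2.1 : ℕ) * (Y u s / 2 ^ (u.2.2.1 : ℕ))
  refine Eq.trans (sum_congr rfl fun x _ => ?_) (h.trans (sum_congr rfl fun u _ => ?_))
  · simp only [upI, upO, cOf]
    split_ifs <;> simp
  · rw [← sum_mul_sum, ← sum_div, ← sum_div, pow_add]
    field_simp

theorem sum_upI_S (hn : 0 < L.n) (hc hr : ℕ → ℝ) (X : ℕ × G → ED → ℝ) (z : ℕ) :
    ∑ x ∈ range (L.n * 2 ^ a), L.upI X x * (L.step hc hr).S x z =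
      L.upI (fun w t => ∑ u ∈ L.cls, (∑ t' : ED, X u t') * L.TI u w t) z := by
  classical
  by_cases hz : vld (z / L.n)
  · have h := sum_step L hn fun u t s => X u t / 2 ^ (u.2.1 : ℕ) *
      ((if fit (L.vo u.1) (L.vi (L.cOf z).1) s (dig (z / L.n)).2.2.1 then
        L.T s.2.2.1 u (L.cOf z) else 0) / 2 ^ ((u.2.2.1 : ℕ) + (L.cOf z).2.1))
    rw [upI, if_pos hz, sum_div]
    refine Eq.trans (sum_congr rfl fun x _ => ?_) (h.trans (sum_congr rfl fun u _ => ?_))
    · simp only [upI, step, Sd, cOf, hz, and_true]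
      split_ifs <;> simp [*]
    · rw [← sum_mul_sum, ← sum_div, ← sum_div, sum_fit_left _ _ _ fun o => L.T o u (L.cOf z),
        pow_add, pow_add, TI]
      field_simp
  · rw [upI, if_neg hz]
    refine sum_eq_zero fun x _ => ?_
    simp [step, hz]

theorem sum_S_upO (hn : 0 < L.n) (hc hr : ℕ → ℝ) (Y : ℕ × G → ED → ℝ) (x : ℕ) :
    ∑ z ∈ range (L.n * 2 ^ a), (L.step hc hr).S x z * L.upO Y z =
      L.upO (fun u s => ∑ w ∈ L.cls, L.TO u w s * ∑ s' : ED, Y w s') x := by
  classical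
  by_cases hx : vld (x / L.n)
  · have h := sum_step L hn fun w t s =>
      ((if fit (L.vo (L.cOf x).1) (L.vi w.1) (dig (x / L.n)).2.2.2 t then
        L.T (dig (x / L.n)).2.2.2.2.2.1 (L.cOf x) w else 0) /
          2 ^ (((L.cOf x).2.2.1 : ℕ) + w.2.1)) * (Y w s / 2 ^ (w.2.2.1 : ℕ))
    rw [upO, if_pos hx, sum_div]
    refine Eq.trans (sum_congr rfl fun z _ => ?_) (h.trans (sum_congr rfl fun w _ => ?_))
    · simp only [upO, step, Sd, cOf, hx, true_and]
      split_ifs <;> simp [*]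
    · rw [← sum_mul_sum, ← sum_div, ← sum_div, sum_fit_right _ _ _ fun o => L.T o (L.cOf x) w,
        pow_add, pow_add, TO]
      field_simp
  · rw [upO, if_neg hx]
    refine sum_eq_zero fun z _ => ?_
    simp [step, hx]

theorem upI_add (X X' : ℕ × G → ED → ℝ) (x : ℕ) :
    L.upI (fun u t => X u t + X' u t) x = L.upI X x + L.upI X' x := by
  simp only [upI]
  split_ifs
  · rw [add_div]
  · rw [add_zero]

theorem upO_add (Y Y' : ℕ × G → ED → ℝ) (x : ℕ) :
    L.upO (fun u s => Y u s + Y' u s) x = L.upO Y x + L.upO Y' x := by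
  simp only [upO]
  split_ifs
  · rw [add_div]
  · rw [add_zero]

theorem upI_congr {X X' : ℕ × G → ED → ℝ} (h : ∀ u t, X u t = X' u t) (x : ℕ) :
    L.upI X x = L.upI X' x := by
  rw [show X = X' from funext fun u => funext (h u)]

theorem upO_congr {Y Y' : ℕ × G → ED → ℝ} (h : ∀ u t, Y u t = Y' u t) (x : ℕ) :
    L.upO Y x = L.upO Y' x := by
  rw [show Y = Y' from funext fun u => funext (h u)]

variable (L)

/-- Visit weights by in-digits. -/
noncomputable def mI (m' : ℕ × G → ℝ) (w : ℕ × G) (t : ED) : ℝ :=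
  L.eI w t + ∑ u ∈ L.cls, m' u * L.TI u w t

/-- End weights by out-digits. -/
noncomputable def yO (y : ℕ → ℝ) (u : ℕ × G) (s : ED) : ℝ :=
  L.fO u s + ∑ w ∈ L.cls, L.TO u w s * L.yb y w

theorem sum_mI (m' : ℕ × G → ℝ) (w : ℕ × G) (c : ED → ℝ) : ∑ t : ED, L.mI m' w t * c t =
    L.eb w * c 0 + ∑ u ∈ L.cls, m' u *
      ∑ o : Fin 3, L.T o u w * c (tOf o (L.vo u.1) (L.vi w.1)) := by
  simp only [mI, add_mul, sum_add_distrib, sum_eI, sum_mul, ← sum_TI, mul_sum, mul_assoc]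
  rw [sum_comm]

theorem sum_yO (y : ℕ → ℝ) (u : ℕ × G) (c : ED → ℝ) : ∑ s : ED, L.yO y u s * c s =
    L.fb u * c 0 + ∑ w ∈ L.cls,
      (∑ o : Fin 3, L.T o u w * c (sOf o (L.vo u.1) (L.vi w.1))) * L.yb y w := by
  simp only [yO, add_mul, sum_add_distrib, sum_fO, ← sum_TO]
  simp only [sum_mul]
  rw [sum_comm]
  congr 1
  exact sum_congr rfl fun w _ => sum_congr rfl fun s _ => by ring

variable {L} {N M K k : ℕ} {m y : ℕ → ℝ} {m' : ℕ × G → ℝ}

theorem sum_mI_one (hF : Flow L m y) (hm : Merge L m m') {w : ℕ × G} (hw : w ∈ L.cls) :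
    ∑ t : ED, L.mI m' w t = m' w := by
  have h := L.sum_mI m' w fun _ => 1
  simp only [mul_one] at h
  rw [h, ← mm_eq_T hF hm hw]

theorem sum_yO_one (hF : Flow L m y) (u : ℕ × G) : ∑ s : ED, L.yO y u s = L.yb y u := by
  have h := L.sum_yO y u fun _ => 1
  simp only [mul_one] at h
  rw [h, ← yb_eq_T hF u]

theorem TI_nonneg (h : Inv N M K k L) (u w : ℕ × G) (t : ED) : 0 ≤ L.TI u w t := by
  refine sum_nonneg fun o _ => ?_
  split_ifs
  exacts [T_nonneg h.S_nonneg o u w, le_rfl]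

theorem TO_nonneg (h : Inv N M K k L) (u w : ℕ × G) (s : ED) : 0 ≤ L.TO u w s := by
  refine sum_nonneg fun o _ => ?_
  split_ifs
  exacts [T_nonneg h.S_nonneg o u w, le_rfl]

theorem mI_nonneg (h : Inv N M K k L) (hF : Flow L m y) (hm : Merge L m m') (w : ℕ × G) (t : ED) :
    0 ≤ L.mI m' w t := by
  refine add_nonneg ?_ (sum_nonneg fun u hu => mul_nonneg (mm_nonneg hF hm hu) (TI_nonneg h u w t))
  unfold eI
  split_ifs
  exacts [eb_nonneg h w, le_rfl]

theorem yO_nonneg (h : Inv N M K k L) (hF : Flow L m y) (u : ℕ × G) (s : ED) :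
    0 ≤ L.yO y u s := by
  refine add_nonneg ?_ (sum_nonneg fun w _ => mul_nonneg (TO_nonneg h u w s) (yb_nonneg h hF w))
  unfold fO
  split_ifs
  exacts [fb_nonneg h u, le_rfl]

/-- The flows of the next level. -/
theorem flow_step (h : Inv N M K k L) (hF : Flow L m y) (hm : Merge L m m') (hc hr : ℕ → ℝ) :
    Flow (L.step hc hr) (L.upI (L.mI m')) (L.upO (L.yO y)) where
  m_nonneg x := by
    unfold upI
    split_ifs
    exacts [div_nonneg (mI_nonneg h hF hm _ _) (by positivity), le_rfl]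
  y_nonneg x := by
    unfold upO
    split_ifs
    exacts [div_nonneg (yO_nonneg h hF _ _) (by positivity), le_rfl]
  m_eq z _ := by
    change _ = _ + ∑ x ∈ range (L.n * 2 ^ a), _
    rw [sum_upI_S h.n_pos, step_e, ← upI_add]
    refine upI_congr (fun w t => ?_) z
    rw [mI]
    congr 1
    exact sum_congr rfl fun u hu => by rw [sum_mI_one hF hm hu]
  y_eq x _ := by
    change _ = _ + ∑ z ∈ range (L.n * 2 ^ a), _
    rw [sum_S_upO h.n_pos, step_f, ← upO_add]
    refine upO_congr (fun u s => ?_) x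
    simp only [sum_yO_one hF]
    rfl

theorem upI_mI_le (h : Inv N M K k L) (hF : Flow L m y) (hm : Merge L m m') (x : ℕ) :
    L.upI (L.mI m') x ≤ m (x % L.n) := by
  unfold upI
  split_ifs
  · have hu := cOf_mem h.n_pos x
    refine (div_le_self (mI_nonneg h hF hm _ _) (one_le_pow₀ one_le_two)).trans ?_
    refine (single_le_sum (fun t _ => mI_nonneg h hF hm _ t) (mem_univ _)).trans ?_
    rw [sum_mI_one hF hm hu]
    exact (hm.le _ hu).trans (ma_le hF _)
  · exact hF.m_nonneg _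

theorem upO_yO_le (h : Inv N M K k L) (hF : Flow L m y) (x : ℕ) :
    L.upO (L.yO y) x ≤ y (x % L.n) := by
  unfold upO
  split_ifs
  · have hu := cOf_mem h.n_pos x
    refine (div_le_self (yO_nonneg h hF _ _) (one_le_pow₀ one_le_two)).trans ?_
    refine (single_le_sum (fun t _ => yO_nonneg h hF _ t) (mem_univ _)).trans ?_
    rw [sum_yO_one hF]
    exact yb_le h hF hu
  · exact hF.y_nonneg _

theorem val_step (h : Inv N M K k L) (hF : Flow L m y) (hc hr : ℕ → ℝ) :
    (L.step hc hr).val (L.upO (L.yO y)) = L.val y := by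
  change ∑ x ∈ range (L.n * 2 ^ a), _ = _
  have h1 : ∀ u, ∑ t : ED, L.eI u t = L.eb u := fun u => by simp [eI]
  simp only [step_e, sum_upI_upO h.n_pos, sum_yO_one hF, h1]
  rw [sum_mul_yb hF L.eb fun _ _ _ => rfl, sum_cls, val]
  refine sum_congr rfl fun x _ => ?_
  have h2 : ∀ i o : Fin (B + 1), L.eb (x, i, o, true) * (L.ya y (x, i, o, true) / 2) +
      L.eb (x, i, o, false) * (L.ya y (x, i, o, false) / 2) =
      L.e x * y x * (L.inn (x, i, o, true) * L.out (x, i, o, true)) := by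
    intro i o
    simp only [eb, ya, inn, out]
    ring
  simp only [h2, ← mul_sum, sum_inn_mul_out, mul_one]

theorem sum_eb_Sb_fb : ∑ u ∈ L.cls, ∑ w ∈ L.cls, L.eb u * L.Sb u w * L.fb w = L.dir := by
  have h1 : ∀ w, ∑ u ∈ L.cls, L.eb u * L.Sb u w =
      ∑ x ∈ range L.n, L.e x * L.S x w.1 * L.inn w := by
    intro w
    rw [sum_cls]
    refine sum_congr rfl fun x _ => ?_
    have h : ∀ i o : Fin (B + 1), L.eb (x, i, o, true) * L.Sb (x, i, o, true) w +
        L.eb (x, i, o, false) * L.Sb (x, i, o, false) w =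
        L.e x * L.S x w.1 * L.inn w * (L.inn (x, i, o, true) * L.out (x, i, o, true)) := by
      intro i o
      have h1 : L.eb (x, i, o, false) = L.eb (x, i, o, true) := rfl
      rw [h1, ← mul_add, Sb_add, eb]
      ring
    simp only [h, ← mul_sum, sum_inn_mul_out, mul_one]
  rw [sum_comm]
  simp only [← sum_mul, h1]
  rw [dir, sum_comm, sum_cls]
  refine sum_congr rfl fun z _ => ?_
  have h2 : ∀ i o : Fin (B + 1),
      (∑ x ∈ range L.n, L.e x * L.S x z) * L.inn (z, i, o, true) * L.fb (z, i, o, true) +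
      (∑ x ∈ range L.n, L.e x * L.S x z) * L.inn (z, i, o, false) * L.fb (z, i, o, false) =
      (∑ x ∈ range L.n, L.e x * L.S x z) * L.f z *
        (L.inn (z, i, o, false) * L.out (z, i, o, false)) := by
    intro i o
    rw [L.fb_true rfl, fb, if_pos rfl]
    ring
  simp only [← sum_mul, h2, ← mul_sum, sum_inn_mul_out, mul_one]

theorem dir_step (hn : 0 < L.n) (hc hr : ℕ → ℝ) : (L.step hc hr).dir = L.dir + L.ans := by
  change ∑ x ∈ range (L.n * 2 ^ a), ∑ z ∈ range (L.n * 2 ^ a), _ = _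
  have h1 : ∀ u, ∑ t : ED, L.eI u t = L.eb u := fun u => by simp [eI]
  have h2 : ∀ u, ∑ t : ED, L.fO u t = L.fb u := fun u => by simp [fO]
  have h3 : ∀ u w, ∑ s : ED, L.TO u w s = L.Sb u w - L.Cm u w + L.Mg u w := fun u w => by
    have := L.sum_TO u w fun _ => 1
    simp only [mul_one] at this
    rw [this, sum_T]
  simp only [step_e, step_f, mul_assoc, ← mul_sum, sum_S_upO hn, sum_upI_upO hn, h1, h2]
  rw [← sum_eb_Sb_fb, ans, ← sum_add_distrib]
  refine sum_congr rfl fun u _ => ?_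
  rw [sum_comm, mul_sum, ← sum_add_distrib]
  refine sum_congr rfl fun w _ => ?_
  rw [← sum_mul, h3]
  by_cases h : L.Cm u w = 0
  · rw [h]
    ring
  · rw [L.fb_true (L.Cm_true h).2]
    ring

theorem sum_upO_le (h : Inv N M K k L) (hF : Flow L m y) (hc : ∀ x < L.n, 0 ≤ L.hc x) :
    ∑ x ∈ range (L.n * 2 ^ a), L.upO (L.yO y) x ≤
      Fintype.card ED * ∑ x ∈ range L.n, y x * (3 + 8 * L.hc x) := by
  have h1 : ∀ x, L.upO (L.yO y) x = L.upI (fun u _ => 2 ^ (u.2.1 : ℕ)) x * L.upO (L.yO y) x := by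
    intro x
    simp only [upI, upO]
    split_ifs <;> simp
  rw [sum_congr rfl fun x _ => h1 x, sum_upI_upO h.n_pos]
  simp only [sum_yO_one hF, sum_const, card_univ, nsmul_eq_mul]
  rw [sum_mul_yb hF (fun u => (Fintype.card ED : ℝ) * 2 ^ (u.2.1 : ℕ)) fun _ _ _ => rfl, sum_cls,
    mul_sum]
  refine sum_le_sum fun x hx => ?_
  have h2 : ∀ i o : Fin (B + 1),
      (Fintype.card ED : ℝ) * 2 ^ (i : ℕ) * (L.ya y (x, i, o, true) / 2) +
      (Fintype.card ED : ℝ) * 2 ^ (i : ℕ) * (L.ya y (x, i, o, false) / 2) =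
      Fintype.card ED * (y x * (2 ^ (i : ℕ) * zeta i (L.hc x) * chi o (L.hr x))) := by
    intro i o
    simp only [ya, out]
    ring
  simp only [h2, ← mul_sum, sum_chi, mul_one]
  exact mul_le_mul_of_nonneg_left (mul_le_mul_of_nonneg_left (sum_zeta (hc x (mem_range.1 hx)))
    (hF.y_nonneg x)) (Nat.cast_nonneg _)

theorem sum_upI_le (h : Inv N M K k L) (hF : Flow L m y) (hm : Merge L m m')
    (hr : ∀ x < L.n, 0 ≤ L.hr x) :
    ∑ x ∈ range (L.n * 2 ^ a), L.upI (L.mI m') x ≤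
      2 * Fintype.card ED * ∑ x ∈ range L.n, m x * (3 + 8 * L.hr x) := by
  have h1 : ∀ x, L.upI (L.mI m') x =
      L.upI (L.mI m') x * L.upO (fun u _ => 2 ^ (u.2.2.1 : ℕ)) x := by
    intro x
    simp only [upI, upO]
    split_ifs <;> simp
  rw [sum_congr rfl fun x _ => h1 x, sum_upI_upO h.n_pos]
  simp only [sum_const, card_univ, nsmul_eq_mul]
  have h3 : ∑ u ∈ L.cls, (∑ t : ED, L.mI m' u t) * ((Fintype.card ED : ℝ) * 2 ^ (u.2.2.1 : ℕ)) ≤
      ∑ u ∈ L.cls, L.ma m u * ((Fintype.card ED : ℝ) * 2 ^ (u.2.2.1 : ℕ)) := by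
    refine sum_le_sum fun u hu => ?_
    rw [sum_mI_one hF hm hu]
    exact mul_le_mul_of_nonneg_right (hm.le u hu) (by positivity)
  refine h3.trans ?_
  rw [sum_cls, mul_sum]
  refine sum_le_sum fun x hx => ?_
  have h2 : ∀ i o : Fin (B + 1),
      L.ma m (x, i, o, true) * ((Fintype.card ED : ℝ) * 2 ^ (o : ℕ)) +
      L.ma m (x, i, o, false) * ((Fintype.card ED : ℝ) * 2 ^ (o : ℕ)) =
      2 * Fintype.card ED * (m x * (chi i (L.hc x) * (2 ^ (o : ℕ) * zeta o (L.hr x)))) := by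
    intro i o
    simp only [ma, inn]
    ring
  simp only [h2, ← mul_sum, ← sum_mul, sum_chi, one_mul]
  exact mul_le_mul_of_nonneg_left (mul_le_mul_of_nonneg_left (sum_zeta (hr x (mem_range.1 hx)))
    (hF.m_nonneg x)) (by positivity)

end Lv

end Vale.Agent.P313.Hi
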