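import Vale.Agent.P313.Full.HiNext

/-! The ideal hierarchy of chains: the potential drops by a constant factor in every stage. -/

namespace Vale.Agent.P313.Hi

open Finset

namespace Lv

variable {L : Lv} {N M K k : ℕ} {m y : ℕ → ℝ} {m' : ℕ × G → ℝ}

theorem wgt_nonneg (x : ℕ) : 0 ≤ L.wgt N M x := by
  unfold wgt
  split_ifs
  exacts [le_rfl, by positivity]

theorem wgt_le_one (x : ℕ) : L.wgt N M x ≤ 1 := by
  unfold wgt
  split_ifs
  exacts [zero_le_one, pow_le_one₀ (by norm_num) (by norm_num)]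

theorem of_wgt {x : ℕ} (h : L.wgt N M x ≠ 0) : x % M ≠ 0 ∧ x % M ≠ N - 1 := by
  by_contra hc
  exact h (if_pos (by tauto))

theorem pot_eq (hF : Flow L m y) :
    L.pot N M m y = ∑ u ∈ L.cls, L.wgt N M u.1 * (L.ma m u * L.yb y u) := by
  simp only [← mul_assoc]
  rw [sum_mul_yb hF (fun u => L.wgt N M u.1 * L.ma m u) fun _ _ _ => rfl, sum_cls, pot]
  refine sum_congr rfl fun x _ => ?_
  have h2 : ∀ i o : Fin (B + 1),
      L.wgt N M x * L.ma m (x, i, o, true) * (L.ya y (x, i, o, true) / 2) +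
      L.wgt N M x * L.ma m (x, i, o, false) * (L.ya y (x, i, o, false) / 2) =
      L.wgt N M x * (m x * y x) * (L.inn (x, i, o, true) * L.out (x, i, o, true)) := by
    intro i o
    simp only [ma, ya, inn, out]
    ring
  simp only [h2, ← mul_sum, sum_inn_mul_out, mul_one]

theorem pot_step_eq (h : Inv N M K k L) (hc hr : ℕ → ℝ) (X Y : ℕ × G → ED → ℝ) :
    (L.step hc hr).pot N M (L.upI X) (L.upO Y) = ∑ u ∈ L.cls, L.wgt N M u.1 *
      ((∑ t : ED, X u t * (1 / 2) ^ (t.2.1 : ℕ)) * ∑ s : ED, Y u s * (1 / 2) ^ (s.2.1 : ℕ)) := by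
  change ∑ x ∈ range (L.n * 2 ^ a), _ = _
  have h1 : ∀ x, (L.step hc hr).wgt N M x * (L.upI X x * L.upO Y x) =
      L.upI (fun u t => L.wgt N M u.1 * (X u t * (1 / 2) ^ (t.2.1 : ℕ))) x *
        L.upO (fun u s => Y u s * (1 / 2) ^ (s.2.1 : ℕ)) x := by
    intro x
    simp only [upI, upO, wgt, cOf, step, View.upd, Nat.mod_mod_of_dvd x h.dvd]
    split_ifs
    · simp
    · simp
    · simp only [pow_add]
      ring
    · simp
  simp only [h1, sum_upI_upO h.n_pos, ← mul_sum, mul_assoc]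

theorem sum_T_half (h : Inv N M K k L) (u w : ℕ × G) (c : Fin 3 → ℕ) (hc : 1 ≤ c 0) :
    ∑ o : Fin 3, L.T o u w * (1 / 2) ^ c o ≤ ∑ o : Fin 3, L.T o u w - L.Nb u w / 2 := by
  have h1 : ∀ o, L.T o u w * (1 / 2) ^ c o ≤ L.T o u w := fun o =>
    mul_le_of_le_one_right (T_nonneg h.S_nonneg o u w) (pow_le_one₀ (by norm_num) (by norm_num))
  have h2 : L.T 0 u w * (1 / 2) ^ c 0 ≤ L.T 0 u w * (1 / 2) ^ 1 :=
    mul_le_mul_of_nonneg_left (pow_le_pow_of_le_one (by norm_num) (by norm_num) hc)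
      (T_nonneg h.S_nonneg 0 u w)
  have h3 : L.T 0 u w = L.Nb u w := if_pos rfl
  simp only [Fin.sum_univ_three]
  linarith [h1 1, h1 2]

theorem mw_le (h : Inv N M K k L) (hF : Flow L m y) (hm : Merge L m m') {w : ℕ × G}
    (hw : w ∈ L.cls) : ∑ t : ED, L.mI m' w t * (1 / 2) ^ (t.2.1 : ℕ) ≤
      m' w - ∑ u ∈ L.cls, m' u * (L.Nb u w / 2) := by
  rw [sum_mI, mm_eq_T hF hm hw, add_sub_assoc, ← sum_sub_distrib]
  refine add_le_add (le_of_eq (by simp)) (sum_le_sum fun u hu => ?_)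
  rw [← mul_sub]
  exact mul_le_mul_of_nonneg_left (sum_T_half h u w (fun o => dm o (L.vi w.1) (L.vo u.1))
    (by rw [dm_zero]; omega)) (mm_nonneg hF hm hu)

theorem yw_le (h : Inv N M K k L) (hF : Flow L m y) (u : ℕ × G) :
    ∑ s : ED, L.yO y u s * (1 / 2) ^ (s.2.1 : ℕ) ≤
      L.yb y u - ∑ w ∈ L.cls, L.Nb u w / 2 * L.yb y w := by
  rw [sum_yO, yb_eq_T hF u, add_sub_assoc, ← sum_sub_distrib]
  refine add_le_add (le_of_eq (by simp)) (sum_le_sum fun w _ => ?_)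
  rw [← sub_mul]
  exact mul_le_mul_of_nonneg_right (sum_T_half h u w (fun o => dm o (L.vo u.1) (L.vi w.1))
    (by rw [dm_zero]; omega)) (yb_nonneg h hF w)

open Classical in
/-- Free incoming mass that does not approve the elimination. -/
noncomputable def A0 (L : Lv) (m : ℕ → ℝ) (w : ℕ × G) : ℝ :=
  ∑ u ∈ L.cls, if L.P1 u.1 w.1 then 0 else L.ma m u * L.Fb u w

open Classical in
/-- Free outgoing mass that does not approve the elimination. -/
noncomputable def B0 (L : Lv) (y : ℕ → ℝ) (u : ℕ × G) : ℝ :=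
  ∑ w ∈ L.cls, if L.P2 u.1 w.1 then 0 else L.Fb u w * L.yb y w

theorem pot_term (h : Inv N M K k L) (hF : Flow L m y) (hm : Merge L m m') {u : ℕ × G}
    (hu : u ∈ L.cls) (hw : L.wgt N M u.1 ≠ 0) :
    (∑ t : ED, L.mI m' u t * (1 / 2) ^ (t.2.1 : ℕ)) * ∑ s : ED, L.yO y u s * (1 / 2) ^ (s.2.1 : ℕ) ≤
      L.ma m u * L.yb y u -
        3 / 16 * (L.ma m u * L.yb y u - L.A0 m u * L.yb y u - L.ma m u * L.B0 y u) := by
  classical
  have hS := h.S_nonneg
  have he : L.eb u = 0 := by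
    have : L.e u.1 = 0 := by
      by_contra hc
      exact (of_wgt hw).1 (h.e_supp _ hc)
    rw [eb, this, zero_mul]
  have hf : L.fb u = 0 := by
    have : L.f u.1 = 0 := by
      by_contra hc
      exact (of_wgt hw).2 (h.f_supp _ hc)
    simp [fb, this]
  have h1 := mw_le h hF hm hu
  have h2 := yw_le h hF u
  have h3 : 0 ≤ ∑ t : ED, L.mI m' u t * (1 / 2) ^ (t.2.1 : ℕ) :=
    sum_nonneg fun t _ => mul_nonneg (mI_nonneg h hF hm u t) (by positivity)
  have h4 : 0 ≤ ∑ s : ED, L.yO y u s * (1 / 2) ^ (s.2.1 : ℕ) :=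
    sum_nonneg fun s _ => mul_nonneg (yO_nonneg h hF u s) (by positivity)
  have h5 : 0 ≤ ∑ v ∈ L.cls, m' v * (L.Nb v u / 2) := sum_nonneg fun v hv =>
    mul_nonneg (mm_nonneg hF hm hv) (by linarith [Nb_nonneg hS v u])
  have h6 : 0 ≤ ∑ w ∈ L.cls, L.Nb u w / 2 * L.yb y w := sum_nonneg fun w _ =>
    mul_nonneg (by linarith [Nb_nonneg hS u w]) (yb_nonneg h hF w)
  have h7 : 0 ≤ L.A0 m u := sum_nonneg fun v _ => by
    split_ifs
    exacts [le_rfl, mul_nonneg (ma_nonneg hF v) (Fb_nonneg hS v u)]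
  have h8 : 0 ≤ L.B0 y u := sum_nonneg fun w _ => by
    split_ifs
    exacts [le_rfl, mul_nonneg (Fb_nonneg hS u w) (yb_nonneg h hF w)]
  have h9 := ma_nonneg hF u
  have h10 := yb_nonneg h hF u
  generalize ∑ t : ED, L.mI m' u t * (1 / 2) ^ (t.2.1 : ℕ) = p at h1 h3 ⊢
  generalize ∑ s : ED, L.yO y u s * (1 / 2) ^ (s.2.1 : ℕ) = q at h2 h4 ⊢
  rcases hb : u.2.2.2 with _ | _
  · have h11 : L.yb y u - L.B0 y u = 2 * ∑ w ∈ L.cls, L.Nb u w / 2 * L.yb y w := by
      rw [yb_eq hF u, hf, zero_add, B0, ← sum_sub_distrib, mul_sum]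
      refine sum_congr rfl fun w _ => ?_
      rw [Sb]
      split_ifs with h2
      · have : L.Fb u w = 0 := if_neg (by simp [hb, h2])
        rw [this]
        ring
      · ring
    have h12 : p ≤ L.ma m u := by linarith [hm.le u hu]
    have h13 : p * q ≤ L.ma m u * q := mul_le_mul_of_nonneg_right h12 h4
    have h14 : L.ma m u * q ≤ L.ma m u * (L.yb y u - 3 / 16 * (L.yb y u - L.B0 y u)) :=
      mul_le_mul_of_nonneg_left (by linarith) h9
    nlinarith [mul_nonneg h7 h10]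
  · have h11 : 3 / 16 * (L.ma m u - L.A0 m u) ≤
        ∑ v ∈ L.cls, m' v * L.Cm v u + ∑ v ∈ L.cls, m' v * (L.Nb v u / 2) := by
      rw [ma_eq hF hu, he, zero_add, A0, ← sum_sub_distrib, mul_sum, ← sum_add_distrib]
      refine sum_le_sum fun v hv => ?_
      have h12 := mul_le_mul_of_nonneg_right (hm.ge v hv) (Fb_nonneg hS v u)
      have h13 := mul_le_mul_of_nonneg_right (hm.ge v hv) (Nb_nonneg hS v u)
      have h14 := mul_nonneg (ma_nonneg hF v) (Nb_nonneg hS v u)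
      rw [Sb, Cm]
      by_cases h2 : L.P1 v.1 u.1
      · rw [if_pos h2, if_pos ⟨h2, hb⟩]
        nlinarith
      · rw [if_neg h2, if_neg fun hc => h2 hc.1]
        nlinarith
    have h12 : p ≤ L.ma m u - 3 / 16 * (L.ma m u - L.A0 m u) := by linarith [hm.eq u hu]
    have h13 : p * q ≤ p * L.yb y u := mul_le_mul_of_nonneg_left (by linarith) h3
    have h14 := mul_le_mul_of_nonneg_right h12 h10
    nlinarith [mul_nonneg h9 h8]

theorem half_pow_le {p q : ℕ} (h : p + 3 ≤ q) : (1 / 2 : ℝ) ^ q ≤ (1 / 2) ^ p / 8 := by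
  refine (pow_le_pow_of_le_one (by norm_num) (by norm_num) h).trans (le_of_eq ?_)
  rw [pow_add]
  ring

theorem wgt_le_of_P1 (h : Inv N M K k L) (hk : k ≤ K) (hF : Flow L m y) {v u : ℕ × G}
    (hu : u ∈ L.cls) (h1 : ¬ L.P1 v.1 u.1) (h2 : L.Fb v u ≠ 0) (h3 : L.yb y u ≠ 0) :
    L.wgt N M u.1 ≤ L.wgt N M v.1 / 8 := by
  by_cases hw : L.wgt N M u.1 = 0
  · rw [hw]
    linarith [wgt_nonneg (L := L) (N := N) (M := M) v.1]
  have h4 := free_of_Fb h2
  have h5 := ((h.sy _ _ h4.S).1 h4.wt).2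
  have h6 := h.dag _ _ h4.S
  have h7 : (L.vo u.1).lam ≤ k := by
    have h8 : y u.1 ≠ 0 := fun h0 =>
      h3 (le_antisymm ((yb_le h hF hu).trans h0.le) (yb_nonneg h hF u))
    have h9 : L.f u.1 = 0 := by
      by_contra hc
      exact (of_wgt hw).2 (h.f_supp _ hc)
    rw [hF.y_eq _ (L.mem_cls.1 hu), h9, zero_add] at h8
    obtain ⟨z, -, hz⟩ := exists_ne_zero_of_sum_ne_zero h8
    exact (le_max_left _ _).trans (h.lam_le _ _ (left_ne_zero_of_mul hz))
  unfold P1 at h1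
  have h10 : ¬ (v.1 % M = 0 ∨ v.1 % M = N - 1) := by
    rintro (h0 | h0)
    · have := h.bot _ h0
      omega
    · omega
  rw [wgt, wgt, if_neg h10, if_neg (not_or.2 (of_wgt hw))]
  exact half_pow_le (by omega)

theorem wgt_le_of_P2 (h : Inv N M K k L) (hk : k ≤ K) (hF : Flow L m y) {u w : ℕ × G}
    (hu : u ∈ L.cls) (h1 : ¬ L.P2 u.1 w.1) (h2 : L.Fb u w ≠ 0) (h3 : L.ma m u ≠ 0) :
    L.wgt N M u.1 ≤ L.wgt N M w.1 / 8 := by
  by_cases hw : L.wgt N M u.1 = 0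
  · rw [hw]
    linarith [wgt_nonneg (L := L) (N := N) (M := M) w.1]
  have h4 := free_of_Fb h2
  have h5 := ((h.sy _ _ h4.S).1 h4.wt).2
  have h6 := h.dag _ _ h4.S
  have h7 : (L.vi u.1).lam ≤ k := by
    have h8 : m u.1 ≠ 0 := left_ne_zero_of_mul h3
    have h9 : L.e u.1 = 0 := by
      by_contra hc
      exact (of_wgt hw).1 (h.e_supp _ hc)
    rw [hF.m_eq _ (L.mem_cls.1 hu), h9, zero_add] at h8
    obtain ⟨z, -, hz⟩ := exists_ne_zero_of_sum_ne_zero h8
    exact (le_max_right _ _).trans (h.lam_le _ _ (right_ne_zero_of_mul hz))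
  unfold P2 at h1
  have h10 : ¬ (w.1 % M = 0 ∨ w.1 % M = N - 1) := by
    rintro (h0 | h0)
    · omega
    · have := h.top _ h0
      omega
  rw [wgt, wgt, if_neg h10, if_neg (not_or.2 (of_wgt hw))]
  exact half_pow_le (by omega)

theorem sum_A0_le (h : Inv N M K k L) (hk : k ≤ K) (hF : Flow L m y) :
    ∑ u ∈ L.cls, L.wgt N M u.1 * (L.A0 m u * L.yb y u) ≤ L.pot N M m y / 8 := by
  classical
  have hS := h.S_nonneg
  rw [pot_eq hF, sum_div]
  simp only [A0, sum_mul, mul_sum]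
  rw [sum_comm]
  refine sum_le_sum fun v _ => ?_
  have h1 : L.wgt N M v.1 * (L.ma m v * L.yb y v) / 8 = L.wgt N M v.1 / 8 * L.ma m v * L.fb v +
      ∑ u ∈ L.cls, L.wgt N M v.1 / 8 * (L.ma m v * L.Sb v u * L.yb y u) := by
    rw [yb_eq hF v]
    simp only [mul_add, add_div, mul_sum, sum_div]
    congr 1
    · ring
    · exact sum_congr rfl fun u _ => by ring
  have h2 : 0 ≤ L.wgt N M v.1 / 8 := by linarith [wgt_nonneg (L := L) (N := N) (M := M) v.1]
  rw [h1]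
  refine le_add_of_nonneg_of_le (mul_nonneg (mul_nonneg h2 (ma_nonneg hF v)) (fb_nonneg h v))
    (sum_le_sum fun u hu => ?_)
  have h3 : 0 ≤ L.ma m v * L.Fb v u * L.yb y u :=
    mul_nonneg (mul_nonneg (ma_nonneg hF v) (Fb_nonneg hS v u)) (yb_nonneg h hF u)
  have h4 : L.ma m v * L.Fb v u * L.yb y u ≤ L.ma m v * L.Sb v u * L.yb y u :=
    mul_le_mul_of_nonneg_right (mul_le_mul_of_nonneg_left
      (le_add_of_nonneg_right (Nb_nonneg hS v u)) (ma_nonneg hF v)) (yb_nonneg h hF u)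
  split_ifs with h5
  · rw [zero_mul, mul_zero]
    exact mul_nonneg h2 (h3.trans h4)
  · by_cases h6 : L.ma m v * L.Fb v u * L.yb y u = 0
    · rw [h6, mul_zero]
      exact mul_nonneg h2 (h3.trans h4)
    · exact mul_le_mul (wgt_le_of_P1 h hk hF hu h5
        (right_ne_zero_of_mul (left_ne_zero_of_mul h6)) (right_ne_zero_of_mul h6)) h4 h3 h2

theorem sum_B0_le (h : Inv N M K k L) (hk : k ≤ K) (hF : Flow L m y) :
    ∑ u ∈ L.cls, L.wgt N M u.1 * (L.ma m u * L.B0 y u) ≤ L.pot N M m y / 8 := by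
  classical
  have hS := h.S_nonneg
  rw [pot_eq hF, sum_div]
  simp only [B0, mul_sum]
  rw [sum_comm]
  refine sum_le_sum fun w hw => ?_
  have h1 : L.wgt N M w.1 * (L.ma m w * L.yb y w) / 8 = L.wgt N M w.1 / 8 * L.eb w * L.yb y w +
      ∑ u ∈ L.cls, L.wgt N M w.1 / 8 * (L.ma m u * (L.Sb u w * L.yb y w)) := by
    rw [ma_eq hF hw]
    simp only [mul_add, add_mul, add_div, mul_sum, sum_mul, sum_div]
    congr 1
    · ring
    · exact sum_congr rfl fun u _ => by ring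
  have h2 : 0 ≤ L.wgt N M w.1 / 8 := by linarith [wgt_nonneg (L := L) (N := N) (M := M) w.1]
  rw [h1]
  refine le_add_of_nonneg_of_le (mul_nonneg (mul_nonneg h2 (eb_nonneg h w)) (yb_nonneg h hF w))
    (sum_le_sum fun u hu => ?_)
  have h3 : 0 ≤ L.ma m u * (L.Fb u w * L.yb y w) :=
    mul_nonneg (ma_nonneg hF u) (mul_nonneg (Fb_nonneg hS u w) (yb_nonneg h hF w))
  have h4 : L.ma m u * (L.Fb u w * L.yb y w) ≤ L.ma m u * (L.Sb u w * L.yb y w) :=
    mul_le_mul_of_nonneg_left (mul_le_mul_of_nonneg_right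
      (le_add_of_nonneg_right (Nb_nonneg hS u w)) (yb_nonneg h hF w)) (ma_nonneg hF u)
  split_ifs with h5
  · rw [mul_zero, mul_zero]
    exact mul_nonneg h2 (h3.trans h4)
  · by_cases h6 : L.ma m u * (L.Fb u w * L.yb y w) = 0
    · rw [h6, mul_zero]
      exact mul_nonneg h2 (h3.trans h4)
    · exact mul_le_mul (wgt_le_of_P2 h hk hF hu h5
        (left_ne_zero_of_mul (right_ne_zero_of_mul h6)) (left_ne_zero_of_mul h6)) h4 h3 h2

/-- The potential drops. -/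
theorem pot_step (h : Inv N M K k L) (hk : k ≤ K) (hF : Flow L m y) (hm : Merge L m m')
    (hc hr : ℕ → ℝ) :
    (L.step hc hr).pot N M (L.upI (L.mI m')) (L.upO (L.yO y)) ≤ 55 / 64 * L.pot N M m y := by
  rw [pot_step_eq h]
  have h1 := sum_A0_le h hk hF
  have h2 := sum_B0_le h hk hF
  have h3 := pot_eq (N := N) (M := M) hF
  refine (sum_le_sum (g := fun u => L.wgt N M u.1 * (L.ma m u * L.yb y u -
    3 / 16 * (L.ma m u * L.yb y u - L.A0 m u * L.yb y u - L.ma m u * L.B0 y u)))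
    fun u hu => ?_).trans ?_
  · by_cases hw : L.wgt N M u.1 = 0
    · rw [hw, zero_mul, zero_mul]
    · exact mul_le_mul_of_nonneg_left (pot_term h hF hm hu hw) (wgt_nonneg _)
  · have h4 : ∀ u : ℕ × G, L.wgt N M u.1 * (L.ma m u * L.yb y u -
        3 / 16 * (L.ma m u * L.yb y u - L.A0 m u * L.yb y u - L.ma m u * L.B0 y u)) =
        13 / 16 * (L.wgt N M u.1 * (L.ma m u * L.yb y u)) +
        3 / 16 * (L.wgt N M u.1 * (L.A0 m u * L.yb y u)) +
        3 / 16 * (L.wgt N M u.1 * (L.ma m u * L.B0 y u)) := fun u => by ring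
    simp only [h4, sum_add_distrib, ← mul_sum]
    linarith

end Lv

end Vale.Agent.P313.Hi
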