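import Vale.Agent.P313.Full.Norm4

/-!
Walks on a register of the state (a lens), in the mixed norm.
-/

namespace Vale.Agent.P313.Full

open Finset

variable {σ τ : Type}

/-! ### One fibre -/

section fibre

variable {m : ℕ}

theorem H_congr (n : ℕ) {f f' : ℕ → ℝ} (h : ∀ v < m * m, f v = f' v) {v : ℕ} (hv : v < m * m) :
    Mix.H m n f v = Mix.H m n f' v := by
  rw [Mix.H, Mix.H, sum_congr rfl fun w _ => h _ (Mix.walk_lt n w hv)]

theorem J_congr {f f' : ℕ → ℝ} (h : ∀ v < m * m, f v = f' v) : Mix.J m f = Mix.J m f' := by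
  rw [Mix.J, Mix.J, sum_congr rfl fun v hv => h _ (mem_range.1 hv)]

theorem H_add_fun (n : ℕ) (f f' : ℕ → ℝ) (v : ℕ) :
    Mix.H m n (fun u => f u + f' u) v = Mix.H m n f v + Mix.H m n f' v := by
  simp only [Mix.H, sum_add_distrib, add_div]

theorem J_add_fun (f f' : ℕ → ℝ) : Mix.J m (fun u => f u + f' u) = Mix.J m f + Mix.J m f' := by
  simp only [Mix.J, sum_add_distrib, add_div]

theorem integral_cut {a x M : ℝ} (ha : 0 < a) (hx : 0 ≤ x) (hM : a * x ≤ M) :
    ∫ s in (0 : ℝ)..M, s * max (x - s / a) 0 ^ 2 = a ^ 2 * x ^ 4 / 12 := by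
  have hc : Continuous fun s : ℝ => s * max (x - s / a) 0 ^ 2 := by fun_prop
  have hax : 0 ≤ a * x := by positivity
  rw [← intervalIntegral.integral_add_adjacent_intervals (b := a * x)
    (hc.intervalIntegrable _ _) (hc.intervalIntegrable _ _)]
  have h1 : ∫ s in (0 : ℝ)..a * x, s * max (x - s / a) 0 ^ 2 =
      ∫ s in (0 : ℝ)..a * x, (x ^ 2 * s ^ 1 - 2 * x / a * s ^ 2 + 1 / a ^ 2 * s ^ 3) := by
    refine intervalIntegral.integral_congr fun s hs => ?_
    rw [Set.uIcc_of_le hax] at hs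
    have : s / a ≤ x := by rw [div_le_iff₀ ha]; linarith [hs.2]
    rw [max_eq_left (by linarith)]
    field_simp
    ring
  have h2 : ∫ s in a * x..M, s * max (x - s / a) 0 ^ 2 = ∫ _ in a * x..M, (0 : ℝ) := by
    refine intervalIntegral.integral_congr fun s hs => ?_
    rw [Set.uIcc_of_le hM] at hs
    have : x ≤ s / a := by rw [le_div_iff₀ ha]; linarith [hs.1]
    rw [max_eq_right (by linarith)]
    ring
  have i : ∀ (c : ℝ) (n : ℕ), IntervalIntegrable (fun s : ℝ => c * s ^ n) MeasureTheory.volume 0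
      (a * x) := fun c n => (by fun_prop : Continuous fun s : ℝ => c * s ^ n).intervalIntegrable _ _
  rw [h1, h2, intervalIntegral.integral_add ((i _ _).sub (i _ _)) (i _ _),
    intervalIntegral.integral_sub (i _ _) (i _ _)]
  simp only [intervalIntegral.integral_const_mul, integral_pow, intervalIntegral.integral_zero]
  field_simp
  ring

/-- From the weak bounds at all heights to the bound for the fourth powers. -/
theorem four_of_cut (V : Finset σ) (x y : σ → ℝ) (hx : ∀ v, 0 ≤ x v) (hy : ∀ v, 0 ≤ y v) {c : ℝ}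
    (h : ∀ s, 0 ≤ s → ∑ v ∈ V, max (x v - s / 2) 0 ^ 2 ≤ c * ∑ v ∈ V, max (y v - s / 4) 0 ^ 2) :
    ∑ v ∈ V, x v ^ 4 ≤ 4 * c * ∑ v ∈ V, y v ^ 4 := by
  set M : ℝ := ∑ v ∈ V, (2 * x v + 4 * y v)
  have hM : ∀ v ∈ V, 2 * x v + 4 * y v ≤ M := fun v hv =>
    single_le_sum (f := fun v => 2 * x v + 4 * y v) (fun u _ => by linarith [hx u, hy u]) hv
  have hM0 : 0 ≤ M := sum_nonneg fun u _ => by linarith [hx u, hy u]
  have i : ∀ a z : ℝ, IntervalIntegrable (fun s : ℝ => s * max (z - s / a) 0 ^ 2)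
      MeasureTheory.volume 0 M := fun a z =>
    (by fun_prop : Continuous fun s : ℝ => s * max (z - s / a) 0 ^ 2).intervalIntegrable _ _
  have h1 := intervalIntegral.integral_mono_on (μ := MeasureTheory.volume) hM0
    (f := fun s => ∑ v ∈ V, s * max (x v - s / 2) 0 ^ 2)
    (g := fun s => c * ∑ v ∈ V, s * max (y v - s / 4) 0 ^ 2)
    (Continuous.intervalIntegrable (by fun_prop) _ _)
    (Continuous.intervalIntegrable (by fun_prop) _ _) fun s hs => by
      simp only [← mul_sum]
      rw [mul_left_comm]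
      exact mul_le_mul_of_nonneg_left (h s hs.1) hs.1
  rw [intervalIntegral.integral_const_mul, intervalIntegral.integral_finsetSum fun v _ => i _ _,
    intervalIntegral.integral_finsetSum fun v _ => i _ _,
    sum_congr rfl fun v hv => integral_cut (a := 2) two_pos (hx v) (by linarith [hM v hv, hy v]),
    sum_congr rfl fun v hv =>
      integral_cut (a := 4) four_pos (hy v) (by linarith [hM v hv, hx v])] at h1
  simp only [← sum_div, ← mul_sum] at h1
  linarith

theorem sum_ms (V : Finset σ) (T : Finset τ) (G : σ → τ → ℝ) :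
    ∑ v ∈ V, ms T (G v) = (∑ t ∈ T, ∑ v ∈ V, G v t ^ 2) / T.card := by
  simp only [ms, ← sum_div]
  rw [sum_comm]

/-- The mixing bound for functions with values in a Euclidean space. -/
theorem fibre_mix (i : ℕ) (T : Finset τ) (G : ℕ → τ → ℝ) :
    ∑ v ∈ range (m * m),
      ms T (fun t => Mix.H m (Mix.t0 * i) (fun u => G u t) v - Mix.J m fun u => G u t) ^ 2 ≤
        4 * (1 / 4) ^ i * ∑ v ∈ range (m * m), ms T (G v) ^ 2 := by
  have e : ∀ x : τ → ℝ, ms T x ^ 2 = √(ms T x) ^ 4 := fun x => by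
    rw [show 4 = 2 * 2 from rfl, pow_mul, Real.sq_sqrt (ms_nonneg _ _)]
  simp only [e]
  refine four_of_cut _ _ (fun v => √(ms T (G v))) (fun _ => Real.sqrt_nonneg _)
    (fun _ => Real.sqrt_nonneg _) fun s hs => ?_
  obtain ⟨c, hc1, hc2⟩ : ∃ c : ℕ → ℝ, (∀ u, |c u| * √(ms T (G u)) = max (√(ms T (G u)) - s / 4) 0) ∧
      ∀ u, |1 - c u| * √(ms T (G u)) ≤ s / 4 := by
    refine ⟨fun u => if √(ms T (G u)) ≤ s / 4 then 0 else 1 - s / 4 / √(ms T (G u)),
      fun u => ?_, fun u => ?_⟩ <;> dsimp only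
    · split_ifs with h
      · rw [max_eq_right (by linarith), abs_zero, zero_mul]
      · have h0 : 0 < √(ms T (G u)) := by linarith
        rw [max_eq_left (by linarith), abs_of_nonneg (by
          rw [sub_nonneg, div_le_one h0]; linarith), sub_mul, div_mul_cancel₀ _ h0.ne', one_mul]
    · split_ifs with h
      · simpa using h
      · have h0 : 0 < √(ms T (G u)) := by linarith
        rw [sub_sub_cancel, abs_of_nonneg (by positivity), div_mul_cancel₀ _ h0.ne']
  have h1 : ∀ v ∈ range (m * m), max (√(ms T fun t =>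
      Mix.H m (Mix.t0 * i) (fun u => G u t) v - Mix.J m fun u => G u t) - s / 2) 0 ^ 2 ≤
        ms T fun t => Mix.H m (Mix.t0 * i) (fun u => c u * G u t) v -
          Mix.J m fun u => c u * G u t := by
    intro v hv
    rw [← Real.sq_sqrt (ms_nonneg T fun t => Mix.H m (Mix.t0 * i) (fun u => c u * G u t) v -
      Mix.J m fun u => c u * G u t)]
    refine pow_le_pow_left₀ (le_max_right _ _) (max_le ?_ (Real.sqrt_nonneg _)) 2
    have hl : ∀ u, √(ms T fun t => (1 - c u) * G u t) ≤ s / 4 := fun u => by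
      rw [sqrt_ms_smul]; exact hc2 u
    have a1 := sqrt_ms_avg_le T (range (4 ^ (Mix.t0 * i)))
      (fun w t => (1 - c (Mix.walk m (Mix.t0 * i) w v)) * G (Mix.walk m (Mix.t0 * i) w v) t)
      (by positivity) fun w _ => hl _
    have a2 := sqrt_ms_avg_le T (range (m * m)) (fun u t => (1 - c u) * G u t) (by positivity)
      fun u _ => hl u
    have a3 := sqrt_ms_smul T (-1) fun t => Mix.J m fun u => (1 - c u) * G u t
    have a4 := sqrt_ms_add_le T (fun t => Mix.H m (Mix.t0 * i) (fun u => (1 - c u) * G u t) v)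
      fun t => -1 * Mix.J m fun u => (1 - c u) * G u t
    have a5 := sqrt_ms_add_le T (fun t => Mix.H m (Mix.t0 * i) (fun u => c u * G u t) v -
        Mix.J m fun u => c u * G u t) fun t =>
      Mix.H m (Mix.t0 * i) (fun u => (1 - c u) * G u t) v + -1 * Mix.J m fun u => (1 - c u) * G u t
    have e1 : ∀ t, (Mix.H m (Mix.t0 * i) (fun u => G u t) v - Mix.J m fun u => G u t) =
        (Mix.H m (Mix.t0 * i) (fun u => c u * G u t) v - Mix.J m fun u => c u * G u t) +
        (Mix.H m (Mix.t0 * i) (fun u => (1 - c u) * G u t) v +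
          -1 * Mix.J m fun u => (1 - c u) * G u t) := fun t => by
      have : (fun u => G u t) = fun u => c u * G u t + (1 - c u) * G u t := funext fun u => by ring
      conv_lhs => rw [this, H_add_fun, J_add_fun]
      ring
    simp only [card_range, Nat.cast_pow, Nat.cast_ofNat] at a1 a2
    simp only [e1]
    rw [a3, abs_neg, abs_one, one_mul] at a4
    simp only [Mix.H, Mix.J] at a4 a5 ⊢
    linarith
  refine (sum_le_sum h1).trans ?_
  have h2 : ∀ u, max (√(ms T (G u)) - s / 4) 0 ^ 2 = ms T fun t => c u * G u t := fun u => by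
    rw [← hc1, ← sqrt_ms_smul, Real.sq_sqrt (ms_nonneg _ _)]
  simp only [h2, sum_ms]
  rw [← mul_div_assoc, mul_sum]
  exact div_le_div_of_nonneg_right (sum_le_sum fun t _ => Mix.mix' i _) (Nat.cast_nonneg _)

/-- The walk, seen from a set of small density. -/
theorem fibre_miss (i : ℕ) (f : ℕ → ℝ) (A : ℕ → Prop) [DecidablePred A] {δ : ℝ} (hδ : 0 ≤ δ)
    (hA : (((range (m * m)).filter A).card : ℝ) ≤ δ * (m * m : ℕ)) :
    l2 (range (m * m)) (fun v => if A v then Mix.H m (Mix.t0 * i) f v else 0) ≤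
      (√δ + (1 / 2) ^ i) * l2 (range (m * m)) f := by
  have h1 : l2 (range (m * m)) (fun v => if A v then Mix.J m f else 0) ≤
      √δ * l2 (range (m * m)) f := by
    refine l2_le_of_sq (mul_nonneg (Real.sqrt_nonneg _) (l2_nonneg _ _)) ?_
    have a1 := sq_le_sq' (neg_le_of_abs_le (abs_avg_le (range (m * m)) f))
      (le_of_abs_le (abs_avg_le (range (m * m)) f))
    rw [Real.sq_sqrt (ms_nonneg _ _), ms, card_range] at a1
    simp only [ite_pow, ne_eq, OfNat.ofNat_ne_zero, not_false_eq_true, zero_pow]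
    rw [← sum_filter, sum_const, nsmul_eq_mul, mul_pow, Real.sq_sqrt hδ, l2_sq]
    refine (mul_le_mul hA a1 (sq_nonneg _) (by positivity)).trans ?_
    rw [mul_assoc]
    refine mul_le_mul_of_nonneg_left ?_ hδ
    rcases Nat.eq_zero_or_pos (m * m) with h | h
    · simp [h]
    · rw [mul_div_cancel₀ _ (by exact_mod_cast h.ne')]
  have h2 : l2 (range (m * m)) (fun v => Mix.H m (Mix.t0 * i) f v - Mix.J m f) ≤
      (1 / 2) ^ i * l2 (range (m * m)) f := by
    refine l2_le_of_sq (mul_nonneg (by positivity) (l2_nonneg _ _)) ((Mix.mix' i f).trans_eq ?_)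
    rw [mul_pow, l2_sq, ← pow_mul, mul_comm i, pow_mul]
    norm_num
  have h3 := l2_add_le (range (m * m)) (fun v => if A v then Mix.J m f else 0)
    fun v => if A v then Mix.H m (Mix.t0 * i) f v - Mix.J m f else 0
  have h4 : l2 (range (m * m)) (fun v => if A v then Mix.H m (Mix.t0 * i) f v - Mix.J m f else 0) ≤
      l2 (range (m * m)) fun v => Mix.H m (Mix.t0 * i) f v - Mix.J m f :=
    l2_mono fun v _ => by split_ifs <;> simp
  rw [l2_congr (ψ := fun v => (if A v then Mix.J m f else 0) +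
    if A v then Mix.H m (Mix.t0 * i) f v - Mix.J m f else 0) fun v _ => by split_ifs <;> simp]
  linarith

end fibre

/-! ### Lenses -/

/-- A register with `m * m` values of the states in `D`. -/
structure IsLens (D : Finset σ) (m : ℕ) (get : σ → ℕ) (set : σ → ℕ → σ) : Prop where
  get_lt : ∀ s ∈ D, get s < m * m
  set_mem : ∀ s ∈ D, ∀ v < m * m, set s v ∈ D
  get_set : ∀ s ∈ D, ∀ v < m * m, get (set s v) = v
  set_get : ∀ s ∈ D, set s (get s) = s
  set_set : ∀ s ∈ D, ∀ v < m * m, ∀ v' < m * m, set (set s v) v' = set s v'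

namespace IsLens

variable {D : Finset σ} {m : ℕ} {get : σ → ℕ} {set : σ → ℕ → σ} (L : IsLens D m get set)
include L

theorem sum_fibre (F : σ → ℝ) :
    ∑ s ∈ D, ∑ v ∈ range (m * m), F (set s v) = (m * m : ℕ) * ∑ s ∈ D, F s := by
  have e : ((m * m : ℕ) : ℝ) * ∑ s ∈ D, F s = ∑ s ∈ D, ∑ _v ∈ range (m * m), F s := by
    simp only [sum_const, card_range, nsmul_eq_mul, ← mul_sum]
  rw [e, ← sum_product', ← sum_product']
  have hm : ∀ p ∈ D ×ˢ range (m * m), (set p.1 p.2, get p.1) ∈ D ×ˢ range (m * m) := fun p hp => by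
    simp only [mem_product, mem_range] at hp ⊢
    exact ⟨L.set_mem _ hp.1 _ hp.2, L.get_lt _ hp.1⟩
  have hi : ∀ p ∈ D ×ˢ range (m * m), (set (set p.1 p.2) (get p.1), get (set p.1 p.2)) = p :=
    fun p hp => by
    simp only [mem_product, mem_range] at hp
    rw [L.set_set _ hp.1 _ hp.2 _ (L.get_lt _ hp.1), L.set_get _ hp.1, L.get_set _ hp.1 _ hp.2]
  exact sum_nbij' (fun p => (set p.1 p.2, get p.1)) (fun p => (set p.1 p.2, get p.1)) hm hm hi hi
    fun _ _ => rfl

/-- An inequality for the sums over all fibres gives the inequality for the sums over `D`. -/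
theorem sum_le_of_fibre {F G : σ → ℝ} {c : ℝ}
    (h : ∀ s ∈ D, ∑ v ∈ range (m * m), F (set s v) ≤ c * ∑ v ∈ range (m * m), G (set s v)) :
    ∑ s ∈ D, F s ≤ c * ∑ s ∈ D, G s := by
  rcases D.eq_empty_or_nonempty with rfl | ⟨s, hs⟩
  · simp
  have h0 : (0 : ℝ) < (m * m : ℕ) := by exact_mod_cast (Nat.zero_le _).trans_lt (L.get_lt s hs)
  have h1 := sum_le_sum h
  rw [← mul_sum, L.sum_fibre, L.sum_fibre, mul_left_comm] at h1
  exact le_of_mul_le_mul_left h1 h0

theorem walk_mem (n w : ℕ) : ∀ s ∈ D, set s (Mix.walk m n w (get s)) ∈ D := fun s hs =>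
  L.set_mem s hs _ (Mix.walk_lt n w (L.get_lt s hs))

theorem unwalk_mem (n w : ℕ) : ∀ s ∈ D, set s (Mix.unwalk m n w (get s)) ∈ D := fun s hs =>
  L.set_mem s hs _ (Mix.unwalk_lt n w (L.get_lt s hs))

theorem unwalk_walk (n w : ℕ) {s : σ} (hs : s ∈ D) :
    set (set s (Mix.walk m n w (get s)))
      (Mix.unwalk m n w (get (set s (Mix.walk m n w (get s))))) = s := by
  have h := L.get_lt s hs
  rw [L.get_set s hs _ (Mix.walk_lt n w h), Mix.unwalk_walk n w h,
    L.set_set s hs _ (Mix.walk_lt n w h) _ h, L.set_get s hs]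

theorem walk_unwalk (n w : ℕ) {s : σ} (hs : s ∈ D) :
    set (set s (Mix.unwalk m n w (get s)))
      (Mix.walk m n w (get (set s (Mix.unwalk m n w (get s))))) = s := by
  have h := L.get_lt s hs
  rw [L.get_set s hs _ (Mix.unwalk_lt n w h), Mix.walk_unwalk n w h,
    L.set_set s hs _ (Mix.unwalk_lt n w h) _ h, L.set_get s hs]

theorem walk_injOn (n w : ℕ) : Set.InjOn (fun s => set s (Mix.walk m n w (get s))) D :=
  fun s hs s' hs' h => by
    have h' : set s (Mix.walk m n w (get s)) = set s' (Mix.walk m n w (get s')) := h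
    rw [← L.unwalk_walk n w hs, h', L.unwalk_walk n w hs']

theorem H_set (n : ℕ) (f : σ → ℝ) {s : σ} (hs : s ∈ D) {v : ℕ} (hv : v < m * m) :
    Mix.H m n (fun u => f (set (set s v) u)) (get (set s v)) =
      Mix.H m n (fun u => f (set s u)) v := by
  rw [L.get_set s hs v hv]
  exact H_congr n (fun u hu => by rw [L.set_set s hs v hv u hu]) hv

theorem J_set (f : σ → ℝ) {s : σ} (hs : s ∈ D) {v : ℕ} (hv : v < m * m) :
    Mix.J m (fun u => f (set (set s v) u)) = Mix.J m fun u => f (set s u) :=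
  J_congr fun u hu => by rw [L.set_set s hs v hv u hu]

/-- The average over the walks does not increase the norm. -/
theorem nrm_H_le (n : ℕ) (T : Finset τ) (g : σ → τ → ℝ) :
    nrm D T (fun s t => Mix.H m n (fun u => g (set s u) t) (get s)) ≤ nrm D T g := by
  have h := nrm_avg_le D T (range (4 ^ n)) (fun w s => g (set s (Mix.walk m n w (get s))))
    (nrm_nonneg D T g) fun w _ => nrm_comp_le (L.walk_mem n w) (L.walk_injOn n w) T g
  simpa only [card_range, Nat.cast_pow, Nat.cast_ofNat, Mix.H] using h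

theorem l2_H_le (n : ℕ) (φ : σ → ℝ) :
    l2 D (fun s => Mix.H m n (fun u => φ (set s u)) (get s)) ≤ l2 D φ := by
  refine Real.sqrt_le_sqrt ((L.sum_le_of_fibre (c := 1) (G := fun s => φ s ^ 2)
    fun s hs => ?_).trans_eq (one_mul _))
  rw [one_mul]
  refine le_trans (le_of_eq (sum_congr rfl fun v hv => ?_)) (Mix.sum_H_sq_le n _)
  rw [← L.H_set n φ hs (mem_range.1 hv)]

/-- The mixing bound in the mixed norm, for the fourth powers. -/
theorem nrm_mix_pow (i : ℕ) (T : Finset τ) (g : σ → τ → ℝ) :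
    nrm D T (fun s t => Mix.H m (Mix.t0 * i) (fun u => g (set s u) t) (get s) -
      Mix.J m fun u => g (set s u) t) ^ 4 ≤ 4 * (1 / 4) ^ i * nrm D T g ^ 4 := by
  rw [nrm_pow_four, nrm_pow_four]
  refine L.sum_le_of_fibre (G := fun s => ms T (g s) ^ 2) fun s hs => le_trans (le_of_eq
    (sum_congr rfl fun v hv => ?_)) (fibre_mix i T fun u => g (set s u))
  congr 2
  funext t
  rw [L.H_set _ (fun s => g s t) hs (mem_range.1 hv), L.J_set (fun s => g s t) hs (mem_range.1 hv)]

/-- **The mixing bound in the mixed norm.** -/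
theorem nrm_mix {i k : ℕ} (hk : 2 * k ≤ i) (T : Finset τ) (g : σ → τ → ℝ) :
    nrm D T (fun s t => Mix.H m (Mix.t0 * i) (fun u => g (set s u) t) (get s) -
      Mix.J m fun u => g (set s u) t) ≤ 2 * (1 / 2) ^ k * nrm D T g := by
  refine le_of_pow_le_pow_left₀ (n := 4) (by norm_num)
    (mul_nonneg (by positivity) (nrm_nonneg _ _ _)) ((L.nrm_mix_pow i T g).trans ?_)
  rw [mul_pow, mul_pow, ← pow_mul, show k * 4 = 2 * (2 * k) by ring, pow_mul]
  refine mul_le_mul_of_nonneg_right (mul_le_mul (by norm_num) ?_ (by positivity) (by positivity))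
    (by positivity [nrm_nonneg D T g])
  rw [show ((1 : ℝ) / 2) ^ 2 = 1 / 4 by norm_num]
  exact pow_le_pow_of_le_one (by norm_num) (by norm_num) hk

/-- **The step of the search.** `A` has density at most `δ` in every fibre. -/
theorem l2_miss (i : ℕ) (φ : σ → ℝ) (A : σ → Prop) [DecidablePred A] {δ : ℝ} (hδ : 0 ≤ δ)
    (hA : ∀ s ∈ D, (((range (m * m)).filter fun v => A (set s v)).card : ℝ) ≤ δ * (m * m : ℕ)) :
    l2 D (fun s => if A s then Mix.H m (Mix.t0 * i) (fun u => φ (set s u)) (get s) else 0) ≤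
      (√δ + (1 / 2) ^ i) * l2 D φ := by
  refine l2_le_of_sq (mul_nonneg (by positivity) (l2_nonneg _ _)) ?_
  rw [mul_pow, l2_sq]
  refine L.sum_le_of_fibre (G := fun s => φ s ^ 2) fun s hs => ?_
  have h := pow_le_pow_left₀ (l2_nonneg _ _)
    (fibre_miss i (fun u => φ (set s u)) (fun v => A (set s v)) hδ (hA s hs)) 2
  rw [mul_pow, l2_sq, l2_sq] at h
  refine le_trans (le_of_eq (sum_congr rfl fun v hv => ?_)) h
  rw [L.H_set _ φ hs (mem_range.1 hv)]

end IsLens

end Vale.Agent.P313.Full
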