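import Vale.Agent.P313.Mix
import Mathlib.Analysis.SpecialFunctions.Integrals.Basic

/-!
The mixed norm `L⁴(states; L²(tapes))`.
-/

namespace Vale.Agent.P313.Full

open Finset

variable {σ σ' τ ι : Type}

/-- The Euclidean norm on a finite set. -/
noncomputable def l2 (D : Finset σ) (φ : σ → ℝ) : ℝ := √(∑ s ∈ D, φ s ^ 2)

/-- The mean square on a finite set. -/
noncomputable def ms (T : Finset τ) (x : τ → ℝ) : ℝ := (∑ t ∈ T, x t ^ 2) / T.card

/-- The mixed norm: the fourth root of the sum of the squares of the mean squares. -/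
noncomputable def nrm (D : Finset σ) (T : Finset τ) (g : σ → τ → ℝ) : ℝ :=
  √(l2 D fun s => ms T (g s))

section l2

variable {D : Finset σ} {φ ψ : σ → ℝ}

theorem l2_nonneg (D : Finset σ) (φ : σ → ℝ) : 0 ≤ l2 D φ := Real.sqrt_nonneg _

theorem l2_sq (D : Finset σ) (φ : σ → ℝ) : l2 D φ ^ 2 = ∑ s ∈ D, φ s ^ 2 :=
  Real.sq_sqrt (sum_nonneg fun _ _ => sq_nonneg _)

theorem l2_le_of_sq {c : ℝ} (hc : 0 ≤ c) (h : ∑ s ∈ D, φ s ^ 2 ≤ c ^ 2) : l2 D φ ≤ c :=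
  Real.sqrt_le_iff.2 ⟨hc, h⟩

theorem l2_mono (h : ∀ s ∈ D, |φ s| ≤ |ψ s|) : l2 D φ ≤ l2 D ψ :=
  Real.sqrt_le_sqrt (sum_le_sum fun s hs => sq_le_sq.2 (h s hs))

theorem l2_mono' (h0 : ∀ s ∈ D, 0 ≤ φ s) (h : ∀ s ∈ D, φ s ≤ ψ s) : l2 D φ ≤ l2 D ψ :=
  l2_mono fun s hs => by rw [abs_of_nonneg (h0 s hs)]; exact (h s hs).trans (le_abs_self _)

theorem l2_congr (h : ∀ s ∈ D, φ s = ψ s) : l2 D φ = l2 D ψ := by
  rw [l2, l2, sum_congr rfl fun s hs => by rw [h s hs]]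

theorem sum_mul_le_l2 (D : Finset σ) (φ ψ : σ → ℝ) : ∑ s ∈ D, φ s * ψ s ≤ l2 D φ * l2 D ψ :=
  Real.sum_mul_le_sqrt_mul_sqrt _ _ _

theorem l2_add_le (D : Finset σ) (φ ψ : σ → ℝ) :
    l2 D (fun s => φ s + ψ s) ≤ l2 D φ + l2 D ψ := by
  refine l2_le_of_sq (add_nonneg (l2_nonneg _ _) (l2_nonneg _ _)) ?_
  have e : ∀ s, (φ s + ψ s) ^ 2 = φ s ^ 2 + 2 * (φ s * ψ s) + ψ s ^ 2 := fun s => by ring
  simp only [e, sum_add_distrib, ← mul_sum]
  rw [add_sq, l2_sq, l2_sq, mul_assoc]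
  have := sum_mul_le_l2 D φ ψ
  linarith

theorem l2_smul (D : Finset σ) (c : ℝ) (φ : σ → ℝ) : l2 D (fun s => c * φ s) = |c| * l2 D φ := by
  simp only [l2, mul_pow, ← mul_sum]
  rw [Real.sqrt_mul (sq_nonneg _), Real.sqrt_sq_eq_abs]

theorem l2_zero (D : Finset σ) : l2 D (fun _ => 0) = 0 := by simp [l2]

theorem l2_sum_le (D : Finset σ) (I : Finset ι) (φ : ι → σ → ℝ) :
    l2 D (fun s => ∑ i ∈ I, φ i s) ≤ ∑ i ∈ I, l2 D (φ i) := by
  classical
  induction I using Finset.induction_on with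
  | empty => simp [l2]
  | insert i I hi ih =>
    simp only [sum_insert hi]
    exact (l2_add_le _ _ _).trans (add_le_add le_rfl ih)

theorem abs_le_l2 (φ : σ → ℝ) {s : σ} (hs : s ∈ D) : |φ s| ≤ l2 D φ :=
  Real.abs_le_sqrt (single_le_sum (f := fun s => φ s ^ 2) (fun _ _ => sq_nonneg _) hs)

theorem l2_comp_le {D' : Finset σ'} {f : σ' → σ} (hm : ∀ s ∈ D', f s ∈ D) (hi : Set.InjOn f D')
    (φ : σ → ℝ) : l2 D' (fun s => φ (f s)) ≤ l2 D φ := by
  classical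
  refine Real.sqrt_le_sqrt ?_
  rw [← sum_image (f := fun s => φ s ^ 2) hi]
  exact sum_le_sum_of_subset_of_nonneg (image_subset_iff.2 hm) fun _ _ _ => sq_nonneg _

theorem l2_le_card {c : ℝ} (h : ∀ s ∈ D, |φ s| ≤ c) (hc : 0 ≤ c) : l2 D φ ≤ c * √D.card := by
  refine l2_le_of_sq (by positivity) ?_
  rw [mul_pow, Real.sq_sqrt (Nat.cast_nonneg _), mul_comm, ← nsmul_eq_mul]
  exact sum_le_card_nsmul _ _ _ fun s hs => sq_le_sq.2 ((h s hs).trans (le_abs_self _))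

end l2

section ms

variable {T : Finset τ} {x y : τ → ℝ}

theorem ms_nonneg (T : Finset τ) (x : τ → ℝ) : 0 ≤ ms T x :=
  div_nonneg (sum_nonneg fun _ _ => sq_nonneg _) (Nat.cast_nonneg _)

theorem sqrt_ms (T : Finset τ) (x : τ → ℝ) : √(ms T x) = l2 T x / √T.card :=
  Real.sqrt_div (sum_nonneg fun _ _ => sq_nonneg _) _

theorem ms_mono (h : ∀ t ∈ T, |x t| ≤ |y t|) : ms T x ≤ ms T y :=
  div_le_div_of_nonneg_right (sum_le_sum fun t ht => sq_le_sq.2 (h t ht)) (Nat.cast_nonneg _)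

theorem ms_congr (h : ∀ t ∈ T, x t = y t) : ms T x = ms T y := by
  rw [ms, ms, sum_congr rfl fun t ht => by rw [h t ht]]

theorem ms_smul (T : Finset τ) (c : ℝ) (x : τ → ℝ) : ms T (fun t => c * x t) = c ^ 2 * ms T x := by
  simp only [ms, mul_pow, ← mul_sum, mul_div_assoc]

theorem ms_le {c : ℝ} (h : ∀ t ∈ T, |x t| ≤ c) : ms T x ≤ c ^ 2 := by
  refine div_le_of_le_mul₀ (Nat.cast_nonneg _) (sq_nonneg _) ?_
  rw [mul_comm, ← nsmul_eq_mul]
  exact sum_le_card_nsmul _ _ _ fun t ht => sq_le_sq.2 ((h t ht).trans (le_abs_self _))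

/-- The mean square of an indicator is its mean. -/
theorem ms_ind (T : Finset τ) (p : τ → Prop) [DecidablePred p] :
    ms T (fun t => if p t then 1 else 0) = (∑ t ∈ T, if p t then 1 else 0) / T.card := by
  simp only [ms, ite_pow, one_pow, ne_eq, OfNat.ofNat_ne_zero, not_false_eq_true, zero_pow]

theorem sqrt_ms_add_le (T : Finset τ) (x y : τ → ℝ) :
    √(ms T fun t => x t + y t) ≤ √(ms T x) + √(ms T y) := by
  rw [sqrt_ms, sqrt_ms, sqrt_ms, ← add_div]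
  exact div_le_div_of_nonneg_right (l2_add_le _ _ _) (Real.sqrt_nonneg _)

theorem sqrt_ms_smul (T : Finset τ) (c : ℝ) (x : τ → ℝ) :
    √(ms T fun t => c * x t) = |c| * √(ms T x) := by
  rw [ms_smul, Real.sqrt_mul (sq_nonneg _), Real.sqrt_sq_eq_abs]

theorem sqrt_ms_sum_le (T : Finset τ) (I : Finset ι) (x : ι → τ → ℝ) :
    √(ms T fun t => ∑ i ∈ I, x i t) ≤ ∑ i ∈ I, √(ms T (x i)) := by
  simp only [sqrt_ms, ← sum_div]
  exact div_le_div_of_nonneg_right (l2_sum_le _ _ _) (Real.sqrt_nonneg _)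

/-- An average of vectors of length at most `c` has length at most `c`. -/
theorem sqrt_ms_avg_le (T : Finset τ) (I : Finset ι) (x : ι → τ → ℝ) {c : ℝ} (hc : 0 ≤ c)
    (h : ∀ i ∈ I, √(ms T (x i)) ≤ c) : √(ms T fun t => (∑ i ∈ I, x i t) / I.card) ≤ c := by
  simp only [div_eq_inv_mul]
  rw [sqrt_ms_smul, abs_of_nonneg (by positivity), ← div_eq_inv_mul]
  refine div_le_of_le_mul₀ (Nat.cast_nonneg _) hc ((sqrt_ms_sum_le _ _ _).trans ?_)
  rw [mul_comm, ← nsmul_eq_mul]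
  exact sum_le_card_nsmul _ _ _ h

theorem abs_avg_le (T : Finset τ) (x : τ → ℝ) : |(∑ t ∈ T, x t) / T.card| ≤ √(ms T x) := by
  refine Real.abs_le_sqrt ?_
  rcases T.eq_empty_or_nonempty with rfl | h
  · simp [ms]
  have h0 : (0 : ℝ) < T.card := by exact_mod_cast h.card_pos
  rw [ms, div_pow, div_le_div_iff₀ (by positivity) h0]
  have := sq_sum_le_card_mul_sum_sq (s := T) (f := x)
  nlinarith [mul_le_mul_of_nonneg_right this h0.le]

end ms

section nrm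

variable {D : Finset σ} {T : Finset τ} {g h : σ → τ → ℝ}

theorem nrm_nonneg (D : Finset σ) (T : Finset τ) (g : σ → τ → ℝ) : 0 ≤ nrm D T g :=
  Real.sqrt_nonneg _

theorem nrm_sq (D : Finset σ) (T : Finset τ) (g : σ → τ → ℝ) :
    nrm D T g ^ 2 = l2 D fun s => ms T (g s) := Real.sq_sqrt (l2_nonneg _ _)

theorem nrm_pow_four (D : Finset σ) (T : Finset τ) (g : σ → τ → ℝ) :
    nrm D T g ^ 4 = ∑ s ∈ D, ms T (g s) ^ 2 := by
  rw [show 4 = 2 * 2 from rfl, pow_mul, nrm_sq, l2_sq]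

theorem nrm_le_of_sq {c : ℝ} (hc : 0 ≤ c) (h : (l2 D fun s => ms T (g s)) ≤ c ^ 2) :
    nrm D T g ≤ c := Real.sqrt_le_iff.2 ⟨hc, h⟩

theorem nrm_le_of_pow {c : ℝ} (hc : 0 ≤ c) (h : ∑ s ∈ D, ms T (g s) ^ 2 ≤ c ^ 4) :
    nrm D T g ≤ c := nrm_le_of_sq hc (l2_le_of_sq (sq_nonneg _) (by rwa [← pow_mul]))

theorem nrm_mono_ms (h' : ∀ s ∈ D, ms T (g s) ≤ ms T (h s)) : nrm D T g ≤ nrm D T h :=
  Real.sqrt_le_sqrt (l2_mono' (fun _ _ => ms_nonneg _ _) h')

theorem nrm_mono_abs (h' : ∀ s ∈ D, ∀ t ∈ T, |g s t| ≤ |h s t|) : nrm D T g ≤ nrm D T h :=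
  nrm_mono_ms fun s hs => ms_mono (h' s hs)

theorem nrm_mono (h' : ∀ s ∈ D, ∀ t ∈ T, |g s t| ≤ h s t) : nrm D T g ≤ nrm D T h :=
  nrm_mono_abs fun s hs t ht => (h' s hs t ht).trans (le_abs_self _)

theorem nrm_congr (h' : ∀ s ∈ D, ∀ t ∈ T, g s t = h s t) : nrm D T g = nrm D T h := by
  rw [nrm, nrm, l2_congr fun s hs => ms_congr (h' s hs)]

theorem nrm_abs (D : Finset σ) (T : Finset τ) (g : σ → τ → ℝ) :
    nrm D T (fun s t => |g s t|) = nrm D T g := by simp only [nrm, ms, sq_abs]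

theorem nrm_zero (D : Finset σ) (T : Finset τ) : nrm D T (fun _ _ => 0) = 0 := by
  simp [nrm, ms, l2]

theorem nrm_smul (D : Finset σ) (T : Finset τ) (c : ℝ) (g : σ → τ → ℝ) :
    nrm D T (fun s t => c * g s t) = |c| * nrm D T g := by
  simp only [nrm, ms_smul]
  rw [l2_smul, abs_of_nonneg (sq_nonneg c), Real.sqrt_mul (sq_nonneg _), Real.sqrt_sq_eq_abs]

theorem nrm_neg (D : Finset σ) (T : Finset τ) (g : σ → τ → ℝ) :
    nrm D T (fun s t => -g s t) = nrm D T g := by simp only [nrm, ms, neg_sq]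

theorem nrm_add_le (D : Finset σ) (T : Finset τ) (g h : σ → τ → ℝ) :
    nrm D T (fun s t => g s t + h s t) ≤ nrm D T g + nrm D T h := by
  refine nrm_le_of_sq (add_nonneg (nrm_nonneg _ _ _) (nrm_nonneg _ _ _)) ?_
  have h1 : (l2 D fun s => ms T fun t => g s t + h s t) ≤
      l2 D fun s => ms T (g s) + 2 * (√(ms T (g s)) * √(ms T (h s))) + ms T (h s) := by
    refine l2_mono' (fun _ _ => ms_nonneg _ _) fun s _ => ?_
    have := pow_le_pow_left₀ (Real.sqrt_nonneg _) (sqrt_ms_add_le T (g s) (h s)) 2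
    rwa [add_sq, Real.sq_sqrt (ms_nonneg _ _), Real.sq_sqrt (ms_nonneg _ _),
      Real.sq_sqrt (ms_nonneg _ _), mul_assoc] at this
  have h2 : (l2 D fun s => √(ms T (g s)) * √(ms T (h s))) ≤ nrm D T g * nrm D T h := by
    refine l2_le_of_sq (mul_nonneg (nrm_nonneg _ _ _) (nrm_nonneg _ _ _)) ?_
    simp only [mul_pow, Real.sq_sqrt (ms_nonneg _ _), nrm_sq]
    exact sum_mul_le_l2 _ _ _
  refine h1.trans ((l2_add_le _ _ _).trans ((add_le_add (l2_add_le _ _ _) le_rfl).trans ?_))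
  rw [l2_smul, add_sq, nrm_sq, nrm_sq, abs_two]
  linarith

theorem nrm_sub_le (D : Finset σ) (T : Finset τ) (g h : σ → τ → ℝ) :
    nrm D T (fun s t => g s t - h s t) ≤ nrm D T g + nrm D T h := by
  simp only [sub_eq_add_neg]
  exact (nrm_add_le _ _ _ _).trans (by rw [nrm_neg])

theorem nrm_sum_le (D : Finset σ) (T : Finset τ) (I : Finset ι) (g : ι → σ → τ → ℝ) :
    nrm D T (fun s t => ∑ i ∈ I, g i s t) ≤ ∑ i ∈ I, nrm D T (g i) := by
  classical
  induction I using Finset.induction_on with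
  | empty => simp [nrm_zero]
  | insert i I hi ih =>
    simp only [sum_insert hi]
    exact (nrm_add_le _ _ _ _).trans (add_le_add le_rfl ih)

/-- An average of functions of norm at most `c` has norm at most `c`. -/
theorem nrm_avg_le (D : Finset σ) (T : Finset τ) (I : Finset ι) (g : ι → σ → τ → ℝ) {c : ℝ}
    (hc : 0 ≤ c) (h : ∀ i ∈ I, nrm D T (g i) ≤ c) :
    nrm D T (fun s t => (∑ i ∈ I, g i s t) / I.card) ≤ c := by
  simp only [div_eq_inv_mul]
  rw [nrm_smul, abs_of_nonneg (by positivity), ← div_eq_inv_mul]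
  refine div_le_of_le_mul₀ (Nat.cast_nonneg _) hc ((nrm_sum_le _ _ _ _).trans ?_)
  rw [mul_comm, ← nsmul_eq_mul]
  exact sum_le_card_nsmul _ _ _ h

/-- Injective address maps do not increase the norm. -/
theorem nrm_comp_le {D' : Finset σ'} {f : σ' → σ} (hm : ∀ s ∈ D', f s ∈ D) (hi : Set.InjOn f D')
    (T : Finset τ) (g : σ → τ → ℝ) : nrm D' T (fun s => g (f s)) ≤ nrm D T g :=
  Real.sqrt_le_sqrt (l2_comp_le hm hi fun s => ms T (g s))

theorem nrm_subset {D' : Finset σ} (hD : D' ⊆ D) (T : Finset τ) (g : σ → τ → ℝ) :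
    nrm D' T g ≤ nrm D T g := nrm_comp_le (f := id) hD (Set.injOn_id _) T g

/-- A function which vanishes outside of `D'`. -/
theorem nrm_filter (D : Finset σ) (T : Finset τ) (p : σ → Prop) [DecidablePred p]
    (g : σ → τ → ℝ) : nrm D T (fun s t => if p s then g s t else 0) = nrm (D.filter p) T g := by
  simp only [nrm, l2, sum_filter]
  congr 2
  refine sum_congr rfl fun s _ => ?_
  split_ifs <;> simp [ms]

theorem nrm_le_card {c : ℝ} (h : ∀ s ∈ D, ∀ t ∈ T, |g s t| ≤ c) (hc : 0 ≤ c) :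
    nrm D T g ≤ c * √(√D.card) := by
  refine nrm_le_of_sq (by positivity) ?_
  rw [mul_pow, Real.sq_sqrt (Real.sqrt_nonneg _)]
  exact l2_le_card (fun s hs => by rw [abs_of_nonneg (ms_nonneg _ _)]; exact ms_le (h s hs))
    (sq_nonneg _)

theorem sqrt_ms_le_nrm (T : Finset τ) (g : σ → τ → ℝ) {s : σ} (hs : s ∈ D) :
    √(ms T (g s)) ≤ nrm D T g :=
  Real.sqrt_le_sqrt ((le_abs_self _).trans (abs_le_l2 (fun s => ms T (g s)) hs))

/-- The mean over the tapes at one state. -/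
theorem abs_avg_le_nrm (T : Finset τ) (g : σ → τ → ℝ) {s : σ} (hs : s ∈ D) :
    |(∑ t ∈ T, g s t) / T.card| ≤ nrm D T g := (abs_avg_le _ _).trans (sqrt_ms_le_nrm T g hs)

end nrm

end Vale.Agent.P313.Full
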