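import Vale.Agent.P313.Full.TabStmt

/-! General facts on the tables which do not depend on the recursion: symmetry of the closed forms,
the probability of a match, the mean strength of a link. -/

namespace Vale.Agent.P313.Full

open Finset Hi

namespace G0

theorem cl_pos {t : ℝ} (h : 0 < cl t) : 0 < t := by
  by_contra h'
  rw [cl_of_le (not_lt.1 h')] at h
  exact lt_irrefl _ h

theorem cl_le {t : ℝ} (h : 0 ≤ t) : cl t ≤ t := max_le h (min_le_right _ _)

theorem one_sub_le_Gd {t : ℝ} (h : 0 ≤ t) : 1 - t ≤ Gd t :=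
  le_max_of_le_right (le_min (by linarith) (by linarith))

theorem Gd_lt {t : ℝ} (h : Gd t ≠ 0) : t < 2 := by
  have := cl_pos ((cl_nonneg (2 - t)).lt_of_ne' h)
  linarith

theorem two_same {β : Type} (d : Bool) (u v : β) : two d u v d = u := if_pos rfl

theorem two_not {β : Type} (d : Bool) (u v : β) : two d u v (!d) = v :=
  if_neg (by cases d <;> simp)

theorem two_comm {β : Type} (d : Bool) (u v : β) : two (!d) u v = two d v u := by
  funext e
  cases d <;> cases e <;> rfl

theorem two_eta {β : Type} (d : Bool) (K : Bool → β) : two d (K d) (K !d) = K := by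
  funext e
  cases d <;> cases e <;> rfl

theorem sd_not (L : Lv) (d : Bool) (x y : ℕ) : sd L (!d) y x = sd L d x y := by
  cases d <;> rfl

theorem mt_symm {l : ℕ} {f : Bool → ℕ} {d : Bool} {h h' : ℕ} (H : mt l f d h h') :
    mt l f (!d) h' h := by
  obtain ⟨h1, h2⟩ := H
  refine ⟨h2 ▸ h1, ?_⟩
  rw [Bool.not_not, h2]

theorem val_rot (cf : Cf) (s v h : ℕ) : cf.val (cf.rot s v h) v = h := by
  rw [Cf.val, Cf.rot, ← Nat.xor_assoc, Nat.xor_self, Nat.zero_xor]

theorem two_pow_pos (n : ℕ) : 0 < 2 ^ n := by positivity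

/-- The average over a key as the average over the value at `v` and the slope. -/
theorem JK_rot (cf : Cf) (v : ℕ) (g : Key → ℝ) :
    cf.JK g = mean (2 ^ cf.m) fun h => cf.JS fun s => g (cf.rot s v h) :=
  mean_key_rot cf.L cf.m v fun s o => g (s, o)

/-- The probability that the bits `[l, l + t)` vanish. -/
theorem mean_mod_lt {m l t : ℕ} (h : l + t ≤ m) (c : ℝ) :
    mean (2 ^ m) (fun u => if u % 2 ^ (l + t) < 2 ^ l then c else 0) = c / 2 ^ t := by
  rw [mean_mod h fun u => if u < 2 ^ l then c else 0, mean, ← sum_filter]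
  have e : (range (2 ^ (l + t))).filter (fun u => u < 2 ^ l) = range (2 ^ l) := by
    ext u
    have : 2 ^ l ≤ 2 ^ (l + t) := Nat.pow_le_pow_right (by norm_num) (by omega)
    simp only [mem_filter, mem_range]
    omega
  rw [e, sum_const, card_range, nsmul_eq_mul]
  push_cast
  rw [pow_add]
  field_simp

open Classical in
/-- The probability that the far value fits. -/
theorem mean_mt_far {m l : ℕ} {f : Bool → ℕ} {d : Bool} (h2 : l + f (!d) ≤ m) (h : ℕ) (c : ℝ) :
    mean (2 ^ m) (fun h' => if mt l f d h h' then c else 0) =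
      if h % 2 ^ (l + f d) < 2 ^ l then c / 2 ^ (l + f !d) else 0 := by
  split_ifs with h1
  · rw [← mean_mod_eq h2 (r := h % 2 ^ (l + f d))
      (h1.trans_le (Nat.pow_le_pow_right (by norm_num) (by omega))) c]
    exact mean_congr fun h' _ => if_congr ⟨fun H => H.2, fun H => ⟨h1, H⟩⟩ rfl rfl
  · rw [mean_congr (g := fun _ => 0) fun h' _ => if_neg fun H => h1 H.1, mean_zero]

open Classical in
/-- The probability of a match. -/
theorem mean_mt {m l : ℕ} {f : Bool → ℕ} {d : Bool} (h1 : l + f d ≤ m) (h2 : l + f (!d) ≤ m)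
    (c : ℝ) : mean (2 ^ m) (fun h => mean (2 ^ m) fun h' => if mt l f d h h' then c else 0) =
      c / 2 ^ (l + f d + f !d) := by
  rw [mean_congr fun h _ => mean_mt_far h2 h c, mean_mod_lt h1, div_div, ← pow_add]
  congr 2
  ring

open Tb

variable {A : Tb} {cf : Cf} {d : Bool} {q : Cx} {f : Bool → ℕ} {x y : ℕ}

theorem vis_symm (h : A.vis d q x y) : A.vis (!d) q y x := by
  obtain ⟨h1, h2⟩ := h
  refine ⟨?_, ?_⟩
  · rw [Bool.not_not, h1]
  · rw [Bool.not_not, h2]

theorem vis_not : A.vis (!d) q y x ↔ A.vis d q x y :=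
  ⟨fun h => by simpa using vis_symm h, vis_symm⟩

theorem w_not : A.w (!d) q y x = A.w d q x y := by
  unfold w
  by_cases h : A.vis d q x y
  · rw [if_pos h, if_pos (vis_symm h), sd_not, h.1]
  · rw [if_neg h, if_neg fun h' => h (vis_not.1 h')]

theorem sig_not : A.sig (!d) q y x = A.sig d q x y := by
  unfold sig
  rw [w_not, Bool.not_not]
  ring

theorem se_not : A.se (!d) q y x = A.se d q x y := by unfold se; rw [sig_not]

theorem fac_nonneg : 0 ≤ A.fac d q x := by
  unfold fac
  split_ifs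
  exacts [zero_le_one, cl_nonneg _]

theorem fac_le_one : A.fac d q x ≤ 1 := by
  unfold fac
  split_ifs
  exacts [le_rfl, cl_le_one _]

theorem sig_nonneg : 0 ≤ A.sig d q x y :=
  mul_nonneg (mul_nonneg (cl_nonneg _) fac_nonneg) fac_nonneg

theorem sig_le_one : A.sig d q x y ≤ 1 :=
  mul_le_one₀ (mul_le_one₀ (cl_le_one _) fac_nonneg fac_le_one) fac_nonneg fac_le_one

theorem se_nonneg : 0 ≤ A.se d q x y := cl_nonneg _

theorem se_le_one : A.se d q x y ≤ 1 := cl_le_one _

theorem thr_pos (n : ℕ) : 0 < thr n := by unfold thr; positivity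

theorem sig_pos_of_se (h : 0 < A.se d q x y) : 3 / 4 < A.sig d q x y := by
  have := cl_pos h
  linarith

theorem w_of_sig (h : A.sig d q x y ≠ 0) : thr q.age / 2 < A.w d q x y := by
  have h1 : cl (2 * A.w d q x y / thr q.age - 1) ≠ 0 :=
    left_ne_zero_of_mul (left_ne_zero_of_mul h)
  have h2 := cl_pos ((cl_nonneg _).lt_of_ne' h1)
  have h3 := thr_pos q.age
  rw [sub_pos, lt_div_iff₀ h3] at h2
  linarith

theorem vis_of_w (h : A.w d q x y ≠ 0) : A.vis d q x y := by
  by_contra h'
  exact h (if_neg h')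

theorem vis_of_se (h : 0 < A.se d q x y) : A.vis d q x y := by
  have h1 := sig_pos_of_se h
  have h2 := w_of_sig (A := A) (d := d) (q := q) (x := x) (y := y) (by linarith)
  have h3 := thr_pos q.age
  exact vis_of_w (by linarith)

theorem cand_symm {K : Bool → Key} (h : A.cand cf d q f x (cf.val (K d) x) (K !d) y) :
    A.cand cf (!d) q f y (cf.val (K !d) y) (K !!d) x := by
  refine ⟨by rw [se_not]; exact h.1, ?_⟩
  rw [← (vis_of_se h.1).1, Bool.not_not]
  exact mt_symm h.2

theorem s_nonneg {K : Bool → Key} : 0 ≤ A.s cf d q f x K := by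
  unfold s
  split_ifs
  exacts [mul_nonneg (mul_nonneg se_nonneg (cl_nonneg _)) (cl_nonneg _), le_rfl]

theorem s_le_one {K : Bool → Key} : A.s cf d q f x K ≤ 1 := by
  unfold s
  split_ifs
  exacts [mul_le_one₀ (mul_le_one₀ se_le_one (cl_nonneg _) (cl_le_one _)) (cl_nonneg _)
    (cl_le_one _), zero_le_one]

theorem cand_pt {K : Bool → Key} (h : A.cand cf d q f x (cf.val (K d) x) (K !d) y) :
    A.cand cf d q f x (cf.val (K d) x) (K !d) (A.pt cf d q f x K) :=
  Classical.epsilon_spec (p := A.cand cf d q f x (cf.val (K d) x) (K !d)) ⟨y, h⟩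

open Classical in
/-- The part of the link which ends in `y`, if there is at most one candidate without trouble. -/
theorem s_pin {K : Bool → Key}
    (hU : A.Tk cf d q f x K < 2 → ∀ y y', A.cand cf d q f x (cf.val (K d) x) (K !d) y →
      A.cand cf d q f x (cf.val (K d) x) (K !d) y' → y = y') :
    (if A.pt cf d q f x K = y then A.s cf d q f x K else 0) =
      if mt (A.lam d q x) f d (cf.val (K d) x) (cf.val (K !d) y) then
        A.se d q x y * Gd (A.Tk cf d q f x K) * Gd (A.Tr cf d q f y K) else 0 := by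
  by_cases hc : A.cand cf d q f x (cf.val (K d) x) (K !d) y
  · rw [if_pos hc.2]
    by_cases hG : Gd (A.Tk cf d q f x K) = 0
    · unfold s
      simp only [hG, mul_zero, zero_mul, ite_self]
    · have e := hU (Gd_lt hG) _ _ (cand_pt hc) hc
      unfold s
      rw [if_pos e, if_pos (cand_pt hc), e]
  · have e : (if A.pt cf d q f x K = y then A.s cf d q f x K else 0) = 0 := by
      split_ifs with e
      · unfold s
        rw [e, if_neg hc]
      · rfl
    rw [e]
    split_ifs with hm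
    · have : A.se d q x y = 0 := by
        by_contra h0
        exact hc ⟨se_nonneg.lt_of_ne' h0, hm⟩
      rw [this, zero_mul, zero_mul]
    · rfl

open Classical in
/-- The mean of the part of the link which ends in `y`. -/
theorem mean_pin
    (hU : ∀ h < 2 ^ cf.m, ∀ h' < 2 ^ cf.m, ∀ s, A.T d q f x h (cf.rot s y h') < 2 → ∀ z z',
      A.cand cf d q f x h (cf.rot s y h') z → A.cand cf d q f x h (cf.rot s y h') z' → z = z') :
    (cf.JK fun k => cf.JK fun k' =>
      if A.pt cf d q f x (two d k k') = y then A.s cf d q f x (two d k k') else 0) =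
      mean (2 ^ cf.m) fun h => mean (2 ^ cf.m) fun h' => if mt (A.lam d q x) f d h h' then
        A.se d q x y * (cf.JS fun s => Gd (A.T d q f x h (cf.rot s y h'))) *
          cf.JS fun s => Gd (A.T (!d) q f y h' (cf.rot s x h)) else 0 := by
  rw [JK_rot cf x]
  refine mean_congr fun h hh => ?_
  simp only [JK_rot cf y]
  rw [Cf.JS, mean_comm]
  refine mean_congr fun h' hh' => ?_
  have e : ∀ s s', (if A.pt cf d q f x (two d (cf.rot s x h) (cf.rot s' y h')) = y then
      A.s cf d q f x (two d (cf.rot s x h) (cf.rot s' y h')) else 0) =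
      if mt (A.lam d q x) f d h h' then A.se d q x y * Gd (A.T d q f x h (cf.rot s' y h')) *
        Gd (A.T (!d) q f y h' (cf.rot s x h)) else 0 := by
    intro s s'
    rw [s_pin]
    · simp only [Tk, Tr, two_same, two_not, val_rot]
    · simp only [Tk, two_same, two_not, val_rot]
      exact hU h hh h' hh' s'
  simp only [e]
  split_ifs
  · simp only [Cf.JS, mean_mul_right, mean_mul_left]
  · simp only [Cf.JS, mean_zero]

theorem JS_Gd (g : ℕ → ℝ) : 0 ≤ (cf.JS fun s => Gd (g s)) ∧ (cf.JS fun s => Gd (g s)) ≤ 1 :=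
  ⟨mean_nonneg fun _ _ => cl_nonneg _, mean_le (two_pow_pos _) fun _ _ => cl_le_one _⟩

open Classical in
theorem mean_pin_le (h1 : A.lam d q x + f d ≤ cf.m) (h2 : A.lam d q x + f (!d) ≤ cf.m)
    (hU : ∀ h < 2 ^ cf.m, ∀ h' < 2 ^ cf.m, ∀ s, A.T d q f x h (cf.rot s y h') < 2 → ∀ z z',
      A.cand cf d q f x h (cf.rot s y h') z → A.cand cf d q f x h (cf.rot s y h') z' → z = z') :
    (cf.JK fun k => cf.JK fun k' =>
        if A.pt cf d q f x (two d k k') = y then A.s cf d q f x (two d k k') else 0) ≤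
      A.se d q x y / 2 ^ (A.lam d q x + f d + f !d) := by
  rw [mean_pin hU, ← mean_mt h1 h2]
  refine mean_mono fun h hh => mean_mono fun h' hh' => ?_
  split_ifs
  · obtain ⟨b1, b2⟩ := JS_Gd (cf := cf) fun s => A.T d q f x h (cf.rot s y h')
    obtain ⟨c1, c2⟩ := JS_Gd (cf := cf) fun s => A.T (!d) q f y h' (cf.rot s x h)
    rw [mul_assoc]
    exact mul_le_of_le_one_right se_nonneg (mul_le_one₀ b2 c1 c2)
  · exact le_rfl

open Classical in
theorem mean_pin_ge {e₁ e₂ : ℝ} (h1 : A.lam d q x + f d ≤ cf.m) (h2 : A.lam d q x + f (!d) ≤ cf.m)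
    (hU : ∀ h < 2 ^ cf.m, ∀ h' < 2 ^ cf.m, ∀ s, A.T d q f x h (cf.rot s y h') < 2 → ∀ z z',
      A.cand cf d q f x h (cf.rot s y h') z → A.cand cf d q f x h (cf.rot s y h') z' → z = z')
    (hT : ∀ d x h k, 0 ≤ A.T d q f x h k)
    (hn : ∀ h < 2 ^ cf.m, ∀ h' < 2 ^ cf.m, mt (A.lam d q x) f d h h' →
      (cf.JS fun s => A.T d q f x h (cf.rot s y h')) ≤ e₁)
    (hf : ∀ h < 2 ^ cf.m, ∀ h' < 2 ^ cf.m, mt (A.lam d q x) f d h h' →
      (cf.JS fun s => A.T (!d) q f y h' (cf.rot s x h)) ≤ e₂) :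
    (1 - e₁ - e₂) * A.se d q x y / 2 ^ (A.lam d q x + f d + f !d) ≤
      cf.JK fun k => cf.JK fun k' =>
        if A.pt cf d q f x (two d k k') = y then A.s cf d q f x (two d k k') else 0 := by
  rw [mean_pin hU, ← mean_mt h1 h2]
  refine mean_mono fun h hh => mean_mono fun h' hh' => ?_
  split_ifs with hm
  · have a1 : 1 - e₁ ≤ cf.JS fun s => Gd (A.T d q f x h (cf.rot s y h')) :=
      one_sub_le_mean (two_pow_pos _) (fun s _ => one_sub_le_Gd (hT _ _ _ _)) (hn h hh h' hh' hm)
    have a2 : 1 - e₂ ≤ cf.JS fun s => Gd (A.T (!d) q f y h' (cf.rot s x h)) :=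
      one_sub_le_mean (two_pow_pos _) (fun s _ => one_sub_le_Gd (hT _ _ _ _)) (hf h hh h' hh' hm)
    obtain ⟨b1, b2⟩ := JS_Gd (cf := cf) fun s => A.T d q f x h (cf.rot s y h')
    obtain ⟨c1, c2⟩ := JS_Gd (cf := cf) fun s => A.T (!d) q f y h' (cf.rot s x h)
    rw [mul_assoc, mul_comm]
    refine mul_le_mul_of_nonneg_left ?_ se_nonneg
    nlinarith [mul_nonneg (sub_nonneg.2 b2) (sub_nonneg.2 c2)]
  · exact le_rfl

theorem lv_supp {N n0 K : ℕ} {A0 : ℕ → ℕ → ℕ} {hc hr : ℕ → ℕ → ℝ} (hN : N ≤ 2 ^ n0) :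
    ∀ {k x z : ℕ}, (lv N n0 K A0 hc hr k).S x z ≠ 0 → x < nm n0 k ∧ z < nm n0 k
  | 0, x, z, h => by
    have h1 : x < N ∧ z < N := by
      by_contra h'
      exact h (if_neg h')
    rw [nm_zero]
    omega
  | k + 1, x, z, h => by
    have h1 : vld (x / (lv N n0 K A0 hc hr k).n) ∧ vld (z / (lv N n0 K A0 hc hr k).n) := by
      by_contra h'
      exact h (if_neg h')
    rw [lv_nm] at h1
    rw [nm_succ, mul_comm]
    exact ⟨Nat.lt_mul_of_div_lt (h1.1.1.trans_le card_le_pow) (nm_pos _ _),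
      Nat.lt_mul_of_div_lt (h1.2.1.trans_le card_le_pow) (nm_pos _ _)⟩

variable {W : ℕ → Tb} {k : ℕ}

theorem T_nonneg (hW : IsTab cf W) (k : ℕ) (d : Bool) (q : Cx) (f : Bool → ℕ) (x h : ℕ) (c : Key) :
    0 ≤ (W k).T d q f x h c := by
  by_cases hm : (W k).mu d x = 0
  · cases k with
    | zero =>
      rw [hW.TB, TB]
      split_ifs <;> norm_num
    | succ j =>
      rw [hW.TM j d q f x h c hm]
      exact le_max_left _ _
  · rw [hW.TU k d q f x h c hm]
    exact le_max_left _ _

theorem lt_of_w (hc : cf.Ok) (hW : IsTab cf W) (h : (W k).w d q x y ≠ 0) :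
    x < nm cf.n0 k ∧ y < nm cf.n0 k := by
  have h1 : sd (W k).L d x y ≠ 0 := by
    unfold w at h
    rw [if_pos (vis_of_w h)] at h
    exact left_ne_zero_of_mul h
  rw [hW.L] at h1
  cases d
  · exact (lv_supp hc.N_le h1).symm
  · exact lv_supp hc.N_le h1

theorem lt_of_se (hc : cf.Ok) (hW : IsTab cf W) (h : 0 < (W k).se d q x y) :
    x < nm cf.n0 k ∧ y < nm cf.n0 k := by
  have h1 := sig_pos_of_se h
  have h2 := w_of_sig (A := W k) (d := d) (q := q) (x := x) (y := y) (by linarith)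
  have h3 := thr_pos q.age
  exact lt_of_w hc hW (d := d) (q := q) (by linarith)

theorem lam_add_le (hW : IsTab cf W) (hf : FOk cf k q f) (hx : x < nm cf.n0 k) (d e : Bool) :
    (W k).lam d q x + f e ≤ cf.m := by
  have h1 : (ve (W k).L d x).l ≤ B * k := by
    rw [hW.L]
    cases d
    · exact (congrArg Hi.View.l (lv_vi hx)).trans_le (vw_l_le _ _ _ _ _ _)
    · exact (congrArg Hi.View.l (lv_vo hx)).trans_le (vw_l_le _ _ _ _ _ _)
  have h2 := hf.room e d
  rw [add_mul] at h2
  unfold lam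
  omega

theorem eps_nonneg (q : Cx) (t : ℕ) : 0 ≤ eps q t := by unfold eps; positivity

end G0

open G0 Tb

theorem stSym : StSym := by
  intro cf W k q f x K d hA hG hs
  have hc : (W k).cand cf d q f x (cf.val (K d) x) (K !d) ((W k).pt cf d q f x K) := by
    by_contra h
    unfold s at hs
    rw [if_neg h] at hs
    exact lt_irrefl _ hs
  have hs' := hs
  unfold s at hs'
  rw [if_pos hc] at hs'
  have hy := (lt_of_se hA.ok hA.tab hc.1).2
  have hc' := cand_symm hc
  have hv : ∀ e v, cf.val (K e) v < 2 ^ cf.m := fun e v =>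
    Nat.xor_lt_two_pow (lin_lt _ _ _ _) (hA.kok e)
  have hT : (W k).Tr cf d q f ((W k).pt cf d q f x K) K < 2 :=
    Gd_lt (right_ne_zero_of_mul hs'.ne')
  have e : (W k).pt cf (!d) q f ((W k).pt cf d q f x K) K = x := by
    refine (hG (!d) _ hy).uniq hA.fok (hv _ _) (hA.kok _) ?_ (cand_pt hc') hc'
    rw [Bool.not_not]
    exact hT
  refine ⟨hy, vis_of_se hc.1, e, ?_⟩
  unfold s
  rw [if_pos hc, if_pos (cand_pt hc'), e, se_not]
  simp only [Tk, Tr, Bool.not_not]
  ring

theorem stVis : StVis := by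
  intro cf W k q f x y d hP hG hf hx
  have hft : f d + f (!d) = f true + f false := by cases d <;> simp [add_comm]
  have hfe : eps q (f !d) + eps q (f !!d) = eps q (f true) + eps q (f false) := by
    cases d <;> simp [add_comm]
  have hU : ∀ h < 2 ^ cf.m, ∀ h' < 2 ^ cf.m, ∀ s, (W k).T d q f x h (cf.rot s y h') < 2 → ∀ z z',
      (W k).cand cf d q f x h (cf.rot s y h') z → (W k).cand cf d q f x h (cf.rot s y h') z' →
        z = z' := fun h hh h' hh' s hT z z' hz hz' =>
    (hG d x hx).uniq hf hh (Nat.xor_lt_two_pow (lin_lt _ _ _ _) hh') hT hz hz'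
  have hp : (0 : ℝ) < 2 ^ ((W k).lam d q x + f true + f false) := by positivity
  have h1 := lam_add_le hP.tab hf hx d d
  have h2 := lam_add_le hP.tab hf hx d (!d)
  have hT := fun d x h c => T_nonneg hP.tab k d q f x h c
  by_cases h0 : (W k).se d q x y = 0
  · refine ⟨1, by linarith [eps_nonneg q (f true), eps_nonneg q (f false)], le_rfl, ?_⟩
    have h3 := mean_pin_le (y := y) h1 h2 hU
    rw [h0, zero_div] at h3
    rw [h0, zero_mul, le_antisymm h3 (mean_nonneg fun _ _ => mean_nonneg fun _ _ =>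
      mean_nonneg fun _ _ => mean_nonneg fun _ _ => by
        dsimp only
        split_ifs
        exacts [s_nonneg, le_rfl]), mul_zero]
  · have hs : 0 < (W k).se d q x y := se_nonneg.lt_of_ne' h0
    have hy := (lt_of_se hP.ok hP.tab hs).2
    have h3 := mean_pin_le (y := y) h1 h2 hU
    have h4 := mean_pin_ge (y := y) h1 h2 hU hT
      (fun h hh h' hh' _ => (hG d x hx).own hf hh (hy.trans_le (nm_le _ hP.le)) hh')
      (fun h hh h' hh' _ => (hG (!d) y hy).own hf hh' (hx.trans_le (nm_le _ hP.le)) hh)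
    rw [add_assoc, hft, ← add_assoc] at h3 h4
    rw [le_div_iff₀ hp] at h3
    rw [div_le_iff₀ hp] at h4
    refine ⟨_ / (W k).se d q x y, ?_, ?_, (mul_div_cancel₀ _ h0).symm⟩
    · rw [le_div_iff₀ hs, mul_comm (2 ^ _), sub_sub, ← hfe, ← sub_sub]
      exact h4
    · rw [div_le_one hs, mul_comm]
      exact h3

end Vale.Agent.P313.Full
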