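import Vale.Agent.P313.Full.PgStmt
import Vale.Agent.P313.Full.TabGen

/-! The program for the tables: the links at merged names. -/

namespace Vale.Agent.P313.Full

open Finset Function Hi Tm

variable {α : Type} {I : α → In} {a : α} {W : ℕ → Tb} {j k : ℕ} {q : QQ} {s t : SS} {d e : Bool}

theorem Ct.mem₁ (h : Ct I a k q s) : s ∈ Full.box (I a).bd := box_eq (P := prog I) rfl ▸ h.box

theorem Ct.of₁ (h : Ct I a k q s) (ht : t ∈ Full.box (I a).bd) : Ct I a k q t :=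
  ⟨h.lev, h.fok, box_eq (P := prog I) rfl ▸ ht⟩

theorem Ct.le₁ (h : Ct I a k q s) : k ≤ (I a).K := (Nat.le_add_left _ _).trans h.fok.age

theorem Ct.mv₁ (h : Ct I a k q s) {i y : ℕ} (hi : i ≤ k) (hy : y < nm (I a).n0 i) :
    Ct I a k q ((I a).mv i s y) := h.of₁ (Cf.mv_mem (hi.trans h.le₁) h.mem₁ hy)

theorem Ct.enM₁ (h : Ct I a k q s) (d : Bool) : Ct I a k q (enM I d a q s) :=
  h.of₁ (Cf.ens_mem h.mem₁)

theorem Ct.half₁ (h : Ct I a (j + 1) q s) (e : Bool) : Ct I a j (FM e q) (sw e s) :=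
  ⟨by rw [FM_lev, h.lev, Nat.add_sub_cancel], h.fok.fM _ e,
    box_eq (P := prog I) rfl ▸ Cf.sw_mem h.mem₁⟩

theorem Env.pre₁ (hE : Env I a W) (hk : k ≤ (I a).K) : Pre (I a).toCf W k :=
  ⟨hE.ok.toOk, hE.tab, hk, fun i hi => hE.good i (by omega)⟩

theorem Env.at₁ (hE : Env I a W) (h : Ct I a k q s) :
    At (I a).toCf W k (cx q) (ff q) ((I a).nx k s) (ky s) := (hE.pre₁ h.le₁).at h.fok h.mem₁

theorem Env.ent₁ (hE : Env I a W) (h : Ct I a (j + 1) q s) (hv : vM q) :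
    Ent (I a).toCf q 1 (lb q) :=
  Ent.ofM hE.ok.toOk (h.lev ▸ h.fok) (by rw [h.lev]; omega) hv

theorem Env.mus₁ (hE : Env I a W) (h : q .lev = k) (d : Bool) (s : SS) :
    (I a).mus d q s = (W k).mu d ((I a).nx k s) := by rw [Full.mus_eq hE.tab, h]

namespace PM

/-- The filters of the half `e`. -/
noncomputable abbrev fh (q : QQ) (e : Bool) : Bool → ℕ := fM (cx q) (ff q) (lb q) e

section half

variable (hE : Env I a W) (hL : Lvg I a W true j) (h : Ct I a (j + 1) q t)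
include hE hL h

theorem inH_T (e d : Bool) : TV I a (inH e (.T true d)) q t
    ((W j).Tk (I a).toCf d q0 (fh q e) ((I a).nx j t) (ky (sw e t))) := fun _ =>
  Pg.Val.inH hE.wf (hL.T (h.half₁ e) ⟨rfl, rfl⟩ nofun)

theorem inH_S (e d : Bool) : TV I a (inH e (.S true d)) q t
    ((W j).s (I a).toCf d q0 (fh q e) ((I a).nx j t) (ky (sw e t))) := fun _ =>
  Pg.Val.inH hE.wf (hL.S (h.half₁ e) ⟨rfl, rfl⟩ nofun)

theorem inH_W (e d : Bool)
    (h0 : (W j).s (I a).toCf d q0 (fh q e) ((I a).nx j t) (ky (sw e t)) ≠ 0) :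
    TV I a (inH e (.W true d)) q t ((W j).w d q0 ((I a).nx j t)
      ((W j).pt (I a).toCf d q0 (fh q e) ((I a).nx j t) (ky (sw e t)))) := fun _ =>
  (Pg.Val.inH hE.wf (hL.W' (h.half₁ e) ⟨rfl, rfl⟩ nofun
    ((Tb.s_nonneg ..).lt_of_ne' h0))).congr (div_one _)

theorem half_mv (e d : Bool)
    (h0 : (W j).s (I a).toCf d q0 (fh q e) ((I a).nx j t) (ky (sw e t)) ≠ 0) :
    TMv I a (half e) q d t
      ((I a).mv j t ((W j).pt (I a).toCf d q0 (fh q e) ((I a).nx j t) (ky (sw e t)))) := fun _ =>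
  (Pg.Mov.half hE.wf (hL.M (h.half₁ e) ⟨rfl, rfl⟩ nofun
    ((Tb.s_nonneg ..).lt_of_ne' h0))).congr (by rw [Cf.sw_mv, sw_sw]; rfl)

end half

/-- The state on the lower level with the name `y`. -/
noncomputable def sa (I : α → In) (a : α) (j : ℕ) (d : Bool) (q : QQ) (s : SS) (y : ℕ) : SS :=
  (I a).mv j (enM I d a q s) y

/-- The keys of the half `e`. -/
noncomputable abbrev kh (I : α → In) (a : α) (W : ℕ → Tb) (j : ℕ) (d : Bool) (q : QQ) (s : SS)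
    (e : Bool) : Bool → Key := lk I a W j d q s Tb.kM e

/-- The near end on the lower level. -/
noncomputable abbrev x1 (I : α → In) (a : α) (W : ℕ → Tb) (j : ℕ) (s : SS) : ℕ :=
  (I a).nx (j + 1) s % (W j).L.n

section link

variable (hE : Env I a W) (h : Ct I a (j + 1) q s) (hv : vM q)
include hE h hv

theorem ky_sa (d e : Bool) (y : ℕ) : ky (sw e (sa I a j d q s y)) = kh I a W j d q s e := by
  have h1 := (hE.ent₁ h hv).ky_half_mv hE.tab d e s j y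
  rwa [h.lev, Nat.add_sub_cancel] at h1

omit h hv in
theorem x1_lt : x1 I a W j s < nm (I a).n0 j := by
  rw [x1, hE.tab.n_eq]
  exact mod_nm_lt _ _ _

theorem sa_x1 (d : Bool) : sa I a j d q s (x1 I a W j s) = enM I d a q s := by
  have h1 := (hE.ent₁ h hv).nx_ens' hE.tab d s
  rw [h.lev, Nat.add_sub_cancel] at h1
  rw [sa, x1, ← h1]
  exact Cf.mv_nx _ _ _

omit hE hv in
theorem ct_sa (d : Bool) {y : ℕ} (hy : y < nm (I a).n0 j) : Ct I a (j + 1) q (sa I a j d q s y) :=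
  (h.enM₁ d).mv₁ j.le_succ hy

theorem sym (d d' e : Bool) {y : ℕ} (hy : y < nm (I a).n0 j)
    (h0 : (W j).s (I a).toCf d' q0 (fh q e) y (kh I a W j d q s e) ≠ 0) :
    (W j).pt (I a).toCf d' q0 (fh q e) y (kh I a W j d q s e) < nm (I a).n0 j ∧
    (W j).vis d' q0 y ((W j).pt (I a).toCf d' q0 (fh q e) y (kh I a W j d q s e)) ∧
    (W j).pt (I a).toCf (!d') q0 (fh q e)
      ((W j).pt (I a).toCf d' q0 (fh q e) y (kh I a W j d q s e)) (kh I a W j d q s e) = y ∧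
    (W j).s (I a).toCf (!d') q0 (fh q e)
      ((W j).pt (I a).toCf d' q0 (fh q e) y (kh I a W j d q s e)) (kh I a W j d q s e) =
      (W j).s (I a).toCf d' q0 (fh q e) y (kh I a W j d q s e) := by
  have h1 := hE.at₁ ((ct_sa h d hy).half₁ e)
  rw [ky_sa hE h hv, Cf.nx_sw, sa, Cf.nx_mv hy] at h1
  exact stSym h1 (hE.good j h1.le).T ((Tb.s_nonneg ..).lt_of_ne' h0)

variable (hL : Lvg I a W true j)
include hL

theorem sa_T (d d' e : Bool) {y : ℕ} (hy : y < nm (I a).n0 j) :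
    TV I a (inH e (.T true d')) q (sa I a j d q s y)
      ((W j).Tk (I a).toCf d' q0 (fh q e) y (kh I a W j d q s e)) := by
  have h1 := inH_T hE hL (ct_sa h d hy) e d'
  rwa [ky_sa hE h hv, sa, Cf.nx_mv hy] at h1

theorem sa_hG (d d' e : Bool) {y : ℕ} (hy : y < nm (I a).n0 j) :
    TV I a (hGt e d') q (sa I a j d q s y)
      (pp (Gd ((W j).Tk (I a).toCf d' q0 (fh q e) y (kh I a W j d q s e)))) := fun n =>
  (sa_T hE h hv hL d d' e hy n).fn

theorem sa_S (d d' e : Bool) {y : ℕ} (hy : y < nm (I a).n0 j) :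
    TV I a (inH e (.S true d')) q (sa I a j d q s y)
      ((W j).s (I a).toCf d' q0 (fh q e) y (kh I a W j d q s e)) := by
  have h1 := inH_S hE hL (ct_sa h d hy) e d'
  rwa [ky_sa hE h hv, sa, Cf.nx_mv hy] at h1

theorem sa_mv (d d' e : Bool) {y : ℕ} (hy : y < nm (I a).n0 j)
    (h0 : (W j).s (I a).toCf d' q0 (fh q e) y (kh I a W j d q s e) ≠ 0) :
    TMv I a (half e) q d' (sa I a j d q s y)
      (sa I a j d q s ((W j).pt (I a).toCf d' q0 (fh q e) y (kh I a W j d q s e))) := by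
  have h1 := half_mv hE hL (ct_sa h d hy) e d'
  rw [ky_sa hE h hv, sa, Cf.nx_mv hy, Cf.mv_mv hy] at h1
  exact h1 h0

/-- `g1t`. -/
theorem val_g1 (d : Bool) : TV I a (g1t d) q (enM I d a q s) (gg (lk I a W j d q s Tb.s1)) :=
  fun n => sa_x1 hE h hv d ▸ (sa_S hE h hv hL d d d (x1_lt hE) n).fn

/-- `g2t`. -/
theorem val_g2 (h1 : lk I a W j d q s Tb.s1 ≠ 0) :
    TV I a (g2t d) q (mid I a W j d q s) (gg (lk I a W j d q s Tb.s2)) := fun n =>
  (sa_S hE h hv hL d d (!d) (sym hE h hv d d d (x1_lt hE) h1).1 n).fn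

end link

theorem nm_exit {cf : Cf} {b y : ℕ} {r : Lab} (h : Ent cf q b r) (hd : cf.dgOk b r d q s)
    (hy : y < nm cf.n0 (q .lev - b)) :
    cf.nx (q .lev) (cf.ens b r (!d) q (cf.mv (q .lev - b) (cf.ens b r d q s) y)) =
      y + nm cf.n0 (q .lev - b) * r.1 (!d) := by
  have h2 : nm cf.n0 (q .lev) = nm cf.n0 (q .lev - b) * 2 ^ (Hi.a * b) := by
    rw [← nm_add, Nat.sub_add_cancel h.le]
  have h3 := xor_digits (t := s .nm) hy (h.c (!d))
  rw [mul_comm (r.1 _), mul_comm (s .nm % _ / _)] at h3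
  rw [← Cf.nx_mv (s := s) (h.end_lt (!d) hy), Cf.nx, Cf.nx, Cf.ens, Cf.mv_nm, Cf.mv_nm, Cf.ens,
    h.dgs_eq, h.dgs_eq, ← hd, Cf.nx, h2]
  exact congrArg (· % _) h3

theorem ne_of_gg {x : ℝ} (h : gg x ≠ 0) : x ≠ 0 := fun h1 => h (h1 ▸ gg_zero)

theorem s1_ne (h : lk I a W j d q s Tb.a1 ≠ 0) :
    (W j).okM d (cx q) (ff q) ((I a).nx (j + 1) s) ((I a).val (ky s d) ((I a).nx (j + 1) s))
      (lb q) ∧ (W j).locM (cx q) (lb q) (lk I a W j d q s Tb.mM) ∧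
      lk I a W j d q s Tb.s1 ≠ 0 := by
  simp only [lk, Tb.a1] at h
  split_ifs at h with h1
  · exact ⟨h1.1, h1.2, Tb.s_ne_of_amp h⟩
  · exact absurd rfl h

theorem of_Z (h : lk I a W j d q s Tb.Z ≠ 0) :
    lk I a W j d q s Tb.a1 ≠ 0 ∧ lk I a W j d q s Tb.s2 ≠ 0 ∧
      trm (W j).L d ((I a).nx (j + 1) s) (lk I a W j d q s Tb.mM) (lk I a W j d q s Tb.eM) ≠ 0 :=
  ⟨left_ne_zero_of_mul (left_ne_zero_of_mul h),
    Tb.s_ne_of_amp (right_ne_zero_of_mul (left_ne_zero_of_mul h)),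
    right_ne_zero_of_mul (right_ne_zero_of_mul h)⟩

section link

variable (hE : Env I a W) (h : Ct I a (j + 1) q s) (hv : vM q)
include hE h hv

omit hv in
theorem dg_iff : (I a).dgOk 1 (lb q) d q s ↔ (I a).nx (j + 1) s / (W j).L.n = (lb q).1 d := by
  rw [dgOk_iff hE.tab, h.lev, Nat.add_sub_cancel]

theorem okS_iff : (I a).okS d q s ↔ (W j).okM d (cx q) (ff q) ((I a).nx (j + 1) s)
    ((I a).val (ky s d) ((I a).nx (j + 1) s)) (lb q) := by
  rw [(hE.ent₁ h hv).okS_iff hE.tab, h.lev, Nat.add_sub_cancel]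

omit hv in
theorem locS_sa {y : ℕ} (hy : y < nm (I a).n0 j) :
    (I a).locS q (sa I a j d q s y) ↔ (W j).locM (cx q) (lb q) y := by
  rw [locS_iff hE.tab, h.lev, Nat.add_sub_cancel, sa, Cf.nx_mv hy]

theorem end_lt {y : ℕ} (hy : y < nm (I a).n0 j) (e : Bool) :
    y + (W j).L.n * (lb q).1 e < nm (I a).n0 (j + 1) := by
  have h1 := (hE.ent₁ h hv).end_lt e (y := y)
  rw [h.lev, Nat.add_sub_cancel] at h1
  exact hE.tab.n_eq j ▸ h1 hy

/-- The number of matched bits is the same at both ends. -/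
theorem lr_eq (h1 : lk I a W j d q s Tb.s1 ≠ 0) (h2 : lk I a W j d q s Tb.s2 ≠ 0)
    (h3 : (W j).locM (cx q) (lb q) (lk I a W j d q s Tb.mM)) :
    (W j).lr 1 d (cx q) ((I a).nx (j + 1) s) (lb q) =
      (W j).lr 1 (!d) (cx q) (lk I a W j d q s Tb.eM) (lb q) := by
  obtain ⟨a1, a2, -⟩ := sym hE h hv d d d (x1_lt hE) h1
  obtain ⟨b1, b2, -⟩ := sym hE h hv d d (!d) a1 h2
  have e1 : lk I a W j d q s Tb.eM % (W j).L.n = lk I a W j d q s Tb.zM := by
    rw [lk, Tb.eM, hE.tab.n_eq]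
    exact add_nm_mod b1 _
  have a3 : (ve (W j).L d (x1 I a W j s)).l = (ve (W j).L (!d) (lk I a W j d q s Tb.mM)).l := a2.1
  have b3 : (ve (W j).L d (lk I a W j d q s Tb.mM)).l =
      (ve (W j).L (!d) (lk I a W j d q s Tb.zM)).l := b2.1
  rw [Tb.lr, Tb.lr, e1, Tb.lam, Tb.lam, a3, ← b3]
  cases d
  exacts [h3.1.symm, h3.1]

theorem exit (hd : (I a).dgOk 1 (lb q) d q s) (hz : lk I a W j d q s Tb.zM < nm (I a).n0 j) :
    (I a).nx (j + 1) (enM I (!d) a q (sa I a j d q s (lk I a W j d q s Tb.zM))) =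
        lk I a W j d q s Tb.eM ∧
      ((W j).lr 1 d (cx q) ((I a).nx (j + 1) s) (lb q) =
          (W j).lr 1 (!d) (cx q) (lk I a W j d q s Tb.eM) (lb q) →
        enM I (!d) a q (sa I a j d q s (lk I a W j d q s Tb.zM)) = far I a W j d q s) := by
  have h1 := nm_exit (y := lk I a W j d q s Tb.zM) (hE.ent₁ h hv) hd
  have h2 := (hE.ent₁ h hv).exit (y := lk I a W j d q s Tb.zM) hE.tab hd
  rw [h.lev, Nat.add_sub_cancel, ← hE.tab.n_eq] at h1 h2
  rw [← hE.tab.n_eq] at hz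
  refine ⟨h1 hz, fun h3 => h2 hz ?_⟩
  rw [h3, Tb.lr, lk, lk, Tb.eM, Nat.add_mul_mod_self_left]
  exact congrArg _ (Nat.mod_eq_of_lt hz).symm

end link

end PM

open PM

theorem m0 (hE : Env I a W) (hL : Lvg I a W true j) : M0 I a W j := by
  intro d q s h hv h1
  obtain ⟨a1, -, a2, a3⟩ := sym hE h hv d d d (x1_lt hE) h1
  have a4 := sa_mv hE h hv hL d d d (x1_lt hE) h1
  have a5 := sa_mv hE h hv hL d (!d) d a1 (a3 ▸ h1)
  rw [a2] at a5
  rw [sa_x1 hE h hv] at a4 a5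
  refine ⟨a1, a4, a5, fun h2 => ?_⟩
  have b1 := (sym hE h hv d d (!d) a1 h2).1
  have b2 := sa_mv hE h hv hL d d (!d) a1 h2
  exact ⟨b1, b2, fun n => Pg.Mov.linkM (a4 n) (b2 n), fun hd => exit hE h hv hd b1⟩

theorem m5 (hE : Env I a W) : M5 I a W j := by
  intro d q s h hv hz
  obtain ⟨a1, a2, a3⟩ := of_Z hz
  have b1 := (sym hE h hv d d (!d) (sym hE h hv d d d (x1_lt hE) (s1_ne a1).2.2).1 a2).1
  have b2 : lk I a W j d q s Tb.eM < nm (I a).n0 (j + 1) := end_lt hE h hv b1 _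
  refine ⟨b2, fun h0 => ?_⟩
  rw [hE.mus₁ h.lev, hE.tab.mu_succ_eq_zero (Cf.nx_lt _ _ _)] at h0
  rw [hE.mus₁ h.lev, far, Cf.nx_mv b2, hE.tab.mu_succ_eq_zero b2, ← (of_trm a3).2.2, h0]

end Vale.Agent.P313.Full
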