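import Vale.Agent.P313.Full.PgStmt

/-! The terms for the common factor and for the mass of a link. -/

namespace Vale.Agent.P313.Full

open Finset Function Hi Tm

variable {α : Type} {I : α → In} {a : α} {W : ℕ → Tb} {j : ℕ}

namespace PM2

variable {d : Bool} {q : QQ} {s : SS}

theorem box_iff {s : SS} : s ∈ (prog I).box a ↔ s ∈ box (I a).bd := by rw [box_eq (I := I) rfl]

theorem locM_l {V : Tb} {c : Cx} {r : Lab} {m : ℕ} (h : V.locM c r m) (d : Bool) :
    (ve V.L (!d) m).l + (c.up 1 r.1).D d = (ve V.L d m).l + (c.up 1 r.1).D (!d) := by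
  cases d
  exacts [h.1.symm, h.1]

theorem alg {p p' r r' : Prop} [Decidable p] [Decidable r] [Decidable (p' ∧ r')] {g t u v : ℝ}
    (hp : p ↔ p') (hr : g ≠ 0 → (r ↔ r')) :
    (if p then g * (t * if r then u * v else 0) else 0) = (if p' ∧ r' then g * t * u else 0) * v := by
  by_cases h : g = 0
  · simp [h]
  · by_cases h1 : p' <;> by_cases h2 : r' <;> simp [hp, hr h, h1, h2, mul_assoc]

variable (E : Env I a W) (hC : Ct I a (j + 1) q s) (hv : vM q)
include E hC hv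

theorem ent : Ent (I a).toCf q 1 (lb q) :=
  Ent.ofM E.ok.toOk (hC.lev ▸ hC.fok) (hC.lev ▸ Nat.succ_ne_zero j) hv

theorem ct (e : Bool) {s' : SS} (hs : s' ∈ box (I a).bd) : Ct I a j (FM e q) (sw e s') := by
  have h := (ent E hC hv).fok_M e
  rw [hC.lev] at h
  exact ⟨by rw [FM_lev, hC.lev, Nat.add_sub_cancel], h, box_iff.2 (Cf.sw_mem hs)⟩

omit E hv in
theorem en_mem : enM I d a q s ∈ box (I a).bd := Cf.ens_mem (box_iff.1 hC.box)

omit E hv in
theorem mv_mem {y : ℕ} (hy : y < nm (I a).n0 j) : (I a).mv j (enM I d a q s) y ∈ box (I a).bd :=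
  Cf.mv_mem (by have := hC.fok.age; omega) (en_mem hC) hy

theorem nx_en : (I a).nx j (enM I d a q s) = (I a).nx (j + 1) s % (W j).L.n := by
  have h := (ent E hC hv).nx_ens' E.tab d s
  rwa [hC.lev] at h

theorem ky_en (e : Bool) : ky (sw e (enM I d a q s)) = lk I a W j d q s Tb.kM e := by
  have h := (ent E hC hv).ky_half E.tab d e s
  rwa [hC.lev] at h

theorem ky_md (e : Bool) (y : ℕ) :
    ky (sw e ((I a).mv j (enM I d a q s) y)) = lk I a W j d q s Tb.kM e := by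
  rw [Cf.sw_mv, Cf.ky_mv, ky_en E hC hv]

theorem okS_iff : (I a).okS d q s ↔ (W j).okM d (cx q) (ff q) ((I a).nx (j + 1) s)
    ((I a).val (ky s d) ((I a).nx (j + 1) s)) (lb q) := by
  have h := (ent E hC hv).okS_iff E.tab d s
  rwa [hC.lev] at h

omit hv in
theorem locS_iff' {y : ℕ} (hy : y < nm (I a).n0 j) :
    (I a).locS q ((I a).mv j (enM I d a q s) y) ↔ (W j).locM (cx q) (lb q) y := by
  have h := locS_iff E.tab q ((I a).mv j (enM I d a q s) y)
  rwa [hC.lev, Nat.add_sub_cancel, Cf.nx_mv hy] at h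

variable (L : Lvg I a W true j)
include L

theorem valS (e d' : Bool) {s' : SS} (hs : s' ∈ box (I a).bd) {y : ℕ} {K : Bool → Key}
    (hy : (I a).nx j s' = y) (hK : ky (sw e s') = K) (n : ℕ) :
    (prog I).Val a n (fn gg (inH e (.S true d'))) q s'
      (gg ((W j).s (I a).toCf d' q0 (fM (cx q) (ff q) (lb q) e) y K)) := by
  subst hy hK
  exact (Pg.Val.inH E.wf (L.S (ct E hC hv e hs) ⟨rfl, rfl⟩ nofun)).fn

theorem valT (e d' : Bool) {s' : SS} (hs : s' ∈ box (I a).bd) {y : ℕ} {K : Bool → Key}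
    (hy : (I a).nx j s' = y) (hK : ky (sw e s') = K) (n : ℕ) :
    (prog I).Val a n (hGt e d') q s'
      (pp (Gd ((W j).Tk (I a).toCf d' q0 (fM (cx q) (ff q) (lb q) e) y K))) := by
  subst hy hK
  exact (Pg.Val.inH E.wf (L.T (ct E hC hv e hs) ⟨rfl, rfl⟩ nofun)).fn

end PM2

open PM2

theorem m3 (E : Env I a W) (L : Lvg I a W true j) (h0 : M0 I a W j) : M3 I a W j := by
  classical
  intro d q s e v hC hv he n
  have hne : ∀ {x : ℝ}, gg x ≠ 0 → x ≠ 0 := fun h e => h (e ▸ gg_zero)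
  refine (Pg.Val.guard_ts fun h1 => Pg.Val.aft
    ((valS E hC hv L d d (en_mem hC) (nx_en E hC hv) (ky_en E hC hv d) n).guard fun h2 =>
      (valT E hC hv L d d (en_mem hC) (nx_en E hC hv) (ky_en E hC hv d) n).guard fun h3 =>
        have h4 := h0 hC hv (hne h2)
        Pg.Val.hop (h4.2.1 n) (Pg.Val.guard_ts fun h5 =>
          (valT E hC hv L d (!d) (mv_mem hC h4.1) (Cf.nx_mv h4.1) (ky_md E hC hv d _) n).guard
            fun h6 => he ?_ n))).congr ?_
  · rw [lk, Tb.a1, if_pos ⟨(okS_iff E hC hv).1 h1, (locS_iff' E hC h4.1).1 h5⟩]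
    rw [Tb.Tk_not] at h6
    exact mul_ne_zero (mul_ne_zero h2 h3) h6
  · rw [Tb.Tk_not]
    exact alg (okS_iff E hC hv) fun h => locS_iff' E hC (h0 hC hv (hne h)).1

theorem m4 (E : Env I a W) (L : Lvg I a W true j) (h0 : M0 I a W j) (h1 : M1 I a W j)
    (h3 : M3 I a W j) : M4 I a W j := by
  classical
  intro d q s e₁ e₂ v₁ v₂ hC hv he₁ he₂ n
  have hne : ∀ {x : ℝ}, gg x ≠ 0 → x ≠ 0 := fun h e => h (e ▸ gg_zero)
  refine (h3 (v := (W j).amp (I a).toCf d q0 (fM (cx q) (ff q) (lb q) (!d))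
    (lk I a W j d q s Tb.mM) (lk I a W j d q s Tb.kM (!d)) *
      ((2 ^ (2 * (W j).lr 1 d (cx q) ((I a).nx (j + 1) s) (lb q) + cZ) *
        trm (W j).L d ((I a).nx (j + 1) s) (lk I a W j d q s Tb.mM) (lk I a W j d q s Tb.eM)) *
        (v₁ * v₂))) hC hv (fun ha n => ?_) n).congr ?_
  · have ha' := ha
    rw [lk, Tb.a1] at ha'
    have hk := by_contra fun h => ha' (if_neg h)
    rw [if_pos hk] at ha'
    have s1 : lk I a W j d q s Tb.s1 ≠ 0 := Tb.s_ne_of_amp ha'
    have dg := ((okS_iff E hC hv).2 hk.1).1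
    obtain ⟨m1, -, -, m2⟩ := h0 hC hv s1
    have hm := mv_mem (d := d) hC m1
    refine ((valS E hC hv L (!d) d hm (Cf.nx_mv m1) (ky_md E hC hv _ _) n).guard fun g1 =>
      (valT E hC hv L (!d) d hm (Cf.nx_mv m1) (ky_md E hC hv _ _) n).guard fun g2 =>
        have z := m2 (hne g1)
        (Pg.Val.hop (z.2.1 n) (valT E hC hv L (!d) (!d) (mv_mem hC z.1) (Cf.nx_mv z.1)
          (ky_md E hC hv _ _) n)).guard fun g3 =>
          (h1 hC hv dg s1 (hne g1) hk.2 n).guard fun g4 =>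
            have hZ : lk I a W j d q s Tb.Z ≠ 0 := ?_
            (he₁ hZ n).guard fun _ => Pg.Val.hop (z.2.1 n) (Pg.Val.aft (v := v₂) ?_)).congr ?_
    · rw [Tb.Tk_not] at g3
      exact mul_ne_zero (mul_ne_zero ha (mul_ne_zero (mul_ne_zero g1 g2) g3)) g4
    · rw [(z.2.2.2 dg).2 ?_]
      · exact he₂ hZ n
      · have v1 := (Tb.of_s s1).1.vis.1
        have v2 := (Tb.of_s (hne g1)).1.vis.1
        have v3 := locM_l hk.2 d
        have v4 : lk I a W j d q s Tb.eM % (W j).L.n = lk I a W j d q s Tb.zM := by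
          rw [lk, Tb.eM, E.tab.n_eq]
          exact add_nm_mod z.1 _
        rw [Tb.lr, Tb.lr, v4]
        simp only [Tb.lam, q0, add_zero] at v1 v2 ⊢
        simp only [lk, Tb.zM, Tb.mM, q0] at v1 v2 v3 ⊢
        omega
    · rw [Tb.Tk_not, Tb.amp]
      simp only [lk, Tb.zM, mul_assoc]
  · simp only [lk, Tb.Z, mul_assoc]

end Vale.Agent.P313.Full
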