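import Vale.Agent.P313.Full.TabStmt

/-! The ideal tables: ramps, keys, averages, symmetry. -/

namespace Vale.Agent.P313.Full

open Finset Hi

/-! ### Ramps -/

theorem cl_eq {t : ℝ} (h0 : 0 ≤ t) (h1 : t ≤ 1) : cl t = t := by
  unfold cl; rw [min_eq_right h1, max_eq_right h0]

theorem cl_le {t : ℝ} (h0 : 0 ≤ t) : cl t ≤ t := max_le h0 (min_le_right _ _)

theorem le_cl {t : ℝ} (h1 : t ≤ 1) : t ≤ cl t := le_max_of_le_right (le_min h1 le_rfl)

theorem pos_of_cl {t : ℝ} (h : cl t ≠ 0) : 0 < t := not_le.1 fun h1 => h (cl_of_le h1)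

theorem cl_pos {t : ℝ} (h : 0 < t) : 0 < cl t := lt_max_of_lt_right (lt_min one_pos h)

theorem lt_of_lt_cl {s t : ℝ} (hs : 0 ≤ s) (h : s < cl t) : s < t :=
  h.trans_le (cl_le (pos_of_cl (hs.trans_lt h).ne').le)

theorem thr_pos (n : ℕ) : 0 < thr n := by unfold thr; positivity

theorem tau_pos (n : ℕ) : 0 < tau n := div_pos (thr_pos n) (by norm_num)

theorem thr_eq (n : ℕ) : thr n = 32 * tau n := by unfold tau; ring

theorem tau_eq (n : ℕ) : tau n = 1 / 2 ^ (B + 6 + n) := by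
  unfold tau thr
  rw [show B + 6 + n = B + 1 + n + 5 by omega, pow_add _ _ 5]
  field_simp
  norm_num

theorem thr_add_le (n : ℕ) {b : ℕ} (hb : b ≠ 0) : 2 * thr (n + b) ≤ thr n := by
  unfold thr
  rw [mul_one_div, div_le_div_iff₀ (by positivity) (by positivity), one_mul, ← pow_succ']
  exact pow_le_pow_right₀ one_le_two (by omega)

theorem Gd_nonneg (t : ℝ) : 0 ≤ Gd t := cl_nonneg _
theorem Gd_le_one (t : ℝ) : Gd t ≤ 1 := cl_le_one _
theorem Gd_eq_one {t : ℝ} (h : t ≤ 1) : Gd t = 1 := cl_of_ge (by linarith)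
theorem Gd_eq_zero {t : ℝ} (h : 2 ≤ t) : Gd t = 0 := cl_of_le (by linarith)
theorem lt_of_Gd {t : ℝ} (h : Gd t ≠ 0) : t < 2 := by linarith [pos_of_cl h]
theorem Gd_pos {t : ℝ} (h : t < 2) : 0 < Gd t := cl_pos (by linarith)

theorem one_sub_le_Gd {t : ℝ} (h : 0 ≤ t) : 1 - t ≤ Gd t := by
  rcases le_total t 1 with h1 | h1
  · rw [Gd_eq_one h1]; linarith
  · linarith [Gd_nonneg t]

theorem Gp_nonneg (t : ℝ) : 0 ≤ Gp t := cl_nonneg _
theorem Gp_le_one (t : ℝ) : Gp t ≤ 1 := cl_le_one _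
theorem Gp_eq_one {t : ℝ} (h : t ≤ 2) : Gp t = 1 := cl_of_ge (by linarith)
theorem lt_of_Gp {t : ℝ} (h : Gp t ≠ 0) : t < 3 := by linarith [pos_of_cl h]
theorem Gp_of_Gd {t : ℝ} (h : Gd t ≠ 0) : Gp t = 1 := Gp_eq_one (lt_of_Gd h).le

theorem psi_nonneg (t : ℝ) : 0 ≤ psi t := cl_nonneg _
theorem psi_le_one (t : ℝ) : psi t ≤ 1 := cl_le_one _
theorem psi_one : psi 1 = 1 := cl_of_ge (by norm_num)
theorem psi_eq_zero {t : ℝ} (h : t ≤ 3 / 4) : psi t = 0 := cl_of_le (by linarith)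
theorem psi_zero : psi 0 = 0 := psi_eq_zero (by norm_num)
theorem lt_of_psi {t : ℝ} (h : psi t ≠ 0) : 3 / 4 < t := by linarith [pos_of_cl h]
theorem psi_pos {t : ℝ} (h : 3 / 4 < t) : 0 < psi t := cl_pos (by linarith)

theorem psw_nonneg (t : ℝ) : 0 ≤ psw t := cl_nonneg _
theorem psw_le_one (t : ℝ) : psw t ≤ 1 := cl_le_one _
theorem psw_eq_one {t : ℝ} (h : 3 / 4 ≤ t) : psw t = 1 := cl_of_ge (by linarith)
theorem psw_eq_zero {t : ℝ} (h : t ≤ 1 / 4) : psw t = 0 := cl_of_le (by linarith)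
theorem lt_of_psw {t : ℝ} (h : psw t ≠ 0) : 1 / 4 < t := by linarith [pos_of_cl h]

theorem pp_nonneg (t : ℝ) : 0 ≤ pp t := cl_nonneg _
theorem pp_le_one (t : ℝ) : pp t ≤ 1 := cl_le_one _
theorem pp_one : pp 1 = 1 := cl_of_ge (by norm_num)
theorem pp_zero : pp 0 = 0 := cl_of_le (by norm_num)
theorem lt_of_pp {t : ℝ} (h : pp t ≠ 0) : 1 / 2 < t := by linarith [pos_of_cl h]

theorem Gd_ne_of_pp {t : ℝ} (h : pp (Gd t) ≠ 0) : Gd t ≠ 0 := by linarith [lt_of_pp h, Gd_nonneg t]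

theorem one_sub_le_pp_Gd {t : ℝ} (h : 0 ≤ t) : 1 - t ≤ pp (Gd t) := by
  rcases le_total t 1 with h1 | h1
  · rw [Gd_eq_one h1, pp_one]; linarith
  · linarith [pp_nonneg (Gd t)]

theorem gg_nonneg (t : ℝ) : 0 ≤ gg t := cl_nonneg _
theorem gg_le_one (t : ℝ) : gg t ≤ 1 := cl_le_one _
theorem gg_eq_one {t : ℝ} (h : 1 / 4 ≤ t) : gg t = 1 := cl_of_ge (by linarith)
theorem gg_zero : gg 0 = 0 := cl_of_le (by norm_num)
theorem lt_of_gg {t : ℝ} (h : gg t ≠ 0) : 1 / 8 < t := by linarith [pos_of_cl h]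

theorem rd_nonneg (t : ℝ) : 0 ≤ rd t := cl_nonneg _
theorem rd_le_one (t : ℝ) : rd t ≤ 1 := cl_le_one _

theorem rd_eq_one {t : ℝ} (h : t ≤ 2 ^ B) : rd t = 1 := by
  apply cl_of_ge
  have : 2 * t / 2 ^ B ≤ 2 := by rw [div_le_iff₀ (by positivity)]; linarith
  linarith

theorem lt_of_rd {t : ℝ} (h : rd t ≠ 0) : t < 3 / 2 * 2 ^ B := by
  have h1 := pos_of_cl h
  rw [sub_pos, div_lt_iff₀ (by positivity)] at h1
  linarith

theorem inv_eq {t : ℝ} (h0 : 1 / 2 ≤ t) (h1 : t ≤ 1) : inv t = 1 / t := by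
  unfold inv; rw [min_eq_right h1, max_eq_right h0]

theorem inv_pos' (t : ℝ) : 0 < inv t := one_div_pos.2 (lt_max_of_lt_left (by norm_num))

theorem inv_le_two (t : ℝ) : inv t ≤ 2 := by
  unfold inv
  rw [div_le_iff₀ (lt_max_of_lt_left (by norm_num))]
  linarith [le_max_left (1 / 2 : ℝ) (min 1 t)]

theorem cl3_nonneg (t : ℝ) : 0 ≤ cl3 t := le_max_left _ _
theorem cl3_le (t : ℝ) : cl3 t ≤ 3 := max_le (by norm_num) (min_le_left _ _)
theorem cl3_le_self {t : ℝ} (h : 0 ≤ t) : cl3 t ≤ t := max_le h (min_le_right _ _)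

theorem lt_of_cl3 {t c : ℝ} (hc : c ≤ 3) (h : cl3 t < c) : t < c := by
  by_contra h1
  exact absurd h (not_lt.2 (le_max_of_le_right (le_min hc (not_lt.1 h1))))

theorem clH_nonneg (t : ℝ) : 0 ≤ clH t := le_max_left _ _
theorem clH_le (t : ℝ) : clH t ≤ 2 ^ (B + 1) := max_le (by positivity) (min_le_left _ _)
theorem clH_le_self {t : ℝ} (h : 0 ≤ t) : clH t ≤ t := max_le h (min_le_right _ _)

theorem le_clH {t : ℝ} (h : clH t < 2 ^ (B + 1)) : t ≤ clH t := by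
  rcases le_total t (2 ^ (B + 1)) with h1 | h1
  · exact le_max_of_le_right (le_min h1 le_rfl)
  · exact absurd h (not_lt.2 (le_max_of_le_right (le_min le_rfl h1)))

theorem eps_pos (q : Cx) (t : ℕ) : 0 < eps q t := by unfold eps; positivity

theorem eps_le (q : Cx) (t : ℕ) : eps q t ≤ 1 / 1024 := by
  unfold eps
  refine one_div_le_one_div_of_le (by norm_num) ?_
  calc (1024 : ℝ) = 2 ^ 10 := by norm_num
    _ ≤ _ := pow_le_pow_right₀ one_le_two (Nat.le_add_right _ _)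

/-! ### The two ends -/

section two

variable {β : Type}

@[simp] theorem two_same (d : Bool) (u v : β) : two d u v d = u := by simp [two]

@[simp] theorem two_not (d : Bool) (u v : β) : two d u v (!d) = v := by simp [two]

@[simp] theorem two_not' (d : Bool) (u v : β) : two (!d) u v d = v := by simp [two]

theorem two_eta (d : Bool) (g : Bool → β) : two d (g d) (g !d) = g := by
  funext e; cases d <;> cases e <;> rfl

theorem two_swap (d : Bool) (u v : β) : two (!d) u v = two d v u := by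
  funext e; cases d <;> cases e <;> rfl

theorem eq_two {d : Bool} {g : Bool → β} {u v : β} : g = two d u v ↔ g d = u ∧ g (!d) = v :=
  ⟨fun h => by rw [h]; simp, fun h => by rw [← h.1, ← h.2, two_eta]⟩

theorem forall_two {p : Bool → Prop} (d : Bool) : (∀ e, p e) ↔ p d ∧ p (!d) :=
  ⟨fun h => ⟨h _, h _⟩, fun h e => by cases d <;> cases e <;> simp_all⟩

end two

theorem mem_prs {n : ℕ} {c : Bool → ℕ} : c ∈ prs n ↔ ∀ e, c e < n := by
  simp [prs, Fintype.mem_piFinset]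

theorem two_mem_prs {n u v : ℕ} (d : Bool) (hu : u < n) (hv : v < n) : two d u v ∈ prs n :=
  mem_prs.2 ((forall_two d).2 (by simp [hu, hv]))

theorem card_prs (n : ℕ) : #(prs n) = n ^ 2 := by simp [prs, Fintype.card_piFinset]

theorem sum_prs (d : Bool) (n : ℕ) (F : (Bool → ℕ) → ℝ) :
    ∑ c ∈ prs n, F c = ∑ u ∈ range n, ∑ v ∈ range n, F (two d u v) := by
  rw [← sum_product']
  refine sum_nbij' (fun c => (c d, c !d)) (fun p => two d p.1 p.2) ?_ ?_ ?_ ?_ ?_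
  · intro c hc
    simp only [mem_product, mem_range]
    exact ⟨mem_prs.1 hc _, mem_prs.1 hc _⟩
  · intro p hp
    simp only [mem_product, mem_range] at hp
    exact two_mem_prs d hp.1 hp.2
  · intro c _
    exact two_eta d c
  · intro p _
    simp
  · intro c _
    rw [two_eta]

theorem mem_labs {i j k : ℕ} {r : Lab} :
    r ∈ labs i j k ↔ (∀ e, r.1 e < 2 ^ i) ∧ (∀ e, r.2.1 e < 2 ^ j) ∧ r.2.2 < 2 ^ k := by
  simp only [labs, mem_product, mem_prs, mem_range]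

theorem sum_labs (i j k : ℕ) (F : Lab → ℝ) : ∑ r ∈ labs i j k, F r =
    ∑ c ∈ prs (2 ^ i), ∑ t ∈ prs (2 ^ j), ∑ u ∈ range (2 ^ k), F (c, t, u) := by
  simp only [labs, sum_product]

theorem mt_symm {l : ℕ} {f : Bool → ℕ} {d : Bool} {hn hf : ℕ} :
    mt l f d hn hf ↔ mt l f (!d) hf hn := by
  simp only [mt, Bool.not_not]
  constructor <;> rintro ⟨h1, h2⟩ <;> exact ⟨h2 ▸ h1, h2.symm⟩

theorem add_not (g : Bool → ℕ) (d : Bool) : g d + g (!d) = g true + g false := by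
  cases d <;> simp [add_comm]

/-! ### Keys and averages -/

namespace Cf

variable (cf : Cf)

theorem val_lt {k : Key} (hk : k.2 < 2 ^ cf.m) (v : ℕ) : cf.val k v < 2 ^ cf.m :=
  Nat.xor_lt_two_pow (lin_lt _ _ _ _) hk

theorem rot_lt (s v : ℕ) {h : ℕ} (hh : h < 2 ^ cf.m) : (cf.rot s v h).2 < 2 ^ cf.m :=
  Nat.xor_lt_two_pow (lin_lt _ _ _ _) hh

theorem ent_lt {k : Key} (hk : k.2 < 2 ^ cf.m) (p : ℕ) {t : ℕ} (ht : t < 2 ^ cf.m) :
    (cf.ent k p t).2 < 2 ^ cf.m :=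
  Nat.xor_lt_two_pow (Nat.xor_lt_two_pow hk (lin_lt _ _ _ _)) ht

@[simp] theorem val_rot (s v h : ℕ) : cf.val (cf.rot s v h) v = h := by
  simp only [val, rot, ← Nat.xor_assoc, Nat.xor_self, Nat.zero_xor]

theorem val_rot' (s p h v : ℕ) :
    cf.val (cf.rot s p h) v = lin cf.L cf.m s v ^^^ (lin cf.L cf.m s p ^^^ h) := rfl

theorem rot_val (k : Key) (v : ℕ) : cf.rot k.1 v (cf.val k v) = k := by
  simp only [val, rot, ← Nat.xor_assoc, Nat.xor_self, Nat.zero_xor]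

theorem val_ent (k : Key) (p t v : ℕ) : cf.val (cf.ent k p t) v = cf.val k (v ^^^ p) ^^^ t := by
  simp only [val, ent, lin_xor]
  ac_rfl

theorem ent_rot (s p h p' t : ℕ) :
    cf.ent (cf.rot s p h) p' t = cf.rot s (p ^^^ p') (h ^^^ t) := by
  simp only [ent, rot, lin_xor, Prod.mk.injEq, true_and]
  ac_rfl

theorem ent_ent (k : Key) (p t : ℕ) : cf.ent (cf.ent k p t) p t = k := by
  obtain ⟨s, o⟩ := k
  simp only [ent, Prod.mk.injEq, true_and]
  rw [show o ^^^ lin cf.L cf.m s p ^^^ t ^^^ lin cf.L cf.m s p ^^^ t =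
    o ^^^ (lin cf.L cf.m s p ^^^ lin cf.L cf.m s p) ^^^ (t ^^^ t) by ac_rfl]
  simp

theorem KOk.two {cf : Cf} (d : Bool) {k k' : Key} (h : k.2 < 2 ^ cf.m) (h' : k'.2 < 2 ^ cf.m) :
    cf.KOk (two d k k') := (forall_two d).2 (by simp [h, h'])

@[simp] theorem rt_same (K : Bool → Key) (d : Bool) (x s : ℕ) :
    cf.rt K d x s d = cf.rot s x (cf.val (K d) x) := two_same _ _ _

@[simp] theorem rt_not (K : Bool → Key) (d : Bool) (x s : ℕ) : cf.rt K d x s (!d) = K (!d) :=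
  two_not _ _ _

@[simp] theorem rt_not' (K : Bool → Key) (d : Bool) (x s : ℕ) : cf.rt K (!d) x s d = K d := by
  simp [rt]

theorem rt_self (K : Bool → Key) (d : Bool) (x : ℕ) : cf.rt K d x (K d).1 = K := by
  rw [rt, rot_val, two_eta]

theorem rt_rt (K : Bool → Key) (d : Bool) (x s s' : ℕ) :
    cf.rt (cf.rt K d x s) d x s' = cf.rt K d x s' := by simp [rt]

theorem KOk.rt {cf : Cf} {K : Bool → Key} (h : cf.KOk K) (d : Bool) (x s : ℕ) :
    cf.KOk (cf.rt K d x s) := KOk.two d (cf.rot_lt _ _ (cf.val_lt (h d) _)) (h _)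

theorem JS_congr {g g' : ℕ → ℝ} (h : ∀ s, g s = g' s) : cf.JS g = cf.JS g' := by rw [funext h]
theorem JS_mono {g g' : ℕ → ℝ} (h : ∀ s, g s ≤ g' s) : cf.JS g ≤ cf.JS g' :=
  mean_mono fun s _ => h s
theorem JS_const (c : ℝ) : cf.JS (fun _ => c) = c := mean_const (by positivity) c
theorem JS_nonneg {g : ℕ → ℝ} (h : ∀ s, 0 ≤ g s) : 0 ≤ cf.JS g := mean_nonneg fun s _ => h s
theorem JS_le {g : ℕ → ℝ} {c : ℝ} (h : ∀ s, g s ≤ c) : cf.JS g ≤ c :=
  mean_le (by positivity) fun s _ => h s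
theorem le_JS {g : ℕ → ℝ} {c : ℝ} (h : ∀ s, c ≤ g s) : c ≤ cf.JS g :=
  le_mean (by positivity) fun s _ => h s
theorem JS_add (g g' : ℕ → ℝ) : cf.JS (fun s => g s + g' s) = cf.JS g + cf.JS g' := mean_add _ _ _
theorem JS_sub (g g' : ℕ → ℝ) : cf.JS (fun s => g s - g' s) = cf.JS g - cf.JS g' := mean_sub _ _ _
theorem JS_mul_left (c : ℝ) (g : ℕ → ℝ) : cf.JS (fun s => c * g s) = c * cf.JS g :=
  mean_mul_left _ _ _
theorem JS_mul_right (c : ℝ) (g : ℕ → ℝ) : cf.JS (fun s => g s * c) = cf.JS g * c :=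
  mean_mul_right _ _ _
theorem JS_div (c : ℝ) (g : ℕ → ℝ) : cf.JS (fun s => g s / c) = cf.JS g / c := mean_div _ _ _
theorem JS_sum {ι : Type} (S : Finset ι) (g : ι → ℕ → ℝ) :
    cf.JS (fun s => ∑ u ∈ S, g u s) = ∑ u ∈ S, cf.JS (g u) := mean_sum _ _ _
theorem JS_comm (g : ℕ → ℕ → ℝ) :
    (cf.JS fun s => cf.JS fun s' => g s s') = cf.JS fun s' => cf.JS fun s => g s s' :=
  mean_comm _ _ _

theorem one_sub_le_JS {T g : ℕ → ℝ} {η : ℝ} (h : ∀ s, 1 - T s ≤ g s) (hT : cf.JS T ≤ η) :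
    1 - η ≤ cf.JS g := one_sub_le_mean (by positivity) (fun s _ => h s) hT

theorem JK_congr {g g' : Key → ℝ} (h : ∀ k : Key, k.2 < 2 ^ cf.m → g k = g' k) :
    cf.JK g = cf.JK g' := cf.JS_congr fun _ => mean_congr fun _ ho => h _ ho
theorem JK_mono {g g' : Key → ℝ} (h : ∀ k : Key, k.2 < 2 ^ cf.m → g k ≤ g' k) :
    cf.JK g ≤ cf.JK g' := cf.JS_mono fun _ => mean_mono fun _ ho => h _ ho
theorem JK_const (c : ℝ) : cf.JK (fun _ => c) = c := by
  simp only [JK, mean_const (Nat.two_pow_pos _), JS_const]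
theorem JK_nonneg {g : Key → ℝ} (h : ∀ k : Key, k.2 < 2 ^ cf.m → 0 ≤ g k) : 0 ≤ cf.JK g :=
  (cf.JK_const 0).symm.le.trans (cf.JK_mono h)
theorem JK_le {g : Key → ℝ} {c : ℝ} (h : ∀ k : Key, k.2 < 2 ^ cf.m → g k ≤ c) : cf.JK g ≤ c :=
  (cf.JK_mono h).trans (cf.JK_const c).le
theorem le_JK {g : Key → ℝ} {c : ℝ} (h : ∀ k : Key, k.2 < 2 ^ cf.m → c ≤ g k) : c ≤ cf.JK g :=
  (cf.JK_const c).symm.le.trans (cf.JK_mono h)
theorem JK_add (g g' : Key → ℝ) : cf.JK (fun k => g k + g' k) = cf.JK g + cf.JK g' := by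
  simp only [JK, mean_add, JS_add]
theorem JK_sub (g g' : Key → ℝ) : cf.JK (fun k => g k - g' k) = cf.JK g - cf.JK g' := by
  simp only [JK, mean_sub, JS_sub]
theorem JK_mul_left (c : ℝ) (g : Key → ℝ) : cf.JK (fun k => c * g k) = c * cf.JK g := by
  simp only [JK, mean_mul_left, JS_mul_left]
theorem JK_mul_right (c : ℝ) (g : Key → ℝ) : cf.JK (fun k => g k * c) = cf.JK g * c := by
  simp only [JK, mean_mul_right, JS_mul_right]
theorem JK_div (c : ℝ) (g : Key → ℝ) : cf.JK (fun k => g k / c) = cf.JK g / c := by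
  simp only [JK, mean_div, JS_div]
theorem JK_sum {ι : Type} (S : Finset ι) (g : ι → Key → ℝ) :
    cf.JK (fun k => ∑ u ∈ S, g u k) = ∑ u ∈ S, cf.JK (g u) := by
  simp only [JK, mean_sum, JS_sum]
theorem JS_JK_comm (g : ℕ → Key → ℝ) :
    (cf.JS fun s => cf.JK fun k => g s k) = cf.JK fun k => cf.JS fun s => g s k := by
  simp only [JK]
  rw [JS_comm]
  exact cf.JS_congr fun _ => mean_comm _ _ _
theorem mean_JK_comm (n : ℕ) (g : ℕ → Key → ℝ) :
    (mean n fun s => cf.JK fun k => g s k) = cf.JK fun k => mean n fun s => g s k := by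
  simp only [JK, JS]
  rw [mean_comm]
  exact mean_congr fun _ _ => mean_comm _ _ _
theorem JK_comm (g : Key → Key → ℝ) :
    (cf.JK fun k => cf.JK fun k' => g k k') = cf.JK fun k' => cf.JK fun k => g k k' := by
  calc (cf.JK fun k => cf.JK fun k' => g k k')
      = cf.JS fun s => cf.JK fun k' => mean (2 ^ cf.m) fun o => g (s, o) k' :=
        cf.JS_congr fun s => cf.mean_JK_comm _ _
    _ = _ := cf.JS_JK_comm _

/-- A random key: first the value at `p`, then the slope. -/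
theorem JK_rot (p : ℕ) (g : Key → ℝ) :
    cf.JK g = mean (2 ^ cf.m) fun h => cf.JS fun s => g (cf.rot s p h) :=
  mean_key_rot cf.L cf.m p fun s o => g (s, o)

theorem JK_val (p : ℕ) (g : ℕ → ℝ) : (cf.JK fun k => g (cf.val k p)) = mean (2 ^ cf.m) g := by
  rw [cf.JK_rot p]
  simp only [val_rot, JS_const]

theorem JK_ent (p : ℕ) {t : ℕ} (ht : t < 2 ^ cf.m) (g : Key → ℝ) :
    (cf.JK fun k => g (cf.ent k p t)) = cf.JK g := by
  refine cf.JS_congr fun s => ?_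
  simp only [ent, Nat.xor_assoc]
  exact mean_xor (Nat.xor_lt_two_pow (lin_lt _ _ _ _) ht) fun o => g (s, o)

/-- The value at another point is uniform. -/
theorem JS_rot_one (hc : cf.Ok) {p u h : ℕ} (hne : u ≠ p) (hp : p < nm cf.n0 cf.K)
    (hu : u < nm cf.n0 cf.K) (hh : h < 2 ^ cf.m) (g : ℕ → ℝ) :
    (cf.JS fun s => g (cf.val (cf.rot s p h) u)) = mean (2 ^ cf.m) g :=
  mean_rot_one hne hp hu hh hc.hash g

/-- The values at two other points are independent. -/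
theorem JS_rot_two (hc : cf.Ok) {p u u' h : ℕ} (h1 : u ≠ p) (h2 : u' ≠ p) (h3 : u ≠ u')
    (hp : p < nm cf.n0 cf.K) (hu : u < nm cf.n0 cf.K) (hu' : u' < nm cf.n0 cf.K)
    (hh : h < 2 ^ cf.m) (g g' : ℕ → ℝ) :
    (cf.JS fun s => g (cf.val (cf.rot s p h) u) * g' (cf.val (cf.rot s p h) u')) =
      mean (2 ^ cf.m) g * mean (2 ^ cf.m) g' :=
  mean_rot_two h1 h2 h3 hp hu hu' hh hc.hash g g'

end Cf

theorem stat_nonneg (cf : Cf) (d : Bool) (n : ℕ) {M : (Bool → ℕ) → (Bool → Key) → ℝ}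
    (h : ∀ f K, 0 ≤ M f K) : 0 ≤ stat cf d n M :=
  mul_nonneg (by positivity) (cf.JK_nonneg fun _ _ => cf.JK_nonneg fun _ _ => h _ _)

/-! ### Closed forms -/

theorem sd_symm (L : Lv) (d : Bool) (x y : ℕ) : sd L (!d) y x = sd L d x y := by cases d <;> rfl

theorem fre_symm (L : Lv) (d : Bool) (x y : ℕ) : fre L (!d) y x = fre L d x y := by
  cases d <;> rfl

theorem trm_symm (L : Lv) (d : Bool) (x m y : ℕ) : trm L (!d) y m x = trm L d x m y := by
  cases d <;> rfl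

namespace Tb

variable (A : Tb) (cf : Cf) (d : Bool) (q : Cx) (f : Bool → ℕ) (x y : ℕ) (K : Bool → Key)

theorem vis_symm : A.vis (!d) q y x ↔ A.vis d q x y := by
  simp only [vis, Bool.not_not]
  exact and_congr eq_comm eq_comm

theorem w_symm : A.w (!d) q y x = A.w d q x y := by
  unfold w
  rw [vis_symm, sd_symm]
  split_ifs with h
  · rw [h.1]
  · rfl

theorem sig_symm : A.sig (!d) q y x = A.sig d q x y := by
  simp only [sig, w_symm, Bool.not_not]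
  ring

theorem se_symm : A.se (!d) q y x = A.se d q x y := by simp only [se, sig_symm]

theorem Tk_not : A.Tk cf (!d) q f y K = A.Tr cf d q f y K := by simp [Tk, Tr]

theorem Tr_not : A.Tr cf (!d) q f x K = A.Tk cf d q f x K := by simp [Tk, Tr]

theorem fac_nonneg : 0 ≤ A.fac d q x := by
  unfold fac; split_ifs
  exacts [zero_le_one, rd_nonneg _]

theorem fac_le_one : A.fac d q x ≤ 1 := by
  unfold fac; split_ifs
  exacts [le_rfl, rd_le_one _]

theorem sig_nonneg : 0 ≤ A.sig d q x y :=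
  mul_nonneg (mul_nonneg (cl_nonneg _) (A.fac_nonneg _ _ _)) (A.fac_nonneg _ _ _)

theorem sig_le_cl : A.sig d q x y ≤ cl (2 * A.w d q x y / thr q.age - 1) := by
  unfold sig
  rw [mul_assoc]
  exact mul_le_of_le_one_right (cl_nonneg _)
    (mul_le_one₀ (A.fac_le_one _ _ _) (A.fac_nonneg _ _ _) (A.fac_le_one _ _ _))

theorem sig_le_one : A.sig d q x y ≤ 1 := (A.sig_le_cl d q x y).trans (cl_le_one _)

theorem se_nonneg : 0 ≤ A.se d q x y := psi_nonneg _

theorem se_le_one : A.se d q x y ≤ 1 := psi_le_one _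

theorem s_nonneg : 0 ≤ A.s cf d q f x K := by
  unfold s; split_ifs
  exacts [mul_nonneg (mul_nonneg (A.se_nonneg _ _ _ _) (Gd_nonneg _)) (Gd_nonneg _), le_rfl]

theorem s_le_one : A.s cf d q f x K ≤ 1 := by
  unfold s; split_ifs
  exacts [mul_le_one₀ (mul_le_one₀ (A.se_le_one _ _ _ _) (Gd_nonneg _) (Gd_le_one _)) (Gd_nonneg _)
    (Gd_le_one _), zero_le_one]

theorem amp_nonneg : 0 ≤ A.amp cf d q f x K :=
  mul_nonneg (mul_nonneg (gg_nonneg _) (pp_nonneg _)) (pp_nonneg _)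

theorem amp_le_one : A.amp cf d q f x K ≤ 1 :=
  mul_le_one₀ (mul_le_one₀ (gg_le_one _) (pp_nonneg _) (pp_le_one _)) (pp_nonneg _) (pp_le_one _)

@[simp] theorem pt_rt (s : ℕ) : A.pt cf d q f x (cf.rt K d x s) = A.pt cf d q f x K := by
  simp [pt]

@[simp] theorem Tk_rt (s : ℕ) : A.Tk cf d q f x (cf.rt K d x s) = A.Tk cf d q f x K := by
  simp [Tk]

variable {A cf d q f x y K}

theorem lt_w_of_sig (h : A.sig d q x y ≠ 0) : thr q.age / 2 < A.w d q x y := by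
  have h1 := pos_of_cl (left_ne_zero_of_mul (left_ne_zero_of_mul h))
  rw [sub_pos, one_lt_div (thr_pos _)] at h1
  linarith

theorem w_ne_of_sig (h : A.sig d q x y ≠ 0) : A.w d q x y ≠ 0 := by
  linarith [lt_w_of_sig h, thr_pos q.age]

theorem of_w (h : A.w d q x y ≠ 0) : A.vis d q x y ∧ sd A.L d x y ≠ 0 ∧
    A.w d q x y = sd A.L d x y * 2 ^ A.lam d q x := by
  unfold w at h ⊢
  split_ifs at h ⊢ with h1
  · exact ⟨h1, left_ne_zero_of_mul h, rfl⟩
  · exact absurd rfl h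

theorem lt_sig_of_se (h : 0 < A.se d q x y) : 3 / 4 < A.sig d q x y := lt_of_psi h.ne'

theorem sig_ne_of_se (h : 0 < A.se d q x y) : A.sig d q x y ≠ 0 := by linarith [lt_sig_of_se h]

theorem se_of_sig (h : A.sig d q x y = 1) : A.se d q x y = 1 := by rw [se, h, psi_one]

theorem cand.w_ne {h : ℕ} {k : Key} (hc : A.cand cf d q f x h k y) : A.w d q x y ≠ 0 :=
  w_ne_of_sig (sig_ne_of_se hc.1)

theorem cand.vis {h : ℕ} {k : Key} (hc : A.cand cf d q f x h k y) : A.vis d q x y :=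
  (of_w hc.w_ne).1

theorem cand.symm (hc : A.cand cf d q f x (cf.val (K d) x) (K !d) y) :
    A.cand cf (!d) q f y (cf.val (K !d) y) (K !(!d)) x := by
  refine ⟨by rw [se_symm]; exact hc.1, ?_⟩
  rw [Bool.not_not, ← hc.vis.1]
  exact mt_symm.1 hc.2

theorem cand.pt (hc : A.cand cf d q f x (cf.val (K d) x) (K !d) y) :
    A.cand cf d q f x (cf.val (K d) x) (K !d) (A.pt cf d q f x K) :=
  Classical.epsilon_spec ⟨y, hc⟩

theorem of_s (h : A.s cf d q f x K ≠ 0) :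
    A.cand cf d q f x (cf.val (K d) x) (K !d) (A.pt cf d q f x K) ∧ A.Tk cf d q f x K < 2 ∧
      A.Tr cf d q f (A.pt cf d q f x K) K < 2 := by
  unfold s at h
  split_ifs at h with h1
  · exact ⟨h1, lt_of_Gd (right_ne_zero_of_mul (left_ne_zero_of_mul h)),
      lt_of_Gd (right_ne_zero_of_mul h)⟩
  · exact absurd rfl h

theorem pt_eq {k : ℕ} (hU : UqAt cf A k d x) (hf : FOk cf k q f) (hK : cf.KOk K)
    (hc : A.cand cf d q f x (cf.val (K d) x) (K !d) y) (hT : A.Tk cf d q f x K < 2) :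
    A.pt cf d q f x K = y := hU hf (cf.val_lt (hK d) _) (hK _) hT hc.pt hc

/-- The strength at a candidate. -/
theorem s_eq {k : ℕ} (hU : UqAt cf A k d x) (hf : FOk cf k q f) (hK : cf.KOk K)
    (hc : A.cand cf d q f x (cf.val (K d) x) (K !d) y) :
    A.s cf d q f x K = A.se d q x y * Gd (A.Tk cf d q f x K) * Gd (A.Tr cf d q f y K) := by
  rw [s, if_pos hc.pt]
  rcases lt_or_ge (A.Tk cf d q f x K) 2 with h | h
  · rw [pt_eq hU hf hK hc h]
  · simp [Gd_eq_zero h]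

/-- The link with hard guards at a fully significant candidate. -/
theorem amp_eq {k : ℕ} (hU : UqAt cf A k d x) (hf : FOk cf k q f) (hK : cf.KOk K)
    (hc : A.cand cf d q f x (cf.val (K d) x) (K !d) y) (hs : A.se d q x y = 1) :
    A.amp cf d q f x K = pp (Gd (A.Tk cf d q f x K)) * pp (Gd (A.Tr cf d q f y K)) := by
  unfold amp
  by_cases h1 : pp (Gd (A.Tk cf d q f x K)) = 0
  · simp [h1]
  rw [pt_eq hU hf hK hc (lt_of_Gd (Gd_ne_of_pp h1))]
  by_cases h2 : pp (Gd (A.Tr cf d q f y K)) = 0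
  · simp [h2]
  rw [gg_eq_one, one_mul]
  rw [s_eq hU hf hK hc, hs, one_mul]
  nlinarith [lt_of_pp h1, lt_of_pp h2]

theorem s_ne_of_amp (h : A.amp cf d q f x K ≠ 0) : A.s cf d q f x K ≠ 0 := by
  linarith [lt_of_gg (left_ne_zero_of_mul (left_ne_zero_of_mul h))]

end Tb

end Vale.Agent.P313.Full
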