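import Vale.Agent.P313.Full.TabM0
import Vale.Agent.P313.Full.TabBasic

/-! The normalisation in the weight at merged names. -/

namespace Vale.Agent.P313.Full.MM

open Finset Hi Tb

theorem gg_pp' {s : ℝ} (hs : pp s ≠ 0) (t : ℝ) : gg (s * t) * pp t = pp t := by
  have h := gg_pp s t
  rw [mul_right_comm, mul_comm (pp s)] at h
  exact mul_right_cancel₀ hs h

theorem gg_of_pp {s t : ℝ} (hs : pp s ≠ 0) (ht : pp t ≠ 0) : gg (s * t) = 1 := by
  have h := gg_pp' hs t
  exact mul_right_cancel₀ ht (h.trans (one_mul _).symm)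

theorem mul_inv_self {t : ℝ} (h0 : 1 / 2 ≤ t) (h1 : t ≤ 1) : t * inv t = 1 := by
  rw [inv_eq h0 h1, mul_one_div, div_self (by linarith)]

theorem one_sub_le_mul {s t u v : ℝ} (h1 : 1 - s ≤ u) (h2 : 1 - t ≤ v) (hu : u ≤ 1) (hv : v ≤ 1) :
    1 - (s + t) ≤ u * v := by nlinarith [mul_nonneg (sub_nonneg.2 hu) (sub_nonneg.2 hv)]

variable {V : Tb} {cf : Cf} {d : Bool} {q : Cx} {f : Bool → ℕ} {x v m j : ℕ} {K : Bool → Key}
  {c : Key}

/-- A link from `x` through `m` to `v`. -/
structure Lk (V : Tb) (cf : Cf) (d : Bool) (q : Cx) (f : Bool → ℕ) (x m v : ℕ) (K : Bool → Key)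
    (c : Key) : Prop where
  kok : cf.KOk K
  lt : c.2 < 2 ^ cf.m
  trm : Trm V d x m v
  vis : Vis V d q x v
  mt : Mt V cf d q f x v K
  hit : Hit V cf d q x v K (cf.val c m)

theorem Trm.symm (h : Trm V d x m v) : Trm V (!d) v m x where
  se1 := (se_comm V d q0 _ _).trans h.se2
  se2 := (se_comm V d q0 _ _).trans h.se1
  l1 := by rw [Bool.not_not, h.l2]
  m1 := by rw [Bool.not_not, h.m2]
  l2 := by rw [Bool.not_not, h.l1]
  m2 := by rw [Bool.not_not, h.m1]
  x_lt := h.v_lt
  v_lt := h.x_lt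
  m_lt := h.m_lt

theorem Lk.symm (h : Lk V cf d q f x m v K c) : Lk V cf (!d) q f v m x K c :=
  ⟨h.kok, h.lt, h.trm.symm, h.vis.symm, h.mt.symm h.vis, (hit_symm h.vis h.mt _).2 h.hit⟩

namespace Blw

variable (hV : Blw V cf j) (hf : FOk cf (j + 1) q f) (h : Lk V cf d q f x m v K c) {r : Lab}
  (hr : r = lab V cf d q f x v K)

include hV hf h hr

theorem lk_cand : r ∈ labM q ∧ r.1 d = x / V.L.n ∧ r.1 (!d) = v / V.L.n ∧
    V.cand cf d q0 (fM q f r d) (x % V.L.n) (cf.val (V.kM cf d q f x K r c d d) (x % V.L.n))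
      (V.kM cf d q f x K r c d !d) m ∧
    V.cand cf d q0 (fM q f r !d) m (cf.val (V.kM cf d q f x K r c (!d) d) m)
      (V.kM cf d q f x K r c (!d) !d) (v % V.L.n) := by
  have h1 : r ∈ labM q := hr ▸ lab_mem hf.toOk h.trm.x_lt h.trm.v_lt
  have h2 : r.1 (!d) = v / V.L.n := by rw [hr, lab]; exact two_not _ _ _
  obtain ⟨b1, -, b3, b4⟩ := (link_iff hV.n_eq h.trm h1 h2 c).2 ⟨hr, h.vis, h.mt, h.hit⟩
  exact ⟨h1, b1.1.symm, h2, ⟨by rw [h.trm.se1]; norm_num, b3⟩, by rw [h.trm.se2]; norm_num, b4⟩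

theorem lk_fst (hT : pp (Gd (Tc V cf d q f x K r c)) ≠ 0) : V.mM cf d q f x K r c = m ∧
    V.al cf d q f x K r c = pp (Gd (Ta V cf d q f x r m (cf.val c m) (K d))) := by
  obtain ⟨h1, h2, -, h3, -⟩ := hV.lk_cand hf h hr
  have hk := hV.kM_ok hf (d := d) (x := x) h.kok h1 h.lt d
  have e : V.Tk cf d q0 (fM q f r d) (x % V.L.n) (V.kM cf d q f x K r c d) =
      Tc V cf d q f x K r c := by
    simp only [Tk, Tc, kM, two_self, two_not, val_ek hV.n_eq h2]
  have hT' : V.Tk cf d q0 (fM q f r d) (x % V.L.n) (V.kM cf d q f x K r c d) < 2 := by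
    rw [e]; linarith [lt_of_ppG hT]
  have e1 : V.mM cf d q f x K r c = m := hV.pt_eq (fok_fM hf r d) hk hT' h3
  refine ⟨e1, ?_⟩
  rw [al, if_pos h2.symm, s1, hV.s_eq (fok_fM hf r d) hk hT' h3, h.trm.se1, one_mul, e1, e,
    gg_pp' hT]
  simp only [Tr, Ta, kM, two_self, two_not]

theorem lk_snd (e1 : V.mM cf d q f x K r c = m)
    (hT : pp (Gd (Tb' V cf d q f x r m (cf.val c m) (K !d))) ≠ 0)
    (hT2 : pp (Gd (Td V cf d q f x v K r c)) ≠ 0) :
    V.eM cf d q f x K r c = v ∧ gg (V.s2 cf d q f x K r c) = 1 := by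
  obtain ⟨h1, -, h2, -, h3⟩ := hV.lk_cand hf h hr
  have hk := hV.kM_ok hf (d := d) (x := x) h.kok h1 h.lt (!d)
  have e : V.Tk cf d q0 (fM q f r !d) m (V.kM cf d q f x K r c !d) =
      Tb' V cf d q f x r m (cf.val c m) (K !d) := by
    simp only [Tk, Tb', kM, two_self, two_not']
  have e' : V.Tr cf d q0 (fM q f r !d) (v % V.L.n) (V.kM cf d q f x K r c !d) =
      Td V cf d q f x v K r c := by
    simp only [Tr, Td, kM, two_self, two_not', val_ek hV.n_eq h2]
  have hT' : V.Tk cf d q0 (fM q f r !d) m (V.kM cf d q f x K r c !d) < 2 := by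
    rw [e]; linarith [lt_of_ppG hT]
  constructor
  · rw [eM, zM, e1, hV.pt_eq (fok_fM hf r !d) hk hT' h3, h2, Nat.mod_add_div]
  · rw [s2, e1, hV.s_eq (fok_fM hf r !d) hk hT' h3, h.trm.se2, one_mul, e, e', gg_of_pp hT hT2]

theorem lk_ga (hT : pp (Gd (Ta V cf d q f x r m (cf.val c m) (K d))) ≠ 0)
    (hT2 : pp (Gd (Tb' V cf d q f x r m (cf.val c m) (K !d))) ≠ 0) :
    V.ga cf d q f x K r c m =
      pp (Gd (Tc V cf d q f x K r c)) * pp (Gd (Td V cf d q f x v K r c)) := by
  obtain ⟨h1, h2, h2', h3, h4⟩ := hV.lk_cand hf h hr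
  have hk := hV.kM_ok hf (d := d) (x := x) h.kok h1 h.lt d
  have hk' := hV.kM_ok hf (d := d) (x := x) h.kok h1 h.lt (!d)
  have h5 := Tb.cand.symm h3
  have e1 : V.Tk cf (!d) q0 (fM q f r d) m (V.kM cf d q f x K r c d) =
      Ta V cf d q f x r m (cf.val c m) (K d) := by
    simp only [Tk, Ta, kM, two_self, two_not, Bool.not_not]
  have e2 : V.Tr cf (!d) q0 (fM q f r d) (x % V.L.n) (V.kM cf d q f x K r c d) =
      Tc V cf d q f x K r c := by
    simp only [Tr, Tc, kM, two_self, two_not, Bool.not_not, val_ek hV.n_eq h2]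
  have e3 : V.Tk cf d q0 (fM q f r !d) m (V.kM cf d q f x K r c !d) =
      Tb' V cf d q f x r m (cf.val c m) (K !d) := by
    simp only [Tk, Tb', kM, two_self, two_not']
  have e4 : V.Tr cf d q0 (fM q f r !d) (v % V.L.n) (V.kM cf d q f x K r c !d) =
      Td V cf d q f x v K r c := by
    simp only [Tr, Td, kM, two_self, two_not', val_ek hV.n_eq h2']
  have t1 : V.Tk cf (!d) q0 (fM q f r d) m (V.kM cf d q f x K r c d) < 2 := by
    rw [e1]; linarith [lt_of_ppG hT]
  have t2 : V.Tk cf d q0 (fM q f r !d) m (V.kM cf d q f x K r c !d) < 2 := by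
    rw [e3]; linarith [lt_of_ppG hT2]
  rw [ga, hV.s_eq (fok_fM hf r d) hk t1 h5, hV.pt_eq (fok_fM hf r d) hk t1 h5,
    hV.s_eq (fok_fM hf r !d) hk' t2 h4, hV.pt_eq (fok_fM hf r !d) hk' t2 h4, se_comm, h.trm.se1,
    h.trm.se2, one_mul, one_mul, e1, e2, e3, e4, gg_pp' hT, gg_pp' hT2]

end Blw

/-- The keys with the slopes `s`, `s'` and the old values at the two ends. -/
def kk (cf : Cf) (d : Bool) (x v : ℕ) (K : Bool → Key) (s s' : ℕ) : Bool → Key :=
  two d (cf.rot s x (cf.val (K d) x)) (cf.rot s' v (cf.val (K !d) v))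

section kk

variable (s s' s'' : ℕ)

theorem kk_near : kk cf d x v K s s' d = cf.rot s x (cf.val (K d) x) := two_self _ _ _

theorem kk_far : kk cf d x v K s s' (!d) = cf.rot s' v (cf.val (K !d) v) := two_not _ _ _

theorem rt_rt_eq : cf.rt (cf.rt K d x s) (!d) v s' = kk cf d x v K s s' := by
  simp only [Cf.rt, kk, two_swap, two_not, Bool.not_not, two_self]

theorem rt_kk : cf.rt (kk cf d x v K s s') d x s'' = kk cf d x v K s'' s' := by
  simp only [Cf.rt, kk, two_not, two_self, val_rot]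

theorem rt_kk' : cf.rt (kk cf d x v K s s') (!d) v s'' = kk cf d x v K s s'' := by
  simp only [Cf.rt, kk, two_swap, two_not, Bool.not_not, two_self, val_rot]

theorem lab_kk : lab V cf d q f x v (kk cf d x v K s s') = lab V cf d q f x v K := by
  simp only [lab, kk_near, kk_far, val_rot]

theorem mt_kk : Mt V cf d q f x v (kk cf d x v K s s') ↔ Mt V cf d q f x v K := by
  simp only [Mt, kk_near, kk_far, val_rot]

theorem hit_kk (h : ℕ) : Hit V cf d q x v (kk cf d x v K s s') h ↔ Hit V cf d q x v K h := by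
  simp only [Hit, kk_near, val_rot]

theorem Tc_kk (r : Lab) : Tc V cf d q f x (kk cf d x v K s s') r c = Tc V cf d q f x K r c := by
  simp only [Tc, kk_near, val_rot]

theorem Td_kk (r : Lab) :
    Td V cf d q f x v (kk cf d x v K s s') r c = Td V cf d q f x v K r c := by
  simp only [Td, kk_far, val_rot]

theorem kok_kk (hK : cf.KOk K) : cf.KOk (kk cf d x v K s s') :=
  Cf.KOk.two d (rot_lt (val_lt (hK _) _) _ _) (rot_lt (val_lt (hK _) _) _ _)

theorem Lk.kk (h : Lk V cf d q f x m v K c) : Lk V cf d q f x m v (kk cf d x v K s s') c :=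
  ⟨kok_kk s s' h.kok, h.lt, h.trm, h.vis, (mt_kk s s').2 h.mt, (hit_kk s s' _).2 h.hit⟩

end kk

theorem Lk.rot (h : Lk V cf d q f x m v K c) (s : ℕ) :
    Lk V cf d q f x m v K (cf.rot s m (cf.val c m)) :=
  ⟨h.kok, rot_lt (val_lt h.lt _) _ _, h.trm, h.vis, h.mt, by rw [val_rot]; exact h.hit⟩

section factors

variable (A V : Tb) (cf : Cf) (d : Bool) (q : Cx) (f : Bool → ℕ) (x v : ℕ) (K : Bool → Key)
  (m h s : ℕ)

/-- The factor of the near slope. -/
noncomputable def fa : ℝ :=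
  pp (Gd (Ta V cf d q f x (lab V cf d q f x v K) m h (cf.rot s x (cf.val (K d) x))))

/-- The factor of the far slope. -/
noncomputable def fb : ℝ :=
  pp (Gd (Tb' V cf d q f x (lab V cf d q f x v K) m h (cf.rot s v (cf.val (K !d) v))))

/-- The factor of the key of the midpoint. -/
noncomputable def fc (c : Key) : ℝ :=
  pp (Gd (Tc V cf d q f x K (lab V cf d q f x v K) c)) *
    pp (Gd (Td V cf d q f x v K (lab V cf d q f x v K) c))

/-- The access weight. -/
noncomputable def fG : ℝ := Gd (A.T (!d) q f v (cf.val (K !d) v) (cf.rot s x (cf.val (K d) x)))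

end factors

namespace Blw

variable {A : Tb} (hV : Blw V cf j) (hf : FOk cf (j + 1) q f)

include hV hf

/-- The normalisers on a link whose guards do not vanish. -/
theorem lk_norm (h : Lk V cf d q f x m v K c) (s s' : ℕ)
    (ha : fa V cf d q f x v K m (cf.val c m) s ≠ 0) (hb : fb V cf d q f x v K m (cf.val c m) s' ≠ 0)
    (hc : fc V cf d q f x v K c ≠ 0) :
    V.pN cf (!d) q f v (kk cf d x v K s s') (lab V cf d q f x v K) c =
        cf.JS (fb V cf d q f x v K m (cf.val c m)) ∧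
      V.pM cf (!d) q f v (kk cf d x v K s s') (lab V cf d q f x v K) c =
        (cf.JS fun t => fc V cf d q f x v K (cf.rot t m (cf.val c m))) ∧
      A.pA V cf d q f x (kk cf d x v K s s') (lab V cf d q f x v K) c =
        cf.JS fun t => fa V cf d q f x v K m (cf.val c m) t * fG A cf d q f x v K t := by
  set r := lab V cf d q f x v K with hr
  have hd : r.1 = dgs V d x v := rfl
  have hr' : ∀ s s', r = lab V cf (!d) q f v x (kk cf d x v K s s') := fun s s' => by
    rw [lab_symm h.vis (h.kk s s').mt, lab_kk]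
  have a1 : ∀ u k, Ta V cf (!d) q f v r m u k = Tb' V cf d q f x r m u k := fun u k => by
    simp only [Ta, Tb', Bool.not_not, ek_symm h.vis hd]
  have a2 : ∀ u k, Tb' V cf (!d) q f v r m u k = Ta V cf d q f x r m u k := fun u k => by
    simp only [Ta, Tb', Bool.not_not, ek_symm h.vis hd]
  have a3 : ∀ s s' c, Tc V cf (!d) q f v (kk cf d x v K s s') r c = Td V cf d q f x v K r c :=
    fun s s' c => by simp only [Tc, Td, shf_symm h.vis hd, kk_far, val_rot]
  have a4 : ∀ s s' c, Td V cf (!d) q f v x (kk cf d x v K s s') r c = Tc V cf d q f x K r c :=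
    fun s s' c => by simp only [Tc, Td, Bool.not_not, shf_symm h.vis hd, kk_near, val_rot]
  have c1 : pp (Gd (Tc V cf d q f x K r c)) ≠ 0 := left_ne_zero_of_mul hc
  have c2 : pp (Gd (Td V cf d q f x v K r c)) ≠ 0 := right_ne_zero_of_mul hc
  have b1 := fun s s' => hV.lk_fst hf (h.kk s s').symm (hr' s s') (by rw [a3]; exact c2)
  refine ⟨cf.JS_congr fun t => ?_, ?_, cf.JS_congr fun t => ?_⟩
  · rw [rt_kk', (b1 s t).2, a1, kk_far, fb]
  · rw [pM, (b1 s s').1]
    refine cf.JS_congr fun t => ?_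
    rw [hV.lk_ga hf ((h.rot t).kk s s').symm (hr' s s'), a3, a4, fc, mul_comm]
    · rw [a1, val_rot, kk_far]
      exact hb
    · rw [a2, val_rot, Bool.not_not, kk_near]
      exact ha
  · obtain ⟨b2, b3⟩ := hV.lk_fst hf (h.kk t s') (lab_kk t s').symm (by rw [Tc_kk]; exact c1)
    obtain ⟨b4, b5⟩ := hV.lk_snd hf (h.kk t s') (lab_kk t s').symm b2 (by rw [kk_far]; exact hb)
      (by rw [Td_kk]; exact c2)
    rw [rt_kk, b3, b4, b5, one_mul, kk_near, Tr, kk_near, kk_far, val_rot, fa, fG]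

open Classical in
/-- The normalised mass in closed form. -/
theorem wIn_eq (hK : cf.KOk K) (hv : Vis V d q x v) (hm : Mt V cf d q f x v K) (s : ℕ) :
    A.wIn V cf (!d) q f v (cf.rt K d x s) x = ∑ m ∈ range V.L.n, mean (2 ^ cf.m) fun h =>
      if Hit V cf d q x v K h then 2 ^ (2 * Lm V d q x v + cZ) * trm V.L d x m v *
        (cf.JS (fb V cf d q f x v K m h) * Full.inv (cf.JS (fb V cf d q f x v K m h))) *
        ((cf.JS fun t => fc V cf d q f x v K (cf.rot t m h)) *
          Full.inv (cf.JS fun t => fc V cf d q f x v K (cf.rot t m h))) *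
        (fa V cf d q f x v K m h s *
          Full.inv (cf.JS fun t => fa V cf d q f x v K m h t * fG A cf d q f x v K t)) else 0 := by
  have key : ∀ s', ∀ c : Key, c.2 < 2 ^ cf.m → (∑ r ∈ labM q,
      if V.eM cf (!d) q f v (kk cf d x v K s s') r c = x then
        V.Z cf (!d) q f v (kk cf d x v K s s') r c *
          Full.inv (V.pN cf (!d) q f v (kk cf d x v K s s') r c) *
          Full.inv (V.pM cf (!d) q f v (kk cf d x v K s s') r c) *
          Full.inv (A.pA V cf (!!d) q f (V.eM cf (!d) q f v (kk cf d x v K s s') r c)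
            (kk cf d x v K s s') r c) else 0) = ∑ m ∈ range V.L.n,
      if Hit V cf d q x v K (cf.val c m) then 2 ^ (2 * Lm V d q x v + cZ) * trm V.L d x m v *
        (fb V cf d q f x v K m (cf.val c m) s' *
          Full.inv (cf.JS (fb V cf d q f x v K m (cf.val c m)))) *
        (fc V cf d q f x v K c *
          Full.inv (cf.JS fun t => fc V cf d q f x v K (cf.rot t m (cf.val c m)))) *
        (fa V cf d q f x v K m (cf.val c m) s *
          Full.inv (cf.JS fun t => fa V cf d q f x v K m (cf.val c m) t * fG A cf d q f x v K t))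
        else 0 := by
    intro s' c hc
    have hm' := (mt_kk s s').2 hm
    have h1 := hV.Z_sum hf (d := !d) (x := v) (v := x) (kok_kk (d := d) (x := x) (v := v) s s' hK)
      hc fun r _ => Full.inv (V.pN cf (!d) q f v (kk cf d x v K s s') r c) *
        Full.inv (V.pM cf (!d) q f v (kk cf d x v K s s') r c) *
        Full.inv (A.pA V cf d q f x (kk cf d x v K s s') r c)
    rw [sum_congr rfl fun r _ => ?_, h1]
    · refine sum_congr rfl fun m _ => ?_
      rw [lab_symm hv hm', lab_kk, P4_symm hv rfl, trm_comm, hv.Lm_symm]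
      refine if_ctx_congr ⟨fun e => (hit_kk s s' _).1 ((hit_symm hv hm' _).1 e.2.2), fun e =>
        ⟨hv.symm, hm'.symm hv, (hit_symm hv hm' _).2 ((hit_kk s s' _).2 e)⟩⟩ (fun e => ?_)
        fun _ => rfl
      have e4 : P4 V cf d q f x v (kk cf d x v K s s') (lab V cf d q f x v K) m c =
          fa V cf d q f x v K m (cf.val c m) s * fb V cf d q f x v K m (cf.val c m) s' *
            fc V cf d q f x v K c := by
        rw [P4, Tc_kk, Td_kk, kk_near, kk_far, fa, fb, fc]
      rw [e4]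
      by_cases h0 : trm V.L d x m v = 0
      · simp only [h0, mul_zero, zero_mul]
      by_cases ha : fa V cf d q f x v K m (cf.val c m) s = 0
      · simp only [ha, mul_zero, zero_mul]
      by_cases hb : fb V cf d q f x v K m (cf.val c m) s' = 0
      · simp only [hb, mul_zero, zero_mul]
      by_cases hc' : fc V cf d q f x v K c = 0
      · simp only [hc', mul_zero, zero_mul]
      obtain ⟨n1, n2, n3⟩ := hV.lk_norm hf (A := A) ⟨hK, hc, hV.of_trm h0, hv, hm, e⟩ s s' ha hb hc'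
      rw [n1, n2, n3]
      ring
    · split_ifs with e
      · rw [e, Bool.not_not]
        ring
      · rfl
  rw [wIn]
  simp only [rt_rt_eq]
  rw [cf.JS_congr fun s' => cf.JK_congr (key s')]
  simp only [Cf.JK_sum, Cf.JS_sum]
  refine sum_congr rfl fun m _ => ?_
  rw [cf.JS_congr fun s' => cf.JK_rot m _, Cf.JS, mean_comm]
  refine mean_congr fun h _ => ?_
  simp only [val_rot]
  split_ifs
  · simp only [Cf.JS, mean_mul_left, mean_mul_right]
  · simp only [Cf.JS, mean_zero]

/-- The normalisers cancel. -/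
theorem mean_wIn (hK : cf.KOk K) (hv : Vis V d q x v) (hm : Mt V cf d q f x v K)
    (h0 : ∀ k, 0 ≤ A.T (!d) q f v (cf.val (K !d) v) k)
    (hA : (cf.JS fun s => A.T (!d) q f v (cf.val (K !d) v) (cf.rot s x (cf.val (K d) x))) ≤
      1 / 1024) :
    (cf.JS fun s => Gd (A.Tr cf d q f v (cf.rt K d x s)) *
      A.wIn V cf (!d) q f v (cf.rt K d x s) x) =
      2 ^ Lm V d q x v * ∑ m ∈ range V.L.n, trm V.L d x m v := by
  classical
  have e : ∀ s, Gd (A.Tr cf d q f v (cf.rt K d x s)) = fG A cf d q f x v K s := fun s => by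
    simp only [Tr, fG, Cf.rt, two_self, two_not]
  simp only [e, hV.wIn_eq hf hK hv hm, mul_sum, Cf.JS_sum]
  refine sum_congr rfl fun m _ => ?_
  by_cases ht : trm V.L d x m v = 0
  · simp only [ht, mul_zero, zero_mul, ite_self, mean_zero, Cf.JS]
  have hT := hV.of_trm ht
  set r := lab V cf d q f x v K with hr
  have hrm : r ∈ labM q := lab_mem hf.toOk hT.x_lt hT.v_lt
  have r1 : r.1 d = x / V.L.n := two_self _ _ _
  have r2 : r.1 (!d) = v / V.L.n := two_not _ _ _
  have hj : nm cf.n0 j ≤ nm cf.n0 cf.K := nm_le _ (by have := hf.age; omega)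
  have hm1 : m < nm cf.n0 j := hV.n_eq ▸ hT.m_lt
  have hx1 : ∀ y, y % V.L.n < nm cf.n0 j := fun y => hV.n_eq ▸ Nat.mod_lt _ hV.n_pos
  have hs : ∀ e y, cf.val (K e) y ^^^ V.shf 1 d q f x r e < 2 ^ cf.m := fun e y =>
    Nat.xor_lt_two_pow (val_lt (hK e) y) (hV.shf_lt hf d x hrm e)
  have hL : Lm V d q x v + cZ ≤ cf.m := by
    have h1 := hV.lr_le hf d x r d
    have h2 := hf.slack d
    rw [lr_eq rfl] at h1
    omega
  have hlt : cf.val (K d) x % 2 ^ (Lm V d q x v - ow V d q x v) < 2 ^ (Lm V d q x v + cZ) :=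
    (Nat.mod_lt _ (by positivity)).trans_le (Nat.pow_le_pow_right (by norm_num) (by omega))
  have e2 : (2 : ℝ) ^ Lm V d q x v * trm V.L d x m v =
      2 ^ (2 * Lm V d q x v + cZ) * trm V.L d x m v / 2 ^ (Lm V d q x v + cZ) := by
    rw [show 2 * Lm V d q x v + cZ = Lm V d q x v + (Lm V d q x v + cZ) by ring, pow_add _ _ (_ + _)]
    field_simp
  rw [e2, ← mean_mod_eq hL hlt]
  simp only [← mean_mul_left]
  rw [Cf.JS, mean_comm]
  refine mean_congr fun h hh => ?_
  by_cases hh' : Hit V cf d q x v K h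
  swap
  · rw [if_neg (show ¬ (h % _ = _) from hh')]
    simp only [if_neg hh', mul_zero, mean_zero]
  have b1 : (cf.JS fun s => Tb' V cf d q f x r m h (cf.rot s v (cf.val (K !d) v))) ≤ 1 / 1024 := by
    simp only [Tb', ek_rot hV.n_eq r2]
    exact ((hV.good d m hm1).own (fok_fM hf r !d) hh ((hx1 v).trans_le hj) (hs _ _)).trans
      (eps_le _ _)
  have b2 : (cf.JS fun s => Ta V cf d q f x r m h (cf.rot s x (cf.val (K d) x))) ≤ 1 / 1024 := by
    simp only [Ta, ek_rot hV.n_eq r1]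
    exact ((hV.good (!d) m hm1).own (fok_fM hf r d) hh ((hx1 x).trans_le hj) (hs _ _)).trans
      (eps_le _ _)
  have b3 : (cf.JS fun s => Tc V cf d q f x K r (cf.rot s m h)) ≤ 1 / 1024 :=
    ((hV.good d _ (hx1 x)).own (fok_fM hf r d) (hs _ _) (hm1.trans_le hj) hh).trans (eps_le _ _)
  have b4 : (cf.JS fun s => Td V cf d q f x v K r (cf.rot s m h)) ≤ 1 / 1024 :=
    ((hV.good (!d) _ (hx1 v)).own (fok_fM hf r !d) (hs _ _) (hm1.trans_le hj) hh).trans
      (eps_le _ _)
  have n1 : 1 - 1 / 1024 ≤ cf.JS (fb V cf d q f x v K m h) :=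
    cf.one_sub_le_JS (fun s => one_sub_le_ppG (hV.T0 _ _ _ _ _ _)) b1
  have n2 : 1 - (1 / 1024 + 1 / 1024) ≤ cf.JS fun t => fc V cf d q f x v K (cf.rot t m h) :=
    cf.one_sub_le_JS (fun s => one_sub_le_mul (one_sub_le_ppG (hV.T0 _ _ _ _ _ _))
      (one_sub_le_ppG (hV.T0 _ _ _ _ _ _)) (pp_le_one _) (pp_le_one _))
      ((cf.JS_add _ _).trans_le (add_le_add b3 b4))
  have n3 : 1 - (1 / 1024 + 1 / 1024) ≤
      cf.JS fun t => fa V cf d q f x v K m h t * fG A cf d q f x v K t :=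
    cf.one_sub_le_JS (fun s => one_sub_le_mul (one_sub_le_ppG (hV.T0 _ _ _ _ _ _))
      (one_sub_le_Gd (h0 _)) (pp_le_one _) (Gd_le_one _))
      ((cf.JS_add _ _).trans_le (add_le_add b2 hA))
  have u1 : cf.JS (fb V cf d q f x v K m h) ≤ 1 := cf.JS_le fun _ => pp_le_one _
  have u2 : (cf.JS fun t => fc V cf d q f x v K (cf.rot t m h)) ≤ 1 :=
    cf.JS_le fun _ => mul_le_one₀ (pp_le_one _) (pp_nonneg _) (pp_le_one _)
  have u3 : (cf.JS fun t => fa V cf d q f x v K m h t * fG A cf d q f x v K t) ≤ 1 :=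
    cf.JS_le fun _ => mul_le_one₀ (pp_le_one _) (Gd_nonneg _) (Gd_le_one _)
  rw [if_pos (show h % _ = _ from hh')]
  simp only [if_pos hh', mul_inv_self (by linarith) u1, mul_inv_self (by linarith) u2, mul_one]
  have e3 := mul_inv_self (by linarith) u3
  generalize Full.inv (cf.JS fun t => fa V cf d q f x v K m h t * fG A cf d q f x v K t) = i at e3 ⊢
  rw [mean_congr (g := fun s => 2 ^ (2 * Lm V d q x v + cZ) * trm V.L d x m v * i *
    (fa V cf d q f x v K m h s * fG A cf d q f x v K s)) fun s _ => by ring, mean_mul_left,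
    mul_assoc, mul_comm i]
  exact (congrArg (_ * ·) e3).trans (mul_one _)

end Blw

end Vale.Agent.P313.Full.MM
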