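import Vale.Agent.P313.Full.TabMP
import Vale.Agent.P313.Full.TabMw

/-! Merged names: uniqueness, the equations and the search. -/

namespace Vale.Agent.P313.Full

open Finset Hi Tb

namespace MM

theorem lt_w_of_se {A : Tb} {d : Bool} {q : Cx} {x y : ℕ} (h : 0 < A.se d q x y) :
    28 * tau q.age < A.w d q x y := by
  have h1 := lt_of_lt_cl (by norm_num) ((lt_sig_of_se h).trans_le (A.sig_le_cl d q x y))
  rw [lt_sub_iff_add_lt, lt_div_iff₀ (thr_pos _), thr_eq] at h1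
  linarith

namespace Blw

variable {V : Tb} {cf : Cf} {d : Bool} {q : Cx} {f : Bool → ℕ} {x v m j : ℕ} {K : Bool → Key}
  {c : Key} (hV : Blw V cf j) (hf : FOk cf (j + 1) q f)

include hV hf

theorem trm_bd (hv : Vis V d q x v) (ht : Trm V d x m v) :
    2 ^ (2 * Lm V d q x v + cZ) * trm V.L d x m v ≤ 2 ^ (2 * B * (q.age + 1) + cZ) := by
  have e1 : (ve V.L d (x % V.L.n)).l + (qd V d q x v).D d = Lm V d q x v := rfl
  have e2 : (ve V.L d m).l + (qd V d q x v).D (!d) = Lm V d q x v := by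
    rw [← hv.Lm_symm, Lm, qd_symm, lam, ht.l2]
  have e3 : ∀ e, (qd V d q x v).D e ≤ B * q.age + B := fun e =>
    (up_D _ e).trans (Nat.add_le_add_right (hf.D e) _)
  have h1 := mul_le_one₀ (hV.fre_le d (x % V.L.n) m)
    (mul_nonneg (hV.fre_nonneg _ _ _) (by positivity)) (hV.fre_le d m (v % V.L.n))
  calc _ ≤ 2 ^ (2 * Lm V d q x v + cZ) * (fre V.L d (x % V.L.n) m * fre V.L d m (v % V.L.n)) :=
        mul_le_mul_of_nonneg_left (hV.trm_le d x m v) (by positivity)
    _ = (2 : ℝ) ^ ((qd V d q x v).D d + (qd V d q x v).D (!d) + cZ) *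
        (fre V.L d (x % V.L.n) m * 2 ^ (ve V.L d (x % V.L.n)).l *
          (fre V.L d m (v % V.L.n) * 2 ^ (ve V.L d m).l)) := by
        rw [show 2 * Lm V d q x v + cZ = (qd V d q x v).D d + (qd V d q x v).D (!d) + cZ +
          (ve V.L d (x % V.L.n)).l + (ve V.L d m).l by omega, pow_add, pow_add]
        ring
    _ ≤ 2 ^ ((qd V d q x v).D d + (qd V d q x v).D (!d) + cZ) :=
        mul_le_of_le_one_right (by positivity) h1
    _ ≤ _ := by
        refine pow_le_pow_right₀ one_le_two ?_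
        have a1 := e3 d
        have a2 := e3 (!d)
        rw [mul_assoc, mul_add, mul_one]
        omega

theorem tst_ge (h : Lk V cf d q f x m v K c) {r : Lab} (hr : r = lab V cf d q f x v K)
    (h4 : P4 V cf d q f x v K r m c ≠ 0) (hX : 3 * tau q.age ≤ V.X cf d q f x K v) :
    3 / 4 ≤ V.tst cf d q f x K r c := by
  obtain ⟨h1, h2, h3, -⟩ := hV.lk_cand hf h hr
  have ha := left_ne_zero_of_mul (left_ne_zero_of_mul h4)
  obtain ⟨e1, e2⟩ := hV.lk_fst hf h hr (left_ne_zero_of_mul (right_ne_zero_of_mul h4))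
  obtain ⟨e3, e4⟩ := hV.lk_snd hf h hr e1 (right_ne_zero_of_mul (left_ne_zero_of_mul h4))
    (right_ne_zero_of_mul (right_ne_zero_of_mul h4))
  have e5 : gg (V.s1 cf d q f x K r c) = 1 := by
    rw [al, if_pos h2.symm, e1] at e2
    refine mul_right_cancel₀ ha (Eq.trans ?_ (e2.trans (one_mul _).symm))
    simp only [Tr, Ta, kM, two_self, two_not]
  rw [tst, if_pos ((link_iff hV.n_eq h.trm h1 h3 c).2 ⟨hr, h.vis, h.mt, h.hit⟩).1, e3, e4, e5,
    one_mul, one_mul]
  refine le_trans (le_cl (by norm_num)) (cl_mono ?_)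
  rw [le_div_iff₀ (by linarith [tau_pos q.age])]
  linarith

open Classical in
theorem Z_le (hK : cf.KOk K) (hc : c.2 < 2 ^ cf.m) (hX : 3 * tau q.age ≤ V.X cf d q f x K v) :
    ∑ r ∈ labM q, (if V.eM cf d q f x K r c = v then V.Z cf d q f x K r c else 0) ≤
      2 ^ (2 * B * (q.age + 1) + cZ) * if ∃ r ∈ labM q, 3 / 4 ≤ V.tst cf d q f x K r c ∧
        3 / 4 ≤ V.tst cf (!d) q f v K r c then 1 else 0 := by
  have h1 : ∀ r ∈ labM q, (if V.eM cf d q f x K r c = v then V.Z cf d q f x K r c else 0) = _ :=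
    fun r hr => Eq.trans (if_congr (and_iff_right rfl).symm rfl rfl)
      (hV.Z_pin hf (v := v) hK hr hc (V.mM cf d q f x K r c))
  generalize hM : ((2 : ℝ) ^ (2 * B * (q.age + 1) + cZ) * if ∃ r ∈ labM q,
      3 / 4 ≤ V.tst cf d q f x K r c ∧ 3 / 4 ≤ V.tst cf (!d) q f v K r c then 1 else 0) = M
  have h0 : 0 ≤ M := by rw [← hM]; positivity
  rw [sum_congr rfl h1]
  refine (sum_le_sum (g := fun r => if r = lab V cf d q f x v K then M else 0)
    fun r hr => ?_).trans (by rw [sum_ite_eq']; split_ifs; exacts [le_rfl, h0])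
  by_cases h : r = lab V cf d q f x v K ∧ Vis V d q x v ∧ Mt V cf d q f x v K ∧
      Hit V cf d q x v K (cf.val c (V.mM cf d q f x K r c))
  swap
  · rw [if_neg h]
    split_ifs
    exacts [h0, le_rfl]
  rw [if_pos h, if_pos h.1]
  by_cases h2 : trm V.L d x (V.mM cf d q f x K r c) v = 0
  · rwa [h2, mul_zero, zero_mul]
  by_cases h4 : P4 V cf d q f x v K r (V.mM cf d q f x K r c) c = 0
  · rwa [h4, mul_zero]
  have hl : Lk V cf d q f x (V.mM cf d q f x K r c) v K c :=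
    ⟨hK, hc, hV.of_trm h2, h.2.1, h.2.2.1, h.2.2.2⟩
  rw [← hM, if_pos ⟨r, hr, hV.tst_ge hf hl h.1 h4 hX, hV.tst_ge hf hl.symm
    (h.1.trans (lab_symm h.2.1 h.2.2.1).symm) (by rwa [P4_symm h.2.1 (by rw [h.1]; rfl)])
    (by rwa [hV.X_symm hf hK])⟩]
  exact mul_le_mul (hV.trm_bd hf h.2.1 hl.trm) (P4_le_one ..) (P4_nonneg ..) (by positivity)

open Classical in
theorem dens (hK : cf.KOk K) (hX : 3 * tau q.age ≤ V.X cf d q f x K v) :
    2 ^ (2 * cf.L) * 2 ^ cf.m ≤ 2 ^ (2 * B * (q.age + 1) + cZ + B + 6 + q.age) *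
      #{c ∈ range (2 ^ (2 * cf.L)) ×ˢ range (2 ^ cf.m) | ∃ r ∈ labM q,
        3 / 4 ≤ V.tst cf d q f x K r c ∧ 3 / 4 ≤ V.tst cf (!d) q f v K r c} := by
  have h1 := hX.trans (cf.JK_mono fun c hc => hV.Z_le hf hK hc hX)
  rw [Cf.JK_mul_left] at h1
  simp only [Cf.JK, Cf.JS, mean, ← sum_div] at h1
  rw [← sum_product' (f := fun s o => if ∃ r ∈ labM q, 3 / 4 ≤ V.tst cf d q f x K r (s, o) ∧
    3 / 4 ≤ V.tst cf (!d) q f v K r (s, o) then (1 : ℝ) else 0), sum_boole, tau_eq, div_div,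
    ← mul_div_assoc, ← mul_div_assoc, div_le_div_iff₀ (by positivity) (by positivity)] at h1
  rw [← Nat.cast_le (α := ℝ), show 2 * B * (q.age + 1) + cZ + B + 6 + q.age =
    2 * B * (q.age + 1) + cZ + (B + 6 + q.age) by ring, pow_add]
  push_cast at h1 ⊢
  have : (0 : ℝ) < 2 ^ (2 * cf.L) * 2 ^ cf.m := by positivity
  linarith

omit hf in
theorem gate_eq (g : ℕ → ℝ) : (cf.JK fun c => ∑ r ∈ labM q,
    V.Z cf d q f x K r c * g (V.eM cf d q f x K r c)) =
      ∑ v ∈ range (V.L.n * 2 ^ a), V.X cf d q f x K v * g v := by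
  simp only [X, ← Cf.JK_mul_right, ← Cf.JK_sum, sum_mul]
  refine cf.JK_congr fun c _ => ?_
  rw [sum_comm]
  refine sum_congr rfl fun r _ => ?_
  simp only [ite_mul, zero_mul, sum_ite_eq]
  split_ifs with h
  · rfl
  · refine mul_eq_zero_of_left (by_contra fun e => h (mem_range.2 ?_)) _
    have := (hV.of_trm (right_ne_zero_of_mul (right_ne_zero_of_mul e))).v_lt
    rwa [Nat.div_lt_iff_lt_mul hV.n_pos, mul_comm] at this

end Blw

variable {cf : Cf} {W : ℕ → Tb} {j : ℕ} (hP : Pre cf W (j + 1)) {d : Bool} {q : Cx} {f : Bool → ℕ}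
  {x v y : ℕ} {K : Bool → Key} (hf : FOk cf (j + 1) q f) (hK : cf.KOk K)

include hP hf hK

theorem two_Xb (h : y ≠ v) :
    2 * (Xb (W j) cf d q f x v K * Xb (W j) cf d q f x y K) ≤ QQ (W j) cf d q f x K := by
  have hV := blw hP
  have h0 : ∀ z, Xb (W j) cf d q f x z K ≠ 0 → z ∈ range ((W j).L.n * 2 ^ a) := fun z hz => by
    rw [mem_range, n_mul hP]
    exact lt_of_Wt hP (((hV.Xb_nonneg hf hK).lt_of_ne' hz).trans_le (hV.Xb_le hf hK)).ne'
  by_cases h1 : Xb (W j) cf d q f x v K * Xb (W j) cf d q f x y K = 0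
  · rw [h1, mul_zero]
    exact QQ_nonneg hP hf hK
  refine le_trans ?_ (coll_ge (fun z _ => hV.Xb_nonneg hf hK) (h0 v (left_ne_zero_of_mul h1)))
  refine mul_le_mul_of_nonneg_left (mul_le_mul_of_nonneg_left ?_ (hV.Xb_nonneg hf hK)) two_pos.le
  exact single_le_sum (f := fun z => Xb (W j) cf d q f x z K) (fun z _ => hV.Xb_nonneg hf hK)
    (mem_erase.2 ⟨h, h0 y (right_ne_zero_of_mul h1)⟩)

variable (hm : (W (j + 1)).mu d x = 0)

include hm

theorem eq_of_X (hT : (W (j + 1)).Tk cf d q f x K < 3) (hX : 3 * tau q.age ≤ (W j).X cf d q f x K v)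
    (hy : tau q.age < (W j).X cf d q f x K y) : y = v := by
  by_contra h
  have h1 := two_Xb hP (d := d) (x := x) hf hK h
  have h2 := (of_Tk hP hm hf hK le_rfl hT).2
  have h3 := (blw hP).X_le_Xb hf (d := d) (x := x) (v := v) hK
  have h4 := (blw hP).X_le_Xb hf (d := d) (x := x) (v := y) hK
  have h5 := tau_pos q.age
  have h6 := mul_le_mul (show 2 * tau q.age ≤ Xb (W j) cf d q f x v K by linarith)
    (show 3 / 4 * tau q.age ≤ Xb (W j) cf d q f x y K by linarith) (by linarith) (by linarith)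
  nlinarith

theorem st_eq (hT : (W (j + 1)).Tk cf d q f x K < 3) (hX : 3 * tau q.age ≤ (W j).X cf d q f x K v) :
    (W j).st cf d q f x K = v := by
  have h5 := tau_pos q.age
  have h1 : 2 * tau q.age < (W j).X cf d q f x K ((W j).st cf d q f x K) :=
    Classical.epsilon_spec (p := fun v => 2 * tau q.age < (W j).X cf d q f x K v) ⟨v, by linarith⟩
  exact eq_of_X hP hf hK hm hT hX (by linarith)

theorem dm_of_gate {t : ℝ} (ht : 4 ≤ t) (h : (W (j + 1)).gate (W j) cf d q f x K t ≠ 0) :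
    (W (j + 1)).DM (W j) cf d q f x K := by
  have hV := blw hP
  have h5 := tau_pos q.age
  have hT := lt_of_Gp (left_ne_zero_of_mul h)
  have h1 := pos_of_cl (right_ne_zero_of_mul h)
  rw [hV.gate_eq fun v => Gp ((W (j + 1)).Tr cf d q f v K), sub_pos, lt_div_iff₀ h5] at h1
  have h2 := (of_Tk hP hm hf hK le_rfl hT).2
  obtain ⟨y, hy, h3⟩ := exists_dom (s := range ((W j).L.n * 2 ^ a))
    (X := fun z => Xb (W j) cf d q f x z K) (fun z _ => hV.Xb_nonneg hf hK)
    ⟨0, mem_range.2 (Nat.mul_pos hV.n_pos (by positivity))⟩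
  have h4 : ∀ s : Finset ℕ, (1 - 1 / 1024) * ∑ z ∈ s, (W j).X cf d q f x K z *
      Gp ((W (j + 1)).Tr cf d q f z K) ≤ ∑ z ∈ s, Xb (W j) cf d q f x z K := fun s => by
    rw [mul_sum]
    exact sum_le_sum fun z _ => (mul_le_mul_of_nonneg_left (mul_le_of_le_one_right
      (hV.X_nonneg hf hK) (Gp_le_one _)) (by norm_num)).trans (hV.X_le_Xb hf hK)
  have h6 := h4 (range ((W j).L.n * 2 ^ a))
  have h7 := h4 ((range ((W j).L.n * 2 ^ a)).erase y)
  have h8 := add_sum_erase _ (fun z => (W j).X cf d q f x K z *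
    Gp ((W (j + 1)).Tr cf d q f z K)) hy
  have h9 := mul_le_mul_of_nonneg_right ht h5.le
  have h10 : ∑ z ∈ (range ((W j).L.n * 2 ^ a)).erase y, Xb (W j) cf d q f x z K <
      7 / 8 * tau q.age := by
    by_contra e
    have := mul_le_mul (show 7 / 2 * tau q.age ≤ ∑ z ∈ range ((W j).L.n * 2 ^ a),
      Xb (W j) cf d q f x z K by linarith) (not_lt.1 e) (by linarith) (by linarith)
    rw [QQ] at h2
    nlinarith
  have h11 : 3 * tau q.age < (W j).X cf d q f x K y * Gp ((W (j + 1)).Tr cf d q f y K) := by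
    linarith
  exact ⟨y, h11.le.trans (mul_le_of_le_one_right (hV.X_nonneg hf hK) (Gp_le_one _)), hT,
    lt_of_Gp (right_ne_zero_of_mul ((by linarith : (0 : ℝ) < _).trans h11).ne')⟩

variable (hx : x < nm cf.n0 (j + 1))

include hx

theorem of_X (hX : 3 * tau q.age ≤ (W j).X cf d q f x K v) : v < nm cf.n0 (j + 1) ∧
    mt ((W (j + 1)).lam d q x) f d (cf.val (K d) x) (cf.val (K !d) v) ∧
      (W (j + 1)).vis d q x v ∧ (W (j + 1)).mu (!d) v = 0 := by
  have h : Wt (W j) cf d q f x v K ≠ 0 := by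
    linarith [(blw hP).X_le hf (d := d) (x := x) (v := v) hK, tau_pos q.age]
  exact ⟨lt_of_Wt hP h, of_Wt hP hx hm h⟩

theorem Xb_cand (hT : (W (j + 1)).Tk cf d q f x K < 2)
    (hc : (W (j + 1)).cand cf d q f x (cf.val (K d) x) (K !d) y) :
    27 * tau q.age ≤ Xb (W j) cf d q f x y K := by
  have h1 := (blw hP).le_Xb hf (d := d) (x := x) (v := y) hK
  rw [Wt_of_mt hP hx hm hc.2] at h1
  linarith [(of_Tk hP hm hf hK (by norm_num) hT).1, lt_w_of_se hc.1, tau_pos q.age]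

theorem of_cand (hT : (W (j + 1)).Tk cf d q f x K < 2) (hT' : (W (j + 1)).Tr cf d q f y K < 2)
    (hc : (W (j + 1)).cand cf d q f x (cf.val (K d) x) (K !d) y) :
    (W j).st cf d q f x K = y ∧ (W (j + 1)).gate (W j) cf d q f x K 8 = 1 := by
  have hV := blw hP
  have h5 := tau_pos q.age
  have h1 := hV.le_X hf (d := d) (x := x) (v := y) hK
  rw [Wt_of_mt hP hx hm hc.2] at h1
  have h2 := (of_Tk hP ((hP.tab.mu_far hP.ok.N_le (of_w hc.w_ne).2.1).trans hm) hf hK
    (by norm_num) ((Tk_not ..).trans_lt hT')).1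
  have h3 : 27 * tau q.age ≤ (W j).X cf d q f x K y := by
    linarith [(of_Tk hP hm hf hK (by norm_num) hT).1, lt_w_of_se hc.1]
  refine ⟨st_eq hP hf hK hm (by linarith) (by linarith), ?_⟩
  rw [gate, Gp_eq_one hT.le, one_mul, hV.gate_eq fun v => Gp ((W (j + 1)).Tr cf d q f v K)]
  have h4 := single_le_sum (f := fun z => (W j).X cf d q f x K z *
    Gp ((W (j + 1)).Tr cf d q f z K)) (fun z _ => mul_nonneg (hV.X_nonneg hf hK) (Gp_nonneg _))
    (mem_range.2 ((hP.tab.cand_lt hP.ok.N_le hc).2.trans_eq (n_mul hP).symm))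
  simp only [Gp_eq_one hT'.le, mul_one] at h4
  apply cl_of_ge
  rw [le_sub_iff_add_le, le_div_iff₀ h5]
  linarith

end MM

open MM

theorem stMq : StMq := by
  intro cf W j x d hP hx hm q f h c y y' hf hh hc hT h1 h2
  have hK : cf.KOk (two d (cf.rot 0 x h) c) := Cf.KOk.two d (cf.rot_lt _ _ hh) hc
  have e1 : cf.val (two d (cf.rot 0 x h) c d) x = h := by rw [two_same, Cf.val_rot]
  have e2 : two d (cf.rot 0 x h) c (!d) = c := two_not _ _ _
  have hT' : (W (j + 1)).Tk cf d q f x (two d (cf.rot 0 x h) c) < 2 := by rwa [Tk, e1, e2]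
  by_contra e
  have a1 := Xb_cand hP hf hK hm hx hT' (y := y) (by rwa [e1, e2])
  have a2 := Xb_cand hP hf hK hm hx hT' (y := y') (by rwa [e1, e2])
  have a3 := two_Xb hP (d := d) (x := x) hf hK e
  have a4 := (of_Tk hP hm hf hK (by norm_num) hT').2
  have a5 := tau_pos q.age
  have a6 := mul_le_mul a2 a1 (by linarith) (by linarith)
  nlinarith

theorem stM : StM := by
  intro cf W j q f x K d h hm
  have hP := h.toPre
  refine ⟨?_, fun t ht => dm_of_gate hP h.fok h.kok hm ht, fun hs => ?_⟩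
  · rw [← hP.tab.sig_of_mu hP.ok.N_le hm, ← se]
    by_cases H : ∃ y, (W (j + 1)).cand cf d q f x (cf.val (K d) x) (K !d) y ∧
        (W (j + 1)).Tk cf d q f x K < 2 ∧ (W (j + 1)).Tr cf d q f y K < 2
    · obtain ⟨y, a1, a2, a3⟩ := H
      obtain ⟨b1, b2⟩ := of_cand hP h.fok h.kok hm h.lt a2 a3 a1
      rw [b1, b2, Tb.s_eq (stMq hP h.lt hm) h.fok h.kok a1]
      ring
    · rw [show (W (j + 1)).s cf d q f x K = 0 from by_contra fun e => H ⟨_, of_s e⟩, eq_comm]
      by_contra e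
      obtain ⟨v, a1, a2, -⟩ := dm_of_gate hP h.fok h.kok hm (by norm_num) (left_ne_zero_of_mul e)
      have a3 := right_ne_zero_of_mul e
      have a4 := right_ne_zero_of_mul a3
      rw [st_eq hP h.fok h.kok hm a2 a1] at a4
      exact H ⟨v, ⟨(se_nonneg ..).lt_of_ne' (right_ne_zero_of_mul a4),
        (of_X hP h.fok h.kok hm h.lt a1).2.1⟩, lt_of_Gd (left_ne_zero_of_mul a3),
        lt_of_Gd (left_ne_zero_of_mul a4)⟩
  · obtain ⟨a1, a2, a3⟩ := of_s hs.ne'
    exact (of_cand hP h.fok h.kok hm h.lt a2 a3 a1).1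

theorem stMv : StMv := by
  rintro cf W j q f x K d v h hm ⟨v0, a1, a2, a3⟩ hv
  have hP := h.toPre
  have hV := blw hP
  obtain rfl : v = v0 := hv.trans (st_eq hP h.fok h.kok hm a2 a1)
  obtain ⟨b1, -, b2, b3⟩ := of_X hP h.fok h.kok hm h.lt a1
  have c1 := a1.trans_eq (hV.X_symm h.fok h.kok).symm
  have c2 : (W (j + 1)).Tk cf (!d) q f v K < 3 := (Tk_not ..).trans_lt a3
  refine ⟨b1, b3, b2, ⟨x, c1, c2, (Tr_not ..).trans_lt a2⟩, st_eq hP h.fok h.kok b3 c2 c1,
    fun r _ c _ ht => eq_of_X hP h.fok h.kok hm a2 a1 ?_, hV.dens h.fok h.kok a1⟩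
  rw [tst] at ht
  split_ifs at ht
  · have h1 := lt_of_lt_cl (by norm_num) ht
    rw [lt_div_iff₀ (by linarith [tau_pos q.age])] at h1
    linarith [mul_le_of_le_one_left (hV.X_nonneg h.fok h.kok (d := d) (x := x)
      (v := (W j).eM cf d q f x K r c)) (mul_le_one₀ (gg_le_one ((W j).s1 cf d q f x K r c))
        (gg_nonneg _) (gg_le_one ((W j).s2 cf d q f x K r c)))]
  · norm_num at ht

end Vale.Agent.P313.Full
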