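import Vale.Agent.P313.Full.PgM5
import Vale.Agent.P313.Full.TabM3

/-! The program for the tables: the mass and the trouble at a merged name. -/

namespace Vale.Agent.P313.Full

open Finset Function Hi Tm Pg PM5

variable {α : Type} {I : α → In} {a : α} {W : ℕ → Tb} {j : ℕ} {d : Bool} {q : QQ} {s : SS}

namespace PM3

theorem pre (E : Env I a W) (c : Ct I a (j + 1) q s) : Pre (I a).toCf W (j + 1) :=
  have h := lev_le c
  ⟨E.ok.toOk, E.tab, by omega, fun i _ => E.good i (by omega)⟩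

theorem ct_lab {k : ℕ} (c : Ct I a k q s) (u : ℕ) {i : Option Bool} {K : Key}
    (h1 : K.1 < 2 ^ (2 * (I a).L)) (h2 : K.2 < 2 ^ (I a).m) :
    Ct I a k (update q .lab u) (setK s i K) :=
  ⟨by rw [upd_lev, c.lev], by rw [cx_upd, ff_upd]; exact c.fok, setK_mem c.box i h1 h2⟩

theorem lk_lab {β : Type} (u : ℕ) (K : Key)
    (F : Tb → Cf → Bool → Cx → (Bool → ℕ) → ℕ → (Bool → Key) → Lab → Key → β) :
    lk I a W j d (update q .lab u) (setK s none K) F = F (W j) (I a).toCf d (cx q) (ff q)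
      ((I a).nx (j + 1) s) (ky s) (lb (update q .lab u)) K := by simp [lk]

/-- The average over the spare key of the sum over the links. -/
theorem val_avL (E : Env I a W) (c : Ct I a (j + 1) q s) {e : Trm α}
    (F : Tb → Cf → Bool → Cx → (Bool → ℕ) → ℕ → (Bool → Key) → Lab → Key → ℝ) {n : ℕ}
    (h : ∀ u K, Ct I a (j + 1) (update q .lab u) (setK s none K) → vM (update q .lab u) →
      (prog I).Val a n e (update q .lab u) (setK s none K)
        (lk I a W j d (update q .lab u) (setK s none K) F)) :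
    (prog I).Val a n (avL I e) q s ((I a).JK fun K => ∑ r ∈ labM (cx q),
      F (W j) (I a).toCf d (cx q) (ff q) ((I a).nx (j + 1) s) (ky s) r K) :=
  Val.avg_key E.ok fun K h1 h2 => Val.smM E.ok (by have := lev_le c; omega) fun u _ hu =>
    (h u K (ct_lab c u h1 h2) (by simpa [vM] using hu)).congr (lk_lab u K F)

/-- The mass weighted with a function of the end. -/
theorem val_mass (E : Env I a W) (h4 : M4 I a W j) (c : Ct I a (j + 1) q s) {e : Trm α}
    (g : ℕ → ℝ) (h : ∀ u K, Ct I a (j + 1) (update q .lab u) (setK s none K) →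
      vM (update q .lab u) → lk I a W j d (update q .lab u) (setK s none K) Tb.Z ≠ 0 →
      TV I a e (update q .lab u) (far I a W j d (update q .lab u) (setK s none K))
        (g (lk I a W j d (update q .lab u) (setK s none K) Tb.eM))) :
    TV I a (mass I d e) q s ((I a).JK fun K => ∑ r ∈ labM (cx q),
      (W j).Z (I a).toCf d (cx q) (ff q) ((I a).nx (j + 1) s) (ky s) r K *
        g ((W j).eM (I a).toCf d (cx q) (ff q) ((I a).nx (j + 1) s) (ky s) r K)) := fun n =>
  val_avL E c (fun V cf d q f x K r k => V.Z cf d q f x K r k * g (V.eM cf d q f x K r k))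
    fun u K c' hv => (h4 c' hv (fun _ _ => Val.cst) (h u K c' hv) n).congr (by rw [one_mul]; rfl)

theorem val_chr (E : Env I a W) (h4 : M4 I a W j) (h5 : M5 I a W j) (c : Ct I a (j + 1) q s) :
    TV I a (mass I d (chT I)) q s ((I a).JK fun K => ∑ r ∈ labM (cx q),
      (W j).Z (I a).toCf d (cx q) (ff q) ((I a).nx (j + 1) s) (ky s) r K *
        chr (2 * (I a).nb) (s .ch)
          ((W j).eM (I a).toCf d (cx q) (ff q) ((I a).nx (j + 1) s) (ky s) r K)) :=
  val_mass E h4 c _ fun u K c' hv hz n => Val.chT.congr (by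
    rw [Cf.chs, c'.lev, far, Cf.nx_mv (h5 c' hv hz).1, Cf.mv_ne (by simp), setK_ch])

section tab

variable {V : Tb} {cf : Cf} {q : Cx} {f : Bool → ℕ} {x : ℕ} {K : Bool → Key}
  (hV : MM.Blw V cf j)

include hV

theorem Z_le (hf : FOk cf (j + 1) q f) (hK : cf.KOk K) {r : Lab} (hr : r ∈ labM q) {c : Key}
    (hc : c.2 < 2 ^ cf.m) : V.Z cf d q f x K r c ≤ 2 ^ (2 * B * (q.age + 1) + cZ) := by
  have h := hV.Z_pin hf (d := d) (x := x) (v := V.eM cf d q f x K r c) hK hr hc
    (V.mM cf d q f x K r c)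
  rw [if_pos ⟨rfl, rfl⟩] at h
  rw [h]
  split_ifs with h1
  · by_cases h2 : trm V.L d x (V.mM cf d q f x K r c) (V.eM cf d q f x K r c) = 0
    · rw [h2, mul_zero, zero_mul]
      positivity
    · exact (mul_le_of_le_one_right (mul_nonneg (by positivity) (hV.trm_nonneg ..))
        (MM.P4_le_one ..)).trans (hV.trm_bd hf h1.2.1 (hV.of_trm h2))
  · positivity

theorem abs_le (hf : FOk cf (j + 1) q f) (hK : cf.KOk K) {g : ℕ → ℝ} (hg : ∀ y, |g y| ≤ 1) :
    |cf.JK fun c => ∑ r ∈ labM q, V.Z cf d q f x K r c * g (V.eM cf d q f x K r c)| ≤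
      2 ^ (8 * (cw * (q.age + 1))) := by
  have h1 : ∀ c : Key, c.2 < 2 ^ cf.m →
      |∑ r ∈ labM q, V.Z cf d q f x K r c * g (V.eM cf d q f x K r c)| ≤
        2 ^ (8 * (cw * (q.age + 1))) := fun c hc => by
    refine (abs_sum_le_sum_abs _ _).trans ((sum_le_card_nsmul _ _ (2 ^ (2 * B * (q.age + 1) + cZ))
      fun r hr => ?_).trans ?_)
    · rw [abs_mul, abs_of_nonneg (hV.Z_nonneg r c)]
      exact (mul_le_of_le_one_right (hV.Z_nonneg r c) (hg _)).trans (Z_le hV hf hK hr hc)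
    · simp only [labM, labs, card_product, card_prs, card_range, nsmul_eq_mul]
      push_cast
      rw [← pow_mul, ← pow_mul, ← pow_add, ← pow_add, ← pow_add]
      refine pow_le_pow_right₀ one_le_two ?_
      have h2 : cZ ≤ cw := by unfold cw; omega
      nlinarith [a_le_cw, cF_le_cw, Nat.mul_le_mul_right (q.age + 1) B_le_cw,
        Nat.zero_le (cw * q.age)]
  exact _root_.abs_le.2 ⟨cf.le_JK fun c hc => (_root_.abs_le.1 (h1 c hc)).1,
    cf.JK_le fun c hc => (_root_.abs_le.1 (h1 c hc)).2⟩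

theorem eM_lt {r : Lab} {c : Key} (h : V.Z cf d q f x K r c ≠ 0) :
    V.eM cf d q f x K r c < V.L.n * 2 ^ Hi.a := by
  rw [mul_comm]
  exact Nat.lt_mul_of_div_lt (hV.of_trm (right_ne_zero_of_mul (right_ne_zero_of_mul h))).v_lt
    hV.n_pos

theorem mass_eq (g : ℕ → ℝ) :
    (cf.JK fun c => ∑ r ∈ labM q, V.Z cf d q f x K r c * g (V.eM cf d q f x K r c)) =
      ∑ v ∈ range (V.L.n * 2 ^ Hi.a), V.X cf d q f x K v * g v := by
  simp only [Tb.X, ← cf.JK_mul_right]
  rw [← cf.JK_sum]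
  refine cf.JK_congr fun c _ => ?_
  simp only [sum_mul]
  rw [sum_comm]
  refine sum_congr rfl fun r _ => ?_
  simp only [ite_mul, zero_mul, sum_ite_eq]
  split_ifs with h
  · rfl
  · rw [of_not_not fun h0 => h (mem_range.2 (eM_lt hV h0)), zero_mul]

theorem JS_mass (g : ℕ → ℝ) : (cf.JS fun t => cf.JK fun c => ∑ r ∈ labM q,
    V.Z cf d q f x (cf.rt K d x t) r c * g (V.eM cf d q f x (cf.rt K d x t) r c)) =
      ∑ v ∈ range (V.L.n * 2 ^ Hi.a), MM.Xb V cf d q f x v K * g v := by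
  simp only [mass_eq hV, cf.JS_sum, cf.JS_mul_right, MM.Xb]

end tab

theorem parseval {n N : ℕ} (h : N ≤ 2 ^ n) (X : ℕ → ℝ) :
    mean (2 ^ n) (fun u => (∑ v ∈ range N, X v * chr n u v) * ∑ v ∈ range N, X v * chr n u v) =
      ∑ v ∈ range N, X v ^ 2 := by
  have h1 : ∀ g : ℕ → ℝ, ∑ v ∈ range (2 ^ n), (if v < N then g v else 0) = ∑ v ∈ range N, g v :=
    fun g => by
      rw [← sum_filter]
      exact sum_congr (by ext v; simp only [mem_filter, mem_range]; omega) fun _ _ => rfl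
  have h2 := avg_chr_sq (n := n) fun v => if v < N then X v else 0
  simp only [ite_mul, zero_mul, ite_pow, ne_eq, OfNat.ofNat_ne_zero, not_false_eq_true, zero_pow,
    h1] at h2
  simp only [mean, ← pow_two, ← h2]
  norm_num

theorem cl3_add {u v : ℝ} (hu : 0 ≤ u) (hv : 0 ≤ v) : cl3 (u + cl3 v) = cl3 (u + v) := by
  rcases le_total v 3 with h | h
  · rw [cl3, cl3, min_eq_right h, max_eq_right hv, cl3]
  · rw [cl3, cl3, min_eq_left h, max_eq_right (by norm_num : (0 : ℝ) ≤ 3), cl3,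
      min_eq_left (by linarith), min_eq_left (by linarith)]

theorem ct_rot (c : Ct I a (j + 1) q s) {t : ℕ} (ht : t < 2 ^ (2 * (I a).L)) :
    Ct I a (j + 1) q (setK s (some d) ((I a).rot t ((I a).nx (q .lev) s)
      ((I a).val (ky s d) ((I a).nx (q .lev) s)))) :=
  ⟨c.lev, c.fok, setK_mem c.box _ ht (rot_lt _ _ (MM.val_lt (Cf.kOk c.box d) _))⟩

/-- The trouble of a half at a state of the lower level. -/
theorem val_T (E : Env I a W) (L : Lvg I a W true j) (c : Ct I a (j + 1) q s) (hv : vM q)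
    {e : Bool} {y : ℕ} (hy : y < nm (I a).n0 j) (n : ℕ) :
    (prog I).Val a n (inH e (.T true d)) q ((I a).mv j (enM I d a q s) y)
      ((W j).Tk (I a).toCf d q0 (fM (cx q) (ff q) (lb q) e) y ((W j).kM (I a).toCf d (cx q) (ff q)
        ((I a).nx (j + 1) s) (ky s) (lb q) (kc s) e)) := by
  have h := ent E c hv
  have hl : q .lev - 1 = j := by rw [c.lev]; rfl
  have h1 := h.ky_half_mv E.tab d e s j y
  have h2 := h.fok_M e
  rw [hl] at h2
  rw [hl, c.lev] at h1
  have := L.T (d := d) (q := FM e q) (s := sw e ((I a).mv j (enM I d a q s) y)) ⟨hl, h2,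
    Cf.sw_mem (Cf.mv_mem (by have := lev_le c; omega) (Cf.ens_mem c.box) hy)⟩ ⟨rfl, rfl⟩ (by simp)
  rw [Cf.nx_sw, Cf.nx_mv hy, enM, h1] at this
  exact Val.inH E.wf this

end PM3

open PM3

theorem vx (E : Env I a W) (h4 : M4 I a W j) (h5 : M5 I a W j) : VX I a W j := by
  intro d q s c ha
  refine ⟨⟨c.lev ▸ c.fok, ha⟩, (val_chr E h4 h5 c _).ap1.congr (clp_eq ?_)⟩
  have h1 := E.ok.big
  have h2 := lev_le c
  rw [scX, Cf.pw_of_le (by nlinarith), abs_div, Nat.abs_cast, div_le_one (by positivity)]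
  exact_mod_cast PM3.abs_le (MM.blw (pre E c)) c.fok (Cf.kOk c.box) fun y => (abs_chr _ _ y).le

theorem vt_false (E : Env I a W) (L : Lvg I a W true j) (h2 : M2 I a W j) (h3 : M3 I a W j)
    (h4 : M4 I a W j) (h5 : M5 I a W j) : VT I a W false (j + 1) := by
  intro d q s c ha hm
  have P := pre E c
  have hV := MM.blw P
  have hm' := hm rfl
  rw [mus_eq E.tab, c.lev] at hm'
  have e1 : ∀ (s : SS) t, ky (setK s (some d) ((I a).rot t ((I a).nx (q .lev) s)
      ((I a).val (ky s d) ((I a).nx (q .lev) s)))) = (I a).rt (ky s) d ((I a).nx (j + 1) s) t :=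
    fun s t => by rw [ky_rot, c.lev]
  have a1 : ∀ n, (prog I).Val a n (avR I d (mass I d (cst 1))) q s
      (∑ v ∈ range ((W j).L.n * 2 ^ Hi.a),
        MM.Xb (W j) (I a).toCf d (cx q) (ff q) ((I a).nx (j + 1) s) v (ky s) * 1) := fun n =>
    (Val.avR fun t ht => (val_mass E h4 (ct_rot c ht) (fun _ => 1)
      (fun _ _ _ _ _ _ => Val.cst) n).congr (by rw [e1, nx_setK])).congr (JS_mass hV fun _ => 1)
  have a2 : ∀ n, ∀ u < 2 ^ (2 * (I a).nb), (prog I).Val a n (avR I d (mass I d (chT I))) q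
      (update s .ch u) (∑ v ∈ range ((W j).L.n * 2 ^ Hi.a),
        MM.Xb (W j) (I a).toCf d (cx q) (ff q) ((I a).nx (j + 1) s) v (ky s) *
          chr (2 * (I a).nb) u v) := fun n u hu =>
    (Val.avR fun t ht => (val_chr E h4 h5 (ct_rot (ct_ch c hu) ht) n).congr (by
      rw [e1, nx_setK, setK_ch, update_self, nx_ch, ky_ch])).congr (JS_mass hV _)
  have a3 : ∀ n, (prog I).Val a n (avR I d (avL I (a1t I d
      (.guard (wI I d) (inH (!d) (.T true d)))))) q s
      (MM.II (W j) (I a).toCf d (cx q) (ff q) ((I a).nx (j + 1) s) (ky s)) := fun n =>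
    Val.avR fun t ht => (val_avL E (ct_rot c ht) Tb.ZI fun u K c' hv =>
      (h3 c' hv (fun h0 n => (h2 c' hv ?_ n).guard fun _ =>
        val_T E L c' hv (hV.n_eq ▸ hV.mM_lt h0) n) n).congr (mul_assoc _ _ _).symm).congr
          (by rw [e1, nx_setK])
  · refine ⟨⟨c.lev ▸ c.fok, ha⟩, (Val.csF (by rw [c.lev]; omega) ((a3 _).app
      (((a1 _).guard fun _ => a1 _).app
        (Val.avg_ch fun u hu => (a2 _ u hu).guard fun _ => a2 _ u hu)))).congr ?_⟩
    have hN : (W j).L.n * 2 ^ Hi.a ≤ 2 ^ (2 * (I a).nb) := by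
      rw [MM.n_mul P]
      exact Nat.le_of_pred_lt (lt_nb c (Nat.pred_lt (nm_pos _ _).ne'))
    have hQ := MM.QQ_nonneg P (d := d) (x := (I a).nx (j + 1) s) c.fok (Cf.kOk c.box)
    have ht := tau_pos (cx q).age
    rw [parseval hN, MM.Tk_eq P hm', ← cl3_add (div_nonneg (mul_nonneg (by norm_num) hV.II_nonneg)
      ht.le) (div_nonneg hQ (pow_pos ht 2).le), iTa_eq E c]
    simp only [mul_one, ← pow_two, MM.QQ, inv_pow, div_eq_mul_inv, one_mul]
  · rw [lk, Tb.a1] at h0
    split_ifs at h0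
    · exact Tb.s_ne_of_amp h0
    · exact absurd rfl h0

end Vale.Agent.P313.Full
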