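import Vale.Agent.P313.Full.PgStmt

/-! The program for the tables: the gate, the strength, the weight, the move and the statistic at a
merged name. -/

namespace Vale.Agent.P313.Full

open Finset Function Hi Tm Pg

variable {α : Type} {I : α → In} {a : α} {W : ℕ → Tb} {k j : ℕ}

namespace PM4

variable {d : Bool} {q : QQ} {s : SS}

theorem lev_le (c : Ct I a k q s) : q .age + k ≤ (I a).K := c.fok.age

theorem box (c : Ct I a k q s) : s ∈ Full.box (I a).bd := c.box

theorem pre (E : Env I a W) (c : Ct I a k q s) : Pre (I a).toCf W k :=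
  ⟨E.ok.toOk, E.tab, by have := lev_le c; omega, fun i hi => E.good i (by have := lev_le c; omega)⟩

theorem at' (E : Env I a W) (c : Ct I a k q s) :
    At (I a).toCf W k (cx q) (ff q) ((I a).nx k s) (ky s) := (pre E c).at c.fok (box c)

theorem mu0 (E : Env I a W) (c : Ct I a k q s) :
    (I a).mus d q s = (W k).mu d ((I a).nx k s) := by rw [mus_eq E.tab, c.lev]

theorem ct_F0 (c : Ct I a k q s) : Ct I a k (F0 q) s := ⟨c.lev, c.fok, c.box⟩

theorem ct_mv (c : Ct I a k q s) {y : ℕ} (hy : y < nm (I a).n0 k) : Ct I a k q ((I a).mv k s y) :=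
  ⟨c.lev, c.fok, Cf.mv_mem (by have := lev_le c; omega) (box c) hy⟩

theorem ct_setK (c : Ct I a k q s) (i : Option Bool) {K : Key} (h1 : K.1 < 2 ^ (2 * (I a).L))
    (h2 : K.2 < 2 ^ (I a).m) : Ct I a k q (setK s i K) := ⟨c.lev, c.fok, setK_mem (box c) i h1 h2⟩

theorem ct_upd (c : Ct I a k q s) (u : ℕ) : Ct I a k (update q .lab u) s :=
  ⟨by simpa using c.lev, by simpa using c.fok, c.box⟩

theorem lev_ne (c : Ct I a (j + 1) q s) : ¬q .lev = 0 := by rw [c.lev]; omega

theorem adm (c : Ct I a k q s) {t : Pc} (h : t.ad q) : (prog I).adm t a q := ⟨c.lev ▸ c.fok, h⟩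

/-- Small exponents are not cut. -/
theorem pw_eq (E : Env I a W) (c : Ct I a k q s) {e : ℕ} (he : e ≤ 8 * (cw * (q .age + 1))) :
    (((I a).pw e : ℕ) : ℝ) = 2 ^ e := by
  have h1 := E.ok.big
  have h2 := lev_le c
  have h3 := Nat.mul_le_mul_left cw (show q .age + 1 ≤ (I a).K + 1 by omega)
  rw [Cf.pw_of_le (by rw [mul_assoc] at h1; omega)]
  norm_num

theorem cw_ge : B + 6 ≤ cw ∧ cZ + cS ≤ cw ∧ cH ≤ cw := by
  unfold cw cZ cS cH
  omega

theorem iTa_eq (E : Env I a W) (c : Ct I a k q s) : iTa I a q = 1 / tau (cx q).age := by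
  rw [tau_eq, one_div_one_div, iTa, pw_eq E c (by nlinarith [cw_ge.1]), cx_age]

theorem iTh_eq (E : Env I a W) (c : Ct I a k q s) : iTh I a q = 1 / thr (cx q).age := by
  rw [thr, one_div_one_div, iTh, pw_eq E c (by nlinarith [cw_ge.1]), cx_age]

theorem pD_eq (E : Env I a W) (c : Ct I a k q s) : pD I a q = 2 ^ dn q := by
  have h1 : dn q ≤ B * q .age := (min_le_left _ _).trans (c.fok.D true)
  rw [pD, pw_eq E c (by nlinarith [cw_ge.1])]

theorem scH_eq (E : Env I a W) (c : Ct I a k q s) :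
    scH I a q = 2 ^ (2 * (cZ + cS * q .age)) / 2 ^ (cH * q .age) * 2 ^ dn q := by
  rw [scH, pD_eq E c, pw_eq E c (by nlinarith [cw_ge.2.1]), pw_eq E c (by nlinarith [cw_ge.2.2])]

/-- The normalised weight lies in the unit interval. -/
theorem cl_w (E : Env I a W) (c : Ct I a k q s) (x y : ℕ) :
    cl ((W k).w d (cx q) x y / 2 ^ dn q) = (W k).w d (cx q) x y / 2 ^ dn q := by
  refine cl_eq (div_nonneg (E.tab.w_nonneg _ _ _ _ _) (by positivity))
    (div_le_one_of_le₀ ?_ (by positivity))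
  have h1 := (pre E c).w_le d (cx q) x y
  have h2 := (pre E c).w_le' d (cx q) x y
  rw [dn_eq]
  cases d <;> rcases le_total ((cx q).D true) ((cx q).D false) with h | h <;>
    simp only [min_eq_left h, min_eq_right h] <;> assumption

/-- The trouble at the name. -/
theorem val_T (E : Env I a W) (hT : VT I a W false k) (c : Ct I a k q s)
    (hm : (I a).mus d q s = 0) (n : ℕ) : (prog I).Val a n (cl' (.T false d) F0) q s
      ((W k).Tk (I a).toCf d (cx q) (ff q) ((I a).nx k s) (ky s)) :=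
  Val.cl' E.wf (hT (ct_F0 c) ⟨rfl, rfl⟩ fun _ => hm)

/-- The trouble at the far end. -/
theorem val_Tr (E : Env I a W) (hT : VT I a W false k) (c : Ct I a k q s) {y : ℕ}
    (hy : y < nm (I a).n0 k) (hm : (I a).mus (!d) q ((I a).mv k s y) = 0) (n : ℕ) :
    (prog I).Val a n (cl' (.T false (!d)) F0) q ((I a).mv k s y)
      ((W k).Tr (I a).toCf d (cx q) (ff q) y (ky s)) := by
  have := val_T E hT (ct_mv c hy) hm n
  rwa [Cf.nx_mv hy, Cf.ky_mv, Tb.Tk_not] at this

/-- A positive strength at a merged name. -/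
theorem of_pos (E : Env I a W) (c : Ct I a (j + 1) q s) (hm : (I a).mus d q s = 0)
    (hs : 0 < (W (j + 1)).s (I a).toCf d (cx q) (ff q) ((I a).nx (j + 1) s) (ky s)) :
    mg I a W j d q s Tb.DM ∧ stv I a W j d q s =
      (W (j + 1)).pt (I a).toCf d (cx q) (ff q) ((I a).nx (j + 1) s) (ky s) ∧
      mg I a W j d q s Tb.wM =
        (W (j + 1)).w d (cx q) ((I a).nx (j + 1) s) (stv I a W j d q s) := by
  have hm' := (mu0 E c).symm.trans hm
  obtain ⟨h1, h2, h3⟩ := E.stM (at' E c) hm'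
  have h4 := hs.ne'
  rw [h1] at h4
  have h5 := right_ne_zero_of_mul h4
  exact ⟨h2 8 (by norm_num) (left_ne_zero_of_mul h4), h3 hs, E.stMw (at' E c) hm'
    (left_ne_zero_of_mul h4) (left_ne_zero_of_mul h5)
    (left_ne_zero_of_mul (right_ne_zero_of_mul h5))⟩

end PM4

open PM4

theorem m6 (E : Env I a W) (h4 : M4 I a W j) (h5 : M5 I a W j) (hT : VT I a W false (j + 1)) :
    M6 I a W j := by
  intro d q s t c _ hm n
  have key : (prog I).Val a n (mass I d (fn Gp (cl' (.T false (!d)) F0))) q s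
      ((I a).JK fun K => ∑ r ∈ labM (cx q),
        (W j).Z (I a).toCf d (cx q) (ff q) ((I a).nx (j + 1) s) (ky s) r K *
          Gp ((W (j + 1)).Tr (I a).toCf d (cx q) (ff q)
            ((W j).eM (I a).toCf d (cx q) (ff q) ((I a).nx (j + 1) s) (ky s) r K) (ky s))) := by
    refine Val.avg_key E.ok fun K h1 h2 => Val.smM E.ok (by have := lev_le c; omega) fun u _ hu => ?_
    have c' := ct_upd (ct_setK c none h1 h2) u
    have hv : vM (update q .lab u) := by simpa [vM] using hu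
    have hm' : (I a).mus d (update q .lab u) (setK s none K) = 0 := by simpa [Cf.mus] using hm
    refine (h4 (d := d) c' hv (fun _ _ => Val.cst) (fun hz n => (val_Tr E hT c' (h5 c' hv hz).1
      ((h5 c' hv hz).2 hm') n).fn) n).congr ?_
    simp [lk]
  refine ((val_T E hT c hm n).fn.guard fun _ => key.ap1).congr ?_
  rw [iTa_eq E c, mul_one_div]
  rfl

theorem vs_false (E : Env I a W) (h6 : M6 I a W j) (hd : VMd I a W j) (hw : VWm I a W j)
    (hT : VT I a W false (j + 1)) : VS I a W false (j + 1) := by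
  intro d q s c ad hm
  have hm := hm rfl
  have hm' := (mu0 E c).symm.trans hm
  obtain ⟨h1, h2, -⟩ := E.stM (at' E c) hm'
  refine ⟨adm c ad, Val.csF (lev_ne c) ?_⟩
  rw [h1]
  refine (h6 c ad.1 hm _).guard fun g1 => (val_T E hT c hm _).fn.guard fun g2 => ?_
  have hD := h2 8 (by norm_num) g1
  obtain ⟨b1, b2, -⟩ := E.stMv (at' E c) hm' hD rfl
  have m1 := hd (d := d) (ct_F0 c) ⟨rfl, rfl⟩ hm hD
  refine (Val.hop (Mov.cl' E.wf m1) (val_Tr E hT c b1
    (by rw [mu0 E (ct_mv c b1), Cf.nx_mv b1]; exact b2) _).fn).guard fun g3 => ?_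
  refine (Val.cl' E.wf (hw (d := d) (ct_F0 c) ⟨rfl, rfl⟩ hm)).ap1.congr ?_
  have e := E.stMw (at' E c) hm' g1 g2 g3
  rw [show mg I a W j d (F0 q) s Tb.wM = _ from e, show dn (F0 q) = dn q from rfl, cl_w E c,
    sgR, pD_eq E c, iTh_eq E c, mul_one_div, mul_div_cancel₀ _ (by positivity)]

theorem vw_false (E : Env I a W) (hw : VWm I a W j) : VW I a W false (j + 1) := by
  intro d q s c ad hm hs
  obtain ⟨-, h1, h2⟩ := of_pos E c (hm rfl) hs
  have := hw c ad (hm rfl)
  rwa [h2, h1, cl_w E c] at this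

theorem vm_false (E : Env I a W) (hd : VMd I a W j) : VM I a W false (j + 1) := by
  intro d q s c ad hm hs
  obtain ⟨h0, h1, -⟩ := of_pos E c (hm rfl) hs
  exact h1 ▸ hd c ad (hm rfl) h0

theorem vh_false (E : Env I a W) (hS : VS I a W false (j + 1)) (hW : VW I a W false (j + 1)) :
    VH I a W false (j + 1) := by
  intro d q s c ad hm
  have hm := hm rfl
  refine ⟨adm c ad, Val.csF (lev_ne c) ?_⟩
  have key : ∀ n, (prog I).Val a n
      (avK I d (.guard (cl' (.S false d) F0) (cl' (.W false d) F0))) q s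
      ((I a).JK fun K => (I a).JK fun K' =>
        (W (j + 1)).s (I a).toCf d (cx q) (ff q) ((I a).nx (j + 1) s) (two d K K') *
          ((W (j + 1)).w d (cx q) ((I a).nx (j + 1) s) ((W (j + 1)).pt (I a).toCf d (cx q) (ff q)
            ((I a).nx (j + 1) s) (two d K K')) / 2 ^ dn q)) := fun n => by
    refine Val.avK E.ok fun K K' h1 h2 h3 h4 => ?_
    have c' := ct_F0 (ct_setK (ct_setK c (some d) h1 h2) (some !d) h3 h4)
    have hm' : (I a).mus d (F0 q) (setK (setK s (some d) K) (some !d) K') = 0 := by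
      simpa [Cf.mus] using hm
    have a1 := hS (d := d) c' ⟨rfl, rfl⟩ fun _ => hm'
    refine ((Val.cl' E.wf a1).guard fun g => Val.cl' E.wf (hW c' ⟨rfl, rfl⟩ (fun _ => hm')
      (lt_of_le_of_ne (Tb.s_nonneg _ _ _ _ _ _ _) (Ne.symm g)))).congr ?_
    simp only [ky_setK_setK, nx_setK]
    rfl
  refine (key _).ap1.congr ?_
  rw [E.tab.HM _ _ _ _ ((mu0 E c).symm.trans hm), Tb.HM, stat, scH_eq E c, ad.2.2]
  simp only [← mul_div_assoc, Cf.JK_div]
  refine congrArg clH ?_
  rw [cx_age, mul_div_assoc, mul_assoc, mul_div_cancel₀ _ (by positivity)]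
  rfl

end Vale.Agent.P313.Full
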