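import Vale.Agent.P313.Full.PgStmt

/-! The program for the tables: the test of the search at a merged name. -/

namespace Vale.Agent.P313.Full

open Finset Function Hi Tm Pg

variable {α : Type} {I : α → In} {a : α} {W : ℕ → Tb} {j : ℕ} {d : Bool} {q : QQ} {s : SS}

namespace PM5

theorem ent (E : Env I a W) (c : Ct I a (j + 1) q s) (hv : vM q) : Ent (I a).toCf q 1 (lb q) :=
  Ent.ofM E.ok.toOk (c.lev ▸ c.fok) (by rw [c.lev]; omega) hv

theorem lev_le (c : Ct I a (j + 1) q s) : q .age + (j + 1) ≤ (I a).K := c.fok.age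

theorem box (c : Ct I a (j + 1) q s) : s ∈ Full.box (I a).bd := c.box

theorem ct_ch (c : Ct I a (j + 1) q s) {u : ℕ} (hu : u < 2 ^ (2 * (I a).nb)) :
    Ct I a (j + 1) q (update s .ch u) :=
  ⟨c.lev, c.fok, update_mem_box (box c) hu⟩

theorem lk_ch {β : Type} (u : ℕ)
    (F : Tb → Cf → Bool → Cx → (Bool → ℕ) → ℕ → (Bool → Key) → Lab → Key → β) :
    lk I a W j d q (update s .ch u) F = lk I a W j d q s F := by simp [lk]

/-- The strength of a half at a state of the lower level. -/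
theorem val_s (E : Env I a W) (L : Lvg I a W true j) (c : Ct I a (j + 1) q s) (hv : vM q)
    {e : Bool} {y : ℕ} (hy : y < nm (I a).n0 j) (n : ℕ) :
    (prog I).Val a n (inH e (.S true d)) q ((I a).mv j (enM I d a q s) y)
      ((W j).s (I a).toCf d q0 (fM (cx q) (ff q) (lb q) e) y ((W j).kM (I a).toCf d (cx q) (ff q)
        ((I a).nx (j + 1) s) (ky s) (lb q) (kc s) e)) := by
  have h := ent E c hv
  have hl : q .lev - 1 = j := by rw [c.lev]; rfl
  have h1 := h.ky_half_mv E.tab d e s j y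
  have h2 := h.fok_M e
  rw [hl] at h2
  rw [hl, c.lev] at h1
  have := L.S (d := d) (q := FM e q) (s := sw e ((I a).mv j (enM I d a q s) y)) ⟨hl, h2,
    Cf.sw_mem (Cf.mv_mem (by have := lev_le c; omega) (Cf.ens_mem (box c)) hy)⟩ ⟨rfl, rfl⟩ (by simp)
  rw [Cf.nx_sw, Cf.nx_mv hy, enM, h1] at this
  exact Val.inH E.wf this

theorem pick {cf : Cf} {n y : ℕ} (hy : y < 2 ^ n) (S : Finset Lab) (Z : Lab → Key → ℝ)
    (e : Lab → Key → ℕ) (he : ∀ r ∈ S, ∀ c, Z r c ≠ 0 → e r c < 2 ^ n) (b : ℝ) :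
    mean (2 ^ n) (fun u => chr n u y * ((cf.JK fun c => ∑ r ∈ S, Z r c * chr n u (e r c)) / b)) =
      (cf.JK fun c => ∑ r ∈ S, if e r c = y then Z r c else 0) / b := by
  simp only [← mul_div_assoc, mean_div, ← cf.JK_mul_left, cf.mean_JK_comm]
  congr 1
  refine cf.JK_congr fun c _ => ?_
  rw [← avg_chr_pick hy S (Z · c) (e · c) fun r hr => he r hr c, mean]
  norm_num

theorem lt_nb (c : Ct I a (j + 1) q s) {y : ℕ} (hy : y < nm (I a).n0 (j + 1)) :
    y < 2 ^ (2 * (I a).nb) :=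
  (hy.trans_le (nm_le _ (show _ ≤ (I a).K by have := lev_le c; omega))).trans_le
    (Nat.pow_le_pow_right two_pos (by unfold Cf.nb; omega))

theorem iTa_eq (E : Env I a W) (c : Ct I a (j + 1) q s) : iTa I a q = 1 / tau (cx q).age := by
  have h1 := E.ok.big
  have h2 := lev_le c
  have h3 : B + 6 ≤ cw := by unfold cw cZ; omega
  rw [tau_eq, one_div_one_div, iTa, Cf.pw_of_le (by nlinarith), cx_age]
  norm_num

end PM5

open PM5

theorem m7 (E : Env I a W) (L : Lvg I a W true j) (h0 : M0 I a W j) (_h5 : M5 I a W j)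
    (hX : VX I a W j) : M7 I a W j := by
  classical
  intro d q s c hv
  have h := ent E c hv
  have hl : q .lev - 1 = j := by rw [c.lev]; rfl
  have hok := h.okS_iff E.tab d s
  rw [hl, c.lev] at hok
  have gz : ∀ t, gg t ≠ 0 → t ≠ 0 := fun t h1 h2 => h1 (h2 ▸ gg_zero)
  refine ⟨fun n => ?_, fun ht => ?_⟩
  · have key : (I a).okS d q s → (prog I).Val a n _ q s
        (gg (lk I a W j d q s Tb.s1) * (gg (lk I a W j d q s Tb.s2) *
          ((W j).X (I a).toCf d (cx q) (ff q) ((I a).nx (j + 1) s) (ky s)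
            (lk I a W j d q s Tb.eM) / scX I a q))) := fun ho => by
      refine Val.guard (g := aft (enM I d) (g1t d)) (e := .guard (g2n I d)
        (avg (chV I) (.guard (hop d (linkM I) (chT I)) (cl' (.X d) F0)))) ?_ fun g1 => ?_
      · have := val_s (d := d) (e := d) E L c hv (Cf.nx_lt _ j (enM I d a q s)) n
        have h2 := h.nx_ens' E.tab d s
        rw [hl, c.lev] at h2
        rw [Cf.mv_nx, enM, h2] at this
        exact Val.aft this.fn
      obtain ⟨b1, m1, -, -⟩ := h0 c hv (gz _ g1)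
      refine Val.guard (Val.aft (Val.hop (m1 n) (val_s E L c hv b1 n).fn)) fun g2 => ?_
      obtain ⟨b2, -⟩ := (h0 c hv (gz _ g1)).2.2.2 (gz _ g2)
      have hE : lk I a W j d q s Tb.eM < nm (I a).n0 (j + 1) := by
        have := h.end_lt (!d) (hl.symm ▸ b2)
        rwa [hl, c.lev, ← E.tab.n_eq] at this
      refine (Val.avg_ch fun u hu => ?_).congr (pick (lt_nb c hE) _ _ _ (fun r hr k hz => ?_) _)
      · have c' := ct_ch c hu
        obtain ⟨-, -, m2, m3⟩ := (h0 (d := d) c' hv (lk_ch u Tb.s1 ▸ gz _ g1)).2.2.2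
          (lk_ch u Tb.s2 ▸ gz _ g2)
        have a1 := hX (d := d) (q := F0 q) ⟨c.lev, c.fok, c'.box⟩
          ⟨rfl, rfl, by rw [F0_lev, c.lev]; omega⟩
        refine (Val.guard (Val.hop (m2 n) Val.chT) fun _ => Val.cl' E.wf a1).congr ?_
        have a2 := (m3 (by simpa [Cf.dgOk] using ho.1)).1
        rw [Cf.chs, c.lev, a2, lk_ch u Tb.eM]
        simp [enM, Cf.mv, scX, F0]
      · refine lt_nb c ?_
        have := (of_trm (right_ne_zero_of_mul (right_ne_zero_of_mul hz))).2.1
        rwa [E.tab.n_eq, Nat.div_lt_iff_lt_mul (nm_pos _ _), mul_comm, ← nm_succ] at this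
    refine (Val.guard_ts fun ho => (key ho).ap1).congr ?_
    have hs : scX I a q ≠ 0 := by
      rw [scX, Cf.pw]
      positivity
    refine if_congr hok (congrArg cl ?_) rfl
    rw [iTa_eq E c]
    simp only [lk]
    field_simp
  · rw [lk, Tb.tst] at ht
    split_ifs at ht with h1
    · have h2 := left_ne_zero_of_mul (left_ne_zero_of_mul (pos_of_cl ht).ne')
      exact ⟨(hok.2 h1).1, gz _ (left_ne_zero_of_mul h2), gz _ (right_ne_zero_of_mul h2)⟩
    · exact absurd rfl ht

end Vale.Agent.P313.Full
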