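import Vale.Agent.P313.Full.PgM5

/-! The program for the tables: the search at a merged name. -/

namespace Vale.Agent.P313.Full

open Finset Function Hi Tm Pg PM5

variable {α : Type} {I : α → In} {a : α} {W : ℕ → Tb} {j : ℕ} {d : Bool} {q : QQ} {s : SS}

namespace PM6

theorem ct_lab (c : Ct I a (j + 1) q s) (u : ℕ) : Ct I a (j + 1) (update q .lab u) s :=
  ⟨by simp [c.lev], by simpa using c.fok, c.box⟩

open Classical in
theorem val_tst (h7 : M7 I a W j) (c : Ct I a (j + 1) q s) (n : ℕ) :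
    (prog I).Val a n (cs vM (tstT I d) (cst 0)) q s
      (if vM q then lk I a W j d q s Tb.tst else 0) := by
  split_ifs with h
  exacts [((h7 c h).1 n).csT h, Val.cst.csF h]

theorem of_tst (h7 : M7 I a W j) (c : Ct I a (j + 1) q s)
    (h : 1 / 4 < ((prog I).cv a (cs vM (tstT I d) (cst 0)) q).val s) :
    vM q ∧ 1 / 4 < lk I a W j d q s Tb.tst := by
  rw [(val_tst h7 c 0).2] at h
  split_ifs at h with h1
  exacts [⟨h1, h⟩, absurd h (by norm_num)]

/-- A positive test determines the end of the link. -/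
theorem step (E : Env I a W) (h0 : M0 I a W j) (h7 : M7 I a W j) (c : Ct I a (j + 1) q s) {v : ℕ}
    (hv : (W (j + 1)).vis d (cx q) ((I a).nx (j + 1) s) v)
    (he : ∀ r ∈ labM (cx q), ∀ k : Key, k.2 < 2 ^ (I a).m →
      1 / 4 < (W j).tst (I a).toCf d (cx q) (ff q) ((I a).nx (j + 1) s) (ky s) r k →
      (W j).eM (I a).toCf d (cx q) (ff q) ((I a).nx (j + 1) s) (ky s) r k = v)
    (h : 1 / 4 < ((prog I).cv a (cs vM (tstT I d) (cst 0)) q).val s) :
    ((prog I).cv a (cs vM (linkM I) stop) q).mv d s = some ((I a).mv (j + 1) s v) := by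
  obtain ⟨h1, h2⟩ := of_tst h7 c h
  obtain ⟨a1, a2, a3⟩ := (h7 (d := d) c h1).2 (by linarith)
  obtain ⟨b1, -, m1, m2⟩ := (h0 c h1 a2).2.2.2 a3
  have e1 : lk I a W j d q s Tb.eM = v := he _ h1 _ (Cf.kc_lt (PM5.box c)) h2
  have hl : q .lev - 1 = j := by rw [c.lev]; rfl
  have b2 := (ent E c h1).end_lt (!d) (hl.symm ▸ b1)
  rw [hl, c.lev, ← E.tab.n_eq] at b2
  have a4 := (dgOk_iff E.tab _ _ _ _ _).1 a1
  rw [hl, c.lev] at a4
  have := (m2 a1).2 (((E.tab.lr_eq (k := j + 1) (b := 1) (by omega) (Cf.nx_lt _ _ _) _ a4).trans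
    (hv.1.trans (congrArg _ e1.symm))).trans (E.tab.lr_eq (k := j + 1) (b := 1) (by omega) b2 _ (by
      rw [Nat.add_sub_cancel, E.tab.n_eq]
      exact add_nm_div b1 _)).symm)
  rw [this, far, e1] at m1
  exact ((m1 0).csT h1).2

theorem put_mv (cf : Cf) (L k y c : ℕ) (s : SS) : cf.mv k (keySet L (.sl none) (.of none) s c) y =
    keySet L (.sl none) (.of none) (cf.mv k s y) c := by
  funext r
  rcases r with _ | _ | _ | (_ | _) | (_ | _) <;> simp [Cf.mv, keySet]

theorem mm_eq (h : (I a).Ok2) :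
    (keyV I none).m a * (keyV I none).m a = 2 ^ (2 * (I a).L) * 2 ^ (I a).m := by
  simp only [keyV, ← pow_add]
  congr 1
  have := two_mul_half h
  omega

theorem ct_put (E : Env I a W) (c : Ct I a (j + 1) q s) {k : ℕ}
    (hk : k < (keyV I none).m a * (keyV I none).m a) (u : ℕ) :
    Ct I a (j + 1) (update q .lab u) ((keyV I none).put a q s k) :=
  ct_lab ⟨c.lev, c.fok, setK_mem (K := (k % 2 ^ (2 * (I a).L), k / 2 ^ (2 * (I a).L))) (PM5.box c) none
    (Nat.mod_lt _ (Nat.two_pow_pos _)) (Nat.div_lt_of_lt_mul (mm_eq E.ok ▸ hk))⟩ u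

theorem lk_put {β : Type} (k u : ℕ)
    (F : Tb → Cf → Bool → Cx → (Bool → ℕ) → ℕ → (Bool → Key) → Lab → Key → β) :
    lk I a W j d (update q .lab u) ((keyV I none).put a q s k) F =
      F (W j) (I a).toCf d (cx q) (ff q) ((I a).nx (j + 1) s) (ky s) (lb (update q .lab u))
        (k % 2 ^ (2 * (I a).L), k / 2 ^ (2 * (I a).L)) := by
  change lk I a W j d _ (setK s none (k % 2 ^ (2 * (I a).L), k / 2 ^ (2 * (I a).L))) F = _
  simp [lk]

theorem step' (E : Env I a W) (h0 : M0 I a W j) (h7 : M7 I a W j) (c : Ct I a (j + 1) q s) {v : ℕ}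
    (hv : (W (j + 1)).vis d (cx q) ((I a).nx (j + 1) s) v)
    (he : ∀ r ∈ labM (cx q), ∀ k : Key, k.2 < 2 ^ (I a).m →
      1 / 4 < (W j).tst (I a).toCf d (cx q) (ff q) ((I a).nx (j + 1) s) (ky s) r k →
      (W j).eM (I a).toCf d (cx q) (ff q) ((I a).nx (j + 1) s) (ky s) r k = v)
    {k : ℕ} (hk : k < (keyV I none).m a * (keyV I none).m a) (u : ℕ)
    (h : 1 / 4 < ((prog I).cv a (cs vM (tstT I d) (cst 0)) (update q .lab u)).val
      ((keyV I none).put a q s k)) :
    ((prog I).cv a (cs vM (linkM I) stop) (update q .lab u)).mv d ((keyV I none).put a q s k) =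
      some ((keyV I none).put a q ((I a).mv (j + 1) s v) k) := by
  have e : (keyV I none).put a q s k =
    setK s none (k % 2 ^ (2 * (I a).L), k / 2 ^ (2 * (I a).L)) := rfl
  refine (step E h0 h7 (ct_put E c hk u) (v := v) ?_ ?_ h).trans (congrArg some (put_mv ..))
  · simpa [e] using hv
  · simpa [e] using he

theorem pre (E : Env I a W) (c : Ct I a (j + 1) q s) : Pre (I a).toCf W (j + 1) := by
  have := lev_le c
  exact ⟨E.ok.toOk, E.tab, by omega, fun i hi => E.good i (by omega)⟩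

end PM6

open PM6

theorem vmd (E : Env I a W) (h0 : M0 I a W j) (h7 : M7 I a W j) : VMd I a W j := by
  classical
  intro d q s c ha hm hD
  have hA := (pre E c).at c.fok (PM5.box c)
  rw [mus_eq E.tab, c.lev] at hm
  obtain ⟨b1, b2, b3, b4, b5, b6, b7⟩ := E.stMv (v := stv I a W j d q s) hA hm hD rfl
  have c' : Ct I a (j + 1) q ((I a).mv (j + 1) s (stv I a W j d q s)) :=
    ⟨c.lev, c.fok, Cf.mv_mem (pre E c).le (PM5.box c) b1⟩
  have hA' := (pre E c).at c.fok (PM5.box c')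
  have n1 : (I a).nx (j + 1) ((I a).mv (j + 1) s (stv I a W j d q s)) = stv I a W j d q s :=
    Cf.nx_mv b1
  rw [n1, Cf.ky_mv] at hA'
  obtain ⟨-, -, d3, -, -, d6, -⟩ := E.stMv hA' b2 b4 b5.symm
  have f1 := fun k hk => step' E h0 h7 c b3 b6 (k := k) hk
  have f2 := fun k hk => step' E h0 h7 c' (d := !d) (v := (I a).nx (j + 1) s) (n1.symm ▸ d3)
    (by rw [n1, Cf.ky_mv]; exact d6) (k := k) hk
  rw [Cf.mv_mv b1, Cf.mv_nx] at f2
  generalize hs' : (I a).mv (j + 1) s (stv I a W j d q s) = s' at c' f1 f2 n1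
  have k1 : ky s' = ky s := hs' ▸ Cf.ky_mv
  let G := {k ∈ range ((keyV I none).m a * (keyV I none).m a) | ∃ u < (I a).nl q,
    3 / 4 ≤ ((prog I).cv a (cs vM (tstT I d) (cst 0)) (update q .lab u)).val
      ((keyV I none).put a q s k) ∧
    3 / 4 ≤ ((prog I).cv a (cs vM (tstT I (!d)) (cst 0)) (update q .lab u)).val
      ((keyV I none).put a q s' k)}
  have hG : (keyV I none).m a * (keyV I none).m a ≤ 2 ^ (nA * (q .age + 1)) * #G := by
    rw [mm_eq E.ok]
    refine b7.trans (Nat.mul_le_mul (Nat.pow_le_pow_right two_pos ?_) (card_le_card_of_injOn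
      (fun k : Key => k.1 + 2 ^ (2 * (I a).L) * k.2) (fun k hk => ?_) fun k hk k' hk' h => ?_))
    · have : 3 * B + cZ + 7 ≤ nA := by unfold nA cw cZ; omega
      rw [cx_age]
      nlinarith [Nat.mul_le_mul_right (q .age + 1) this]
    · simp only [coe_filter, mem_product, mem_range, Set.mem_ofPred_eq] at hk
      obtain ⟨⟨k2, k3⟩, r, hr, t1, t2⟩ := hk
      obtain ⟨u, hu, rfl⟩ := exists_dlab (labM_subset _ hr)
      have hk : k.1 + 2 ^ (2 * (I a).L) * k.2 < (keyV I none).m a * (keyV I none).m a := by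
        rw [mm_eq E.ok]
        have := Nat.mul_le_mul_left (2 ^ (2 * (I a).L)) (Nat.succ_le_of_lt k3)
        rw [Nat.mul_succ] at this
        omega
      have hv : vM (update q .lab u) := by simpa [vM, lb_lab] using hr
      refine mem_coe.2 (mem_filter.2 ⟨mem_range.2 hk, u,
        (Cf.nl_eq (q := q) E.ok (by have := lev_le c; omega)).symm ▸ hu, ?_⟩)
      rw [(val_tst h7 (ct_put E c hk u) 0).2, (val_tst h7 (ct_put E c' hk u) 0).2, if_pos hv,
        if_pos hv, lk_put, lk_put, n1, k1, lb_lab, Nat.add_mul_mod_self_left, Nat.mod_eq_of_lt k2,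
        Nat.add_mul_div_left _ _ (Nat.two_pow_pos _), Nat.div_eq_of_lt k2, zero_add]
      exact ⟨t1, t2⟩
    · simp only [coe_filter, mem_product, mem_range, Set.mem_ofPred_eq] at hk hk'
      have h1 := congrArg (· % 2 ^ (2 * (I a).L)) h
      simp only [Nat.add_mul_mod_self_left, Nat.mod_eq_of_lt hk.1.1, Nat.mod_eq_of_lt hk'.1.1] at h1
      simp only [h1, add_right_inj, mul_eq_mul_left_iff, pow_eq_zero_iff', OfNat.ofNat_ne_zero,
        false_and, or_false] at h
      exact Prod.ext h1 h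
  have hne : G.Nonempty := card_pos.1 (Nat.pos_of_mul_pos_left (lt_of_lt_of_le (by
    rw [mm_eq E.ok]; positivity) hG))
  have hg : (keyV I none).get a q s' = (keyV I none).get a q s := by simp [← hs', keyV, Cf.mv]
  refine ⟨⟨c.lev ▸ c.fok, ha⟩, Mov.csF (by rw [c.lev]; omega) ?_⟩
  have g1 := fun k (hk : k ∈ G) => (mem_filter.1 hk).2
  have g2 : G ⊆ range _ := filter_subset _ _
  clear_value G
  cases d
  · exact (Mov.search (ok_keyV rfl E.ok none) ⟨c'.box, c.box, hg.symm, fun k hk u _ => f2 k hk u,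
      fun k hk u _ => f1 k hk u, g2, fun k hk => (g1 k hk).imp fun _ h => ⟨h.1, h.2.symm⟩, hne⟩
      hG).2
  · exact (Mov.search (ok_keyV rfl E.ok none) ⟨c.box, c'.box, hg, fun k hk u _ => f1 k hk u,
      fun k hk u _ => f2 k hk u, g2, g1, hne⟩ hG).1

theorem uncSt_false (_E : Env I a W) (h0 : M0 I a W j) (h7 : M7 I a W j) :
    UncSt I a false (j + 1) := by
  intro q hq ha
  have ut : ∀ d n q, (prog I).Unc a n (cs vM (tstT I d) (cst 0)) q := fun d n q =>
    unc_cas ⟨trivial, ⟨⟨trivial, ⟨trivial, trivial⟩, trivial⟩, ⟨trivial, ⟨trivial, trivial, trivial⟩,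
      ⟨trivial, trivial⟩, trivial⟩, ⟨⟨trivial, ⟨trivial, trivial, trivial⟩,
        ⟨trivial, trivial, trivial⟩, trivial⟩, trivial⟩, trivial⟩, trivial⟩ trivial
  refine unc_cas trivial fun u _ => ⟨⟨ut _ _ _, ut _ _ _, unc_cas ⟨trivial,
    ⟨trivial, trivial, trivial⟩, ⟨trivial, trivial, trivial⟩, trivial⟩ trivial⟩, fun s hs => ?_⟩
  have c : Ct I a (j + 1) (update q .lab u) s := ct_lab ⟨hq, hq ▸ ha.1, hs⟩ u
  have key : ∀ d n, 1 / 4 < ((prog I).cv a (cs vM (tstT I d) (cst 0)) (update q .lab u)).val s →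
      (prog I).Ok a n (cs vM (linkM I) stop) (update q .lab u) d s := fun d n h => by
    obtain ⟨h1, h2⟩ := of_tst h7 c h
    obtain ⟨-, a2, a3⟩ := (h7 (d := d) c h1).2 (by linarith)
    exact ((((h0 c h1 a2).2.2.2 a3).2.2.1 n).csT h1).1
  exact ⟨(val_tst h7 c _).1, (val_tst h7 c _).1, key _ _, key _ _⟩

end Vale.Agent.P313.Full
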