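import Vale.Agent.P313.Full.PgStmt

/-! The program for the tables: the normalisers which depend on one half of a link. -/

namespace Vale.Agent.P313.Full

open Finset Function Hi Tm

variable {α : Type} {I : α → In} {a : α} {W : ℕ → Tb} {j : ℕ}

namespace PM7

variable (E : Env I a W) (L : Lvg I a W true j) {q : QQ} {s t : SS} (h : Ct I a (j + 1) q s)
  (hv : vM q) (ht : t ∈ box (I a).bd)

theorem mem {k : ℕ} (h : Ct I a k q s) : s ∈ box (I a).bd := box_eq (P := prog I) rfl ▸ h.box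

theorem Ct.of {k : ℕ} (h : Ct I a k q s) (ht : t ∈ box (I a).bd) : Ct I a k q t :=
  ⟨h.lev, h.fok, (box_eq (P := prog I) rfl).symm ▸ ht⟩

include E h hv

theorem ent : Ent (I a).toCf q 1 (lb q) :=
  Ent.ofM E.ok.toOk (h.lev.symm ▸ h.fok) (by rw [h.lev]; omega) hv

omit E hv in
theorem lev : q .lev - 1 = j := by rw [h.lev, Nat.add_sub_cancel]

omit E hv in
theorem ct (ht : t ∈ box (I a).bd) (e : Bool) : Ct I a j (FM e q) (sw e t) :=
  ⟨lev h, h.fok.fM _ e, (box_eq (P := prog I) rfl).symm ▸ Cf.sw_mem ht⟩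

/-- The keys of a half at the midpoint, with a new spare key. -/
theorem ky_mid (d e : Bool) (y : ℕ) (c : Key) :
    ky (sw e (setK ((I a).mv j (enM I d a q s) y) none c)) = (W j).kM (I a).toCf d (cx q) (ff q)
      ((I a).nx (j + 1) s) (ky s) (lb q) c e := by
  rw [ky_sw, ky_setK_none, kc_setK_none, ky_mv, enM, (ent E h hv).ky_ens E.tab, lev h, h.lev]
  rfl

omit hv
include L ht

theorem inH_S (e d : Bool) : TV I a (inH e (.S true d)) q t ((W j).s (I a).toCf d q0
    (fM (cx q) (ff q) (lb q) e) ((I a).nx j t) (ky (sw e t))) :=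
  fun _ => Pg.Val.inH E.wf (L.S (ct h ht e) ⟨rfl, rfl⟩ nofun)

theorem inH_T (e d : Bool) : TV I a (inH e (.T true d)) q t ((W j).Tk (I a).toCf d q0
    (fM (cx q) (ff q) (lb q) e) ((I a).nx j t) (ky (sw e t))) :=
  fun _ => Pg.Val.inH E.wf (L.T (ct h ht e) ⟨rfl, rfl⟩ nofun)

theorem half_mv (e d : Bool) (hs : (W j).s (I a).toCf d q0 (fM (cx q) (ff q) (lb q) e)
    ((I a).nx j t) (ky (sw e t)) ≠ 0) : TMv I a (half e) q d t ((I a).mv j t ((W j).pt (I a).toCf d
      q0 (fM (cx q) (ff q) (lb q) e) ((I a).nx j t) (ky (sw e t)))) := fun _ =>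
  (Pg.Mov.half E.wf (L.M (ct h ht e) ⟨rfl, rfl⟩ nofun ((Tb.s_nonneg ..).lt_of_ne' hs))).congr
    (by rw [sw_mv, sw_sw]; rfl)

/-- The strength of a half and the guard at its other end. -/
theorem half_guard {e e' d d' : Bool} (he : e' = e) (hd : d' = !d) :
    TV I a (.guard (fn gg (inH e' (.S true d))) (hop d (half e) (hGt e d'))) q t
      (gg ((W j).s (I a).toCf d q0 (fM (cx q) (ff q) (lb q) e) ((I a).nx j t) (ky (sw e t))) *
        pp (Gd ((W j).Tr (I a).toCf d q0 (fM (cx q) (ff q) (lb q) e) ((W j).pt (I a).toCf d q0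
          (fM (cx q) (ff q) (lb q) e) ((I a).nx j t) (ky (sw e t))) (ky (sw e t))))) := by
  subst he hd
  refine fun n => (inH_S E L h ht e' d n).fn.guard fun h0 => ?_
  have hs : (W j).s (I a).toCf d q0 (fM (cx q) (ff q) (lb q) e') ((I a).nx j t) (ky (sw e' t)) ≠
      0 := fun e0 => h0 (e0 ▸ gg_zero)
  have hy := (E.tab.cand_lt E.ok.N_le (Tb.of_s hs).1).2
  have hk : j ≤ (I a).K := by have := h.fok.age; omega
  refine Pg.Val.hop (half_mv E L h ht e' d hs n)
    ((inH_T E L h (Cf.mv_mem hk ht hy) e' (!d) n).fn.congr ?_)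
  rw [Cf.nx_mv hy, sw_mv, ky_mv, Tb.Tk_not, hG]

end PM7

open PM7

theorem m8 (E : Env I a W) (L : Lvg I a W true j) (_h0 : M0 I a W j) : M8 I a W j := by
  have key : ∀ {d q s}, Ct I a (j + 1) q s → vM q →
      TV I a (alT I d) q s (lk I a W j d q s Tb.al) := by
    intro d q s h hv n
    classical
    have he := ent E h hv
    refine (Pg.Val.guard_ts fun _ => Pg.Val.aft
      (half_guard E L h (Cf.ens_mem (mem h)) rfl rfl n)).congr ?_
    have e1 := he.nx_ens' E.tab d s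
    have e2 := he.ky_half E.tab d d s
    have e3 := dgOk_iff E.tab 1 (lb q) d q s
    rw [lev h, h.lev] at e1 e2 e3
    rw [e1, e2, lk, Tb.al, ite_mul, zero_mul]
    exact if_congr e3 rfl rfl
  refine fun {d q s} h hv => ⟨key h hv, fun n => Pg.Val.avR fun c hc => (key (Ct.of h (setK_mem
    (mem h) _ hc (rot_lt _ _ (Cf.val_lt _ (kok_ky (mem h) d) _)))) hv n).congr ?_⟩
  rw [lk, nx_setK, ky_rot, kc_setK, h.lev]

theorem m9 (E : Env I a W) (L : Lvg I a W true j) (h0 : M0 I a W j) : M9 I a W j := by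
  intro d q s h hv hs n
  have hm := (h0 h hv hs).1
  have hk : j ≤ (I a).K := by have := h.fok.age; omega
  have hb : mid I a W j d q s ∈ box (I a).bd := Cf.mv_mem hk (Cf.ens_mem (mem h)) hm
  refine Pg.Val.avg_rot fun c hc => ?_
  have ht := setK_mem hb none (K := (I a).rot c ((I a).nx (q .lev - 1) (mid I a W j d q s))
    ((I a).val (kc (mid I a W j d q s)) ((I a).nx (q .lev - 1) (mid I a W j d q s)))) hc
    (rot_lt _ _ (Cf.val_lt _ (kc_lt hb) _))
  refine ((half_guard E L h ht (Bool.not_not d) (Bool.not_not d).symm n).guard fun _ =>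
    half_guard E L h ht rfl rfl n).congr ?_
  rw [nx_setK, lev h, mid, ky_mid E h hv, ky_mid E h hv, Cf.nx_mv hm, kc_mv]
  rfl

end Vale.Agent.P313.Full
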