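import Vale.Agent.P313.Full.PgStmt
import Vale.Agent.P313.Full.TabGen

/-! The program for the tables: the access weight `pA` at the end of a link. -/

namespace Vale.Agent.P313.Full

open Finset Function Hi Tm

namespace PM8

section tab

variable {cf : Cf} {W : ℕ → Tb} {j : ℕ} {d : Bool} {q : Cx} {f : Bool → ℕ} {x : ℕ} {K : Bool → Key}
  {r : Lab} {c : Key}

theorem s_ne_of_amp {A : Tb} (h : A.amp cf d q f x K ≠ 0) : A.s cf d q f x K ≠ 0 := fun e =>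
  left_ne_zero_of_mul (left_ne_zero_of_mul h) (e ▸ gg_zero)

theorem loc_eq {V : Tb} {m : ℕ} (h : V.locM q r m) (d : Bool) :
    (ve V.L (!d) m).l + (q.up 1 r.1).D d = (ve V.L d m).l + (q.up 1 r.1).D (!d) := by
  cases d
  exacts [h.1.symm, h.1]

/-- The end of a link with two halves. -/
theorem of_s2 (hc : cf.Ok) (hW : IsTab cf W) (h : (W j).s2 cf d q f x K r c ≠ 0) :
    (W j).eM cf d q f x K r c % (W j).L.n = (W j).zM cf d q f x K r c ∧
      (W j).eM cf d q f x K r c / (W j).L.n = r.1 (!d) ∧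
      (ve (W j).L d ((W j).mM cf d q f x K r c)).l =
        (ve (W j).L (!d) ((W j).zM cf d q f x K r c)).l := by
  have h1 := (Tb.of_s h).1
  have h2 := (hW.cand_lt hc.N_le h1).2
  rw [Tb.eM, hW.n_eq]
  exact ⟨add_nm_mod h2 _, add_nm_div h2 _, h1.vis.1⟩

/-- The way back from the end of a link, with a new slope. -/
theorem back (hP : Pre cf W j) (hG : GoodT cf (W j) j) (hf : FOk cf (j + 1) q f)
    (hk : cf.KOk ((W j).kM cf d q f x K r c (!d))) (hZ : (W j).Z cf d q f x K r c ≠ 0) {y : ℕ}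
    (hy : y = (W j).eM cf d q f x K r c) (t : ℕ)
    (h : (W j).s2 cf (!d) q f y (cf.rt K (!d) y t) r c ≠ 0) :
    (W j).lr 1 (!d) q y r =
        (W j).lr 1 (!!d) q ((W j).eM cf (!d) q f y (cf.rt K (!d) y t) r c) r ∧
      (W j).eM cf (!d) q f y (cf.rt K (!d) y t) r c / (W j).L.n = x / (W j).L.n := by
  have h1 : (W j).a1 cf d q f x K r c ≠ 0 := left_ne_zero_of_mul (left_ne_zero_of_mul hZ)
  have h2 : (W j).s2 cf d q f x K r c ≠ 0 :=
    s_ne_of_amp (right_ne_zero_of_mul (left_ne_zero_of_mul hZ))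
  rw [Tb.a1] at h1
  split_ifs at h1 with h3
  swap
  · exact absurd rfl h1
  have h4 : (ve (W j).L d (x % (W j).L.n)).l = (ve (W j).L (!d) ((W j).mM cf d q f x K r c)).l :=
    (Tb.of_s (s_ne_of_amp h1)).1.vis.1
  have h5 := loc_eq h3.2 d
  obtain ⟨a1, a2, a3⟩ := of_s2 hP.ok hP.tab h2
  obtain ⟨b1, b2, b3⟩ := of_s2 hP.ok hP.tab h
  rw [← hy] at a1 a2
  have hl : (W j).lr 1 (!d) q y r = (W j).lr 1 d q x r := by
    simp only [Tb.lr, Tb.lam, a1]
    omega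
  have hm : (W j).mM cf (!d) q f y (cf.rt K (!d) y t) r c = (W j).mM cf d q f x K r c := by
    have e1 := (stSym ⟨hP, hf.fM r (!d), (hP.tab.cand_lt hP.ok.N_le (Tb.of_s h2).1).1, hk⟩ hG
      ((Tb.s_nonneg ..).lt_of_ne' h2)).2.2.1
    rw [← e1, Tb.mM, ← Tb.zM, ← a1, ← Tb.pt_rt _ cf (!d) q0 _ _ ((W j).kM cf d q f x K r c (!d)) t]
    congr 1
    have e2 : y ^^^ (W j).L.n * r.1 (!d) = y % (W j).L.n := by
      rw [← a2, hP.tab.n_eq]
      nth_rewrite 1 [← mod_xor_nm cf.n0 j y]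
      exact Nat.xor_xor_cancel_right _ _
    have e3 : y % (W j).L.n ^^^ (W j).L.n * r.1 (!d) = y := by
      rw [← e2, Nat.xor_xor_cancel_right]
    simp only [Tb.kM, Cf.rt, two_same, two_not, Tb.ek, Tb.shf, hl, Cf.ent_rot, Cf.val_ent, e2, e3]
  rw [hm] at b3
  refine ⟨?_, by rw [b2, Bool.not_not, h3.1.1]⟩
  rw [hl, Tb.lr, Tb.lr, Tb.lam, Tb.lam, b1, ← b3, h4, Bool.not_not]

end tab

variable {α : Type} {I : α → In} {a : α} {W : ℕ → Tb} {j : ℕ} {d : Bool} {q : QQ} {s : SS}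

theorem ent (E : Env I a W) (C : Ct I a (j + 1) q s) (hv : vM q) : Ent (I a).toCf q 1 (lb q) :=
  Ent.ofM E.ok.toOk (C.lev ▸ C.fok) (by rw [C.lev]; omega) hv

theorem le_K (C : Ct I a (j + 1) q s) : j + 1 ≤ (I a).K := (Nat.le_add_left _ _).trans C.fok.age

/-- The strength of the second half, computed at the near end. -/
theorem g2n_val (E : Env I a W) (L : Lvg I a W true j) (h0 : M0 I a W j) (C : Ct I a (j + 1) q s)
    (hv : vM q) (h1 : lk I a W j d q s Tb.s1 ≠ 0) :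
    TV I a (g2n I d) q s (gg (lk I a W j d q s Tb.s2)) := fun n => by
  obtain ⟨a1, a2, -⟩ := h0 C hv h1
  have hE := ent E C hv
  have hl : q .lev - 1 = j := by rw [C.lev]; rfl
  refine Pg.Val.aft (Pg.Val.hop (a2 n) (Pg.Val.fn (Pg.Val.inH E.wf ?_)))
  have h := L.S (d := d) (q := FM (!d) q) (s := sw (!d) (mid I a W j d q s))
    ⟨hl, hl ▸ hE.fok_M _, Cf.sw_mem (Cf.mv_mem (by have := le_K C; omega) (Cf.ens_mem C.box) a1)⟩
    ⟨rfl, rfl⟩ (by simp)
  rwa [mid, enM, hE.ky_half_mv E.tab, Cf.nx_sw, Cf.nx_mv a1, hl, C.lev] at h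

/-- The access weight, if the links which start here end at merged names with the right view. -/
theorem pAt_val (E : Env I a W) (L : Lvg I a W true j) (h0 : M0 I a W j) (h8 : M8 I a W j)
    (hT : VT I a W false (j + 1)) (C : Ct I a (j + 1) q s) (hv : vM q)
    (H : ∀ t K x y, x = (I a).nx (j + 1) s → K = (I a).rt (ky s) d x t →
      y = (W j).eM (I a).toCf d (cx q) (ff q) x K (lb q) (kc s) →
      (W j).s2 (I a).toCf d (cx q) (ff q) x K (lb q) (kc s) ≠ 0 → y < nm (I a).n0 (j + 1) →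
      (W j).lr 1 d (cx q) x (lb q) = (W j).lr 1 (!d) (cx q) y (lb q) ∧ (W (j + 1)).mu (!d) y = 0) :
    TV I a (pAt I d) q s (mg I a W j d q s Tb.pA (lb q) (kc s)) := fun n => by
  refine Pg.Val.avR fun t ht => ?_
  rw [C.lev]
  set s' := setK s (some d) ((I a).rot t ((I a).nx (j + 1) s)
    ((I a).val (ky s d) ((I a).nx (j + 1) s))) with hs'
  have C' : Ct I a (j + 1) q s' :=
    ⟨C.lev, C.fok, setK_mem C.box _ ht (rot_lt _ _ (Cf.val_lt _ (Cf.kOk C.box d) _))⟩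
  have e1 : ky s' = (I a).rt (ky s) d ((I a).nx (j + 1) s) t := ky_rot _ _ _ _ _
  have e2 : (I a).nx (j + 1) s' = (I a).nx (j + 1) s := nx_setK _ _ _ _ _
  have e3 : kc s' = kc s := kc_setK _ _ _
  rw [← e1, ← e2, ← e3]
  refine ((h8 C' hv).1 n).guard fun h1 => ?_
  have h2 := left_ne_zero_of_mul h1
  split_ifs at h2 with h3
  swap
  · exact absurd rfl h2
  have h4 : lk I a W j d q s' Tb.s1 ≠ 0 := fun e => h2 ((congrArg gg e).trans gg_zero)
  refine (g2n_val E L h0 C' hv h4 n).guard fun h5 => ?_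
  have h6 : lk I a W j d q s' Tb.s2 ≠ 0 := fun e => h5 ((congrArg gg e).trans gg_zero)
  obtain ⟨-, -, b1, b2⟩ := (h0 C' hv h4).2.2.2 h6
  obtain ⟨b3, b4⟩ := b2 ((dgOk_iff E.tab _ _ _ _ _).2 (by rw [C.lev]; exact h3))
  have b5 : lk I a W j d q s' Tb.eM < nm (I a).n0 (j + 1) := b3 ▸ Cf.nx_lt _ _ _
  obtain ⟨c1, c2⟩ := H t _ _ _ e2 (e2 ▸ e1) (by rw [← e3]; rfl) (e3 ▸ h6) b5
  rw [b4 c1] at b1
  refine Pg.Val.hop (b1 n) (Pg.Val.fn (Pg.Val.cl' E.wf ?_))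
  have h := hT (d := !d) (q := F0 q) (s := far I a W j d q s')
    ⟨C.lev, C.fok, Cf.mv_mem (le_K C) C'.box b5⟩ ⟨rfl, rfl⟩
    fun _ => by rw [mus_eq E.tab, F0_lev, C.lev, far, Cf.nx_mv b5]; exact c2
  rwa [far, Cf.nx_mv b5, Cf.ky_mv, Tb.Tk_not] at h

end PM8

variable {α : Type} {I : α → In} {a : α} {W : ℕ → Tb} {k j : ℕ}

theorem m10 (E : Env I a W) (L : Lvg I a W true j) (h0 : M0 I a W j) (h5 : M5 I a W j)
    (h8 : M8 I a W j) (hT : VT I a W false (j + 1)) : M10 I a W j := by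
  intro d q s C hv hm hZ
  have hy := (h5 C hv hZ).1
  have hK := PM8.le_K C
  have hE := PM8.ent E C hv
  have h := PM8.pAt_val (d := !d) E L h0 h8 hT ⟨C.lev, C.fok, Cf.mv_mem hK C.box hy⟩ hv ?_
  · rwa [Cf.kc_mv] at h
  rintro t K x y rfl rfl rfl h2 h3
  rw [Cf.kc_mv, Cf.ky_mv, Cf.nx_mv hy] at h2 h3 ⊢
  have hk := hE.ky_half E.tab d (!d) s
  rw [C.lev] at hk
  obtain ⟨c1, c2⟩ := PM8.back ⟨E.ok.toOk, E.tab, by omega, fun i hi => E.good i (by omega)⟩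
    (E.good j (by omega)).T C.fok (hk ▸ Cf.kOk (Cf.sw_mem (Cf.ens_mem C.box))) hZ rfl t h2
  refine ⟨c1, (E.tab.mu_succ_eq_zero h3).2 ?_⟩
  rw [mus_eq E.tab, C.lev, E.tab.mu_succ_eq_zero (Cf.nx_lt _ _ _)] at hm
  rw [Bool.not_not, ← hm]
  exact congrArg (fun u => ((Hi.dig u).ed d).2.2.1) c2

end Vale.Agent.P313.Full
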