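import Vale.Agent.P313.Full.PgStmt

/-! The structural conditions of the program for the tables: the calls. -/

namespace Vale.Agent.P313.Full

open Finset Function Hi Tm

variable {α : Type} {I : α → In} {a : α} {r n p : ℕ} {q : QQ}

namespace S0

variable {t : Pc}

theorem cw_ge : B + cS + cF + C + cZ ≤ 2 * cw ∧ B + 40 ≤ cZ ∧ cZ + cS + cF + C = cw := by
  unfold cw cZ
  omega

/-- The price of a call. -/
theorem price (hn : n ≤ nA * (q .age + 1)) :
    n + cSv Cv * (5 * (cw * (q .age + 1))) + cSv Cv * 3 + 2 + uC * (q .age + 1) +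
      4 * (cSv Cv * (cw * (q .age + 1))) ≤ uR * (q .age + 1) := by
  have h1 : 1 ≤ cw * (q .age + 1) := Nat.mul_pos one_le_cw (Nat.succ_pos _)
  have h2 := Nat.mul_le_mul_left (cSv Cv) h1
  have h3 : uR * (q .age + 1) = nA * (q .age + 1) + uC * (q .age + 1) +
      12 * (cSv Cv * (cw * (q .age + 1))) + 2 * (q .age + 1) := by
    rw [uR]
    ring
  have h4 : cSv Cv * (5 * (cw * (q .age + 1))) = 5 * (cSv Cv * (cw * (q .age + 1))) := by ring
  omega

theorem str_of {q' : QQ} (h : Sc I a r n p q) {F : QQ → QQ} (e : F q = q') (x : ℕ)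
    (ha : FOk (I a).toCf (q' .lev) (cx q') (ff q')) (hd : t.ad q') (hl : q' .lab ≤ q .lab)
    (hw : ∀ v, v ≠ .lab → q v ≤ q' v + (5 * (cw * (q .age + 1)) + x) ∧
      q' v ≤ q v + (5 * (cw * (q .age + 1)) + x))
    (hp : potR t.rk q' + cSv Cv * x + uR * (q .age + 1) ≤
      pot0 r q + uC * (q .age + 1) + 4 * (cSv Cv * (cw * (q .age + 1)))) :
    (prog I).Str a n p (cl' t F) q t.mvp := by
  subst e
  have h0 : B + 4 ≤ n := h.n_ge
  refine Pg.str_cal (5 * (cw * (q .age + 1)) + x) rfl ⟨ha, hd⟩ (by omega : B + 2 ≤ n)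
    (fun v => ?_) ?_
  · have h1 : 5 * (cw * (q .age + 1)) + x < 2 ^ (5 * (cw * (q .age + 1)) + x) := Nat.lt_two_pow_self
    by_cases hv : v = .lab
    · have h2 := h.lab.trans_le (Nat.pow_le_pow_right two_pos (Nat.le_add_right _ x))
      subst hv
      omega
    · have := hw v hv
      omega
  · have h1 := price h.n_le
    have h2 := h.pot
    change potR t.rk (F q) + _ + _ + 2 ≤ p
    rw [mul_add, mul_add]
    omega

theorem le_w (q : QQ) : q .age + 1 ≤ cw * (q .age + 1) := Nat.le_mul_of_pos_left _ one_le_cw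

theorem rk_mul {i j : ℕ} (h : i < j) (x : ℕ) : i * x + x ≤ j * x := by
  rw [← Nat.succ_mul]
  exact Nat.mul_le_mul_right _ h

theorem slack (h : Sc I a r n p q) (e : Bool) : ∃ x, q (.f e) = cZ + cS * q .age + x :=
  Nat.exists_eq_add_of_le (h.fok.slack e)

/-- The potential pays for the older context below a layer. -/
theorem pay_U {k b g i : ℕ} (hb : b ≤ k) (h1 : b ≤ g + 1) (hr : 7 ≤ r)
    (hi : i ≤ 6 ∨ b = g + 1 ∧ i ≤ 10) :
    uL * (k - b) + i * (uR * (g + b + 1)) + uR * (g + 1) ≤ uL * k + r * (uR * (g + 1)) := by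
  obtain ⟨k, rfl⟩ := Nat.exists_eq_add_of_le hb
  have h2 := Nat.mul_le_mul_right (uR * (g + 1)) hr
  rw [Nat.add_sub_cancel_left, uL]
  rcases hi with hi | ⟨rfl, hi⟩
  · have h3 := Nat.mul_le_mul_right (uR * (g + b + 1)) hi
    nlinarith [Nat.zero_le (uR * b)]
  · have h3 := Nat.mul_le_mul_right (uR * (g + (g + 1) + 1)) hi
    nlinarith [Nat.zero_le (uR * (g + 1))]

theorem mul_le_w {c b : ℕ} (hc : c ≤ 2 * cw) (hb : b ≤ q .age + 1) :
    c * b ≤ 2 * (cw * (q .age + 1)) := by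
  rw [← mul_assoc]
  exact Nat.mul_le_mul hc hb

theorem diff_U (h : Sc I a r n p q) (hv : vU q) (v : Cv) (h1 : v ≠ .lab) :
    q v ≤ FU q v + 2 * (cw * (q .age + 1)) ∧ FU q v ≤ q v + 2 * (cw * (q .age + 1)) := by
  have h2 := le_w q
  have h3 := h.idx
  have h4 := hv.2.1
  have h5 := cw_ge
  rcases v with _ | _ | e | e | e | _ | _
  · simp only [FU, mk]
    omega
  · simp only [FU, mk, Cx.up, cx]
    omega
  · have h6 : q (.D e) ≤ FU q (.D e) := Cx.le_up_D (cx q) (bU q) (rU q).1 e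
    have h7 : FU q (.D e) ≤ q (.D e) + B * bU q := Cx.up_D_le (cx q) (bU q) (rU q).1 e
    have h8 := mul_le_w (c := B) (by omega) h4
    omega
  · have h6 : q (.E e) ≤ FU q (.E e) := Nat.le_add_right _ _
    have h7 : FU q (.E e) ≤ q (.E e) + (C + 1) * bU q := Cx.up_E_le (cx q) (bU q) (rU q).1 e
    have h8 := mul_le_w (c := C + 1) (by omega) h4
    omega
  · have h8 := mul_le_w (c := cF) (by omega) h4
    simp only [FU, mk, fU, ff]
    omega
  · exact absurd rfl h1
  · simp only [FU, mk]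
    omega

theorem str_FU (h : Sc I a r n p q) (hr : 7 ≤ r) (hv : vU q)
    (hi : t.rk ≤ 6 ∨ bU q = q .age + 1 ∧ t.rk ≤ 10) (hd : t.ad (FU q)) :
    (prog I).Str a n p (cl' t FU) q t.mvp := by
  refine str_of h rfl 0 (h.fok.up hv.2.2.1 _) hd (Nat.zero_le _) (fun v hv' => ?_) ?_
  · have := diff_U h hv v hv'
    omega
  · have h1 := pay_U hv.2.2.1 hv.2.1 hr hi
    have h2 := Nat.mul_le_mul_left (cSv Cv) (mul_le_w (c := cF) (by have := cw_ge; omega) hv.2.1)
    have h3 : cSv Cv * (2 * (cw * (q .age + 1))) = 2 * (cSv Cv * (cw * (q .age + 1))) := by ring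
    have h4 : ∀ x y z, cSv Cv * (x + z + (y + z)) = cSv Cv * (x + y) + 2 * (cSv Cv * z) :=
      fun x y z => by ring
    simp only [potR, pot0, FU, mk, cx, ff, Cx.up, fU, h4]
    omega

theorem str_FHU (h : Sc I a r n p q) (hr : 7 ≤ r) (hv : vU q) {g : Bool} (d : Bool)
    (hi : g = false ∨ bU q = q .age + 1) :
    (prog I).Str a n p (cl' (.H g d) fun q => FH (FU q)) q false := by
  obtain ⟨x, hx⟩ := slack h true
  obtain ⟨y, hy⟩ := slack h false
  have h0 := mul_le_w (c := cS) (by have := cw_ge; omega) hv.2.1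
  refine str_of (t := .H g d) h rfl (x + y) (FOk.stat h.ok.toOk (h.fok.up hv.2.2.1 (rU q).1).toOk)
    ⟨rfl, rfl, rfl⟩ (Nat.zero_le _) (fun v hv' => ?_) ?_
  · have h1 := diff_U h hv v hv'
    have h2 : cS * (q .age + bU q) = cS * q .age + cS * bU q := mul_add _ _ _
    rcases v with _ | _ | _ | _ | (_ | _) | _ | _
    · exact ⟨h1.1.trans (Nat.add_le_add_left (by omega) _), h1.2.trans (by omega)⟩
    · exact ⟨h1.1.trans (Nat.add_le_add_left (by omega) _), h1.2.trans (by omega)⟩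
    · exact ⟨h1.1.trans (Nat.add_le_add_left (by omega) _), h1.2.trans (by omega)⟩
    · exact ⟨h1.1.trans (Nat.add_le_add_left (by omega) _), h1.2.trans (by omega)⟩
    · simp only [FH, FU, mk, fH, Cx.up, cx]
      omega
    · simp only [FH, FU, mk, fH, Cx.up, cx]
      omega
    · exact absurd rfl hv'
    · exact ⟨h1.1.trans (Nat.add_le_add_left (by omega) _), Nat.zero_le _⟩
  · have h1 := pay_U (i := (Pc.H g d).rk) hv.2.2.1 hv.2.1 hr (by
      rcases hi with rfl | hi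
      · exact Or.inl le_rfl
      · exact Or.inr ⟨hi, by cases g <;> simp [Pc.rk]⟩)
    have h2 := Nat.mul_le_mul_left (cSv Cv) h0
    have h3 : cSv Cv * (2 * (cw * (q .age + 1))) = 2 * (cSv Cv * (cw * (q .age + 1))) := by ring
    have h4 : cSv Cv * (cZ + cS * (q .age + bU q) + (cZ + cS * (q .age + bU q))) + cSv Cv * (x + y) =
        cSv Cv * (cZ + cS * q .age + x + (cZ + cS * q .age + y)) + 2 * (cSv Cv * (cS * bU q)) := by
      ring
    simp only [potR, pot0, FH, FU, mk, cx, Cx.up, fH, hx, hy]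
    omega

theorem str_cU (hv : vU q) {t : Bool → Pc} {F : QQ → QQ} {m : Bool}
    (h1 : (prog I).Str a n p (cl' (t false) F) q m)
    (h2 : bU q = q .age + 1 → (prog I).Str a n p (cl' (t true) F) q m) :
    (prog I).Str a n p (cU t F) q m := by
  unfold cU cs Pg.Str
  split_ifs with h3
  · exact h1
  · exact h2 (by have := hv.2.1; simp at h3; omega)

/-- The potential pays for a fresh context on a lower level. -/
theorem pay_M {k l i x : ℕ} (hk : k < l) (hr : 1 ≤ r) (hi : i ≤ 10) :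
    uL * k + i * (uR * (0 + 1)) + x ≤ uL * l + r * x := by
  have h1 := Nat.mul_le_mul_left uL hk
  have h2 := Nat.mul_le_mul_right (uR * (0 + 1)) hi
  have h3 := Nat.mul_le_mul_right x hr
  have h4 : uL = 24 * uR := rfl
  rw [Nat.mul_succ] at h1
  omega

theorem str_F0 (h : Sc I a r n p q) (hr : t.rk < r) (hd : t.ad (F0 q)) :
    (prog I).Str a n p (cl' t F0) q t.mvp := by
  refine str_of h rfl 0 h.fok hd (Nat.zero_le _) (fun v hv => ?_) ?_
  · have h1 := le_w q
    have h2 := h.idx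
    cases v
    case lab => exact absurd rfl hv
    all_goals
      simp only [F0, mk, cx, ff]
      omega
  · have h1 := rk_mul hr (uR * (q .age + 1))
    simp only [potR, pot0, F0, mk, cx, ff]
    omega

theorem str_FH (h : Sc I a r n p q) {g d : Bool} (hr : (Pc.H g d).rk < r) :
    (prog I).Str a n p (cl' (.H g d) FH) q false := by
  obtain ⟨x, hx⟩ := slack h true
  obtain ⟨y, hy⟩ := slack h false
  refine str_of (t := .H g d) h rfl (x + y) (FOk.stat h.ok.toOk h.fok.toOk) ⟨rfl, rfl, rfl⟩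
    (Nat.zero_le _) (fun v hv => ?_) ?_
  · have h1 := le_w q
    have h2 := h.idx
    rcases v with _ | _ | _ | _ | (_ | _) | _ | _
    case lab => exact absurd rfl hv
    all_goals
      simp only [FH, mk, cx, fH]
      omega
  · have h1 := rk_mul hr (uR * (q .age + 1))
    have h4 : cSv Cv * (cZ + cS * q .age + (cZ + cS * q .age)) + cSv Cv * (x + y) =
        cSv Cv * (cZ + cS * q .age + x + (cZ + cS * q .age + y)) := by ring
    simp only [potR, pot0, FH, mk, cx, fH, hx, hy]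
    omega

theorem str_wUt (h : Sc I a r n p q) (hr : 7 < r) (hv : vU q) (d : Bool) :
    (prog I).Str a n p (wUt d) q false := by
  refine str_of (t := .Ch d) h rfl 0 h.fok ⟨hv, h.lab, le_rfl⟩ le_rfl (fun v hv' => ?_) ?_
  · have h1 := le_w q
    have h2 := h.idx
    have h3 := hv.2.1
    cases v <;> simp only [Fi, mk, cx, ff] <;> omega
  · have h1 := rk_mul hr (uR * (q .age + 1))
    have h2 := Nat.mul_le_mul_left uC hv.2.1
    simp only [potR, pot0, Fi, mk, cx, ff, Pc.rk] at h1 ⊢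
    omega

theorem str_chP (h : Sc I a r nC p q) (hp : potR 7 q ≤ p) (hv : vU q) (h1 : q .idx ≠ 0)
    (h2 : q .idx ≤ bU q) (d : Bool) : (prog I).Str a nC p (chP d) q false := by
  refine Pg.str_cal 1 rfl ⟨h.fok, hv, h.lab, (Nat.sub_le _ _).trans h2⟩
    (Nat.add_le_add_left (by norm_num) B : B + 2 ≤ nC) (fun v => ?_) (le_trans ?_ hp)
  · cases v <;> simp only [Fi, mk, cx, ff] <;> omega
  · obtain ⟨i, hi⟩ := Nat.exists_eq_succ_of_ne_zero h1
    have h3 : uC * (i + 1) = uC * i + (nC + 4 * cSv Cv + 2) := rfl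
    change potR 7 _ + _ + _ + 2 ≤ _
    simp only [potR, Fi, mk, cx, ff, hi, Nat.succ_eq_add_one, Nat.add_sub_cancel]
    omega

theorem str_frH (h : Sc I a r n p q) (hr : 1 ≤ r) {k : QQ → ℕ} (h1 : k q < q .lev)
    (h2 : q .lev ≤ k q + q .age + 1) (e : Bool) : (prog I).Str a n p (frH e k) q false := by
  obtain ⟨x, hx⟩ := slack h true
  obtain ⟨y, hy⟩ := slack h false
  have h3 : q .age + q .lev ≤ (I a).K := h.fok.age
  refine str_of (t := .H true e) h rfl (x + y) (FOk.stat h.ok.toOk (q := q0) (Cx.ok_q0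
    (by omega : k q ≤ (I a).K))) ⟨rfl, rfl, rfl⟩ (Nat.zero_le _) (fun v hv => ?_) ?_
  · have h4 := le_w q
    have h5 := h.idx
    have h6 := cw_ge
    have h7 := mul_le_w (q := q) (c := B) (by omega) (Nat.le_succ _)
    have h8 := mul_le_w (q := q) (c := C + 1) (by omega) (Nat.le_succ _)
    have h9 := mul_le_w (q := q) (c := cS) (by omega) (Nat.le_succ _)
    rcases v with _ | _ | e | e | (_ | _) | _ | _
    · simp only [Fr, mk]
      omega
    · simp only [Fr, mk, q0]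
      omega
    · have : q (.D e) ≤ B * q .age := h.fok.D e
      simp only [Fr, mk, q0]
      omega
    · have : q (.E e) ≤ (C + 1) * q .age := h.fok.E e
      simp only [Fr, mk, q0]
      omega
    · simp only [Fr, mk, fH]
      omega
    · simp only [Fr, mk, fH]
      omega
    · exact absurd rfl hv
    · simp only [Fr, mk]
      omega
  · have h4 := pay_M (i := 8) (x := uR * (q .age + 1)) h1 hr (by norm_num)
    have h5 : cSv Cv * (cZ + cS * q .age + x + (cZ + cS * q .age + y)) =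
        cSv Cv * (cZ + cS * 0 + (cZ + cS * 0)) + cSv Cv * (x + y) +
          2 * (cSv Cv * (cS * q .age)) := by ring
    simp only [potR, pot0, Fr, mk, q0, fH, Pc.rk, hx, hy]
    omega

theorem str_FM (h : Sc I a r n p q) (hr : 1 ≤ r) (hk : q .lev ≠ 0) (e : Bool) (hi : t.rk ≤ 10)
    (hd : t.ad (FM e q)) : (prog I).Str a n p (cl' t (FM e)) q t.mvp := by
  obtain ⟨x, hx⟩ := slack h (!e)
  obtain ⟨j, hj⟩ := Nat.exists_eq_succ_of_ne_zero hk
  have h4 := le_w q
  have h6 := cw_ge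
  have h7 : B * q .age + B * 1 ≤ cw * (q .age + 1) := by
    rw [← mul_add]
    exact Nat.mul_le_mul_right _ B_le_cw
  have h8 := mul_le_w (q := q) (c := C + 1) (by omega) (Nat.le_succ _)
  have h9 := mul_le_w (q := q) (c := cS) (by omega) (Nat.le_succ _)
  have h10 : cw ≤ cw * (q .age + 1) := Nat.le_mul_of_pos_right _ (Nat.succ_pos _)
  have h11 : ((cx q).up 1 (lb q).1).D e ≤ B * q .age + B * 1 :=
    (Cx.up_D_le (cx q) 1 (lb q).1 e).trans (Nat.add_le_add_right (h.fok.D e) _)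
  have h12 : FOk (I a).toCf (q .lev - 1 + 1) (cx q) (ff q) := by
    rw [Nat.sub_add_cancel (Nat.pos_of_ne_zero hk)]
    exact h.fok
  refine str_of h rfl x (h12.fM (lb q) e) hd (Nat.zero_le _) (fun v hv => ?_) ?_
  · have h5 := h.idx
    rcases v with _ | _ | e' | e' | e' | _ | _
    · simp only [FM, mk]
      omega
    · simp only [FM, mk, q0]
      omega
    · have : q (.D e') ≤ B * q .age := h.fok.D e'
      simp only [FM, mk, q0]
      omega
    · have : q (.E e') ≤ (C + 1) * q .age := h.fok.E e'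
      simp only [FM, mk, q0]
      omega
    · simp only [FM, mk, fM, two, ff]
      split_ifs with h12
      · rw [h12]
        omega
      · rw [show e' = !e from Bool.eq_not_iff.2 h12]
        omega
    · exact absurd rfl hv
    · simp only [FM, mk]
      omega
  · have h12 := pay_M (x := uR * (q .age + 1)) (show q .lev - 1 < q .lev by omega) hr hi
    have h13 : FM e q (.f true) + FM e q (.f false) + x ≤
        q (.f true) + q (.f false) + 4 * (cw * (q .age + 1)) := by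
      cases e <;> simp only [FM, mk, fM, two, ff, Bool.not_true, Bool.not_false] at hx ⊢ <;>
        simp <;> omega
    have h14 := Nat.mul_le_mul_left (cSv Cv) h13
    have h15 : cSv Cv * (4 * (cw * (q .age + 1))) = 4 * (cSv Cv * (cw * (q .age + 1))) := by ring
    rw [mul_add, mul_add (cSv Cv) (_ + _)] at h14
    have h16 : potR t.rk (FM e q) = uL * (q .lev - 1) + t.rk * (uR * (0 + 1)) +
      cSv Cv * (FM e q (.f true) + FM e q (.f false)) := rfl
    rw [h16, pot0]
    omega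

theorem inv_ens (b : ℕ) (l : Lab) (e : Bool) : ∀ s ∈ (prog I).box a,
    (I a).ens b l e q s ∈ (prog I).box a ∧ (I a).ens b l e q ((I a).ens b l e q s) = s :=
  fun _ hs => ⟨Cf.ens_mem hs, Cf.ens_ens⟩

theorem inv_sw (e : Bool) : ∀ s ∈ (prog I).box a, sw e s ∈ (prog I).box a ∧ sw e (sw e s) = s :=
  fun s hs => ⟨Cf.sw_mem hs, sw_sw e s⟩

theorem nC_le (g : ℕ) : nC ≤ nA * (g + 1) := by
  have h1 := cw_ge
  have h2 : nA ≤ nA * (g + 1) := Nat.le_mul_of_pos_right _ (Nat.succ_pos _)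
  have h3 : nC = B + 4 := rfl
  have h4 : nA = 10 * cw := rfl
  omega

theorem sz_le (t : Pc) : nC ≤ (prog I).sz t a q ∧ (prog I).sz t a q ≤ nA * (q .age + 1) := by
  cases t
  case Ch => exact ⟨le_rfl, nC_le _⟩
  all_goals exact ⟨nC_le _, le_rfl⟩

theorem rk_pos (t : Pc) : 1 ≤ t.rk := by
  rcases t with ⟨_ | _, d⟩ | ⟨_ | _, d⟩ | ⟨_ | _, d⟩ | ⟨_ | _, d⟩ | (_ | _) | d | d | d | _ <;>
    simp [Pc.rk]

theorem ad_lab (h : t.ad q) : q .lab < 2 ^ (5 * (cw * (q .age + 1))) ∧ q .idx ≤ q .age + 1 := by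
  have h0 : q .lab = 0 → q .idx = 0 →
      q .lab < 2 ^ (5 * (cw * (q .age + 1))) ∧ q .idx ≤ q .age + 1 := fun h1 h2 => by
    rw [h1, h2]
    exact ⟨Nat.two_pow_pos _, Nat.zero_le _⟩
  cases t
  case Ch => exact ⟨h.2.1, h.2.2.trans h.1.2.1⟩
  case X => exact h0 h.1 h.2.1
  case H => exact h0 h.1 h.2.1
  case topH => exact h0 (congrFun h .lab) (congrFun h .idx)
  case topR => exact h0 (congrFun h .lab) (congrFun h .idx)
  all_goals exact h0 h.1 h.2

end S0

theorem Sc.lab' (h : Sc I a r n p q) {u : ℕ} (hu : u < (I a).nl q) :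
    Sc I a r n p (update q .lab u) :=
  ⟨h.ok, by simpa using h.fok, by simpa using hu.trans_le (Cf.pw_le _ _), by simpa using h.idx,
    h.n_ge, by simpa using h.n_le, by simpa [pot0] using h.pot⟩

theorem Sc.F0 (h : Sc I a r n p q) {t : Pc} (ht : t.rk < r) (ha : t.ad (F0 q)) :
    (prog I).Str a n p (cl' t F0) q t.mvp := S0.str_F0 h ht ha

theorem Sc.FH (h : Sc I a r n p q) {g d : Bool} (ht : (Pc.H g d).rk < r) :
    (prog I).Str a n p (cl' (.H g d) FH) q false := S0.str_FH h ht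

theorem Sc.cU (h : Sc I a r n p q) (hr : 7 ≤ r) (hv : vU q) {t : Bool → Pc} {m : Bool}
    (ht : (t false).rk ≤ 6 ∧ (t true).rk ≤ 10) (hm : ∀ g, (t g).mvp = m)
    (ha : ∀ g, (t g).ad (FU q)) : (prog I).Str a n p (cU t FU) q m :=
  S0.str_cU hv (hm false ▸ S0.str_FU h hr hv (.inl ht.1) (ha _))
    fun hb => hm true ▸ S0.str_FU h hr hv (.inr ⟨hb, ht.2⟩) (ha _)

theorem Sc.cUH (h : Sc I a r n p q) (hr : 7 ≤ r) (hv : vU q) {d : Bool} :
    (prog I).Str a n p (Full.cU (.H · d) fun q => Full.FH (FU q)) q false :=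
  S0.str_cU hv (S0.str_FHU h hr hv d (.inl rfl)) fun hb => S0.str_FHU h hr hv d (.inr hb)

theorem Sc.FM (h : Sc I a r n p q) (hr : 1 ≤ r) (hl : q .lev ≠ 0) (hv : vM q) {t : Pc} {e : Bool}
    (ht : t.rk ≤ 10) (ha : t.ad (FM e q)) : (prog I).Str a n p (cl' t (FM e)) q t.mvp :=
  (fun _ => S0.str_FM h hr hl e ht ha) hv

theorem Sc.frH (h : Sc I a r n p q) (hr : 1 ≤ r) {e : Bool} {k : QQ → ℕ} (h1 : k q < q .lev)
    (h2 : q .lev ≤ k q + q .age + 1) : (prog I).Str a n p (frH e k) q false :=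
  S0.str_frH h hr h1 h2 e

theorem Sc.wUt (h : Sc I a r n p q) (hr : 8 ≤ r) (hv : vU q) {d : Bool} :
    (prog I).Str a n p (wUt d) q false := S0.str_wUt h hr hv d

theorem Sc.chP (h : Sc I a r nC p q) (hp : potR 7 q ≤ p) (hv : vU q) (h1 : q .idx ≠ 0)
    (h2 : q .idx ≤ bU q) {d : Bool} : (prog I).Str a nC p (chP d) q false :=
  S0.str_chP h hp hv h1 h2 d

theorem Sc.linkU (h : Sc I a r n p q) (hr : 7 ≤ r) (hv : vU q) :
    (prog I).Str a n p (linkU I) q true :=
  ⟨rfl, Pg.str_inv (S0.inv_ens _ _ _), rfl,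
    h.cU hr hv (by simp [Pc.rk]) (fun _ => rfl) fun _ => ⟨rfl, rfl⟩, Pg.str_inv (S0.inv_ens _ _ _)⟩

theorem Sc.inH (h : Sc I a r n p q) (hr : 1 ≤ r) (hl : q .lev ≠ 0) (hv : vM q) {t : Pc} {e : Bool}
    (ht : t.rk ≤ 10) (hm : t.mvp = false) (ha : t.ad (Full.FM e q)) :
    (prog I).Str a n p (inH e t) q false :=
  Pg.str_aft (S0.inv_sw e) (hm ▸ h.FM hr hl hv ht ha)

theorem Sc.half (h : Sc I a r n p q) (hr : 1 ≤ r) (hl : q .lev ≠ 0) (hv : vM q) {e : Bool} :
    (prog I).Str a n p (half e) q true :=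
  ⟨rfl, Pg.str_inv (S0.inv_sw e), rfl,
    h.FM (t := .St true) hr hl hv (by simp [Pc.rk]) ⟨rfl, rfl⟩, Pg.str_inv (S0.inv_sw e)⟩

theorem Sc.linkM (h : Sc I a r n p q) (hr : 1 ≤ r) (hl : q .lev ≠ 0) (hv : vM q) :
    (prog I).Str a n p (linkM I) q true :=
  ⟨rfl, Pg.str_inv (S0.inv_ens _ _ _), rfl, h.half hr hl hv, rfl, h.half hr hl hv,
    Pg.str_inv (S0.inv_ens _ _ _)⟩

theorem sc_of_adm (h : (I a).Ok2) {t : Pc} (ht : (prog I).adm t a q) :
    Sc I a t.rk ((prog I).sz t a q) ((prog I).pot t a q) q :=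
  ⟨h, ht.1, (S0.ad_lab ht.2).1, (S0.ad_lab ht.2).2, (S0.sz_le t).1, (S0.sz_le t).2,
    Nat.le_add_right _ _⟩

theorem wf_of (h : (I a).Ok2) (hw : ∀ t, WFp I a t) : (prog I).WF a := fun t q ht => by
  refine ⟨?_, hw t q ht⟩
  have h1 := sc_of_adm h ht
  have h2 := S0.price h1.n_le
  have h3 := h1.pot
  have h4 := Nat.mul_le_mul_right (uR * (q .age + 1)) (S0.rk_pos t)
  rw [pot0] at h3
  omega

end Vale.Agent.P313.Full
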