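import Vale.Agent.P313.Full.PgS0

/-! The structural conditions for the procedures for all names and for the top. -/

namespace Vale.Agent.P313.Full

open Finset Function Hi Tm

variable {α : Type} {I : α → In} {a : α}

namespace S1

theorem lip (c e s t : ℝ) : |cl (c * s + e) - cl (c * t + e)| ≤ |c| * |s - t| :=
  (abs_cl_sub _ _).trans_eq (by rw [← abs_mul]; congr 1; ring)

theorem clamp (u v s t : ℝ) : |max u (min v s) - max u (min v t)| ≤ |s - t| := by
  refine (abs_max_sub_max_le_max _ _ _ _).trans (max_le (by simp) ?_)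
  exact (abs_min_sub_min_le_max _ _ _ _).trans (max_le (by simp) le_rfl)

theorem abs_clamp {v : ℝ} (h : 0 ≤ v) (s : ℝ) : |max 0 (min v s)| ≤ v :=
  (abs_of_nonneg (le_max_left _ _)).trans_le (max_le h (min_le_left _ _))

theorem pw_mono {i j : ℕ} (h : i ≤ j) : (2 : ℝ) ^ i ≤ 2 ^ j := pow_le_pow_right₀ one_le_two h

theorem lin2 {c e x y x' y' ε : ℝ} (h1 : |x - x'| ≤ ε) (h2 : |y - y'| ≤ ε) :
    |c * x + e * y - (c * x' + e * y')| ≤ (|c| + |e|) * ε := by
  rw [show c * x + e * y - (c * x' + e * y') = c * (x - x') + e * (y - y') by ring, add_mul]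
  refine (abs_add_le _ _).trans ?_
  rw [abs_mul, abs_mul]
  exact add_le_add (mul_le_mul_of_nonneg_left h1 (abs_nonneg _))
    (mul_le_mul_of_nonneg_left h2 (abs_nonneg _))

variable {r n p : ℕ} {q : QQ}

theorem eight_le (h : Sc I a r n p q) : 8 ≤ n := by
  have := h.n_ge
  have := B_eq
  unfold nC at *
  omega

/-- A clamped linear form of two numbers. -/
theorem str_lin {Φ : α → QQ → SS → ℝ → ℝ → ℝ} {e₁ e₂ : Trm α} (v c e : ℝ) (h0 : 0 ≤ v)
    (hv : v ≤ 2 ^ n) (hc : |c| + |e| ≤ 2 ^ n)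
    (hΦ : ∀ s x y, Φ a q s x y = max 0 (min v (c * x + e * y)))
    (h1 : (prog I).Str a n p e₁ q false) (h2 : (prog I).Str a n p e₂ q false) :
    (prog I).Str a n p (app Φ e₁ e₂) q false := by
  refine ⟨rfl, fun s _ => ⟨fun x y => ?_, fun x y x' y' ε e1 e2 => ?_⟩, h1, h2⟩
  · rw [hΦ]
    exact (abs_clamp h0 _).trans hv
  · rw [hΦ, hΦ]
    exact (clamp _ _ _ _).trans ((lin2 e1 e2).trans
      (mul_le_mul_of_nonneg_right hc ((abs_nonneg _).trans e1)))

/-- A clamped affine function of one number. -/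
theorem str_aff {φ : α → QQ → SS → ℝ → ℝ} {e₁ : Trm α} (c e : ℝ) (hc : |c| ≤ 2 ^ n)
    (hφ : ∀ s x, φ a q s x = cl (c * x + e)) (h1 : (prog I).Str a n p e₁ q false) :
    (prog I).Str a n p (ap1 φ e₁) q false := by
  refine Pg.str_ap1 (fun s _ x => ?_) (fun s _ x x' => ?_) h1
  · rw [hφ]
    exact (abs_cl_le _).trans (one_le_pow₀ one_le_two)
  · rw [hφ, hφ]
    exact (lip _ _ _ _).trans (mul_le_mul_of_nonneg_right hc (abs_nonneg _))

theorem small (h : Sc I a r n p q) {c : ℝ} (hc : c ≤ 256) : c ≤ 2 ^ n :=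
  hc.trans (le_trans (by norm_num) (pw_mono (eight_le h)))

variable {e : Trm α}

theorem str_cl (h : Sc I a r n p q) (he : (prog I).Str a n p e q false) :
    (prog I).Str a n p (fn cl e) q false :=
  str_aff 1 0 (small h (by norm_num)) (fun _ _ => by simp) he

theorem str_Gd (h : Sc I a r n p q) (he : (prog I).Str a n p e q false) :
    (prog I).Str a n p (fn Gd e) q false :=
  str_aff (-1) 2 (small h (by norm_num)) (fun _ x => congrArg cl (by ring)) he

theorem str_psi (h : Sc I a r n p q) (he : (prog I).Str a n p e q false) :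
    (prog I).Str a n p (fn psi e) q false :=
  str_aff 4 (-3) (small h (by norm_num)) (fun _ x => congrArg cl (by ring)) he

theorem str_psw (h : Sc I a r n p q) (he : (prog I).Str a n p e q false) :
    (prog I).Str a n p (fn psw e) q false :=
  str_aff 2 (-(1 / 2)) (small h (by norm_num)) (fun _ x => congrArg cl (by ring)) he

theorem str_rd (h : Sc I a r n p q) (he : (prog I).Str a n p e q false) :
    (prog I).Str a n p (fn rd e) q false := by
  refine str_aff (-(2 / 2 ^ B)) 3 (small h ?_) (fun _ x => congrArg cl (by ring)) he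
  rw [abs_neg, abs_of_pos (by positivity)]
  exact (div_le_self (by norm_num) (one_le_pow₀ one_le_two)).trans (by norm_num)

theorem str_phi (h : Sc I a r n p q) (he : (prog I).Str a n p e q false) :
    (prog I).Str a n p (fn (fun x => cl x * phi x) e) q false := by
  refine Pg.str_ap1 (fun s _ x => ?_) (fun s _ x x' => ?_) he
  · rw [abs_mul]
    exact (mul_le_one₀ (abs_cl_le _) (abs_nonneg _) (abs_phi_le _)).trans (one_le_pow₀ one_le_two)
  · refine (abs_mul_sub_le (abs_cl_le _) (abs_phi_le _) (abs_cl_sub _ _) (abs_phi_sub _ _)).trans ?_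
    have h1 : (1 : ℝ) ≤ 2 ^ (B + 1) := one_le_pow₀ one_le_two
    have h2 : (2 : ℝ) ^ (B + 2) ≤ 2 ^ n := pw_mono (le_trans (by unfold nC; omega) h.n_ge)
    rw [pow_succ 2 (B + 1)] at h2
    nlinarith [abs_nonneg (x - x')]

theorem str_ts (t : Cf → QQ → SS → Prop) : (prog I).Str a n p (ts I t) q false := Pg.str_tst _

theorem str_enU {d : Bool} (he : (prog I).Str a n p e q false) :
    (prog I).Str a n p (aft (enU I d) e) q false :=
  Pg.str_aft (fun _ hs => ⟨Cf.ens_mem hs, Cf.ens_ens⟩) he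

theorem str_cs {t : QQ → Prop} {e' : Trm α} {m : Bool} (h1 : t q → (prog I).Str a n p e q m)
    (h2 : (prog I).Str a n p e' q m) : (prog I).Str a n p (cs t e e') q m := by
  unfold cs Pg.Str
  split_ifs with h
  exacts [h1 (by simpa using h), h2]

theorem nl_le : (I a).nl q ≤ 2 ^ (nA * (q .age + 1)) :=
  ((I a).pw_le _).trans (Nat.pow_le_pow_right two_pos (by unfold nA; nlinarith))

theorem str_avR {d : Bool} (he : (prog I).Str a n p e q false) :
    (prog I).Str a n p (avR I d e) q false := ⟨rfl, ok_rotV rfl _ _, he⟩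

theorem str_avK (h : Sc I a r n p q) {d : Bool} (he : (prog I).Str a n p e q false) :
    (prog I).Str a n p (avK I d e) q false :=
  ⟨rfl, ok_keyV rfl h.ok _, rfl, ok_keyV rfl h.ok _, he⟩

/-- A node of the full size. -/
def Sd (I : α → In) (a : α) (r n p : ℕ) (q : QQ) : Prop :=
  Sc I a r n p q ∧ n = nA * (q .age + 1)

theorem Sd.lab (h : Sd I a r n p q) {u : ℕ} (hu : u < (I a).nl q) :
    Sd I a r n p (update q .lab u) := ⟨h.1.lab' hu, by simpa using h.2⟩

theorem str_smL (h : Sd I a r n p q) (hl : q .lab = 0) {t : QQ → Prop}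
    (he : ∀ q', Sd I a r n p q' → t q' → (prog I).Str a n p e q' false) :
    (prog I).Str a n p (smL I t e) q false :=
  ⟨rfl, hl, h.2 ▸ nl_le, fun _ hu => str_cs (he _ (h.lab hu)) (Pg.str_cst (by simp))⟩

theorem pw_le' (i : ℕ) : ((I a).pw i : ℝ) ≤ 2 ^ i := by exact_mod_cast (I a).pw_le i

theorem pD_le (h : Sc I a r n p q) : pD I a q ≤ 2 ^ (B * q .age) :=
  (pw_le' _).trans (pw_mono ((min_le_left _ _).trans (h.fok.D true)))

theorem str_sgR (h : Sd I a r n p q) (he : (prog I).Str a n p e q false) :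
    (prog I).Str a n p (ap1 (fun a q _ => sgR I a q) e) q false := by
  refine str_aff (2 * pD I a q * iTh I a q) (-1) ?_ (fun _ x => congrArg cl (by ring)) he
  have h1 : 0 ≤ pD I a q := Nat.cast_nonneg _
  have h2 : 0 ≤ iTh I a q := Nat.cast_nonneg _
  rw [abs_of_nonneg (by positivity)]
  refine (mul_le_mul (mul_le_mul_of_nonneg_left (pD_le h.1) zero_le_two) (pw_le' _) h2
    (by positivity)).trans ?_
  rw [← pow_succ', ← pow_add, h.2]
  refine pw_mono ?_
  have h3 := Nat.mul_le_mul_right (q .age) B_le_cw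
  have h4 := Nat.mul_le_mul_right (q .age) one_le_cw
  have := B_le_cw
  have := one_le_cw
  unfold nA
  nlinarith

theorem scH_le (h : Sd I a r n p q) : |scH I a q| + |(3 / 2 : ℝ)| ≤ 2 ^ n := by
  have h1 : 0 ≤ pD I a q := Nat.cast_nonneg _
  have h2 : (1 : ℝ) ≤ (I a).pw (cH * q .age) := by exact_mod_cast Nat.one_le_two_pow
  have h3 : scH I a q ≤ 2 ^ (2 * (cZ + cS * q .age) + B * q .age) := by
    rw [pow_add]
    exact mul_le_mul ((div_le_self (Nat.cast_nonneg _) h2).trans (pw_le' _)) (pD_le h.1) h1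
      (by positivity)
  have h4 : (2 : ℝ) ^ (2 * (cZ + cS * q .age) + B * q .age + 2) ≤ 2 ^ n := by
    refine pw_mono ?_
    have h5 := Nat.mul_le_mul_right (q .age) B_le_cw
    have h6 := Nat.mul_le_mul_right (q .age) (show cS ≤ cw by unfold cw; omega)
    have h7 : cZ ≤ cw := by unfold cw; omega
    have := one_le_cw
    rw [h.2]
    unfold nA
    nlinarith
  have h5 : (1 : ℝ) ≤ 2 ^ (2 * (cZ + cS * q .age) + B * q .age) := one_le_pow₀ one_le_two
  rw [abs_of_nonneg (by unfold scH; positivity), abs_of_pos (by norm_num)]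
  rw [pow_add _ _ 2] at h4
  linarith

variable {d : Bool}

theorem str_sUt (h : Sc I a r n p q) (hr : 7 ≤ r) (hv : vU q) :
    (prog I).Str a n p (sUt I d) q false :=
  ⟨rfl, str_ts _, str_enU (h.cU hr hv ⟨by simp [Pc.rk], le_rfl⟩ (fun _ => rfl)
    fun _ => ⟨rfl, rfl⟩)⟩

theorem str_facT (h : Sc I a r n p q) (hr : 9 ≤ r) : (prog I).Str a n p (facT I d) q false :=
  ⟨Pg.str_cst (by simp), str_rd h (h.FH hr)⟩

theorem str_uUt (h : Sd I a r n p q) (hr : 9 ≤ r) (hv : vU q) :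
    (prog I).Str a n p (uUt I d) q false :=
  ⟨rfl, str_sUt h.1 (by omega) hv, rfl, ⟨rfl, str_sgR h (h.1.wUt (by omega) hv), str_facT h.1 hr⟩,
    rfl, h.1.linkU (by omega) hv, str_facT h.1 hr⟩

theorem str_TU (h : Sd I a 9 n p q) (hl : q .lab = 0) : (prog I).Str a n p (bodyTU I d) q false := by
  have h1 : ∀ q', Sd I a 9 n p q' → vU q' → (prog I).Str a n p (avR I d (uUt I d)) q' false :=
    fun q' h' hv => str_avR (str_uUt h' le_rfl hv)
  refine str_lin 3 2 1 (by norm_num) (small h.1 (by norm_num)) (small h.1 (by norm_num))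
    (fun _ x y => congrArg cl3 (by ring)) (str_smL h hl fun q' h' hv => ⟨rfl, str_ts _,
      str_enU (h'.1.cU (by norm_num) hv ⟨by simp [Pc.rk], by simp [Pc.rk]⟩ (fun _ => rfl)
        fun _ => ⟨rfl, rfl⟩)⟩) ?_
  exact str_lin 3 100 (-100) (by norm_num) (small h.1 (by norm_num)) (small h.1 (by norm_num))
    (fun _ x y => congrArg cl3 (by ring)) ⟨rfl, str_smL h hl h1, str_smL h hl h1⟩
    (str_smL h hl fun q' h' hv => ⟨rfl, h1 q' h' hv, h1 q' h' hv⟩)

theorem str_HU (h : Sd I a 8 n p q) (hl : q .lab = 0) : (prog I).Str a n p (bodyHU I d) q false :=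
  str_lin (2 ^ (B + 1)) (scH I a q) (3 / 2) (by positivity)
    (pw_mono (le_trans (by unfold nC; omega) h.1.n_ge)) (scH_le h) (fun _ _ _ => rfl)
    (str_avK h.1 (str_smL h hl fun _ h' hv =>
      ⟨rfl, str_sUt h'.1 (by norm_num) hv, h'.1.wUt le_rfl hv⟩))
    (str_smL h hl fun _ h' hv => ⟨rfl, str_ts _, h'.1.cUH (by norm_num) hv.1⟩)

theorem str_GT (h : Sc I a 10 n p q) : (prog I).Str a n p (fn Gd (cl' (.T true d) F0)) q false :=
  str_Gd h (h.F0 (t := .T true d) (by simp [Pc.rk]) ⟨rfl, rfl⟩)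

theorem str_SU (h : Sd I a 10 n p q) (hl : q .lab = 0) : (prog I).Str a n p (bodySU I d) q false :=
  str_cl h.1 ⟨rfl, str_GT h.1, str_smL h hl fun _ h' hv =>
    ⟨rfl, str_psi h'.1 (str_uUt h' (by norm_num) hv), rfl, h'.1.linkU (by norm_num) hv,
      str_GT h'.1⟩⟩

theorem str_WU (h : Sd I a 9 n p q) (hl : q .lab = 0) : (prog I).Str a n p (bodyWU I d) q false :=
  str_cl h.1 (str_smL h hl fun _ h' hv =>
    ⟨rfl, str_psw h'.1 (str_uUt h' le_rfl hv), h'.1.wUt (by norm_num) hv⟩)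

theorem str_StU (h : Sd I a 9 n p q) (hl : q .lab = 0) : (prog I).Str a n p (bodyStU I) q true :=
  ⟨rfl, hl, h.2 ▸ nl_le, ok_unV, fun _ hu =>
    ⟨str_cs (str_uUt (h.lab hu) le_rfl) (Pg.str_cst (by simp)),
      str_cs (str_uUt (h.lab hu) le_rfl) (Pg.str_cst (by simp)),
      str_cs ((h.lab hu).1.linkU (by norm_num)) Pg.str_stop⟩⟩

theorem rng_cl {b : ℕ} : (prog I).Rng a (fn cl e) b q :=
  Pg.rng_ap1 fun _ _ _ => (abs_cl_le _).trans (one_le_pow₀ one_le_two)

end S1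

open S1 in
theorem wfp_true (h : (I a).Ok2) (d : Bool) : WFp I a (.T true d) ∧ WFp I a (.S true d) ∧
    WFp I a (.W true d) ∧ WFp I a (.H true d) ∧ WFp I a (.St true) ∧ WFp I a (.topH d) ∧
    WFp I a .topR := by
  refine ⟨fun q ht => ?_, fun q ht => ?_, fun q ht => ?_, fun q ht => ?_, fun q ht => ?_,
    fun q ht => ?_, fun q ht => ?_⟩ <;> have hs := sc_of_adm h ht
  · refine ⟨⟨hs.F0 (t := .T false d) (by simp [Pc.rk]) ⟨rfl, rfl⟩, str_TU ⟨hs, rfl⟩ ht.2.1⟩, le_rfl,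
      fun _ _ _ _ => (abs_clamp (by norm_num) _).trans ?_⟩
    exact le_trans (by norm_num) (pw_mono (Nat.le_add_left 2 B))
  · exact ⟨⟨hs.F0 (t := .S false d) (by simp [Pc.rk]) ⟨rfl, rfl⟩, str_SU ⟨hs, rfl⟩ ht.2.1⟩, le_rfl,
      rng_cl⟩
  · exact ⟨⟨hs.F0 (t := .W false d) (by simp [Pc.rk]) ⟨rfl, rfl⟩, str_WU ⟨hs, rfl⟩ ht.2.1⟩, le_rfl,
      rng_cl⟩
  · exact ⟨⟨hs.F0 (t := .H false d) (by simp [Pc.rk]) ⟨rfl, rfl, ht.2.2.2⟩,
      str_HU ⟨hs, rfl⟩ ht.2.1⟩, le_rfl,
      fun _ _ _ _ => (abs_clamp (by positivity) _).trans (pw_mono (Nat.le_succ _))⟩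
  · exact ⟨⟨hs.F0 (t := .St false) (by simp [Pc.rk]) ⟨rfl, rfl⟩, str_StU ⟨hs, rfl⟩ ht.2.1⟩, le_rfl,
      trivial⟩
  · refine ⟨⟨rfl, Pg.str_tst _, hs.F0 (t := .H true d) (by simp [Pc.rk]) ⟨rfl, rfl, ?_⟩⟩,
      0, B + 2, (zero_add _).le, Pg.rng_tst _, le_rfl⟩
    have h1 : q = Fr (q .lev) := ht.2
    rw [h1]
    rfl
  · refine ⟨⟨rfl, Pg.str_tst _, rfl, hs.F0 (t := .S true true) (by simp [Pc.rk]) ⟨rfl, rfl⟩, rfl,
      ⟨rfl, hs.F0 (t := .St true) (by simp [Pc.rk]) ⟨rfl, rfl⟩, Pg.str_tst _⟩,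
      str_phi hs (hs.F0 (t := .W true true) (by simp [Pc.rk]) ⟨rfl, rfl⟩)⟩,
      0, B + 2, (zero_add _).le, Pg.rng_tst _, B + 2, 0, le_rfl, le_rfl, 0, 0, le_rfl,
      ?_, Pg.rng_ap1 fun _ _ x => ?_⟩
    · exact Pg.rng_tst (P := prog I) (q := q) fun a _ s => decide (s .nm = (I a).m0)
    · rw [abs_mul, pow_zero]
      exact mul_le_one₀ (abs_cl_le _) (abs_nonneg _) (abs_phi_le _)

end Vale.Agent.P313.Full
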