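import Vale.Agent.P313.Full.Hash

/-! Averages over finite ranges and the probability that a uniform value has given low bits. -/

namespace Vale.Agent.P313.Full

open Finset

/-- The mean over `range n`. -/
noncomputable def mean (n : ℕ) (f : ℕ → ℝ) : ℝ := (∑ i ∈ range n, f i) / n

theorem mean_congr {n : ℕ} {f g : ℕ → ℝ} (h : ∀ i < n, f i = g i) : mean n f = mean n g := by
  rw [mean, mean, sum_congr rfl fun i hi => h i (mem_range.1 hi)]

theorem mean_mono {n : ℕ} {f g : ℕ → ℝ} (h : ∀ i < n, f i ≤ g i) : mean n f ≤ mean n g :=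
  div_le_div_of_nonneg_right (sum_le_sum fun i hi => h i (mem_range.1 hi)) (Nat.cast_nonneg _)

theorem mean_const {n : ℕ} (hn : 0 < n) (c : ℝ) : mean n (fun _ => c) = c := by
  rw [mean, sum_const, card_range, nsmul_eq_mul, mul_div_cancel_left₀]
  exact_mod_cast hn.ne'

theorem mean_zero (n : ℕ) : mean n (fun _ => 0) = 0 := by simp [mean]

theorem mean_nonneg {n : ℕ} {f : ℕ → ℝ} (h : ∀ i < n, 0 ≤ f i) : 0 ≤ mean n f :=
  (mean_zero n).symm.le.trans (mean_mono h)

theorem mean_le {n : ℕ} (hn : 0 < n) {f : ℕ → ℝ} {c : ℝ} (h : ∀ i < n, f i ≤ c) : mean n f ≤ c :=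
  (mean_mono h).trans (mean_const hn c).le

theorem le_mean {n : ℕ} (hn : 0 < n) {f : ℕ → ℝ} {c : ℝ} (h : ∀ i < n, c ≤ f i) : c ≤ mean n f :=
  (mean_const hn c).symm.le.trans (mean_mono h)

theorem mean_add (n : ℕ) (f g : ℕ → ℝ) : mean n (fun i => f i + g i) = mean n f + mean n g := by
  rw [mean, sum_add_distrib, add_div, mean, mean]

theorem mean_sub (n : ℕ) (f g : ℕ → ℝ) : mean n (fun i => f i - g i) = mean n f - mean n g := by
  rw [mean, sum_sub_distrib, sub_div, mean, mean]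

theorem mean_mul_left (n : ℕ) (c : ℝ) (f : ℕ → ℝ) : mean n (fun i => c * f i) = c * mean n f := by
  rw [mean, ← mul_sum, mul_div_assoc, mean]

theorem mean_mul_right (n : ℕ) (c : ℝ) (f : ℕ → ℝ) :
    mean n (fun i => f i * c) = mean n f * c := by
  rw [mul_comm, ← mean_mul_left]
  exact mean_congr fun i _ => mul_comm _ _

theorem mean_div (n : ℕ) (c : ℝ) (f : ℕ → ℝ) : mean n (fun i => f i / c) = mean n f / c := by
  simp only [div_eq_mul_inv, mean_mul_right]

theorem mean_sum {ι : Type} (n : ℕ) (s : Finset ι) (f : ι → ℕ → ℝ) :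
    mean n (fun i => ∑ u ∈ s, f u i) = ∑ u ∈ s, mean n (f u) := by
  rw [mean, sum_comm, sum_div]
  rfl

theorem mean_comm (n m : ℕ) (f : ℕ → ℕ → ℝ) :
    mean n (fun i => mean m fun j => f i j) = mean m fun j => mean n fun i => f i j := by
  simp only [mean, ← sum_div]
  rw [sum_comm, div_right_comm]

theorem mean_xor {m c : ℕ} (hc : c < 2 ^ m) (g : ℕ → ℝ) :
    mean (2 ^ m) (fun t => g (t ^^^ c)) = mean (2 ^ m) g := by rw [mean, sum_xor hc, mean]

theorem mean_xor' {m c : ℕ} (hc : c < 2 ^ m) (g : ℕ → ℝ) :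
    mean (2 ^ m) (fun t => g (c ^^^ t)) = mean (2 ^ m) g := by
  rw [← mean_xor hc g]
  exact mean_congr fun t _ => by rw [Nat.xor_comm]

/-- The low bits of a uniform value are uniform. -/
theorem mean_mod {m F : ℕ} (hF : F ≤ m) (g : ℕ → ℝ) :
    mean (2 ^ m) (fun t => g (t % 2 ^ F)) = mean (2 ^ F) g := by
  obtain ⟨r, rfl⟩ := Nat.exists_eq_add_of_le hF
  rw [mean, pow_add, sum_range_mul, sum_congr rfl fun s _ => sum_congr rfl fun s0 hs0 => by
    rw [Nat.add_mul_mod_self_left, Nat.mod_eq_of_lt (mem_range.1 hs0)]]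
  rw [sum_const, card_range, nsmul_eq_mul, mean]
  push_cast
  field_simp

theorem mean_eq {n r : ℕ} (hr : r < n) (c : ℝ) :
    mean n (fun t => if t = r then c else 0) = c / n := by
  rw [mean, sum_ite_eq' (range n) r fun _ => c, if_pos (mem_range.2 hr)]

/-- The probability of given low bits. -/
theorem mean_mod_eq {m F r : ℕ} (hF : F ≤ m) (hr : r < 2 ^ F) (c : ℝ) :
    mean (2 ^ m) (fun t => if t % 2 ^ F = r then c else 0) = c / 2 ^ F := by
  rw [mean_mod hF fun t => if t = r then c else 0, mean_eq hr]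
  push_cast
  rfl

theorem mean_mod_eq_le {m F : ℕ} (hF : F ≤ m) (r : ℕ) {c : ℝ} (hc : 0 ≤ c) :
    mean (2 ^ m) (fun t => if t % 2 ^ F = r then c else 0) ≤ c / 2 ^ F := by
  by_cases hr : r < 2 ^ F
  · exact (mean_mod_eq hF hr c).le
  · rw [mean_congr (g := fun _ => 0) fun t _ => if_neg fun (e : t % 2 ^ F = r) =>
      hr (e ▸ Nat.mod_lt _ (by positivity)), mean_zero]
    positivity

/-- Rotation about `p`: the value at another point is uniform. -/
theorem mean_rot_one {L m n p u c : ℕ} (hne : u ≠ p) (hp : p < 2 ^ n) (hu : u < 2 ^ n)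
    (hc : c < 2 ^ m) (hL : m + 3 * n ≤ L) (g : ℕ → ℝ) :
    mean (2 ^ (2 * L)) (fun s => g (lin L m s u ^^^ (lin L m s p ^^^ c))) = mean (2 ^ m) g := by
  have h := rot_one hne hp hu hc hL g
  rw [mean, mean]
  push_cast
  exact h

/-- Rotation about `p`: the values at two other points are independent. -/
theorem mean_rot_two {L m n p u u' c : ℕ} (h1 : u ≠ p) (h2 : u' ≠ p) (h3 : u ≠ u')
    (hp : p < 2 ^ n) (hu : u < 2 ^ n) (hu' : u' < 2 ^ n) (hc : c < 2 ^ m) (hL : m + 3 * n ≤ L)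
    (g g' : ℕ → ℝ) :
    mean (2 ^ (2 * L)) (fun s => g (lin L m s u ^^^ (lin L m s p ^^^ c)) *
      g' (lin L m s u' ^^^ (lin L m s p ^^^ c))) = mean (2 ^ m) g * mean (2 ^ m) g' := by
  have h := rot_two h1 h2 h3 hp hu hu' hc hL fun t t' => g t * g' t'
  rw [mean, mean, mean]
  push_cast
  rw [h, ← sum_mul_sum, div_mul_div_comm, pow_two]

/-- The mean over a key is the mean over the value at `p` of the means over the rotations. -/
theorem mean_key_rot (L m p : ℕ) (f : ℕ → ℕ → ℝ) :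
    mean (2 ^ (2 * L)) (fun s => mean (2 ^ m) fun o => f s o) =
      mean (2 ^ m) fun c => mean (2 ^ (2 * L)) fun s => f s (lin L m s p ^^^ c) := by
  rw [mean_comm (2 ^ m)]
  exact mean_congr fun s _ => (mean_xor' (lin_lt L m s p) (f s)).symm

/-- Markov's inequality for a cut-off function. -/
theorem one_sub_le_mean {n : ℕ} (hn : 0 < n) {T g : ℕ → ℝ} {η : ℝ} (h : ∀ i < n, 1 - T i ≤ g i)
    (hT : mean n T ≤ η) : 1 - η ≤ mean n g := by
  have h1 := mean_mono h
  rw [mean_sub, mean_const hn] at h1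
  linarith

end Vale.Agent.P313.Full
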