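import Vale.Agent.P313.Full.TabDef
import Vale.Agent.P313.Full.Prob

/-! Bits of shifted values. -/

namespace Vale.Agent.P313.Full

open Finset

theorem mod_lt_iff {y N k : ℕ} :
    y % 2 ^ N < 2 ^ k ↔ ∀ i, k ≤ i → i < N → y.testBit i = false := by
  constructor
  · intro h i h1 h2
    have := Nat.testBit_lt_two_pow (h.trans_le (Nat.pow_le_pow_right (by norm_num) h1))
    simpa [h2] using this
  · intro h
    refine Nat.lt_pow_two_of_testBit _ fun i hi => ?_
    by_cases h2 : i < N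
    · simp [h i hi h2]
    · simp [h2]

theorem eq_win_iff {t y k c : ℕ} (ht : t < 2 ^ c) :
    t = y / 2 ^ k % 2 ^ c ↔ ∀ i < c, t.testBit i = y.testBit (k + i) := by
  constructor
  · rintro rfl i hi
    simp [hi, Nat.testBit_div_two_pow, add_comm]
  · intro h
    refine Nat.eq_of_testBit_eq fun i => ?_
    by_cases hi : i < c
    · simp [hi, Nat.testBit_div_two_pow, h i hi, add_comm]
    · have := Nat.testBit_lt_two_pow (ht.trans_le (Nat.pow_le_pow_right (by norm_num) (not_lt.1 hi)))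
      simp [hi, this]

theorem mod_eq_iff {y z N : ℕ} :
    y % 2 ^ N = z % 2 ^ N ↔ ∀ i < N, y.testBit i = z.testBit i := by
  constructor
  · intro h i hi
    simpa [hi] using congrArg (·.testBit i) h
  · intro h
    refine Nat.eq_of_testBit_eq fun i => ?_
    by_cases hi : i < N
    · simp [hi, h i hi]
    · simp [hi]

/-- A value with few bits. -/
theorem mod_mod_of_lt {y N k j : ℕ} (h : y % 2 ^ N < 2 ^ k) (h1 : k ≤ j) (h2 : j ≤ N) :
    y % 2 ^ j = y % 2 ^ N := by
  rw [← Nat.mod_mod_of_dvd y (pow_dvd_pow 2 h2),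
    Nat.mod_eq_of_lt (h.trans_le (Nat.pow_le_pow_right (by norm_num) h1))]

section shift

variable {h t σ l o F c : ℕ}

theorem testBit_shift (ht : t < 2 ^ c) (hσ : σ < 2 ^ o) (ho : o ≤ l) (i : ℕ) :
    (h ^^^ (t * 2 ^ (l + F) ^^^ σ * 2 ^ (l - o))).testBit i =
      if i < l - o then h.testBit i else if i < l then h.testBit i ^^ σ.testBit (i - (l - o))
      else if i < l + F then h.testBit i
      else if i < l + F + c then h.testBit i ^^ t.testBit (i - (l + F)) else h.testBit i := by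
  have z : ∀ {u n j : ℕ}, u < 2 ^ n → n ≤ j → u.testBit j = false := fun h1 h2 =>
    Nat.testBit_lt_two_pow (h1.trans_le (Nat.pow_le_pow_right (by norm_num) h2))
  simp only [Nat.testBit_xor, Nat.testBit_mul_two_pow]
  split_ifs with h1 h2 h3 h4
  · simp [show ¬ l + F ≤ i by omega, show ¬ l - o ≤ i by omega]
  · simp [show ¬ l + F ≤ i by omega, show l - o ≤ i by omega]
  · simp [show ¬ l + F ≤ i by omega, z hσ (show o ≤ i - (l - o) by omega)]
  · simp [show l + F ≤ i by omega, z hσ (show o ≤ i - (l - o) by omega)]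
  · simp [z ht (show c ≤ i - (l + F) by omega), z hσ (show o ≤ i - (l - o) by omega)]

/-- The low bits are not shifted. -/
theorem shift_mod (ht : t < 2 ^ c) (hσ : σ < 2 ^ o) (ho : o ≤ l) :
    (h ^^^ (t * 2 ^ (l + F) ^^^ σ * 2 ^ (l - o))) % 2 ^ (l - o) = h % 2 ^ (l - o) :=
  mod_eq_iff.2 fun i hi => by rw [testBit_shift ht hσ ho, if_pos hi]

/-- The shift clears the window and the filter. -/
theorem shift_lt_iff (ht : t < 2 ^ c) (hσ : σ < 2 ^ o) (ho : o ≤ l) :
    (h ^^^ (t * 2 ^ (l + F) ^^^ σ * 2 ^ (l - o))) % 2 ^ (l + F + c) < 2 ^ (l - o) ↔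
      t = h / 2 ^ (l + F) % 2 ^ c ∧ σ = h / 2 ^ (l - o) % 2 ^ o ∧ h % 2 ^ (l + F) < 2 ^ l := by
  rw [mod_lt_iff, eq_win_iff ht, eq_win_iff hσ, mod_lt_iff]
  simp only [testBit_shift ht hσ ho]
  constructor
  · intro H
    refine ⟨fun i hi => ?_, fun i hi => ?_, fun i h1 h2 => ?_⟩
    · have := H (l + F + i) (by omega) (by omega)
      rw [if_neg (by omega), if_neg (by omega), if_neg (by omega), if_pos (by omega),
        Nat.add_sub_cancel_left] at this
      revert this
      cases h.testBit (l + F + i) <;> cases t.testBit i <;> simp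
    · have := H (l - o + i) (by omega) (by omega)
      rw [if_neg (by omega), if_pos (by omega), Nat.add_sub_cancel_left] at this
      revert this
      cases h.testBit (l - o + i) <;> cases σ.testBit i <;> simp
    · have := H i (by omega) (by omega)
      rwa [if_neg (by omega), if_neg (by omega), if_pos h2] at this
  · rintro ⟨H1, H2, H3⟩ i h1 h2
    rw [if_neg (by omega)]
    split_ifs with h3 h4
    · rw [H2 _ (by omega), show l - o + (i - (l - o)) = i by omega, Bool.xor_self]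
    · exact H3 i (by omega) h4
    · rw [H1 _ (by omega), show l + F + (i - (l + F)) = i by omega, Bool.xor_self]

theorem shift_lt {m : ℕ} (ht : t < 2 ^ c) (hσ : σ < 2 ^ o) (ho : o ≤ l) (hm : l + F + c ≤ m) :
    t * 2 ^ (l + F) ^^^ σ * 2 ^ (l - o) < 2 ^ m := by
  refine Nat.xor_lt_two_pow ?_ ?_
  · calc t * 2 ^ (l + F) < 2 ^ c * 2 ^ (l + F) := Nat.mul_lt_mul_of_pos_right ht (by positivity)
      _ ≤ 2 ^ m := by rw [← pow_add]; exact Nat.pow_le_pow_right (by norm_num) (by omega)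
  · calc σ * 2 ^ (l - o) < 2 ^ o * 2 ^ (l - o) := Nat.mul_lt_mul_of_pos_right hσ (by positivity)
      _ ≤ 2 ^ m := by rw [← pow_add]; exact Nat.pow_le_pow_right (by norm_num) (by omega)

end shift

/-- The symmetric form of the match. -/
theorem mt_iff {l : ℕ} {f : Bool → ℕ} {d : Bool} {hn hf : ℕ} : mt l f d hn hf ↔
    hn % 2 ^ (l + f d) < 2 ^ l ∧ hf % 2 ^ (l + f !d) < 2 ^ l ∧ hn % 2 ^ l = hf % 2 ^ l := by
  constructor
  · rintro ⟨h1, h2⟩
    have h3 : hf % 2 ^ (l + f !d) < 2 ^ l := h2 ▸ h1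
    exact ⟨h1, h3, by
      rw [mod_mod_of_lt h1 le_rfl (by omega), mod_mod_of_lt h3 le_rfl (by omega), h2]⟩
  · rintro ⟨h1, h2, h3⟩
    exact ⟨h1, by rw [← mod_mod_of_lt h1 le_rfl (by omega), ← mod_mod_of_lt h2 le_rfl (by omega),
      h3]⟩

theorem add_mul_xor {x n c : ℕ} (hx : x < 2 ^ n) : x + 2 ^ n * c = x ^^^ 2 ^ n * c := by
  rw [add_eq_xor hx, mul_comm]

end Vale.Agent.P313.Full
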