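import Vale.Agent.P313.Full.TabBasic
import Vale.Agent.P313.Full.HiMg

/-! The ideal tables: names, views and kernels of the levels. -/

namespace Vale.Agent.P313.Full

open Finset Hi

/-! ### The number of stages since the last merge -/

theorem mu_le (n0 : ℕ) (d : Bool) (x : ℕ) : ∀ k, mu n0 k d x ≤ k
  | 0 => le_rfl
  | k + 1 => by
    have := mu_le n0 d x k
    unfold mu; split_ifs <;> omega

theorem mu_mod (n0 : ℕ) (d : Bool) (x : ℕ) {j : ℕ} :
    ∀ {k}, k ≤ j → mu n0 k d (x % nm n0 j) = mu n0 k d x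
  | 0, _ => rfl
  | k + 1, h => by rw [mu, mu, dg_mod h, mu_mod n0 d x (by omega)]

theorem mu_succ_eq_zero {n0 k : ℕ} {d : Bool} {x : ℕ} :
    mu n0 (k + 1) d x = 0 ↔ ((dg n0 k x).ed d).2.2.1 = 2 := by
  rw [mu]; split_ifs with h <;> simp [h]

theorem mu_succ_of_ne {n0 k : ℕ} {d : Bool} {x : ℕ} (h : mu n0 (k + 1) d x ≠ 0) :
    mu n0 (k + 1) d x = mu n0 k d x + 1 := by
  rw [mu, if_neg (mu_succ_eq_zero.not.1 h)]

theorem mu_add {n0 k : ℕ} {d : Bool} {x : ℕ} :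
    ∀ {b}, b ≤ mu n0 (k + b) d x → mu n0 (k + b) d x = mu n0 k d x + b
  | 0, _ => rfl
  | b + 1, h => by
    have h1 : mu n0 (k + b + 1) d x = mu n0 (k + b) d x + 1 :=
      mu_succ_of_ne (by rw [← add_assoc] at h; omega)
    rw [← add_assoc] at h ⊢
    rw [h1, mu_add (by omega), add_assoc]

theorem mu_sub {n0 k b : ℕ} {d : Bool} {x : ℕ} (h : b ≤ mu n0 k d x) :
    mu n0 (k - b) d x = mu n0 k d x - b := by
  obtain ⟨j, rfl⟩ := Nat.exists_eq_add_of_le' (h.trans (mu_le n0 d x k))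
  rw [mu_add h, Nat.add_sub_cancel, Nat.add_sub_cancel]

theorem hb_le (q : Cx) (m : ℕ) : hb q m ≤ m := min_le_right _ _

theorem hb_le_age (q : Cx) (m : ℕ) : hb q m ≤ q.age + 1 := min_le_left _ _

theorem hb_ne (q : Cx) {m : ℕ} (h : m ≠ 0) : hb q m ≠ 0 := by unfold hb; omega

theorem dg_div (n0 j i x : ℕ) : dg 0 i (x / nm n0 j) = dg n0 (j + i) x := by
  unfold dg cd
  rw [Nat.div_div_eq_div_mul, nm_add, show nm 0 i = 2 ^ (a * i) by simp [nm]]

theorem dg_zero_zero {c : ℕ} (h : c < 2 ^ a) : dg 0 0 c = dig c := by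
  simp [dg, cd, nm, Nat.mod_eq_of_lt h]

theorem div_nm_lt {n0 j b x : ℕ} (h : x < nm n0 (j + b)) : x / nm n0 j < 2 ^ (a * b) := by
  rw [Nat.div_lt_iff_lt_mul (nm_pos _ _), mul_comm, ← nm_add]; exact h

theorem add_nm_lt {n0 j b x c : ℕ} (h : x < nm n0 j) (hc : c < 2 ^ (a * b)) :
    x + nm n0 j * c < nm n0 (j + b) := by
  rw [nm_add]
  calc x + nm n0 j * c < nm n0 j * (c + 1) := by rw [mul_add, mul_one]; omega
    _ ≤ _ := Nat.mul_le_mul_left _ hc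

theorem add_nm_mod {n0 j x : ℕ} (h : x < nm n0 j) (c : ℕ) : (x + nm n0 j * c) % nm n0 j = x := by
  rw [Nat.add_mul_mod_self_left, Nat.mod_eq_of_lt h]

theorem add_nm_div {n0 j x : ℕ} (h : x < nm n0 j) (c : ℕ) : (x + nm n0 j * c) / nm n0 j = c := by
  rw [Nat.add_mul_div_left _ _ (nm_pos _ _), Nat.div_eq_of_lt h, zero_add]

theorem mod_xor_nm (n0 j x : ℕ) : x % nm n0 j ^^^ nm n0 j * (x / nm n0 j) = x := by
  rw [mul_comm, ← add_mul_eq_xor (mod_nm_lt _ _ _), Nat.mod_add_div]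

/-! ### Contexts -/

theorem Cx.up_age (q : Cx) (b : ℕ) (c : Bool → ℕ) : (q.up b c).age = q.age + b := rfl

theorem Cx.le_up_D (q : Cx) (b : ℕ) (c : Bool → ℕ) (e : Bool) : q.D e ≤ (q.up b c).D e :=
  Nat.le_add_right _ _

theorem Cx.up_D_le (q : Cx) (b : ℕ) (c : Bool → ℕ) (e : Bool) : (q.up b c).D e ≤ q.D e + B * b := by
  refine Nat.add_le_add_left ((sum_le_card_nsmul _ _ B fun i _ => ?_).trans (by simp [mul_comm])) _
  exact Nat.lt_succ_iff.1 (Fin.is_lt _)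

theorem Cx.up_E_le (q : Cx) (b : ℕ) (c : Bool → ℕ) (e : Bool) :
    (q.up b c).E e ≤ q.E e + (C + 1) * b := by
  refine Nat.add_le_add_left
    ((sum_le_card_nsmul _ _ (C + 1) fun i _ => ?_).trans (by simp [mul_comm])) _
  exact Nat.lt_succ_iff.1 (Fin.is_lt _)

theorem Cx.up_congr (q : Cx) (b : ℕ) {c c' : Bool → ℕ} {e : Bool} (h : c e = c' e) :
    (q.up b c).D e = (q.up b c').D e ∧ (q.up b c).E e = (q.up b c').E e := by
  simp [Cx.up, h]

theorem Cx.Ok.up {cf : Cf} {k : ℕ} {q : Cx} (h : Cx.Ok cf k q) {b : ℕ} (hb : b ≤ k)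
    (c : Bool → ℕ) : Cx.Ok cf (k - b) (q.up b c) := by
  refine ⟨?_, fun e => ?_, fun e => ?_⟩
  · have := h.age
    rw [Cx.up_age]; omega
  · rw [Cx.up_age, mul_add]; exact (q.up_D_le b c e).trans (Nat.add_le_add_right (h.D e) _)
  · rw [Cx.up_age, mul_add]; exact (q.up_E_le b c e).trans (Nat.add_le_add_right (h.E e) _)

theorem Cx.ok_q0 {cf : Cf} {k : ℕ} (h : k ≤ cf.K) : Cx.Ok cf k q0 :=
  ⟨by simpa [q0] using h, fun _ => Nat.zero_le _, fun _ => Nat.zero_le _⟩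

theorem cS_le_cF : cS ≤ cF := by unfold cS cF; omega

theorem FOk.up {cf : Cf} {k : ℕ} {q : Cx} {f : Bool → ℕ} (h : FOk cf k q f) {b : ℕ} (hb : b ≤ k)
    (c : Bool → ℕ) : FOk cf (k - b) (q.up b c) (fU b f) := by
  refine ⟨h.toOk.up hb c, fun e => ?_, fun e e' => ?_⟩
  · have h1 := h.slack e
    have h2 := Nat.mul_le_mul_right b cS_le_cF
    rw [Cx.up_age, mul_add, fU]; omega
  · have h1 := h.room e e'
    have h2 := q.up_D_le b c e'
    obtain ⟨j, rfl⟩ := Nat.exists_eq_add_of_le' hb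
    rw [Nat.add_sub_cancel, fU]
    rw [mul_add, add_mul B cF b] at h1
    omega

theorem FOk.fM {cf : Cf} {j : ℕ} {q : Cx} {f : Bool → ℕ} (h : FOk cf (j + 1) q f) (r : Lab)
    (e : Bool) : FOk cf j q0 (fM q f r e) := by
  have h0 := h.age
  have h1 := h.room e e
  have h2 := q.up_D_le 1 r.1 e
  have h3 := h.slack e
  rw [mul_add] at h1
  refine ⟨Cx.ok_q0 (by omega), (forall_two e).2 ?_, (forall_two e).2 ?_⟩
  · simp only [Full.fM, two_same, two_not, q0]; omega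
  · simp only [Full.fM, two_same, two_not, q0]
    constructor <;> intro _ <;> omega

theorem FOk.stat {cf : Cf} (hc : cf.Ok) {k : ℕ} {q : Cx} (h : Cx.Ok cf k q) :
    FOk cf k q fun _ => cZ + cS * q.age := by
  refine ⟨h, fun _ => le_rfl, fun _ e => ?_⟩
  have h1 := h.D e
  have h2 := hc.room
  have h3 := Nat.mul_le_mul_left (B + cS + cF) h.age
  have h4 : (B + cS + cF) * (q.age + k) =
      B * q.age + cS * q.age + cF * q.age + (B + cF) * k + cS * k := by ring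
  omega

/-! ### The levels -/

section lv

variable {N n0 K : ℕ} {A0 : ℕ → ℕ → ℕ} {hc hr : ℕ → ℕ → ℝ}

theorem lv_S_nonneg : ∀ k x z, 0 ≤ (lv N n0 K A0 hc hr k).S x z
  | 0, x, z => by
    simp only [lv, lv0]; split_ifs <;> positivity
  | k + 1, x, z => by
    simp only [lv, Lv.step]; split_ifs
    exacts [Lv.Sd_nonneg (lv_S_nonneg k) _ _ _ _, le_rfl]

theorem lt_of_vld {k x : ℕ} (h : vld (x / nm n0 k)) : x < nm n0 (k + 1) := by
  have := h.1.trans_le card_le_pow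
  rwa [Nat.div_lt_iff_lt_mul (nm_pos _ _), mul_comm, ← nm_succ] at this

theorem lv_supp (hN : N ≤ 2 ^ n0) :
    ∀ {k x z}, (lv N n0 K A0 hc hr k).S x z ≠ 0 → x < nm n0 k ∧ z < nm n0 k
  | 0, x, z, h => by
    simp only [lv, lv0] at h
    split_ifs at h with h1
    · rw [nm_zero]; omega
    · exact absurd rfl h
  | k + 1, x, z, h => by
    simp only [lv, Lv.step] at h
    split_ifs at h with h1
    · rw [lv_nm] at h1
      exact ⟨lt_of_vld h1.1, lt_of_vld h1.2⟩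
    · exact absurd rfl h

theorem T_le_S {L : Lv} (hS : ∀ x z, 0 ≤ L.S x z) {o : Fin 3} (ho : o ≠ 2) (u w : ℕ × G) :
    L.T o u w ≤ L.S u.1 w.1 := by
  unfold Lv.T
  split_ifs with h0 h1
  · exact Nb_le_S (hS _ _)
  · linarith [Lv.Fb_le_S hS u w, Lv.Cm_nonneg hS u w]
  · exact absurd (by omega) ho

theorem lv_org (hN : N ≤ 2 ^ n0) {k x z : ℕ} (h : (lv N n0 K A0 hc hr (k + 1)).S x z ≠ 0) :
    ((dg n0 k x).ed true).2.2.1 = ((dg n0 k z).ed false).2.2.1 := by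
  obtain ⟨hx, hz⟩ := lv_supp hN h
  rw [← Nat.mod_eq_of_lt hx, ← Nat.mod_eq_of_lt hz, lv_S_succ] at h
  split_ifs at h with h1
  · exact congrArg Prod.fst h1.2.2.1
  · exact absurd rfl h

theorem lv_S_le (hN : N ≤ 2 ^ n0) {k x z : ℕ} (h : mu n0 (k + 1) true x ≠ 0) :
    (lv N n0 K A0 hc hr (k + 1)).S x z ≤ (lv N n0 K A0 hc hr k).S (x % nm n0 k) (z % nm n0 k) := by
  by_cases h0 : (lv N n0 K A0 hc hr (k + 1)).S x z = 0
  · rw [h0]; exact lv_S_nonneg _ _ _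
  obtain ⟨hx, hz⟩ := lv_supp hN h0
  conv_lhs => rw [← Nat.mod_eq_of_lt hx, ← Nat.mod_eq_of_lt hz, lv_S_succ]
  split_ifs
  · refine (div_le_self (Lv.T_nonneg (lv_S_nonneg k) _ _ _) (one_le_pow₀ one_le_two)).trans ?_
    exact T_le_S (lv_S_nonneg k) (mu_succ_eq_zero.not.1 h) _ _
  · exact lv_S_nonneg _ _ _

theorem lv_mu (hN : N ≤ 2 ^ n0) :
    ∀ {k x z}, (lv N n0 K A0 hc hr k).S x z ≠ 0 → mu n0 k true x = mu n0 k false z
  | 0, _, _, _ => rfl
  | k + 1, x, z, h => by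
    by_cases h1 : mu n0 (k + 1) true x = 0
    · rw [h1, eq_comm, mu_succ_eq_zero, ← lv_org hN h, ← mu_succ_eq_zero]; exact h1
    · have h2 : mu n0 (k + 1) false z ≠ 0 := by
        rw [Ne, mu_succ_eq_zero, ← lv_org hN h, ← mu_succ_eq_zero]; exact h1
      have h3 := ((lv_S_nonneg _ _ _).lt_of_ne' h).trans_le (lv_S_le hN h1)
      rw [mu_succ_of_ne h1, mu_succ_of_ne h2, ← mu_mod n0 true x le_rfl, lv_mu hN h3.ne',
        mu_mod n0 false z le_rfl]

theorem lv_S_le_add (hN : N ≤ 2 ^ n0) {k : ℕ} : ∀ {b x z : ℕ}, b ≤ mu n0 (k + b) true x →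
    (lv N n0 K A0 hc hr (k + b)).S x z ≤ (lv N n0 K A0 hc hr k).S (x % nm n0 k) (z % nm n0 k)
  | 0, x, z, _ => by
    by_cases h0 : (lv N n0 K A0 hc hr k).S x z = 0
    · rw [add_zero, h0]; exact lv_S_nonneg _ _ _
    · rw [Nat.mod_eq_of_lt (lv_supp hN h0).1, Nat.mod_eq_of_lt (lv_supp hN h0).2]; rfl
  | b + 1, x, z, h => by
    rw [← add_assoc] at h ⊢
    have h1 : mu n0 (k + b + 1) true x ≠ 0 := by omega
    refine (lv_S_le hN h1).trans ((lv_S_le_add hN ?_).trans_eq ?_)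
    · rw [mu_mod n0 true x le_rfl]
      rw [mu_succ_of_ne h1] at h
      omega
    · rw [mod_nm_mod _ (Nat.le_add_right _ _), mod_nm_mod _ (Nat.le_add_right _ _)]

theorem ve_lv {k x : ℕ} (e : Bool) (h : x < nm n0 k) :
    ve (lv N n0 K A0 hc hr k) e x = Hi.vw e N n0 K k x := by
  cases e
  exacts [lv_vi h, lv_vo h]

end lv

open Classical in
theorem sum_mid (L : Lv) (u w : ℕ × G) (m : ℕ) : ∑ g : G, L.Cm u (m, g) * L.Fb (m, g) w =
    if L.P1 u.1 m ∧ u.2.2.2 = decide (L.P2 u.1 m) ∧ L.P2 m w.1 then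
      L.fo u * L.fi w * (L.om u.1 m * L.mid m * L.om m w.1) / 4 else 0 := by
  rw [sum_G]
  have h : ∀ i o : Fin (B + 1), L.Cm u (m, i, o, true) * L.Fb (m, i, o, true) w +
      L.Cm u (m, i, o, false) * L.Fb (m, i, o, false) w =
      (if L.P1 u.1 m ∧ u.2.2.2 = decide (L.P2 u.1 m) ∧ L.P2 m w.1 then
        L.fo u * L.fi w * (L.om u.1 m * L.om m w.1) / 4 else 0) *
        (L.fi (m, i, o, true) * L.fo (m, i, o, true)) := by
    intro i o
    simp only [Lv.Cm, Lv.Fb_eq]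
    by_cases h1 : L.P1 u.1 m <;> by_cases h2 : u.2.2.2 = decide (L.P2 u.1 m) <;>
      by_cases h3 : L.P2 m w.1 <;> simp [h1, h2, h3]
    ring
  simp only [h, ← mul_sum, Lv.sum_fi_fo]
  split_ifs <;> ring

theorem chi_B (t : ℝ) : chi B t = R B t := by rw [chi, R_big (Nat.lt_succ_self B), sub_zero]

theorem chi_le_sub {g : Fin (B + 1)} (h : (g : ℕ) < B) (t : ℝ) : chi g t ≤ 1 - R B t := by
  rw [← chi_B, ← sum_chi_lt]
  refine le_trans (le_of_eq (if_pos h).symm) (single_le_sum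
    (f := fun g : Fin (B + 1) => if (g : ℕ) < B then chi g t else 0) (fun i _ => ?_) (mem_univ g))
  split_ifs
  exacts [chi_nonneg _ _, le_rfl]

theorem one_sub_R_nonneg (t : ℝ) : 0 ≤ 1 - R B t := sub_nonneg.2 (R_le_one _ _)

theorem fo_le (L : Lv) (u : ℕ × G) : L.fo u ≤ 1 - R B (L.hr u.1) := by
  unfold Lv.fo; split_ifs with h
  · exact (mul_le_of_le_one_left (chi_nonneg _ _) (zeta_le_one _ _)).trans (chi_le_sub h _)
  · exact one_sub_R_nonneg _

theorem fi_le (L : Lv) (u : ℕ × G) : L.fi u ≤ 1 - R B (L.hc u.1) := by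
  unfold Lv.fi; split_ifs with h
  · exact (mul_le_of_le_one_right (chi_nonneg _ _) (zeta_le_one _ _)).trans (chi_le_sub h _)
  · exact one_sub_R_nonneg _

section free

variable {L : Lv} (hS : ∀ x z, 0 ≤ L.S x z)
include hS

theorem sd_nonneg (d : Bool) (x y : ℕ) : 0 ≤ sd L d x y := by cases d <;> exact hS _ _

theorem fre0_nonneg (x z : ℕ) : 0 ≤ fre0 L x z :=
  mul_nonneg (mul_nonneg (mul_nonneg (hS _ _) (L.rdy_nonneg _ _)) (one_sub_R_nonneg _))
    (one_sub_R_nonneg _)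

theorem fre0_le (x z : ℕ) : fre0 L x z ≤ L.S x z := by
  unfold fre0
  rw [mul_assoc, mul_assoc]
  refine mul_le_of_le_one_right (hS _ _) (mul_le_one₀ (L.rdy_le_one _ _)
    (mul_nonneg (one_sub_R_nonneg _) (one_sub_R_nonneg _)) (mul_le_one₀ ?_ (one_sub_R_nonneg _) ?_))
  all_goals linarith [R_nonneg B (L.hr x), R_nonneg B (L.hc z)]

theorem fre_nonneg (d : Bool) (x y : ℕ) : 0 ≤ fre L d x y := by cases d <;> exact fre0_nonneg hS _ _

theorem fre_le (d : Bool) (x y : ℕ) : fre L d x y ≤ sd L d x y := by cases d <;> exact fre0_le hS _ _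

theorem trm0_nonneg (x m z : ℕ) : 0 ≤ trm0 L x m z := by
  unfold trm0; split_ifs
  · exact div_nonneg (sum_nonneg fun g _ => mul_nonneg (Lv.Cm_nonneg hS _ _) (Lv.Fb_nonneg hS _ _))
      (by positivity)
  · exact le_rfl

theorem trm0_le (x m z : ℕ) : trm0 L x m z ≤ fre0 L (x % L.n) m * fre0 L m (z % L.n) / 4 := by
  have h0 : 0 ≤ fre0 L (x % L.n) m * fre0 L m (z % L.n) / 4 :=
    div_nonneg (mul_nonneg (fre0_nonneg hS _ _) (fre0_nonneg hS _ _)) (by norm_num)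
  unfold trm0; split_ifs
  · refine (div_le_self (sum_nonneg fun g _ => mul_nonneg (Lv.Cm_nonneg hS _ _)
      (Lv.Fb_nonneg hS _ _)) (one_le_pow₀ one_le_two)).trans ?_
    rw [sum_mid]
    split_ifs
    · refine div_le_div_of_nonneg_right ?_ (by norm_num)
      refine (mul_le_mul_of_nonneg_right (mul_le_mul (fo_le L _) (fi_le L _) (L.fi_nonneg _)
        (one_sub_R_nonneg _)) (mul_nonneg (mul_nonneg (L.om_nonneg hS _ _) (L.mid_nonneg _))
        (L.om_nonneg hS _ _))).trans_eq ?_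
      simp only [fre0, Lv.om, Lv.mid, chi_B]
      ring
    · exact h0
  · exact h0

theorem trm_nonneg (d : Bool) (x m y : ℕ) : 0 ≤ trm L d x m y := by
  cases d <;> exact trm0_nonneg hS _ _ _

theorem trm_le (d : Bool) (x m y : ℕ) :
    trm L d x m y ≤ fre L d (x % L.n) m * fre L d m (y % L.n) / 4 := by
  cases d
  · rw [mul_comm]; exact trm0_le hS _ _ _
  · exact trm0_le hS _ _ _

theorem fre_ne_of_trm {d : Bool} {x m y : ℕ} (h : trm L d x m y ≠ 0) :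
    fre L d (x % L.n) m ≠ 0 ∧ fre L d m (y % L.n) ≠ 0 := by
  have h1 := ((trm_nonneg hS d x m y).lt_of_ne' h).trans_le (trm_le hS d x m y)
  constructor <;> intro h2 <;> simp [h2] at h1

end free

theorem use_of_fre0 {L : Lv} {x z : ℕ} (h : fre0 L x z ≠ 0) : L.S x z ≠ 0 ∧ L.use x z := by
  simp only [fre0, ne_eq, mul_eq_zero, not_or, ← chi_B] at h
  exact ⟨h.1.1.1, h.1.1.2, lt_of_one_sub_chi h.1.2, lt_of_one_sub_chi h.2⟩

theorem sd_ne_of_fre {L : Lv} {d : Bool} {x y : ℕ} (h : fre L d x y ≠ 0) : sd L d x y ≠ 0 := by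
  cases d <;> exact (use_of_fre0 h).1

/-- A nonzero part of a merged entry: the digits are valid and have the same origin. -/
theorem of_trm {L : Lv} {d : Bool} {x m y : ℕ} (h : trm L d x m y ≠ 0) :
    x / L.n < 2 ^ a ∧ y / L.n < 2 ^ a ∧
      ((dig (x / L.n)).ed d).2.2.1 = ((dig (y / L.n)).ed (!d)).2.2.1 := by
  have h0 : ∀ {x y : ℕ}, trm0 L x m y ≠ 0 → x / L.n < 2 ^ a ∧ y / L.n < 2 ^ a ∧
      ((dig (x / L.n)).ed true).2.2.1 = ((dig (y / L.n)).ed false).2.2.1 := by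
    intro x y h
    unfold trm0 at h
    split_ifs at h with h1
    · exact ⟨h1.1.1.trans_le card_le_pow, h1.2.1.1.trans_le card_le_pow,
        congrArg Prod.fst h1.2.2.1⟩
    · exact absurd rfl h
  cases d
  · exact ⟨(h0 h).2.1, (h0 h).1, (h0 h).2.2.symm⟩
  · exact h0 h

/-! ### Tables -/

namespace IsTab

variable {cf : Cf} {W : ℕ → Tb} (hW : IsTab cf W)
include hW

theorem n_eq (k : ℕ) : (W k).L.n = nm cf.n0 k := by rw [hW.L, lv_nm]

theorem S_nonneg (k x z : ℕ) : 0 ≤ (W k).L.S x z := by rw [hW.L]; exact lv_S_nonneg _ _ _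

theorem sd_nonneg (k : ℕ) (d : Bool) (x y : ℕ) : 0 ≤ sd (W k).L d x y :=
  Full.sd_nonneg (hW.S_nonneg k) d x y

theorem w_nonneg (k : ℕ) (d : Bool) (q : Cx) (x y : ℕ) : 0 ≤ (W k).w d q x y := by
  unfold Tb.w; split_ifs
  exacts [mul_nonneg (hW.sd_nonneg _ _ _ _) (by positivity), le_rfl]

theorem hr_eq (k : ℕ) : (W k).L.hr = (W k).H true q0 := by rw [hW.L, lv_hr]

theorem hc_eq (k : ℕ) : (W k).L.hc = (W k).H false q0 := by rw [hW.L, lv_hc]

theorem T_mem (k : ℕ) (d : Bool) (q : Cx) (f : Bool → ℕ) (x h : ℕ) (c : Key) :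
    0 ≤ (W k).T d q f x h c ∧ (W k).T d q f x h c ≤ 3 := by
  by_cases h1 : (W k).mu d x = 0
  · cases k with
    | zero => rw [hW.TB, Tb.TB]; split_ifs <;> norm_num
    | succ j => rw [hW.TM _ _ _ _ _ _ _ h1]; exact ⟨cl3_nonneg _, cl3_le _⟩
  · rw [hW.TU _ _ _ _ _ _ _ h1]; exact ⟨cl3_nonneg _, cl3_le _⟩

theorem T_nonneg (k : ℕ) (d : Bool) (q : Cx) (f : Bool → ℕ) (x h : ℕ) (c : Key) :
    0 ≤ (W k).T d q f x h c := (hW.T_mem k d q f x h c).1

theorem T_le (k : ℕ) (d : Bool) (q : Cx) (f : Bool → ℕ) (x h : ℕ) (c : Key) :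
    (W k).T d q f x h c ≤ 3 := (hW.T_mem k d q f x h c).2

theorem H_nonneg (k : ℕ) (d : Bool) (q : Cx) (x : ℕ) : 0 ≤ (W k).H d q x := by
  by_cases h1 : (W k).mu d x = 0
  · cases k with
    | zero =>
      rw [hW.HB]
      exact div_nonneg (sum_nonneg fun _ _ => hW.sd_nonneg _ _ _ _) (by positivity)
    | succ j => rw [hW.HM _ _ _ _ h1]; exact clH_nonneg _
  · rw [hW.HU _ _ _ _ h1]; exact clH_nonneg _

theorem mu_le (k : ℕ) (d : Bool) (x : ℕ) : (W k).mu d x ≤ k := by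
  rw [hW.mu]; exact Full.mu_le _ _ _ _

theorem mu_zero (d : Bool) (x : ℕ) : (W 0).mu d x = 0 := by rw [hW.mu]; rfl

theorem hb_le (k : ℕ) (d : Bool) (q : Cx) (x : ℕ) : hb q ((W k).mu d x) ≤ k :=
  (Full.hb_le _ _).trans (hW.mu_le k d x)

theorem mu_down {k b : ℕ} {d : Bool} {x : ℕ} (h : b ≤ (W k).mu d x) :
    (W (k - b)).mu d (x % nm cf.n0 (k - b)) = (W k).mu d x - b := by
  rw [hW.mu] at h ⊢
  rw [hW.mu, mu_mod _ _ _ le_rfl, mu_sub h]

theorem mu_succ_eq_zero {j x : ℕ} {d : Bool} (hx : x < nm cf.n0 (j + 1)) :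
    (W (j + 1)).mu d x = 0 ↔ ((dig (x / (W j).L.n)).ed d).2.2.1 = 2 := by
  rw [hW.mu, Full.mu_succ_eq_zero, dg, cd_of_lt hx, hW.n_eq]

theorem ve_eq {k x : ℕ} (e : Bool) (h : x < nm cf.n0 k) :
    ve (W k).L e x = Hi.vw e cf.N cf.n0 cf.K k x := by rw [hW.L, ve_lv e h]

theorem lam_le {k x : ℕ} (d : Bool) (q : Cx) (h : x < nm cf.n0 k) :
    (W k).lam d q x ≤ B * k + q.D d := by
  rw [Tb.lam, hW.ve_eq d h]; exact Nat.add_le_add_right (vw_l_le _ _ _ _ _ _) _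

theorem lam_add_le {k x : ℕ} {q : Cx} {f : Bool → ℕ} (hf : FOk cf k q f) (h : x < nm cf.n0 k)
    (d e : Bool) : (W k).lam d q x + f e + cF * k ≤ cf.m := by
  have h1 := hW.lam_le d q h
  have h2 := hf.room e d
  rw [add_mul] at h2
  omega

theorem ve_up {k b x : ℕ} (hb : b ≤ k) (hx : x < nm cf.n0 k) {e : Bool} (q : Cx) {c : Bool → ℕ}
    (hc : c e = x / nm cf.n0 (k - b)) :
    (ve (W (k - b)).L e (x % nm cf.n0 (k - b))).l + (q.up b c).D e = (ve (W k).L e x).l + q.D e ∧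
    (ve (W (k - b)).L e (x % nm cf.n0 (k - b))).lam + (q.up b c).E e =
      (ve (W k).L e x).lam + q.E e := by
  obtain ⟨j, rfl⟩ := Nat.exists_eq_add_of_le' hb
  rw [Nat.add_sub_cancel] at hc ⊢
  rw [hW.ve_eq e (mod_nm_lt _ _ _), hW.ve_eq e hx, vw_mod _ _ _ _ _ le_rfl]
  simp only [vw_l, vw_lam, Cx.up, hc, dg_div, sum_range_add]
  omega

theorem lam_up {k b x : ℕ} (hb : b ≤ k) (hx : x < nm cf.n0 k) {d : Bool} (q : Cx) {c : Bool → ℕ}
    (hc : c d = x / nm cf.n0 (k - b)) :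
    (W (k - b)).lam d (q.up b c) (x % nm cf.n0 (k - b)) = (W k).lam d q x :=
  (hW.ve_up hb hx q hc).1

theorem lr_eq {k b x : ℕ} (hb : b ≤ k) (hx : x < nm cf.n0 k) {d : Bool} (q : Cx) {r : Lab}
    (hc : x / (W (k - b)).L.n = r.1 d) : (W (k - b)).lr b d q x r = (W k).lam d q x := by
  rw [hW.n_eq] at hc
  rw [Tb.lr, hW.n_eq, hW.lam_up hb hx q hc.symm]

theorem vis_up {k b x y : ℕ} (hb : b ≤ k) (hx : x < nm cf.n0 k) (hy : y < nm cf.n0 k) {d : Bool}
    (q : Cx) {c : Bool → ℕ} (hc : c d = x / nm cf.n0 (k - b))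
    (hc' : c (!d) = y / nm cf.n0 (k - b)) :
    (W (k - b)).vis d (q.up b c) (x % nm cf.n0 (k - b)) (y % nm cf.n0 (k - b)) ↔
      (W k).vis d q x y := by
  simp only [Tb.vis, hW.lam_up hb hx q hc, hW.lam_up hb hy q hc', (hW.ve_up hb hx q hc).2,
    (hW.ve_up hb hy q hc').2]

theorem sd_eq_sum_trm {j x : ℕ} {d : Bool} (hx : x < nm cf.n0 (j + 1))
    (hm : (W (j + 1)).mu d x = 0) (y : ℕ) :
    sd (W (j + 1)).L d x y = ∑ m ∈ range (nm cf.n0 j), trm (W j).L d x m y := by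
  have hL : (W (j + 1)).L.S = ((W j).L.step 0 0).S := by rw [hW.L, hW.L]; rfl
  have h0 : ∀ x z, (((dig (x / (W j).L.n)).ed true).2.2.1 = 2 ∨
      ((dig (z / (W j).L.n)).ed false).2.2.1 = 2) →
      (W (j + 1)).L.S x z = ∑ m ∈ range (nm cf.n0 j), trm0 (W j).L x m z := by
    intro x z h
    simp only [hL, Lv.step, Lv.Sd, trm0, ← hW.n_eq]
    by_cases h1 : vld (x / (W j).L.n) ∧ vld (z / (W j).L.n)
    · by_cases h2 : fit ((W j).L.vo (x % (W j).L.n)) ((W j).L.vi (z % (W j).L.n))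
        (dig (x / (W j).L.n)).2.2.2 (dig (z / (W j).L.n)).2.2.1
      · have h3 : (dig (x / (W j).L.n)).2.2.2.2.2.1 = 2 :=
          h.elim id fun h => (congrArg Prod.fst h2.1).trans h
        simp only [h1, h2, and_self, if_true, h3, Lv.T, Lv.Mg, Lv.cls, sum_product, ← sum_div]
        simp
      · simp [h2]
    · simp only [h1, if_false, ← and_assoc, false_and, sum_const_zero]
  have h1 := (hW.mu_succ_eq_zero hx).1 hm
  cases d
  · exact h0 _ _ (Or.inr h1)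
  · exact h0 _ _ (Or.inl h1)

variable (hN : cf.N ≤ 2 ^ cf.n0)
include hN

theorem supp {k x y : ℕ} {d : Bool} (h : sd (W k).L d x y ≠ 0) :
    x < nm cf.n0 k ∧ y < nm cf.n0 k := by
  rw [hW.L] at h
  cases d
  exacts [(lv_supp hN h).symm, lv_supp hN h]

theorem mu_far {k x y : ℕ} {d : Bool} (h : sd (W k).L d x y ≠ 0) :
    (W k).mu (!d) y = (W k).mu d x := by
  rw [hW.L] at h
  rw [hW.mu]
  cases d
  exacts [lv_mu hN h, (lv_mu hN h).symm]

theorem sd_le_down {k b x : ℕ} {d : Bool} (h : b ≤ (W k).mu d x) (y : ℕ) :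
    sd (W k).L d x y ≤ sd (W (k - b)).L d (x % nm cf.n0 (k - b)) (y % nm cf.n0 (k - b)) := by
  by_cases h0 : sd (W k).L d x y = 0
  · rw [h0]; exact hW.sd_nonneg _ _ _ _
  have h1 := hW.mu_far hN h0
  obtain ⟨j, rfl⟩ := Nat.exists_eq_add_of_le' (h.trans (hW.mu_le k d x))
  rw [Nat.add_sub_cancel, hW.L, hW.L]
  rw [hW.mu] at h h1
  cases d
  · exact lv_S_le_add hN (h.trans_eq h1.symm)
  · exact lv_S_le_add hN h

theorem w_le_down {k b x y : ℕ} {d : Bool} (h : b ≤ (W k).mu d x) (q : Cx) {c : Bool → ℕ}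
    (hc : c d = x / nm cf.n0 (k - b)) (hc' : c (!d) = y / nm cf.n0 (k - b)) :
    (W k).w d q x y ≤
      (W (k - b)).w d (q.up b c) (x % nm cf.n0 (k - b)) (y % nm cf.n0 (k - b)) := by
  by_cases h0 : (W k).w d q x y = 0
  · rw [h0]; exact hW.w_nonneg _ _ _ _ _
  obtain ⟨h1, h2, h3⟩ := Tb.of_w h0
  obtain ⟨hx, hy⟩ := hW.supp hN h2
  have hb := h.trans (hW.mu_le k d x)
  rw [h3, Tb.w, if_pos ((hW.vis_up hb hx hy q hc hc').2 h1), hW.lam_up hb hx q hc]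
  exact mul_le_mul_of_nonneg_right (hW.sd_le_down hN h y) (by positivity)

theorem cand_lt {k x y h : ℕ} {d : Bool} {q : Cx} {f : Bool → ℕ} {c : Key}
    (hc : (W k).cand cf d q f x h c y) : x < nm cf.n0 k ∧ y < nm cf.n0 k :=
  hW.supp hN (Tb.of_w hc.w_ne).2.1

theorem sig_of_mu {k x : ℕ} {d : Bool} (h : (W k).mu d x = 0) (q : Cx) (y : ℕ) :
    (W k).sig d q x y = cl (2 * (W k).w d q x y / thr q.age - 1) := by
  by_cases h0 : (W k).w d q x y = 0
  · rw [Tb.sig, h0, cl_of_le (by norm_num), zero_mul, zero_mul]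
  · rw [Tb.sig, Tb.fac, Tb.fac, if_pos h, if_pos ((hW.mu_far hN (Tb.of_w h0).2.1).trans h), mul_one,
      mul_one]

end IsTab

namespace Pre

variable {cf : Cf} {W : ℕ → Tb} {k : ℕ} (hP : Pre cf W k)
include hP

theorem down {j : ℕ} (h : j ≤ k) : Pre cf W j :=
  ⟨hP.ok, hP.tab, h.trans hP.le, fun i hi => hP.good i (by omega)⟩

theorem inv : Inv cf.N (2 ^ cf.n0) cf.K k (W k).L := by
  rw [hP.tab.L]
  exact inv_lv _ hP.ok.sub hP.ok.N_le _ _ k fun i hi => by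
    rw [← hP.tab.L]; exact (hP.good i hi).low

theorem nm_le_K {x : ℕ} (h : x < nm cf.n0 k) : x < nm cf.n0 cf.K := h.trans_le (nm_le _ hP.le)

theorem sd_mul_le (d : Bool) (x y : ℕ) : sd (W k).L d x y * 2 ^ (ve (W k).L d x).l ≤ 1 := by
  cases d
  · exact le_trans (mul_le_mul_of_nonneg_left (pow_le_pow_right₀ one_le_two (le_max_right _ _))
      (hP.tab.S_nonneg _ _ _)) (hP.inv.val y x)
  · exact le_trans (mul_le_mul_of_nonneg_left (pow_le_pow_right₀ one_le_two (le_max_left _ _))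
      (hP.tab.S_nonneg _ _ _)) (hP.inv.val x y)

theorem w_le (d : Bool) (q : Cx) (x y : ℕ) : (W k).w d q x y ≤ 2 ^ q.D d := by
  unfold Tb.w; split_ifs
  · rw [Tb.lam, pow_add, ← mul_assoc]
    exact mul_le_of_le_one_left (by positivity) (hP.sd_mul_le d x y)
  · positivity

theorem w_le' (d : Bool) (q : Cx) (x y : ℕ) : (W k).w d q x y ≤ 2 ^ q.D (!d) := by
  rw [← Tb.w_symm]; exact hP.w_le _ _ _ _

theorem vis_of_use {x z : ℕ} (hS : (W k).L.S x z ≠ 0) (h : (W k).L.use x z) :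
    (W k).vis true q0 x z := by
  have h1 := (hP.inv.sy x z hS).1 ((W k).L.of_om (mul_ne_zero hS h.1)).1
  exact ⟨congrArg (· + 0) h1.1, congrArg (· + 0) h1.2⟩

/-- Usable entries are fully significant in the fresh context. -/
theorem sig_of_use {x z : ℕ} (hS : (W k).L.S x z ≠ 0) (h : (W k).L.use x z) :
    (W k).sig true q0 x z = 1 := by
  have h1 := ((W k).L.of_om (mul_ne_zero hS h.1)).2
  have h2 : ∀ d y, (W k).H d q0 y < 2 ^ B → (W k).fac d q0 y = 1 := by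
    intro d y hy
    unfold Tb.fac; split_ifs
    exacts [rfl, rd_eq_one hy.le]
  rw [Tb.sig, h2 _ _ (hP.tab.hr_eq k ▸ h.2.1), h2 _ _ (hP.tab.hc_eq k ▸ h.2.2), mul_one, mul_one,
    Tb.w, if_pos (hP.vis_of_use hS h)]
  apply cl_of_ge
  simp only [thr, q0, Tb.lam, sd, ve, if_true, add_zero, div_div_eq_mul_div, div_one]
  linarith

theorem sig_of_fre {d : Bool} {x y : ℕ} (h : fre (W k).L d x y ≠ 0) : (W k).sig d q0 x y = 1 := by
  cases d
  · rw [← Tb.sig_symm]; exact hP.sig_of_use (use_of_fre0 h).1 (use_of_fre0 h).2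
  · exact hP.sig_of_use (use_of_fre0 h).1 (use_of_fre0 h).2

theorem se_of_fre {d : Bool} {x y : ℕ} (h : fre (W k).L d x y ≠ 0) : (W k).se d q0 x y = 1 :=
  Tb.se_of_sig (hP.sig_of_fre h)

theorem vis_of_fre {d : Bool} {x y : ℕ} (h : fre (W k).L d x y ≠ 0) : (W k).vis d q0 x y :=
  (Tb.of_w (Tb.w_ne_of_sig (by rw [hP.sig_of_fre h]; exact one_ne_zero))).1

end Pre

open Classical in
/-- The free load is bounded. -/
theorem sum_fre_le {L : Lv} (hS : ∀ x z, 0 ≤ L.S x z) (hL : L.Low) (d : Bool) {x : ℕ}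
    (hx : x < L.n) : ∑ m ∈ range L.n, fre L d x m ≤ 2 ^ (B + 1) := by
  by_cases h0 : ∀ m ∈ range L.n, fre L d x m = 0
  · rw [sum_eq_zero h0]; positivity
  push Not at h0
  obtain ⟨m0, -, h0⟩ := h0
  rw [pow_succ']
  cases d
  · refine le_trans ?_ ((hL.hc x hx).trans (by linarith [(use_of_fre0 h0).2.2.2]))
    rw [sum_filter]
    refine sum_le_sum fun m _ => ?_
    split_ifs with h
    · exact fre0_le hS _ _
    · exact le_of_eq (by_contra fun h1 => h (use_of_fre0 h1).2)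
  · refine le_trans ?_ ((hL.hr x hx).trans (by linarith [(use_of_fre0 h0).2.2.1]))
    rw [sum_filter]
    refine sum_le_sum fun m _ => ?_
    split_ifs with h
    · exact fre0_le hS _ _
    · exact le_of_eq (by_contra fun h1 => h (use_of_fre0 h1).2)

theorem Pre.sum_fre_le {cf : Cf} {W : ℕ → Tb} {j : ℕ} (hP : Pre cf W (j + 1)) (d : Bool) {x : ℕ}
    (hx : x < nm cf.n0 j) : ∑ m ∈ range (nm cf.n0 j), fre (W j).L d x m ≤ 2 ^ (B + 1) := by
  rw [← hP.tab.n_eq] at hx ⊢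
  exact Full.sum_fre_le (hP.tab.S_nonneg j) (hP.good j (Nat.lt_succ_self j)).low d hx

end Vale.Agent.P313.Full
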