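import Vale.Agent.P313.Full.PgRule
import Vale.Agent.P313.Full.TabLev
import Vale.Agent.P313.Full.TabBit

/-! The bridge between the states of the program and the arguments of the tables. -/

namespace Vale.Agent.P313.Full

open Finset Function Hi

/-! ### Contexts -/

section ctx

variable (k : ℕ) (c : Cx) (f : Bool → ℕ) (l i u : ℕ) (q : QQ) (e : Bool)

@[simp] theorem mk_lev : mk k c f l i .lev = k := rfl
@[simp] theorem mk_age : mk k c f l i .age = c.age := rfl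
@[simp] theorem mk_lab : mk k c f l i .lab = l := rfl
@[simp] theorem mk_idx : mk k c f l i .idx = i := rfl
theorem dn_eq : dn q = min ((cx q).D true) ((cx q).D false) := rfl

@[simp] theorem cx_F0 : cx (F0 q) = cx q := rfl
@[simp] theorem ff_F0 : ff (F0 q) = ff q := rfl
@[simp] theorem F0_lev : F0 q .lev = q .lev := rfl
@[simp] theorem cx_FH : cx (FH q) = cx q := rfl
@[simp] theorem ff_FH : ff (FH q) = fH (q .age) := rfl
@[simp] theorem FH_lev : FH q .lev = q .lev := rfl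
@[simp] theorem cx_Fr : cx (Fr k) = q0 := rfl
@[simp] theorem ff_Fr : ff (Fr k) = fH 0 := rfl
@[simp] theorem Fr_lev : Fr k .lev = k := rfl
@[simp] theorem cx_FU : cx (FU q) = (cx q).up (bU q) (rU q).1 := rfl
@[simp] theorem ff_FU : ff (FU q) = fU (bU q) (ff q) := rfl
@[simp] theorem FU_lev : FU q .lev = q .lev - bU q := rfl
@[simp] theorem cx_FM : cx (FM e q) = q0 := rfl
@[simp] theorem ff_FM : ff (FM e q) = fM (cx q) (ff q) (lb q) e := rfl
@[simp] theorem FM_lev : FM e q .lev = q .lev - 1 := rfl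
@[simp] theorem cx_Fi : cx (Fi q i) = cx q := rfl
@[simp] theorem ff_Fi : ff (Fi q i) = ff q := rfl
@[simp] theorem Fi_lev : Fi q i .lev = q .lev := rfl
@[simp] theorem Fi_idx : Fi q i .idx = i := rfl
@[simp] theorem lb_Fi : lb (Fi q i) = lb q := rfl
@[simp] theorem bU_Fi : bU (Fi q i) = bU q := rfl
@[simp] theorem rU_Fi : rU (Fi q i) = rU q := rfl
@[simp] theorem FU_Fi : FU (Fi q i) = FU q := rfl

@[simp] theorem cx_upd : cx (update q .lab u) = cx q := by simp [cx]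
@[simp] theorem ff_upd : ff (update q .lab u) = ff q := by funext e; simp [ff]
@[simp] theorem upd_lev : update q .lab u .lev = q .lev := by simp
@[simp] theorem upd_age : update q .lab u .age = q .age := by simp
@[simp] theorem F0_upd : F0 (update q .lab u) = F0 q := by simp [F0]
@[simp] theorem FH_upd : FH (update q .lab u) = FH q := by simp [FH]
@[simp] theorem dn_upd : dn (update q .lab u) = dn q := by simp [dn]
theorem lb_upd : lb (update q .lab u) = dlab (cw * (q .age + 1)) u := by simp [lb]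

theorem mk_eta : mk (q .lev) (cx q) (ff q) (q .lab) (q .idx) = q := by
  funext v
  cases v <;> rfl

end ctx

/-! ### Registers -/

section reg

variable (cf : Cf) (s : SS) (e : Bool) (k y b : ℕ) (r : Lab) (q : QQ)

theorem ky_mv : ky (cf.mv k s y) = ky s := by
  funext e'
  simp [ky, Cf.mv]

theorem kc_mv : kc (cf.mv k s y) = kc s := by simp [kc, Cf.mv]

theorem kc_ens : kc (cf.ens b r e q s) = kc s := rfl

theorem nx_sw : cf.nx k (sw e s) = cf.nx k s := rfl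

theorem nx_lt' : cf.nx k s < nm cf.n0 k := mod_nm_lt _ _ _

theorem nx_mod {i k : ℕ} (h : i ≤ k) : cf.nx k s % nm cf.n0 i = cf.nx i s := mod_nm_mod _ h _

theorem nx_mv' {y : ℕ} (h : y < nm cf.n0 k) : cf.nx k (cf.mv k s y) = y := by
  rw [Cf.nx, Cf.mv, update_self, add_nm_mod h]

theorem sw_mv : sw e (cf.mv k s y) = cf.mv k (sw e s) y := by
  funext t
  cases t <;> simp [sw, Cf.mv]

variable {cf s}

theorem kok_ky (hs : s ∈ box cf.bd) : cf.KOk (ky s) := fun e => mem_box.1 hs (.of (some e))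

theorem kc_lt (hs : s ∈ box cf.bd) : (kc s).2 < 2 ^ cf.m := mem_box.1 hs (.of none)

end reg

/-! ### The passage to a lower level -/

/-- The label `r` can be used for the passage from the level of `q` to the level `b` steps down. -/
structure Ent (cf : Cf) (q : QQ) (b : ℕ) (r : Lab) : Prop where
  ok : cf.Ok
  fok : FOk cf (q .lev) (cx q) (ff q)
  le : b ≤ q .lev
  c : ∀ e, r.1 e < 2 ^ (a * b)
  t : ∀ e, r.2.1 e < 2 ^ (cF * b)
  w : r.2.2 < 2 ^ (B * (q .age + b))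

variable {cf : Cf} {W : ℕ → Tb} {q : QQ} {b : ℕ} {r : Lab}

theorem Ent.ofU (hc : cf.Ok) (hf : FOk cf (q .lev) (cx q) (ff q)) (h : vU q) :
    Ent cf q (bU q) (rU q) :=
  ⟨hc, hf, h.2.2.1, (mem_labs.1 h.2.2.2).1, (mem_labs.1 h.2.2.2).2.1, Nat.two_pow_pos _⟩

theorem Ent.ofM (hc : cf.Ok) (hf : FOk cf (q .lev) (cx q) (ff q)) (hk : q .lev ≠ 0) (h : vM q) :
    Ent cf q 1 (lb q) :=
  ⟨hc, hf, Nat.one_le_iff_ne_zero.2 hk, fun e => (mul_one a).symm ▸ (mem_labs.1 h).1 e,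
    fun e => (mul_one cF).symm ▸ (mem_labs.1 h).2.1 e, (mem_labs.1 h).2.2⟩

theorem shl_of_lt' {m v e : ℕ} (h : v * 2 ^ e < 2 ^ m) : shl m v e = v * 2 ^ e := Nat.mod_eq_of_lt h

theorem mul_pow_lt {v i e m : ℕ} (hv : v < 2 ^ i) (h : i + e ≤ m) : v * 2 ^ e < 2 ^ m :=
  (Nat.mul_lt_mul_of_pos_right hv (Nat.two_pow_pos e)).trans_le (by
    rw [← pow_add]
    exact Nat.pow_le_pow_right two_pos h)

theorem mus_eq (hW : IsTab cf W) (d : Bool) (q : QQ) (s : SS) :
    cf.mus d q s = (W (q .lev)).mu d (cf.nx (q .lev) s) := by rw [hW.mu, Cf.mus]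

theorem ve_nx (hW : IsTab cf W) (e : Bool) (k : ℕ) (s : SS) :
    ve (W k).L e (cf.nx k s) = vw e cf.N cf.n0 cf.K k (s .nm) := by
  rw [hW.ve_eq e (nx_lt' cf s k), Cf.nx, vw_mod _ _ _ _ _ le_rfl]

theorem lrs_eq (hW : IsTab cf W) (b : ℕ) (r : Lab) (e : Bool) (q : QQ) (s : SS) :
    cf.lrs b r e q s = (W (q .lev - b)).lr b e (cx q) (cf.nx (q .lev) s) r := by
  rw [Tb.lr, Tb.lam, hW.n_eq, nx_mod _ _ (Nat.sub_le _ _), ve_nx hW, Cf.lrs]

theorem dgOk_iff (hW : IsTab cf W) (b : ℕ) (r : Lab) (e : Bool) (q : QQ) (s : SS) :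
    cf.dgOk b r e q s ↔ cf.nx (q .lev) s / (W (q .lev - b)).L.n = r.1 e := by
  rw [hW.n_eq, Cf.dgOk]

theorem locS_iff (hW : IsTab cf W) (q : QQ) (s : SS) :
    cf.locS q s ↔ (W (q .lev - 1)).locM (cx q) (lb q) (cf.nx (q .lev - 1) s) := by
  rw [Tb.locM, ve_nx hW, ve_nx hW, Cf.locS]

namespace Ent

variable (h : Ent cf q b r)
include h

theorem lev_le : q .lev ≤ cf.K := (Nat.le_add_left _ _).trans h.fok.age

theorem fok_U : FOk cf (q .lev - b) ((cx q).up b r.1) (fU b (ff q)) := h.fok.up h.le r.1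

theorem dgs_eq (e : Bool) : cf.dgs b r e q = nm cf.n0 (q .lev - b) * r.1 e := by
  have h1 := Nat.mul_le_mul_left a h.lev_le
  have h2 : a * b + a * (q .lev - b) = a * q .lev := by rw [← mul_add, Nat.add_sub_cancel' h.le]
  rw [Cf.dgs, shl_of_lt' (mul_pow_lt (h.c e) (by unfold Cf.nb; omega)), mul_comm, nm]

omit h in
theorem lr_le (hW : IsTab cf W) (e : Bool) (x : ℕ) :
    (W (q .lev - b)).lr b e (cx q) x r ≤ B * (q .lev - b) + ((cx q).up b r.1).D e := by
  rw [Tb.lr, hW.n_eq]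
  exact hW.lam_le _ _ (mod_nm_lt _ _ _)

theorem shf1_lt (hW : IsTab cf W) (e e' : Bool) (x : ℕ) :
    r.2.1 e' * 2 ^ ((W (q .lev - b)).lr b e (cx q) x r + ff q e') < 2 ^ cf.m := by
  have h1 := lr_le (q := q) (b := b) (r := r) hW e x
  have h2 := h.fok_U.room e' e
  simp only [fU, add_mul] at h2
  exact mul_pow_lt (h.t e') (by omega)

theorem shf2_lt (hW : IsTab cf W) (e : Bool) (x : ℕ) :
    r.2.2 * 2 ^ ((W (q .lev - b)).lr b e (cx q) x r - om b (cx q) r) < 2 ^ cf.m := by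
  have h1 := lr_le (q := q) (b := b) (r := r) hW e x
  have h2 : ((cx q).up b r.1).D e ≤ om b (cx q) r := by
    cases e
    exacts [le_max_right _ _, le_max_left _ _]
  have h3 := h.ok.room
  have h4 := Nat.mul_le_mul_left B h.fok.age
  have h5 : B * (q .age + b) + B * (q .lev - b) = B * ((cx q).age + q .lev) := by
    rw [← mul_add, add_assoc, Nat.add_sub_cancel' h.le, cx_age]
  simp only [add_mul] at h3
  exact mul_pow_lt h.w (by omega)

theorem shf_lt (hW : IsTab cf W) (e e' : Bool) (x : ℕ) :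
    (W (q .lev - b)).shf b e (cx q) (ff q) x r e' < 2 ^ cf.m :=
  Nat.xor_lt_two_pow (h.shf1_lt hW e e' x) (h.shf2_lt hW e x)

theorem shs_eq (hW : IsTab cf W) (e e' : Bool) (s : SS) : cf.shs b r e q s e' =
    (W (q .lev - b)).shf b e (cx q) (ff q) (cf.nx (q .lev) s) r e' := by
  rw [Cf.shs, lrs_eq hW, shl_of_lt' (h.shf2_lt hW e _)]
  exact congrArg (· ^^^ _) (shl_of_lt' (h.shf1_lt hW e e' _))

/-- The keys after the passage. -/
theorem ky_ens (hW : IsTab cf W) (e : Bool) (s : SS) : ky (cf.ens b r e q s) =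
    (W (q .lev - b)).kU cf b e (cx q) (ff q) (cf.nx (q .lev) s) (ky s) r := by
  funext e'
  simp only [ky, Cf.ens, Tb.kU, Tb.ek, Cf.ent, h.shs_eq hW, h.dgs_eq, hW.n_eq]

theorem nx_ens (e : Bool) (s : SS) {i : ℕ} (hi : i ≤ q .lev - b) :
    cf.nx i (cf.ens b r e q s) = cf.nx i s := by
  simp only [Cf.nx, Cf.ens, h.dgs_eq]
  rw [mul_comm, xor_mul_mod hi]

/-- The name on the lower level. -/
theorem nx_ens' (hW : IsTab cf W) (e : Bool) (s : SS) :
    cf.nx (q .lev - b) (cf.ens b r e q s) = cf.nx (q .lev) s % (W (q .lev - b)).L.n := by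
  rw [h.nx_ens e s le_rfl, hW.n_eq, nx_mod _ _ (Nat.sub_le _ _)]

theorem end_lt (e : Bool) {y : ℕ} (hy : y < nm cf.n0 (q .lev - b)) :
    y + nm cf.n0 (q .lev - b) * r.1 e < nm cf.n0 (q .lev) := by
  have := add_nm_lt hy (h.c e)
  rwa [Nat.sub_add_cancel h.le] at this

/-- The way out at the other end. -/
theorem exit (hW : IsTab cf W) {d : Bool} {s : SS} {y : ℕ} (hd : cf.dgOk b r d q s)
    (hy : y < nm cf.n0 (q .lev - b))
    (hl : (W (q .lev - b)).lam (!d) ((cx q).up b r.1) y =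
      (W (q .lev - b)).lr b d (cx q) (cf.nx (q .lev) s) r) :
    cf.ens b r (!d) q (cf.mv (q .lev - b) (cf.ens b r d q s) y) =
      cf.mv (q .lev) s (y + nm cf.n0 (q .lev - b) * r.1 (!d)) := by
  have h1 : cf.lrs b r (!d) q (cf.mv (q .lev - b) (cf.ens b r d q s) y) = cf.lrs b r d q s := by
    rw [lrs_eq hW, lrs_eq hW, ← hl, Tb.lr, hW.n_eq, nx_mod _ _ (Nat.sub_le _ _), nx_mv' _ _ _ hy]
  have hn : nm cf.n0 (q .lev) = nm cf.n0 (q .lev - b) * 2 ^ (a * b) := by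
    rw [← nm_add, Nat.sub_add_cancel h.le]
  funext t
  rcases t with _ | _ | _ | i | (_ | e)
  · have h2 : s .nm / nm cf.n0 (q .lev - b) = r.1 d + 2 ^ (a * b) * (s .nm / nm cf.n0 (q .lev)) := by
      rw [← hd, Cf.nx, hn, Nat.mod_mul_right_div_self, ← Nat.div_div_eq_div_mul, Nat.mod_add_div]
    have h3 : ∀ {c : ℕ} (U : ℕ), c < 2 ^ (a * b) → c + 2 ^ (a * b) * U = c ^^^ 2 ^ (a * b) * U :=
      fun _ hc => add_mul_xor hc
    have h4 : ∀ u v, nm cf.n0 (q .lev - b) * (u ^^^ v) =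
        nm cf.n0 (q .lev - b) * u ^^^ nm cf.n0 (q .lev - b) * v := fun u v => by
      simp only [nm, mul_comm (2 ^ _), ← Nat.shiftLeft_eq, Nat.shiftLeft_xor_distrib]
    have h5 : (s .nm ^^^ nm cf.n0 (q .lev - b) * r.1 d) / nm cf.n0 (q .lev - b) =
        2 ^ (a * b) * (s .nm / nm cf.n0 (q .lev)) := by
      rw [nm, Nat.xor_div_two_pow, Nat.mul_div_cancel_left _ (Nat.two_pow_pos _), ← nm, h2,
        h3 _ (h.c d), Nat.xor_comm, ← Nat.xor_assoc, Nat.xor_self, Nat.zero_xor]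
    simp only [Cf.ens, Cf.mv, update_self, h.dgs_eq, h5]
    have h6 : ∀ c, y + nm cf.n0 (q .lev - b) * c = y ^^^ nm cf.n0 (q .lev - b) * c :=
      fun c => add_mul_xor hy
    rw [add_assoc, hn, mul_assoc, ← mul_add, h3 _ (h.c _), h6, h6, h4]
    ac_rfl
  · simp [Cf.ens, Cf.mv]
  · simp [Cf.ens, Cf.mv]
  · simp [Cf.ens, Cf.mv]
  · simp [Cf.ens, Cf.mv]
  · simp only [Cf.ens, Cf.mv, Cf.shs] at h1 ⊢
    simp only [h1, ne_eq, reduceCtorEq, not_false_eq_true, update_of_ne, Cf.ens, Cf.shs]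
    simp [Nat.xor_assoc, Nat.xor_comm, Nat.xor_left_comm]

end Ent

theorem tU_iff (hW : IsTab cf W) (d : Bool) (q : QQ) (s : SS) : cf.tU d q s ↔
    bU q = hb (cx q) ((W (q .lev)).mu d (cf.nx (q .lev) s)) ∧
      cf.nx (q .lev) s / (W (q .lev - bU q)).L.n = (rU q).1 d := by
  rw [Cf.tU, mus_eq hW, dgOk_iff hW]

theorem Ent.zU_iff (h : Ent cf q (bU q) (rU q)) (hW : IsTab cf W) (d : Bool) (s : SS) :
    cf.zU d q s ↔ (cf.val (ky s d) (cf.nx (q .lev) s) ^^^
        (W (q .lev - bU q)).shf (bU q) d (cx q) (ff q) (cf.nx (q .lev) s) (rU q) d) /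
      2 ^ ((W (q .lev - bU q)).lr (bU q) d (cx q) (cf.nx (q .lev) s) (rU q) + ff q d) %
        2 ^ (cF * bU q) = 0 := by
  rw [Cf.zU, h.shs_eq hW, lrs_eq hW]
  rfl

theorem Ent.okS_iff (h : Ent cf q 1 (lb q)) (hW : IsTab cf W) (d : Bool) (s : SS) :
    cf.okS d q s ↔ (W (q .lev - 1)).okM d (cx q) (ff q) (cf.nx (q .lev) s)
      (cf.val (ky s d) (cf.nx (q .lev) s)) (lb q) := by
  rw [Cf.okS, h.shs_eq hW, lrs_eq hW, dgOk_iff hW]
  rfl

/-- The keys of the half `e` of a link, after a move to `y` on the lower level. -/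
theorem Ent.ky_half (h : Ent cf q 1 r) (hW : IsTab cf W) (d e : Bool) (s : SS) :
    ky (sw e (cf.ens 1 r d q s)) =
      (W (q .lev - 1)).kM cf d (cx q) (ff q) (cf.nx (q .lev) s) (ky s) r (kc s) e := by
  rw [ky_sw, h.ky_ens hW, kc_ens]
  rfl

theorem Ent.ky_half_mv (h : Ent cf q 1 r) (hW : IsTab cf W) (d e : Bool) (s : SS) (k y : ℕ) :
    ky (sw e (cf.mv k (cf.ens 1 r d q s) y)) =
      (W (q .lev - 1)).kM cf d (cx q) (ff q) (cf.nx (q .lev) s) (ky s) r (kc s) e := by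
  rw [sw_mv, ky_mv, h.ky_half hW]

theorem Ent.fok_M (h : Ent cf q 1 r) (e : Bool) :
    FOk cf (q .lev - 1) q0 (fM (cx q) (ff q) r e) := by
  refine FOk.fM ?_ r e
  rw [Nat.sub_add_cancel h.le]
  exact h.fok

/-- The value of the near key after the passage. -/
theorem Ent.val_ens (h : Ent cf q b r) (hW : IsTab cf W) {d : Bool} {s : SS}
    (hd : cf.dgOk b r d q s) :
    cf.val (ky (cf.ens b r d q s) d) (cf.nx (q .lev - b) (cf.ens b r d q s)) =
      cf.val (ky s d) (cf.nx (q .lev) s) ^^^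
        (W (q .lev - b)).shf b d (cx q) (ff q) (cf.nx (q .lev) s) r d := by
  rw [h.ky_ens hW, h.nx_ens' hW, Tb.kU, Tb.ek, Cf.val_ent, hW.n_eq, ← hd, mod_xor_nm]

/-- A call at the name in the state. -/
theorem Pre.at {k : ℕ} {c : Cx} {f : Bool → ℕ} {s : SS} (h : Pre cf W k) (hf : FOk cf k c f)
    (hs : s ∈ box cf.bd) : At cf W k c f (cf.nx k s) (ky s) :=
  ⟨h, hf, nx_lt' _ _ _, kok_ky hs⟩

end Vale.Agent.P313.Full
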