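import Vale.Agent.P313.Full.PgW
import Vale.Agent.P313.Full.PgBr

/-! The structural conditions for the terms for the weights. -/

namespace Vale.Agent.P313.Full

open Finset Function Hi Tm KH

theorem lmv_le {cf : Cf} {k : ℕ} (hk : k ≤ cf.K) (e : Bool) (s : SS) :
    cf.lmv e k s ≤ (C + 2) * cf.K := by
  have h1 := vw_lam_le e cf.N cf.n0 cf.K k (s .nm)
  have h2 := Nat.mul_le_mul_left (C + 1) hk
  rw [Cf.lmv, show (C + 2) * cf.K = cf.K + (C + 1) * cf.K by ring]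
  omega

theorem row_lt {cf : Cf} {k i : ℕ} (hk : k ≤ cf.K) (hi : i ≤ 3) (e : Bool) (s : SS) :
    cf.pw (cf.lmv e k s + i) - 1 < cf.bd .ct :=
  (Nat.sub_lt (Nat.two_pow_pos _) one_pos).trans_le ((cf.pw_le _).trans
    (Nat.pow_le_pow_right two_pos (add_le_add (lmv_le hk e s) hi)))

theorem abs_one_sub_R_le (x : ℝ) : |1 - R B x| ≤ 1 := abs_one_sub_le (R_nonneg _ _) (R_le_one _ _)

theorem abs_scM_le {α : Type} (I : α → In) (a₀ : α) (q : QQ) :
    |scM I a₀ q| ≤ 2 ^ ((cxM q).D true + (cxM q).D false + cZ) := by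
  rw [scM, abs_of_nonneg (Nat.cast_nonneg _)]
  exact_mod_cast (I a₀).pw_le _

theorem abs_coefM_le {α : Type} (I : α → In) (a₀ : α) (q : QQ) :
    |coefM I a₀ q| ≤ 2 ^ ((cxM q).D true + (cxM q).D false + cZ) := by
  unfold coefM
  split_ifs
  · rw [abs_div, abs_of_pos (a := 4 * _) (by positivity)]
    exact (div_le_self (abs_nonneg _) (one_le_mul_of_one_le_of_one_le (by norm_num)
      (one_le_pow₀ one_le_two))).trans (abs_scM_le I a₀ q)
  · simp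

variable {α : Type} {I : α → In} {P : Pg α Rg Cv Pc} {a₀ : α} {n p b : ℕ} {q : QQ} {d e : Bool}
  {M : Trm α} {k : QQ → ℕ}

/-- A function of two numbers with the range `1` and the Lipschitz constant `2 ^ c`. -/
theorem str_app1 {Φ : α → QQ → SS → ℝ → ℝ → ℝ} {e₁ e₂ : Trm α} {c : ℕ} (hc : c ≤ n)
    (h1 : ∀ s x y, |Φ a₀ q s x y| ≤ 1) (h2 : ∀ s (x y x' y' ε : ℝ), |x - x'| ≤ ε → |y - y'| ≤ ε →
      |Φ a₀ q s x y - Φ a₀ q s x' y'| ≤ 2 ^ c * ε) (h3 : P.Str a₀ n p e₁ q false)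
    (h4 : P.Str a₀ n p e₂ q false) : P.Str a₀ n p (app Φ e₁ e₂) q false :=
  ⟨rfl, fun s _ => ⟨fun x y => (h1 s x y).trans (one_le_pow₀ one_le_two), fun x y x' y' ε e1 e2 =>
    (h2 s x y x' y' ε e1 e2).trans (mul_le_mul_of_nonneg_right (pow_le_pow_right₀ one_le_two hc)
      ((abs_nonneg _).trans e1))⟩, h3, h4⟩

theorem str_prL (hb : P.bd a₀ = (I a₀).bd) (hn : 1 ≤ n) (hk : k q ≤ (I a₀).K)
    (hM : P.Str a₀ n p M q true) {i : ℕ} (hi : i ≤ 3) (j : ℕ) :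
    P.Str a₀ n p (prL I k d M i j) q false :=
  Pg.str_pairP (congrFun hb .ct) hn
    (fun s _ => ⟨row_lt hk hi _ s, fun c => by simp [Cf.lmv]⟩) hM

theorem str_pr2 (hb : P.bd a₀ = (I a₀).bd) (hn : 1 ≤ n) (hk : k q ≤ (I a₀).K)
    (hM : P.Str a₀ n p M q true) {φ : QQ → ℝ → ℝ → ℝ} (h1 : ∀ x y, |φ q x y| ≤ 1)
    (h2 : ∀ x y x' y' ε : ℝ, |x - x'| ≤ ε → |y - y'| ≤ ε → |φ q x y - φ q x' y'| ≤ 2 * ε) :
    P.Str a₀ n p (pr2 I φ k d M) q false := by
  refine str_app1 hn (fun _ _ _ => h1 _ _) (fun _ x y x' y' ε e1 e2 => ?_)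
    (str_prL hb hn hk hM le_rfl 0) (str_prL hb hn hk hM (Nat.zero_le _) 2)
  have e3 : |1 - y - (1 - y')| ≤ ε := by rwa [sub_sub_sub_cancel_left, abs_sub_comm]
  rw [pow_one]
  cases d
  exacts [h2 _ _ _ _ _ e3 e1, h2 _ _ _ _ _ e1 e3]

theorem str_endT (hn : 2 ≤ n) (hH : ∀ e, P.Str a₀ n p (frH e k) q false) {φ : QQ → ℝ → ℝ → ℝ}
    (h1 : ∀ x y, |φ q x y| ≤ 1)
    (h2 : ∀ x y x' y' ε : ℝ, |x - x'| ≤ ε → |y - y'| ≤ ε → |φ q x y - φ q x' y'| ≤ 4 * ε) :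
    P.Str a₀ n p (endT φ k) q false :=
  str_app1 hn (fun _ => h1) (fun _ x y x' y' ε e1 e2 => (h2 x y x' y' ε e1 e2).trans_eq
    (by norm_num)) (hH _) (hH _)

theorem abs_stg_div (D E : Bool → ℕ) (wt : Bool) (gx gz : Dig) (w p : ℝ) :
    |stg D E wt gx gz w p / 2 ^ B| ≤ 1 := by
  rw [abs_div, abs_of_pos (a := 2 ^ B) (by positivity), div_le_one (by positivity)]
  exact abs_stg_le _ _ _ _ _ _ _

theorem str_stepC (hb : P.bd a₀ = (I a₀).bd) (hn : B + 2 ≤ n) (hk : lvC q ≤ (I a₀).K)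
    (hC : P.Str a₀ n p (chP d) q false) (hM : P.Str a₀ n p (linkU I) q true)
    (hH : ∀ e, P.Str a₀ n p (frH e lvC) q false) : P.Str a₀ n p (stepC I d) q false := by
  have h1 : ∀ e, P.Str a₀ n p (endC e) q false := fun e => str_endT (by omega) hH
    (abs_endF_le _ _) fun _ _ _ _ _ => abs_endF_sub _ _
  refine ⟨rfl, ⟨rfl, ⟨rfl, fun _ _ => ?_⟩, str_app1 hn (fun s x y => ?_)
    (fun s x y x' y' ε e1 e2 => ?_) hC (str_pr2 hb (by omega) hk hM (abs_prt_le _ _)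
      fun _ _ _ _ _ => abs_prt_sub _ _)⟩, rfl, h1 _, rfl, hM, h1 _⟩
  · rw [abs_of_pos (by positivity)]
    exact pow_le_pow_right₀ one_le_two (by omega)
  · split_ifs
    exacts [abs_stg_div _ _ _ _ _ _ _, by simp]
  · split_ifs
    · rw [← sub_div, abs_div, abs_of_pos (a := 2 ^ B) (by positivity), div_le_iff₀ (by positivity)]
      exact (abs_stg_sub _ _ _ _ _ e1 e2).trans_eq (by ring)
    · rw [sub_zero, abs_zero]
      exact mul_nonneg (by positivity) ((abs_nonneg _).trans e1)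

theorem str_bodyCh (hb : P.bd a₀ = (I a₀).bd) (hn : B + 2 ≤ n) (hk : lvC q ≤ (I a₀).K)
    (h0 : q .idx = 0 → P.Str a₀ n p (cU (.W · d) FU) q false)
    (hC : q .idx ≠ 0 → P.Str a₀ n p (chP d) q false)
    (hM : q .idx ≠ 0 → P.Str a₀ n p (linkU I) q true)
    (hH : q .idx ≠ 0 → ∀ e, P.Str a₀ n p (frH e lvC) q false) :
    P.Str a₀ n p (bodyCh I d) q false := by
  unfold bodyCh cs Pg.Str
  split_ifs with h
  · refine Pg.str_aft (fun s hs => ⟨?_, Cf.ens_ens⟩) (h0 (by simpa using h))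
    rw [box_eq hb] at hs ⊢
    exact Cf.ens_mem hs
  · have h1 : q .idx ≠ 0 := by simpa using h
    exact str_stepC hb hn hk (hC h1) (hM h1) (hH h1)

theorem rng_bodyCh (hr : B ≤ P.rg) : P.Rng a₀ (bodyCh I d) P.rg q := by
  unfold bodyCh cs Pg.Rng
  split_ifs
  · change P.Rng a₀ (cU (.W · d) FU) P.rg q
    unfold cU cs Pg.Rng
    split_ifs <;> exact le_rfl
  · refine ⟨B, 0, hr, ⟨B, 0, le_rfl, fun _ _ => (abs_of_pos (by positivity)).le,
      fun s _ x y => ?_⟩, 0, 0, le_rfl, fun _ _ x y => (abs_endF_le _ _ x y).trans_eq (by simp),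
      fun _ _ x y => (abs_endF_le _ _ x y).trans_eq (by simp)⟩
    dsimp only
    rw [pow_zero]
    split_ifs
    exacts [abs_stg_div _ _ _ _ _ _ _, by simp]

theorem str_omH (hn : B + 2 ≤ n) (h : P.Str a₀ n p (inH e (.W true (!e))) q false) :
    P.Str a₀ n p (omH e) q false :=
  Pg.str_ap1 (fun _ _ x => (abs_rdw_le x).trans (one_le_pow₀ one_le_two))
    (fun _ _ x x' => (abs_rdw_sub x x').trans (mul_le_mul_of_nonneg_right
      (pow_le_pow_right₀ one_le_two hn) (abs_nonneg _))) h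

theorem str_usH (h : P.Str a₀ n p (frH e lvM) q false) : P.Str a₀ n p (usH e) q false :=
  Pg.str_ap1 (fun _ _ x => (abs_one_sub_R_le x).trans (one_le_pow₀ one_le_two)) (fun _ _ x x' => by
    rw [sub_sub_sub_cancel_left, abs_sub_comm]
    exact (abs_R_sub _ _ _).trans (le_mul_of_one_le_left (abs_nonneg _) (one_le_pow₀ one_le_two))) h

section link

variable (hb : P.bd a₀ = (I a₀).bd) (hn : B + 2 ≤ n)
  (hs : (cxM q).D true + (cxM q).D false + cZ ≤ n) (hk : lvM q ≤ (I a₀).K)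
  (hM : ∀ e, P.Str a₀ n p (half e) q true) (hW : ∀ e, P.Str a₀ n p (inH e (.W true (!e))) q false)
  (hH : ∀ e, P.Str a₀ n p (frH e lvM) q false)

include hb hn hk hM hW hH in
theorem str_side (e : Bool) : P.Str a₀ n p (side I e) q false := by
  refine ⟨rfl, ⟨rfl, str_omH hn (hW e), str_pr2 hb (by omega) hk (hM e) (fun x y => ?_)
    fun x y x' y' ε e1 e2 => ?_⟩, rfl, hM e, str_endT (by omega) hH (abs_endM_le _ _)
      fun _ _ _ _ _ => abs_endM_sub _ _⟩ <;> cases e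
  · exact abs_cl_le _
  · exact abs_prM_le _ _ _
  · exact ((abs_cl_sub _ _).trans e2).trans (by linarith [(abs_nonneg _).trans e1])
  · exact abs_prM_sub _ e1 e2

include hb hn hs hk hM hW hH in
theorem str_wZ : P.Str a₀ n p (wZ I) q false :=
  ⟨rfl, ⟨rfl, ⟨rfl, fun _ _ => (abs_coefM_le I a₀ q).trans (pow_le_pow_right₀ one_le_two hs)⟩,
    str_side hb hn hk hM hW hH _⟩, rfl, ⟨rfl, str_usH (hH _), str_usH (hH _)⟩,
    str_side hb hn hk hM hW hH _⟩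

include hn hs hM hW hH in
theorem str_wI : P.Str a₀ n p (wI I d) q false :=
  ⟨rfl, ⟨rfl, fun _ _ => (abs_scM_le I a₀ q).trans (pow_le_pow_right₀ one_le_two hs)⟩, rfl,
    str_omH hn (hW _), rfl, str_usH (hH _), rfl, hM _, str_usH (hH _)⟩

end link

/-! ### There are no searches -/

theorem unc_cU {t : Bool → Pc} {F : QQ → QQ} : P.Unc a₀ n (cU t F) q := Pg.unc_cas trivial trivial

theorem unc_linkU : P.Unc a₀ n (linkU I) q := ⟨trivial, unc_cU, trivial⟩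

theorem unc_half : P.Unc a₀ n (half e) q := ⟨trivial, trivial, trivial⟩

theorem unc_pr2 {φ : QQ → ℝ → ℝ → ℝ} (h : P.Unc a₀ n M q) : P.Unc a₀ n (pr2 I φ k d M) q :=
  ⟨⟨⟨trivial, h, trivial⟩, h, trivial⟩, ⟨trivial, h, trivial⟩, h, trivial⟩

theorem unc_bodyCh : P.Unc a₀ n (bodyCh I d) q :=
  Pg.unc_cas ⟨trivial, unc_cU⟩ ⟨⟨trivial, trivial, unc_pr2 unc_linkU⟩, ⟨trivial, trivial⟩,
    unc_linkU, trivial, trivial⟩

theorem unc_side : P.Unc a₀ n (side I e) q :=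
  ⟨⟨⟨⟨trivial, trivial⟩, trivial⟩, unc_pr2 unc_half⟩, unc_half, trivial, trivial⟩

theorem unc_wZ : P.Unc a₀ n (wZ I) q :=
  ⟨⟨trivial, unc_side⟩, ⟨⟨trivial, trivial⟩, trivial, trivial⟩, unc_side⟩

theorem unc_wI : P.Unc a₀ n (wI I d) q :=
  ⟨trivial, ⟨⟨trivial, trivial⟩, trivial⟩, ⟨trivial, trivial⟩, unc_half, trivial, trivial⟩

end Vale.Agent.P313.Full
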