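import Vale.Agent.P313.Full.PgLay

/-! The level `0` of the tables in a computable form: definitions. -/

namespace Vale.Agent.P313.Full

open Finset Hi

namespace Cf

variable (cf : Cf) (d : Bool) (q : Cx) (f : Bool → ℕ)

/-- The number of edges in the direction `d`. -/
def ed0 (x y : ℕ) : ℕ := if x < cf.N ∧ y < cf.N then (if d then cf.A0 x y else cf.A0 y x) else 0

/-- The entry is visible. -/
def vis0 (x y : ℕ) : Prop := q.D d = q.D (!d) ∧
  (vw d cf.N cf.n0 cf.K 0 x).lam + q.E d = (vw (!d) cf.N cf.n0 cf.K 0 y).lam + q.E (!d)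

/-- A candidate. -/
def cand0 (x h : ℕ) (k : Key) (y : ℕ) : Prop :=
  cf.ed0 d x y ≠ 0 ∧ cf.vis0 d q x y ∧ mt (q.D d) f d h (cf.val k y)

open Classical in
/-- The number of candidates. -/
noncomputable def cnt0 (x h : ℕ) (k : Key) : ℕ :=
  ∑ y ∈ range cf.N, if cf.cand0 d q f x h k y then 1 else 0

/-- The trouble. -/
noncomputable def T0 (x h : ℕ) (k : Key) : ℝ := if 2 ≤ cf.cnt0 d q f x h k then 3 else 0

open Classical in
/-- The partner. -/
noncomputable def p0 (x : ℕ) (K : Bool → Key) : ℕ :=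
  ∑ y ∈ range cf.N, if cf.cand0 d q f x (cf.val (K d) x) (K !d) y then y else 0

/-- There is exactly one candidate at both ends. -/
def ok0 (x : ℕ) (K : Bool → Key) : Prop := cf.cnt0 d q f x (cf.val (K d) x) (K !d) = 1 ∧
  cf.cnt0 (!d) q f (cf.p0 d q f x K) (cf.val (K !d) (cf.p0 d q f x K)) (K d) = 1

open Classical in
/-- The strength. -/
noncomputable def s0 (x : ℕ) (K : Bool → Key) : ℝ := if cf.ok0 d q f x K then 1 else 0

/-- The normalised weight. -/
noncomputable def w0 (x y : ℕ) : ℝ := (cf.ed0 d x y : ℝ) / 2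

/-- The statistic. -/
noncomputable def H0 (x : ℕ) : ℝ :=
  (∑ y ∈ range cf.N, cf.ed0 d x y : ℕ) / 2 / (cf.pw (cH * q.age) : ℝ)

end Cf

end Vale.Agent.P313.Full
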