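import Vale.Agent.P313.Full.TabBasic
import Vale.Agent.P313.Full.TabB0

/-! The ideal tables: computability of the local parts, computable forms for the level `0`. -/

namespace Vale.Agent.P313.Full

open Finset Hi Vale.Agent.Lib.Space

/-! ### Truncated powers, closed forms -/

theorem Cf.pw_eq {cf : Cf} {e : ℕ} (h : e ≤ cf.L) : cf.pw e = 2 ^ e := by
  rw [Cf.pw, min_eq_left h]

theorem Cf.pw_pos (cf : Cf) (e : ℕ) : 0 < cf.pw e := Nat.two_pow_pos _

theorem Cf.pw_le (cf : Cf) (e : ℕ) : cf.pw e ≤ 2 ^ e :=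
  Nat.pow_le_pow_right two_pos (min_le_left _ _)

theorem shl_lt (m v e : ℕ) : shl m v e < 2 ^ m := Nat.mod_lt _ (Nat.two_pow_pos _)

theorem shl_eq {m v e : ℕ} (h : v * 2 ^ e < 2 ^ m) : shl m v e = v * 2 ^ e := Nat.mod_eq_of_lt h

theorem shl_eq' {m v e i : ℕ} (hv : v < 2 ^ i) (h : i + e ≤ m) : shl m v e = v * 2 ^ e :=
  shl_eq (((Nat.mul_lt_mul_right (Nat.two_pow_pos e)).2 hv).trans_le (by
    rw [← pow_add]; exact Nat.pow_le_pow_right two_pos h))

/-- The view of the name `x` of the level `k` at the end `e`. -/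
noncomputable abbrev Cf.vv (cf : Cf) (k : ℕ) (e : Bool) (x : ℕ) : Hi.View :=
  vw e cf.N cf.n0 cf.K k x

theorem IsTab.ve_mod {cf : Cf} {W : ℕ → Tb} (hW : IsTab cf W) (k : ℕ) (e : Bool) (x : ℕ) :
    ve (W k).L e (x % nm cf.n0 k) = cf.vv k e x := by
  rw [hW.L]
  cases e
  exacts [lv_vi_mod _ _ _ _ _ _ _ _, lv_vo_mod _ _ _ _ _ _ _ _]

theorem IsTab.ve_vv {cf : Cf} {W : ℕ → Tb} (hW : IsTab cf W) {k x : ℕ} (hx : x < nm cf.n0 k)
    (e : Bool) : ve (W k).L e x = cf.vv k e x := by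
  rw [← hW.ve_mod, Nat.mod_eq_of_lt hx]

theorem IsTab.lam_mod {cf : Cf} {W : ℕ → Tb} (hW : IsTab cf W) (k : ℕ) (d : Bool) (q : Cx)
    (x : ℕ) : (W k).lam d q (x % nm cf.n0 k) = (cf.vv k d x).l + q.D d := by
  rw [Tb.lam, hW.ve_mod]

theorem IsTab.lam_vl {cf : Cf} {W : ℕ → Tb} (hW : IsTab cf W) {k x : ℕ} (hx : x < nm cf.n0 k)
    (d : Bool) (q : Cx) : (W k).lam d q x = (cf.vv k d x).l + q.D d := by
  rw [← hW.lam_mod, Nat.mod_eq_of_lt hx]

/-! ### The level `0` -/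

namespace Cf

variable {cf : Cf} {d : Bool} {q : Cx} {f : Bool → ℕ} {x y h : ℕ} {k : Key} {K : Bool → Key}

theorem ed0_symm (cf : Cf) (d : Bool) (x y : ℕ) : cf.ed0 (!d) y x = cf.ed0 d x y := by
  cases d <;> simp [ed0, and_comm]

theorem lt_of_ed0 (h : cf.ed0 d x y ≠ 0) : x < cf.N ∧ y < cf.N := by
  by_contra h'
  exact h (if_neg h')

theorem cand0_symm (h : cf.cand0 d q f x (cf.val (K d) x) (K !d) y) :
    cf.cand0 (!d) q f y (cf.val (K !d) y) (K d) x := by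
  obtain ⟨h1, ⟨h2, h3⟩, h4⟩ := h
  refine ⟨by rwa [ed0_symm], ?_, ?_⟩
  · unfold vis0
    rw [Bool.not_not]
    exact ⟨h2.symm, h3.symm⟩
  · rw [← h2]
    exact mt_symm.1 h4

open Classical in
theorem cnt0_eq : cf.cnt0 d q f x h k = #{y ∈ range cf.N | cf.cand0 d q f x h k y} :=
  (card_filter _ _).symm

theorem two_le_cnt0 : 2 ≤ cf.cnt0 d q f x h k ↔
    ∃ y y', y ≠ y' ∧ cf.cand0 d q f x h k y ∧ cf.cand0 d q f x h k y' := by
  classical
  rw [cnt0_eq, Nat.succ_le_iff, one_lt_card]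
  simp only [mem_filter, mem_range]
  exact ⟨fun ⟨y, h1, y', h2, h3⟩ => ⟨y, y', h3, h1.2, h2.2⟩, fun ⟨y, y', h1, h2, h3⟩ =>
    ⟨y, ⟨(lt_of_ed0 h2.1).2, h2⟩, y', ⟨(lt_of_ed0 h3.1).2, h3⟩, h1⟩⟩

theorem cnt0_eq_one : cf.cnt0 d q f x h k = 1 ↔ ∃ y, ∀ y', cf.cand0 d q f x h k y' ↔ y' = y := by
  classical
  rw [cnt0_eq, card_eq_one]
  refine exists_congr fun y => ?_
  rw [Finset.ext_iff]
  refine forall_congr' fun y' => ?_
  simp only [mem_filter, mem_range, mem_singleton]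
  rw [and_iff_right_of_imp fun h => (lt_of_ed0 h.1).2]

theorem cnt0_eq_one_of (h1 : cf.cand0 d q f x h k y) (h2 : ¬ 2 ≤ cf.cnt0 d q f x h k) :
    cf.cnt0 d q f x h k = 1 :=
  cnt0_eq_one.2 ⟨y, fun _ => ⟨fun h3 => by_contra fun h4 => h2 (two_le_cnt0.2 ⟨_, _, h4, h3, h1⟩),
    fun e => e ▸ h1⟩⟩

theorem cand0_iff (h : cf.cnt0 d q f x (cf.val (K d) x) (K !d) = 1) :
    cf.cand0 d q f x (cf.val (K d) x) (K !d) y ↔ y = cf.p0 d q f x K := by
  classical
  obtain ⟨z, hz⟩ := cnt0_eq_one.1 h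
  have : cf.p0 d q f x K = z := by
    simp only [p0, hz]
    rw [sum_ite_eq' (range cf.N) z fun y => y,
      if_pos (mem_range.2 (lt_of_ed0 ((hz z).2 rfl).1).2)]
  rw [hz, this]

theorem ok0.cand (h : cf.ok0 d q f x K) :
    cf.cand0 d q f x (cf.val (K d) x) (K !d) (cf.p0 d q f x K) := (cand0_iff h.1).2 rfl

/-- The move on the level `0` is injective. -/
theorem ok0_symm (h : cf.ok0 d q f x K) : x < cf.N ∧ cf.p0 d q f x K < cf.N ∧
    cf.ok0 (!d) q f (cf.p0 d q f x K) K ∧ cf.p0 (!d) q f (cf.p0 d q f x K) K = x := by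
  have h1 := cand0_symm h.cand
  have h2 : cf.cnt0 (!d) q f (cf.p0 d q f x K) (cf.val (K !d) (cf.p0 d q f x K)) (K !!d) = 1 := by
    rw [Bool.not_not]
    exact h.2
  have h3 : cf.p0 (!d) q f (cf.p0 d q f x K) K = x :=
    ((cand0_iff h2).1 (by rw [Bool.not_not]; exact h1)).symm
  refine ⟨(lt_of_ed0 h.cand.1).1, (lt_of_ed0 h.cand.1).2, ⟨h2, ?_⟩, h3⟩
  rw [h3, Bool.not_not]
  exact h.1

theorem T0_nonneg : 0 ≤ cf.T0 d q f x h k := by
  unfold T0
  split_ifs <;> norm_num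

theorem T0_le : cf.T0 d q f x h k ≤ 3 := by
  unfold T0
  split_ifs <;> norm_num

theorem s0_nonneg : 0 ≤ cf.s0 d q f x K := by
  unfold s0
  split_ifs <;> norm_num

theorem s0_le_one : cf.s0 d q f x K ≤ 1 := by
  unfold s0
  split_ifs <;> norm_num

theorem w0_nonneg : 0 ≤ cf.w0 d x y := by
  unfold w0
  positivity

theorem H0_nonneg : 0 ≤ cf.H0 d q x := by
  unfold H0
  positivity

end Cf

namespace IsTab

variable {cf : Cf} {W : ℕ → Tb} (hW : IsTab cf W) {d : Bool} {q : Cx} {f : Bool → ℕ}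
  {x y h : ℕ} {k : Key} {K : Bool → Key}
include hW

theorem sd_zero : sd (W 0).L d x y = cf.w0 d x y := by
  rw [hW.L]
  cases d <;> simp only [sd, lv, lv0, Cf.w0, Cf.ed0, and_comm, if_true, Bool.false_eq_true,
    if_false] <;> split_ifs <;> simp

theorem ve_zero (e : Bool) (x : ℕ) : ve (W 0).L e x = cf.vv 0 e x := by
  rw [hW.L]
  cases e <;> rfl

theorem lam_zero : (W 0).lam d q x = q.D d := by
  rw [Tb.lam, hW.ve_zero]
  exact zero_add _

theorem vis_zero : (W 0).vis d q x y ↔ cf.vis0 d q x y := by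
  rw [Tb.vis, hW.lam_zero, hW.lam_zero, hW.ve_zero, hW.ve_zero]
  rfl

open Classical in
theorem w_zero : (W 0).w d q x y = if cf.vis0 d q x y then cf.w0 d x y * 2 ^ q.D d else 0 := by
  rw [Tb.w, hW.sd_zero, hW.lam_zero]
  simp only [hW.vis_zero]

open Classical in
theorem sig_zero : (W 0).sig d q x y = if cf.ed0 d x y ≠ 0 ∧ cf.vis0 d q x y then 1 else 0 := by
  have hf : ∀ e z, (W 0).fac e q z = 1 := fun e z => if_pos (by rw [hW.mu]; rfl)
  rw [Tb.sig, hf, hf, mul_one, mul_one, hW.w_zero]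
  by_cases h1 : cf.vis0 d q x y
  · rw [if_pos h1]
    by_cases h2 : cf.ed0 d x y = 0
    · rw [if_neg fun h => h.1 h2]
      exact cl_of_le (by simp [Cf.w0, h2])
    · rw [if_pos ⟨h2, h1⟩]
      refine cl_of_ge ?_
      have a1 : (1 : ℝ) ≤ cf.ed0 d x y := by exact_mod_cast Nat.pos_of_ne_zero h2
      have a2 : (1 : ℝ) ≤ 2 ^ q.D d := one_le_pow₀ one_le_two
      have a3 : (2 : ℝ) ^ 1 ≤ 2 ^ (B + 1 + q.age) := pow_le_pow_right₀ one_le_two (by omega)
      have a4 : 1 * 1 ≤ (cf.ed0 d x y : ℝ) * 2 ^ q.D d := mul_le_mul a1 a2 one_pos.le (by linarith)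
      rw [thr, Cf.w0, div_div_eq_mul_div, div_one]
      nlinarith
  · rw [if_neg h1, if_neg fun h => h1 h.2]
    exact cl_of_le (by simp)

open Classical in
theorem se_zero : (W 0).se d q x y = if cf.ed0 d x y ≠ 0 ∧ cf.vis0 d q x y then 1 else 0 := by
  rw [Tb.se, hW.sig_zero]
  split_ifs
  exacts [psi_one, psi_zero]

theorem cand_zero : (W 0).cand cf d q f x h k y ↔ cf.cand0 d q f x h k y := by
  rw [Tb.cand, hW.se_zero, hW.lam_zero, Cf.cand0, ← and_assoc]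
  split_ifs with h1 <;> simp [h1]

theorem T_zero : (W 0).T d q f x h k = cf.T0 d q f x h k := by
  classical
  rw [hW.TB, Tb.TB, Cf.T0]
  exact if_congr (by simp only [hW.cand_zero, Cf.two_le_cnt0]) rfl rfl

theorem pt_zero' (h : cf.cnt0 d q f x (cf.val (K d) x) (K !d) = 1) :
    (W 0).pt cf d q f x K = cf.p0 d q f x K :=
  (Cf.cand0_iff h).1 (hW.cand_zero.1 (hW.cand_zero.2 ((Cf.cand0_iff h).2 rfl)).pt)

theorem pt_zero (h : cf.ok0 d q f x K) : (W 0).pt cf d q f x K = cf.p0 d q f x K := hW.pt_zero' h.1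

theorem s_zero : (W 0).s cf d q f x K = cf.s0 d q f x K := by
  have g : ∀ n : ℕ, Gd (if 2 ≤ n then 3 else 0) = if 2 ≤ n then 0 else 1 := fun n => by
    split_ifs
    exacts [Gd_eq_zero (by norm_num), Gd_eq_one (by norm_num)]
  rw [Tb.s, Cf.s0, Tb.Tk, Tb.Tr, hW.T_zero, hW.T_zero, Cf.T0, Cf.T0, g, g]
  by_cases h : cf.ok0 d q f x K
  · rw [if_pos h, hW.pt_zero h, if_pos (hW.cand_zero.2 h.cand), h.1, h.2, hW.se_zero,
      if_pos ⟨h.cand.1, h.cand.2.1⟩]
    simp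
  · rw [if_neg h]
    split_ifs with h1 h2 h3 h3
    any_goals simp only [mul_zero, zero_mul]
    rw [hW.cand_zero] at h1
    have h4 := Cf.cnt0_eq_one_of h1 h2
    rw [hW.pt_zero' h4] at h1 h3
    exact absurd ⟨h4, Cf.cnt0_eq_one_of (Cf.cand0_symm h1) h3⟩ h

theorem ok0_iff : 0 < (W 0).s cf d q f x K ↔ cf.ok0 d q f x K := by
  rw [hW.s_zero, Cf.s0]
  split_ifs with h <;> simp [h]

/-- The weight of the link on the level `0`. -/
theorem w_pt_zero (h : cf.ok0 d q f x K) : (W 0).w d q x ((W 0).pt cf d q f x K) =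
    cf.w0 d x (cf.p0 d q f x K) * 2 ^ min (q.D true) (q.D false) := by
  have h1 := h.cand.2.1
  rw [hW.pt_zero h, hW.w_zero, if_pos h1]
  have := h1.1
  cases d <;> simp only [Bool.not_true, Bool.not_false] at this <;> rw [this, min_self]

theorem H_zero (hc : cf.Ok) (h : cH * q.age ≤ cf.L) : (W 0).H d q x = cf.H0 d q x := by
  have hn : (W 0).L.n = 2 ^ cf.n0 := by
    rw [hW.L]
    rfl
  rw [hW.HB, Tb.HB, Cf.H0, Cf.pw_eq h, hn]
  simp only [hW.sd_zero, Cf.w0]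
  push_cast
  rw [← sum_div, sum_subset (range_mono hc.N_le) fun y _ hy => ?_]
  by_contra h'
  exact hy (mem_range.2 (Cf.lt_of_ed0 fun e => h' (by rw [e, Nat.cast_zero])).2)

end IsTab

/-! ### Lipschitz bounds -/

section lip

variable (s t : ℝ)

theorem lip_cl (c e : ℝ) : |cl (c * s + e) - cl (c * t + e)| ≤ |c| * |s - t| :=
  (abs_cl_sub _ _).trans_eq (by rw [← abs_mul]; congr 1; ring)

theorem lip_clamp (u v : ℝ) : |max u (min v s) - max u (min v t)| ≤ |s - t| := by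
  refine (abs_max_sub_max_le_max _ _ _ _).trans (max_le (by simp) ?_)
  exact (abs_min_sub_min_le_max _ _ _ _).trans (max_le (by simp) le_rfl)

theorem lip_Gd : |Gd s - Gd t| ≤ |s - t| :=
  (abs_cl_sub _ _).trans_eq (by rw [← abs_neg]; congr 1; ring)

theorem lip_Gp : |Gp s - Gp t| ≤ |s - t| :=
  (abs_cl_sub _ _).trans_eq (by rw [← abs_neg]; congr 1; ring)

theorem lip_psi : |psi s - psi t| ≤ 4 * |s - t| :=
  (abs_cl_sub _ _).trans_eq (by
    rw [sub_sub_sub_cancel_right, ← mul_sub, abs_mul, abs_of_pos (show (0 : ℝ) < 4 by norm_num)])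

theorem lip_psw : |psw s - psw t| ≤ 2 * |s - t| :=
  (abs_cl_sub _ _).trans_eq (by rw [sub_sub_sub_cancel_right, ← mul_sub, abs_mul, abs_two])

theorem lip_pp : |pp s - pp t| ≤ 2 * |s - t| :=
  (abs_cl_sub _ _).trans_eq (by rw [sub_sub_sub_cancel_right, ← mul_sub, abs_mul, abs_two])

theorem lip_gg : |gg s - gg t| ≤ 8 * |s - t| :=
  (abs_cl_sub _ _).trans_eq (by
    rw [sub_sub_sub_cancel_right, ← mul_sub, abs_mul, abs_of_pos (show (0 : ℝ) < 8 by norm_num)])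

theorem lip_rd : |rd s - rd t| ≤ 2 * |s - t| := by
  refine (abs_cl_sub _ _).trans ?_
  rw [sub_sub_sub_cancel_left, ← sub_div, ← mul_sub, abs_div, abs_mul, abs_two, abs_sub_comm,
    abs_of_pos (show (0 : ℝ) < 2 ^ B by positivity)]
  exact div_le_self (by positivity) (one_le_pow₀ one_le_two)

theorem lip_inv : |inv s - inv t| ≤ 4 * |s - t| := by
  have h := lip_clamp s t (1 / 2) 1
  have h1 : 1 / 2 ≤ max (1 / 2) (min 1 s) := le_max_left _ _
  have h2 : 1 / 2 ≤ max (1 / 2) (min 1 t) := le_max_left _ _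
  unfold inv
  generalize max (1 / 2) (min 1 s) = u at *
  generalize max (1 / 2) (min 1 t) = v at *
  have h3 : 1 / 4 ≤ u * v := by nlinarith
  rw [div_sub_div _ _ (by linarith) (by linarith), one_mul, mul_one, abs_div, abs_sub_comm,
    abs_of_pos (show 0 < u * v by linarith), div_le_iff₀ (by linarith)]
  nlinarith [abs_nonneg (s - t)]

theorem lip_cl3 : |cl3 s - cl3 t| ≤ |s - t| := lip_clamp _ _ _ _

theorem lip_clH : |clH s - clH t| ≤ |s - t| := lip_clamp _ _ _ _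

end lip

/-! ### Computability -/

section sp

variable {A α β : Type} [Enc A α] [Enc A β] {Bu : Bud A}

open Classical in
/-- Computable predicates. -/
def PSP (Bu : Bud A) (p : α → Prop) : Prop := SP Bu fun a => decide (p a)

namespace PSP

variable {p p' : α → Prop} {x y e : α → ℕ}

theorem dec (h : PSP Bu p) [DecidablePred p] : SP Bu fun a => decide (p a) :=
  SP.congr h fun _ => by congr

theorem of [DecidablePred p] (h : SP Bu fun a => decide (p a)) : PSP Bu p :=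
  h.congr fun _ => by congr

theorem congr (h : PSP Bu p) (e : ∀ a, p a ↔ p' a) : PSP Bu p' := by
  rwa [show p' = p from funext fun a => propext (e a).symm]

theorem comp {p : β → Prop} {g : α → β} (h : PSP Bu p) (hg : SP Bu g) : PSP Bu fun a => p (g a) :=
  SP.comp h hg

theorem and (h : PSP Bu p) (h' : PSP Bu p') : PSP Bu fun a => p a ∧ p' a := by
  classical exact of (SP.decide_and h.dec h'.dec)

theorem or (h : PSP Bu p) (h' : PSP Bu p') : PSP Bu fun a => p a ∨ p' a := by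
  classical exact of (SP.decide_or h.dec h'.dec)

theorem not (h : PSP Bu p) : PSP Bu fun a => ¬ p a := by
  classical exact of (SP.decide_not h.dec)

theorem iff (h : PSP Bu p) (h' : PSP Bu p') : PSP Bu fun a => p a ↔ p' a :=
  ((h.and h').or (h.not.and h'.not)).congr fun _ => by tauto

theorem eq (hx : SP Bu x) (hy : SP Bu y) : PSP Bu fun a => x a = y a := of (hx.decide_eq hy)

theorem lt (hx : SP Bu x) (hy : SP Bu y) : PSP Bu fun a => x a < y a := of (hx.decide_lt hy)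

theorem le (hx : SP Bu x) (hy : SP Bu y) : PSP Bu fun a => x a ≤ y a := of (hx.decide_le hy)

theorem bool {b : α → Bool} (hb : SP Bu b) : PSP Bu fun a => b a = true := of hb.decide_true

theorem beq {b c : α → Bool} (hb : SP Bu b) (hc : SP Bu c) : PSP Bu fun a => b a = c a :=
  ((bool hb).iff (bool hc)).congr fun _ => Bool.eq_iff_iff.symm

theorem lt_pow (hx : SP Bu x) (he : SP Bu e) : PSP Bu fun a => x a < 2 ^ e a :=
  (eq (hx.div_pow (SP.const 2) he) (SP.const 0)).congr fun a => by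
    simp [Nat.div_eq_zero_iff]

theorem ite (h : PSP Bu p) {f g : α → β} (hf : SP Bu f) (hg : SP Bu g) [DecidablePred p] :
    SP Bu fun a => if p a then f a else g a := SP.ite h.dec hf hg

theorem rite (h : PSP Bu p) {f g : α → ℝ} (hf : RSP Bu f) (hg : RSP Bu g) [DecidablePred p] :
    RSP Bu fun a => if p a then f a else g a := RSP.ite h.dec hf hg

end PSP

/-- A variable direction. -/
theorem sp_dirs {F : Bool → α → β} (h : ∀ d, SP Bu (F d)) {e : α → Bool} (he : SP Bu e) :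
    SP Bu fun a => F (e a) a :=
  ((PSP.bool he).ite (h true) (h false)).congr fun a => by cases e a <;> rfl

theorem rsp_dirs {F : Bool → α → ℝ} (h : ∀ d, RSP Bu (F d)) {e : α → Bool} (he : SP Bu e) :
    RSP Bu fun a => F (e a) a :=
  ((PSP.bool he).rite (h true) (h false)).congr fun a => by cases e a <;> rfl

theorem sp_two (d e : Bool) {u v : α → β} (hu : SP Bu u) (hv : SP Bu v) :
    SP Bu fun a => two d (u a) (v a) e := by
  unfold two
  split_ifs
  exacts [hu, hv]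

theorem sp_shl {m v e : α → ℕ} (hm : SP Bu fun a => 2 ^ m a) (hv : SP Bu v) (he : SP Bu e) :
    SP Bu fun a => shl (m a) (v a) (e a) := by
  refine ((hv.mul (hm.min_pow (SP.const 2) he)).mod hm).congr fun a => ?_
  rcases le_total (m a) (e a) with h | h
  · rw [min_eq_left (Nat.pow_le_pow_right two_pos h), Nat.mul_mod_left, shl,
      Nat.mod_eq_zero_of_dvd (Dvd.dvd.mul_left (pow_dvd_pow 2 h) _)]
  · rw [min_eq_right (Nat.pow_le_pow_right two_pos h), shl]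

theorem mu_le' (n0 : ℕ) (d : Bool) (x : ℕ) : ∀ k, mu n0 k d x ≤ k
  | 0 => le_rfl
  | k + 1 => by
    have := mu_le' n0 d x k
    rw [mu]
    split_ifs <;> omega

theorem sp_mu (d : Bool) {n0 k x : α → ℕ} (h0 : SP Bu n0) (hk : SP Bu k) (hx : SP Bu x) :
    SP Bu fun a => mu (n0 a) (k a) d (x a) := by
  have key : ∀ n0 x k : ℕ, Nat.rec (motive := fun _ => ℕ) 0
      (fun i s => if (((dg n0 i x).ed d).2.2.1 : ℕ) = 2 then 0 else s + 1) k = mu n0 k d x := by
    intro n0 x k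
    induction k with
    | zero => rfl
    | succ k ih =>
      rw [mu, ← ih]
      exact if_congr (Fin.ext_iff (b := 2)).symm rfl rfl
  refine (SP.natRec (step := fun a i s =>
    if (((dg (n0 a) i (x a)).ed d).2.2.1 : ℕ) = 2 then 0 else s + 1) hk (SP.const 0)
    (SP.ite ((sp_dg (fun g => (g.ed d).2.2.1) (h0.comp SP.fst') SP.snd'.fst
      (hx.comp SP.fst')).decide_eq (SP.const 2)) (SP.const 0) (SP.snd'.snd.add (SP.const 1)))
    hk.pbd fun _ a _ j hj => ?_).congr fun a => key _ _ _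
  rw [key]
  exact (mu_le' _ _ _ _).trans hj

theorem psp_mt (d : Bool) {l hn hf : α → ℕ} {f : α → Bool → ℕ} (hl : SP Bu l)
    (h : ∀ e, SP Bu fun a => f a e) (h1 : SP Bu hn) (h2 : SP Bu hf) :
    PSP Bu fun a => mt (l a) (f a) d (hn a) (hf a) :=
  (PSP.lt_pow (sp_mod_two_pow h1 (hl.add (h d))) hl).and
    (PSP.eq (sp_mod_two_pow h2 (hl.add (h (!d)))) (sp_mod_two_pow h1 (hl.add (h d))))

theorem psp_vld {c : α → ℕ} (hc : SP Bu c) : PSP Bu fun a => vld (c a) := by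
  classical exact PSP.of (sp_vld hc)

theorem psp_dig (p : Dig → Prop) {c : α → ℕ} (hc : SP Bu c) :
    PSP Bu fun a => p (Hi.dig (c a)) := by
  classical exact PSP.of (sp_dig_prop p hc)

/-- Computable views. -/
structure VwSP (Bu : Bud A) (v : α → Hi.View) : Prop where
  l : SP Bu fun a => (v a).l
  lam : SP Bu fun a => (v a).lam
  wt : SP Bu fun a => (v a).wt

/-- Computable edge digits. -/
structure EdSP (Bu : Bud A) (s : α → ED) : Prop where
  l : SP Bu fun a => ((s a).1 : ℕ)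
  lam : SP Bu fun a => ((s a).2.1 : ℕ)
  o : SP Bu fun a => ((s a).2.2.1 : ℕ)
  wt : SP Bu fun a => (s a).2.2.2

theorem edSP_dig (e : Bool) {c : α → ℕ} (hc : SP Bu c) : EdSP Bu fun a => (Hi.dig (c a)).ed e :=
  ⟨sp_dig (fun g => (g.ed e).1) hc, sp_dig (fun g => (g.ed e).2.1) hc,
    sp_dig (fun g => (g.ed e).2.2.1) hc, sp_dig_bool (fun g => (g.ed e).2.2.2) hc⟩

theorem psp_fit {p q : α → Hi.View} {s t : α → ED} (hp : VwSP Bu p) (hq : VwSP Bu q)
    (hs : EdSP Bu s) (ht : EdSP Bu t) : PSP Bu fun a => fit (p a) (q a) (s a) (t a) := by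
  have h0 : PSP Bu fun a => (s a).2.2.1 = 0 :=
    (PSP.eq hs.o (SP.const 0)).congr fun a => (Fin.ext_iff (b := 0)).symm
  have hl : ∀ {p q : α → Hi.View}, VwSP Bu p → VwSP Bu q →
      SP Bu fun a => dl (s a).2.2.1 (p a) (q a) := fun hp hq =>
    (h0.and (PSP.beq hp.wt (SP.const false))).ite (SP.const B) ((SP.const B).min (hq.l.sub hp.l))
  have hm : ∀ {p q : α → Hi.View}, VwSP Bu p → VwSP Bu q →
      SP Bu fun a => dm (s a).2.2.1 (p a) (q a) := fun hp hq =>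
    ((SP.const C).min (hq.lam.sub hp.lam)).add (h0.ite (SP.const 1) (SP.const 0))
  exact (((PSP.eq hs.o ht.o).and (PSP.beq hs.wt ht.wt)).congr fun a => by
      rw [Prod.ext_iff, Fin.ext_iff]).and
    (((PSP.beq hs.wt (SP.const false)).iff
      ((PSP.eq (hp.l.add (hl hp hq)) (hq.l.add (hl hq hp))).and
        (PSP.eq (hp.lam.add (hm hp hq)) (hq.lam.add (hm hq hp))))).and
      ((PSP.eq hs.l (hl hp hq)).and ((PSP.eq ht.l (hl hq hp)).and
        ((PSP.eq hs.lam (hm hp hq)).and (PSP.eq ht.lam (hm hq hp))))))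

/-- Computable contexts. -/
structure Cx.IsSP (Bu : Bud A) (q : α → Cx) : Prop where
  age : SP Bu fun a => (q a).age
  D : ∀ e, SP Bu fun a => (q a).D e
  E : ∀ e, SP Bu fun a => (q a).E e

namespace Cx.IsSP

variable {q : α → Cx} (hq : Cx.IsSP Bu q)

theorem q0 : Cx.IsSP Bu fun _ : α => q0 := ⟨SP.const 0, fun _ => SP.const 0, fun _ => SP.const 0⟩

include hq

theorem comp {g : β → α} (hg : SP Bu g) : Cx.IsSP Bu fun b => q (g b) :=
  ⟨hq.age.comp hg, fun e => (hq.D e).comp hg, fun e => (hq.E e).comp hg⟩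

theorem up {b : α → ℕ} {c : α → Bool → ℕ} (hb : SP Bu b) (hc : ∀ e, SP Bu fun a => c a e) :
    Cx.IsSP Bu fun a => (q a).up (b a) (c a) :=
  ⟨hq.age.add hb, fun e => (hq.D e).add (SP.sum_range hb (sp_dg (fun g => (g.ed e).1)
      (SP.const 0) SP.snd' ((hc e).comp SP.fst'))),
    fun e => (hq.E e).add (SP.sum_range hb (sp_dg (fun g => (g.ed e).2.1)
      (SP.const 0) SP.snd' ((hc e).comp SP.fst')))⟩

theorem hb {m : α → ℕ} (hm : SP Bu m) : SP Bu fun a => hb (q a) (m a) :=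
  (hq.age.add (SP.const 1)).min hm

theorem om {b : α → ℕ} {r : α → Lab} (hb : SP Bu b) (hr : ∀ e, SP Bu fun a => (r a).1 e) :
    SP Bu fun a => om (b a) (q a) (r a) :=
  ((hq.up hb hr).D true).max ((hq.up hb hr).D false)

end Cx.IsSP

/-- Computable inputs. -/
structure Cf.IsSP (Bu : Bud A) (cf : α → Cf) : Prop where
  N : SP Bu fun a => (cf a).N
  n0 : SP Bu fun a => (cf a).n0
  K : SP Bu fun a => (cf a).K
  L : SP Bu fun a => (cf a).L
  m : SP Bu fun a => (cf a).m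
  A0 : SP Bu fun p : α × ℕ × ℕ => (cf p.1).A0 p.2.1 p.2.2
  pL : SP Bu fun a => 2 ^ (cf a).L
  pm : SP Bu fun a => 2 ^ (cf a).m

namespace Cf.IsSP

variable {cf : α → Cf} (hc : Cf.IsSP Bu cf) (d : Bool) {q : α → Cx} {f : α → Bool → ℕ}
  {s v x y h t j : α → ℕ} {k : α → Key} {Ks : α → Bool → Key}
include hc

theorem comp {g : β → α} (hg : SP Bu g) : Cf.IsSP Bu fun b => cf (g b) :=
  ⟨hc.N.comp hg, hc.n0.comp hg, hc.K.comp hg, hc.L.comp hg, hc.m.comp hg,
    hc.A0.comp ((hg.comp SP.fst').pair SP.snd'), hc.pL.comp hg, hc.pm.comp hg⟩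

theorem lin (hs : SP Bu s) (hv : SP Bu v) : SP Bu fun a => lin (cf a).L (cf a).m (s a) (v a) :=
  sp_lin hc.L hc.m (hc.pm.add hc.pL)
    (fun _ _ _ => ⟨Nat.le_add_right _ _, Nat.le_add_left _ _⟩) hs hv

theorem val (hk : SP Bu k) (hv : SP Bu v) : SP Bu fun a => (cf a).val (k a) (v a) :=
  KH.sp_xor (hc.lin hk.fst hv) hk.snd

theorem rot (hs : SP Bu s) (hv : SP Bu v) (hh : SP Bu h) :
    SP Bu fun a => (cf a).rot (s a) (v a) (h a) := hs.pair (KH.sp_xor (hc.lin hs hv) hh)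

theorem ent (hk : SP Bu k) (hv : SP Bu v) (ht : SP Bu t) :
    SP Bu fun a => (cf a).ent (k a) (v a) (t a) :=
  hk.fst.pair (KH.sp_xor (KH.sp_xor hk.snd (hc.lin hk.fst hv)) ht)

theorem pw (ht : SP Bu t) : SP Bu fun a => (cf a).pw (t a) :=
  (hc.pL.min_pow (SP.const 2) ht).congr fun a => by
    rcases le_total (t a) (cf a).L with h | h
    · rw [min_eq_right (Nat.pow_le_pow_right two_pos h), Cf.pw, min_eq_left h]
    · rw [min_eq_left (Nat.pow_le_pow_right two_pos h), Cf.pw, min_eq_right h]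

theorem rpw (ht : SP Bu t) : RSP Bu fun a => ((cf a).pw (t a) : ℝ) := RSP.natCast (hc.pw ht)

theorem shl (hv : SP Bu v) (ht : SP Bu t) : SP Bu fun a => shl (cf a).m (v a) (t a) :=
  sp_shl hc.pm hv ht

theorem mu (hj : SP Bu j) (hx : SP Bu x) : SP Bu fun a => mu (cf a).n0 (j a) d (x a) :=
  sp_mu d hc.n0 hj hx

theorem vv (hj : SP Bu j) (hx : SP Bu x) : VwSP Bu fun a => (cf a).vv (j a) d (x a) :=
  ⟨sp_vw_l d hc.n0 hj hx, sp_vw_lam d hc.N hc.n0 hc.K hj hx, sp_vw_wt d hc.n0 hj hx⟩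

theorem ed0 (hx : SP Bu x) (hy : SP Bu y) : SP Bu fun a => (cf a).ed0 d (x a) (y a) := by
  refine ((PSP.lt hx hc.N).and (PSP.lt hy hc.N)).ite ?_ (SP.const 0)
  cases d
  exacts [hc.A0.comp (SP.id.pair (hy.pair hx)), hc.A0.comp (SP.id.pair (hx.pair hy))]

theorem vis0 (hq : Cx.IsSP Bu q) (hx : SP Bu x) (hy : SP Bu y) :
    PSP Bu fun a => (cf a).vis0 d (q a) (x a) (y a) :=
  (PSP.eq (hq.D d) (hq.D (!d))).and (PSP.eq ((hc.vv d (SP.const 0) hx).lam.add (hq.E d))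
    ((hc.vv (!d) (SP.const 0) hy).lam.add (hq.E (!d))))

theorem cand0 (hq : Cx.IsSP Bu q) (hf : ∀ e, SP Bu fun a => f a e) (hx : SP Bu x) (hh : SP Bu h)
    (hk : SP Bu k) (hy : SP Bu y) :
    PSP Bu fun a => (cf a).cand0 d (q a) (f a) (x a) (h a) (k a) (y a) :=
  (PSP.eq (hc.ed0 d hx hy) (SP.const 0)).not.and ((hc.vis0 d hq hx hy).and
    (psp_mt d (hq.D d) hf hh (hc.val hk hy)))

theorem cnt0 (hq : Cx.IsSP Bu q) (hf : ∀ e, SP Bu fun a => f a e) (hx : SP Bu x) (hh : SP Bu h)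
    (hk : SP Bu k) : SP Bu fun a => (cf a).cnt0 d (q a) (f a) (x a) (h a) (k a) := by
  classical
  exact SP.sum_range hc.N (((hc.comp SP.fst').cand0 d (hq.comp SP.fst')
    (fun e => (hf e).comp SP.fst') (hx.comp SP.fst') (hh.comp SP.fst') (hk.comp SP.fst')
    SP.snd').ite (SP.const 1) (SP.const 0))

theorem T0 (hq : Cx.IsSP Bu q) (hf : ∀ e, SP Bu fun a => f a e) (hx : SP Bu x) (hh : SP Bu h)
    (hk : SP Bu k) : RSP Bu fun a => (cf a).T0 d (q a) (f a) (x a) (h a) (k a) :=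
  (PSP.le (SP.const 2) (hc.cnt0 d hq hf hx hh hk)).rite (RSP.ofNat 3) RSP.zero

theorem p0 (hq : Cx.IsSP Bu q) (hf : ∀ e, SP Bu fun a => f a e) (hx : SP Bu x)
    (hK : ∀ e, SP Bu fun a => Ks a e) : SP Bu fun a => (cf a).p0 d (q a) (f a) (x a) (Ks a) := by
  classical
  exact SP.sum_range hc.N (((hc.comp SP.fst').cand0 d (hq.comp SP.fst')
    (fun e => (hf e).comp SP.fst') (hx.comp SP.fst') ((hc.val (hK d) hx).comp SP.fst')
    ((hK (!d)).comp SP.fst') SP.snd').ite SP.snd' (SP.const 0))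

theorem ok0 (hq : Cx.IsSP Bu q) (hf : ∀ e, SP Bu fun a => f a e) (hx : SP Bu x)
    (hK : ∀ e, SP Bu fun a => Ks a e) : PSP Bu fun a => (cf a).ok0 d (q a) (f a) (x a) (Ks a) :=
  (PSP.eq (hc.cnt0 d hq hf hx (hc.val (hK d) hx) (hK (!d))) (SP.const 1)).and
    (PSP.eq (hc.cnt0 (!d) hq hf (hc.p0 d hq hf hx hK) (hc.val (hK (!d)) (hc.p0 d hq hf hx hK))
      (hK d)) (SP.const 1))

theorem s0 (hq : Cx.IsSP Bu q) (hf : ∀ e, SP Bu fun a => f a e) (hx : SP Bu x)
    (hK : ∀ e, SP Bu fun a => Ks a e) : RSP Bu fun a => (cf a).s0 d (q a) (f a) (x a) (Ks a) := by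
  classical exact (hc.ok0 d hq hf hx hK).rite RSP.one RSP.zero

theorem w0 (hx : SP Bu x) (hy : SP Bu y) : RSP Bu fun a => (cf a).w0 d (x a) (y a) :=
  (RSP.natCast (hc.ed0 d hx hy)).div (RSP.ofNat 2)

theorem H0 (hq : Cx.IsSP Bu q) (hx : SP Bu x) : RSP Bu fun a => (cf a).H0 d (q a) (x a) :=
  ((RSP.natCast (SP.sum_range hc.N ((hc.comp SP.fst').ed0 d (hx.comp SP.fst') SP.snd'))).div
    (RSP.ofNat 2)).div (hc.rpw ((SP.const cH).mul hq.age))

end Cf.IsSP

variable {t : α → ℝ} (ht : RSP Bu t)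
include ht

theorem rsp_Gd : RSP Bu fun a => Gd (t a) := rsp_cl ((RSP.ofNat 2).sub ht)

theorem rsp_Gp : RSP Bu fun a => Gp (t a) := rsp_cl ((RSP.ofNat 3).sub ht)

theorem rsp_psi : RSP Bu fun a => psi (t a) := rsp_cl (((RSP.ofNat 4).mul ht).sub (RSP.ofNat 3))

theorem rsp_psw : RSP Bu fun a => psw (t a) :=
  rsp_cl (((RSP.ofNat 2).mul ht).sub (RSP.one.div (RSP.ofNat 2)))

theorem rsp_pp : RSP Bu fun a => pp (t a) := rsp_cl (((RSP.ofNat 2).mul ht).sub RSP.one)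

theorem rsp_gg : RSP Bu fun a => gg (t a) := rsp_cl (((RSP.ofNat 8).mul ht).sub RSP.one)

theorem rsp_rd : RSP Bu fun a => rd (t a) :=
  rsp_cl ((RSP.ofNat 3).sub (((RSP.ofNat 2).mul ht).div (rsp_two_pow (SP.const (2 ^ B)))))

theorem rsp_inv : RSP Bu fun a => inv (t a) :=
  RSP.one.div ((RSP.one.div (RSP.ofNat 2)).max (RSP.one.min ht))

theorem rsp_cl3 : RSP Bu fun a => cl3 (t a) := RSP.zero.max ((RSP.ofNat 3).min ht)

theorem rsp_clH : RSP Bu fun a => clH (t a) :=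
  RSP.zero.max ((rsp_two_pow (SP.const (2 ^ (B + 1)))).min ht)

end sp

end Vale.Agent.P313.Full
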