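import Vale.Agent.P313.Full.PgS0
import Vale.Agent.P313.Full.PgWS
import Vale.Agent.P313.Full.TabSP

/-! The structural conditions for the procedures for merged names and for the level `0`. -/

namespace Vale.Agent.P313.Full

open Finset Function Hi Tm

variable {α : Type} {I : α → In} {a : α}

namespace S2

/-! ### Numbers -/

/-- The unit for the exponents. -/
noncomputable def wd (q : QQ) : ℕ := cw * (q .age + 1)

theorem wd_ge (q : QQ) : 6 * B + 40 + q .age ≤ wd q := by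
  have h1 : q .age ≤ cw * q .age := Nat.le_mul_of_pos_left _ one_le_cw
  have h2 : 6 * B + 40 ≤ cw := by unfold cw cZ; omega
  rw [wd, mul_add]
  omega

theorem mul_le_wd {c : ℕ} (hc : c ≤ cw) (q : QQ) : c * (q .age + 1) ≤ wd q :=
  Nat.mul_le_mul_right _ hc

theorem fil_le_wd (q : QQ) : cZ + cS * q .age ≤ wd q := by
  have h1 := mul_le_wd (c := cZ + cS) (by unfold cw; omega) q
  rw [add_mul, mul_add, mul_add] at h1
  omega

theorem pw_le' (cf : Cf) {e w : ℕ} (h : e ≤ w) : (cf.pw e : ℝ) ≤ 2 ^ w := by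
  exact_mod_cast (cf.pw_le e).trans (Nat.pow_le_pow_right two_pos h)

theorem one_le_pw (cf : Cf) (e : ℕ) : (1 : ℝ) ≤ cf.pw e := by exact_mod_cast cf.pw_pos e

theorem iTa_le (q : QQ) : iTa I a q ≤ 2 ^ wd q := pw_le' _ (by have := wd_ge q; omega)

theorem iTh_le (q : QQ) : iTh I a q ≤ 2 ^ wd q := pw_le' _ (by have := wd_ge q; omega)

theorem scX_le (q : QQ) : scX I a q ≤ 2 ^ (8 * wd q) := pw_le' _ le_rfl

theorem lip_of {u v k K x y : ℝ} (h : u - v = k * (x - y)) (h0 : 0 ≤ k) (hk : k ≤ K) :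
    |u - v| ≤ K * |x - y| := by
  rw [h, abs_mul, abs_of_nonneg h0]
  exact mul_le_mul_of_nonneg_right hk (abs_nonneg _)

theorem lip_two {u v k l K x y x' y' ε : ℝ} (h : u - v = k * (x - x') + l * (y - y'))
    (hk : |k| + |l| ≤ K) (h1 : |x - x'| ≤ ε) (h2 : |y - y'| ≤ ε) : |u - v| ≤ K * ε := by
  rw [h]
  refine (abs_add_le _ _).trans ?_
  rw [abs_mul, abs_mul]
  have h3 := mul_le_mul_of_nonneg_left h1 (abs_nonneg k)
  have h4 := mul_le_mul_of_nonneg_left h2 (abs_nonneg l)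
  have h5 := mul_le_mul_of_nonneg_right hk ((abs_nonneg _).trans h1)
  linarith

theorem abs_cl3_le (x : ℝ) {b : ℕ} (hb : 2 ≤ b) : |cl3 x| ≤ 2 ^ b := by
  rw [abs_of_nonneg (cl3_nonneg x)]
  exact (cl3_le x).trans (le_trans (by norm_num) (pow_le_pow_right₀ one_le_two hb))

theorem abs_clH_le (x : ℝ) {b : ℕ} (hb : B + 1 ≤ b) : |clH x| ≤ 2 ^ b := by
  rw [abs_of_nonneg (clH_nonneg x)]
  exact (clH_le x).trans (pow_le_pow_right₀ one_le_two hb)

theorem abs_cl_le' (x : ℝ) (b : ℕ) : |cl x| ≤ 2 ^ b := (abs_cl_le x).trans (one_le_pow₀ one_le_two)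

/-! ### Nodes -/

variable (I a) in
/-- A node in a procedure for merged names. -/
structure Mc (r n p : ℕ) (q : QQ) : Prop where
  sc : Sc I a r n p q
  n_eq : n = nA * (q .age + 1)
  lev : q .lev ≠ 0
  rk : 1 ≤ r

variable {r n p : ℕ} {q : QQ} {c : QQ → Prop} {e e₁ e₂ g M : Trm α} {d d' : Bool}

theorem Mc.lab (h : Mc I a r n p q) {u : ℕ} (hu : u < (I a).nl q) :
    Mc I a r n p (update q .lab u) :=
  ⟨h.sc.lab' hu, by simpa using h.n_eq, by simpa using h.lev, h.rk⟩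

theorem Mc.n_wd (h : Mc I a r n p q) : n = 10 * wd q := by rw [h.n_eq, nA, wd, mul_assoc]

/-- All constants which occur are below `2 ^ n`. -/
theorem Mc.le (h : Mc I a r n p q) {x : ℝ} {i : ℕ} (hi : i ≤ 9) (hx : x ≤ 16 * (2 ^ wd q) ^ i) :
    x ≤ 2 ^ n := by
  refine hx.trans ?_
  rw [← pow_mul, show (16 : ℝ) = 2 ^ 4 by norm_num, ← pow_add, h.n_wd]
  have h1 := wd_ge q
  have h2 := Nat.mul_le_mul_left (wd q) hi
  exact pow_le_pow_right₀ one_le_two (by omega)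

theorem Mc.B_le (h : Mc I a r n p q) : B + 4 ≤ n := h.sc.n_ge

theorem Mc.nl_le (h : Mc I a r n p q) : (I a).nl q ≤ 2 ^ n :=
  ((I a).pw_le _).trans (Nat.pow_le_pow_right two_pos (by rw [h.n_wd, wd]; omega))

theorem Mc.D_le (h : Mc I a r n p q) (e : Bool) : q (.D e) ≤ B * q .age := h.sc.fok.D e

theorem Mc.pD_le (h : Mc I a r n p q) : pD I a q ≤ 2 ^ wd q := by
  refine pw_le' _ ((min_le_left _ _).trans ((h.D_le true).trans ?_))
  exact (Nat.mul_le_mul_left _ (Nat.le_succ _)).trans (mul_le_wd B_le_cw q)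

theorem Mc.scH_le (h : Mc I a r n p q) : scH I a q ≤ (2 ^ wd q) ^ 3 := by
  have h1 : ((I a).pw (2 * (cZ + cS * q .age)) : ℝ) ≤ (2 ^ wd q) ^ 2 := by
    rw [← pow_mul]
    exact pw_le' _ (by have := fil_le_wd q; omega)
  rw [pow_succ]
  exact mul_le_mul ((div_le_self (Nat.cast_nonneg _) (one_le_pw _ _)).trans h1) h.pD_le
    (Nat.cast_nonneg _) (by positivity)

theorem Mc.cxM_le (h : Mc I a r n p q) : (cxM q).D true + (cxM q).D false + cZ ≤ n := by
  have h1 : ∀ e, (cxM q).D e ≤ wd q := fun e => ((cx q).up_D_le 1 _ e).trans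
    ((Nat.add_le_add_right (h.D_le e) _).trans ((mul_add _ _ _).ge.trans (mul_le_wd B_le_cw q)))
  have h2 := fil_le_wd q
  have h3 := h1 true
  have h4 := h1 false
  rw [h.n_wd]
  omega

variable (I a) in
/-- The term satisfies the structural conditions at all nodes with the property `c`. -/
def Ok (r n p : ℕ) (c : QQ → Prop) (e : Trm α) (m : Bool) : Prop :=
  ∀ q, Mc I a r n p q → c q → (prog I).Str a n p e q m

/-- There is no label. -/
def nL (q : QQ) : Prop := q .lab = 0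

theorem mem_bx {s : SS} : s ∈ (prog I).box a ↔ s ∈ box (I a).bd := by
  rw [box_eq (P := prog I) (I := I) rfl]

theorem Ok.gd (h1 : Ok I a r n p c g false) (h2 : Ok I a r n p c e false) :
    Ok I a r n p c (.guard g e) false := fun q h hc => ⟨rfl, h1 q h hc, h2 q h hc⟩

theorem Ok.hp (h1 : Ok I a r n p c M true) (h2 : Ok I a r n p c e false) :
    Ok I a r n p c (.hop d M e) false := fun q h hc => ⟨rfl, h1 q h hc, h2 q h hc⟩

theorem Ok.enM (h1 : Ok I a r n p c e false) : Ok I a r n p c (aft (enM I d) e) false :=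
  fun q h hc => Pg.str_aft (fun _ hs => ⟨mem_bx.2 (Cf.ens_mem (mem_bx.1 hs)), Cf.ens_ens⟩)
    (h1 q h hc)

theorem ok_ts {t : Cf → QQ → SS → Prop} : Ok I a r n p c (ts I t) false :=
  fun _ _ _ => Pg.str_tst _

theorem ok_one : Ok I a r n p c (cst 1) false := fun _ _ _ => Pg.str_cst (by simp)

theorem ok_chT : Ok I a r n p c (chT I) false := fun _ _ _ =>
  ⟨rfl, fun _ _ => (abs_chr _ _ _).trans_le (one_le_pow₀ one_le_two)⟩

theorem Ok.rot {i : Option Bool} {b : ℕ} (h1 : Ok I a r n p c e false) :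
    Ok I a r n p c (avg (rotV I i b) e) false := fun q h hc => ⟨rfl, ok_rotV rfl _ _, h1 q h hc⟩

theorem Ok.avR (h1 : Ok I a r n p c e false) : Ok I a r n p c (avR I d e) false := h1.rot

theorem Ok.key {i : Option Bool} (h1 : Ok I a r n p c e false) :
    Ok I a r n p c (avg (keyV I i) e) false :=
  fun q h hc => ⟨rfl, ok_keyV rfl h.sc.ok _, h1 q h hc⟩

theorem Ok.ch (h1 : Ok I a r n p c e false) : Ok I a r n p c (avg (chV I) e) false :=
  fun q h hc => ⟨rfl, ok_chV rfl, h1 q h hc⟩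

theorem Ok.ap {φ : α → QQ → SS → ℝ → ℝ} (h1 : Ok I a r n p c e false)
    (h2 : ∀ q s x, Mc I a r n p q → |φ a q s x| ≤ 2 ^ n)
    (h3 : ∀ q s x x', Mc I a r n p q → |φ a q s x - φ a q s x'| ≤ 2 ^ n * |x - x'|) :
    Ok I a r n p c (ap1 φ e) false :=
  fun q h hc => Pg.str_ap1 (fun s _ x => h2 q s x h) (fun s _ x x' => h3 q s x x' h) (h1 q h hc)

theorem Ok.fn {φ : ℝ → ℝ} (h1 : Ok I a r n p c e false) (h2 : ∀ x, |φ x| ≤ 2)
    (h3 : ∀ x x', |φ x - φ x'| ≤ 8 * |x - x'|) : Ok I a r n p c (fn φ e) false :=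
  h1.ap (fun _ _ x h => h.le (i := 0) (by norm_num) ((h2 x).trans (by norm_num)))
    fun _ _ x x' h => (h3 x x').trans (mul_le_mul_of_nonneg_right
      (h.le (i := 0) (by norm_num) (by norm_num)) (abs_nonneg _))

theorem Ok.Gd (h1 : Ok I a r n p c e false) : Ok I a r n p c (Full.fn Gd e) false :=
  h1.fn (fun _ => (abs_cl_le _).trans one_le_two) fun x x' =>
    (lip_Gd x x').trans (by linarith [abs_nonneg (x - x')])

theorem Ok.Gp (h1 : Ok I a r n p c e false) : Ok I a r n p c (Full.fn Gp e) false :=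
  h1.fn (fun _ => (abs_cl_le _).trans one_le_two) fun x x' =>
    (lip_Gp x x').trans (by linarith [abs_nonneg (x - x')])

theorem Ok.gg (h1 : Ok I a r n p c e false) : Ok I a r n p c (Full.fn gg e) false :=
  h1.fn (fun _ => (abs_cl_le _).trans one_le_two) lip_gg

theorem Ok.hG (h1 : Ok I a r n p c e false) : Ok I a r n p c (Full.fn hG e) false :=
  h1.fn (fun _ => (abs_cl_le _).trans one_le_two) fun x x' =>
    (lip_pp _ _).trans (by linarith [abs_nonneg (x - x'), lip_Gd x x'])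

theorem Ok.inv (h1 : Ok I a r n p c e false) : Ok I a r n p c (Full.fn Full.inv e) false :=
  h1.fn (fun x => (abs_of_pos (inv_pos' x)).trans_le (inv_le_two x)) fun x x' =>
    (lip_inv x x').trans (by linarith [abs_nonneg (x - x')])

theorem str_cs {m : Bool} (h1 : c q → (prog I).Str a n p e₁ q m)
    (h2 : ¬c q → (prog I).Str a n p e₂ q m) : (prog I).Str a n p (cs c e₁ e₂) q m := by
  unfold cs Pg.Str
  split_ifs with h
  exacts [h1 (by simpa using h), h2 (by simpa using h)]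

theorem Ok.avL (h1 : Ok I a r n p vM e false) : Ok I a r n p nL (avL I e) false :=
  Ok.key fun _ h hc => ⟨rfl, hc, h.nl_le, fun _ hu =>
    str_cs (h1 _ (h.lab hu)) fun _ => Pg.str_cst (by simp)⟩

/-! ### Calls -/

theorem ok_T (hr : 2 < r) : Ok I a r n p c (cl' (.T false d) F0) false :=
  fun _ h _ => h.sc.F0 (t := .T false d) hr ⟨rfl, rfl⟩

theorem ok_St (hr : 3 < r) : Ok I a r n p c (cl' (.St false) F0) true :=
  fun _ h _ => h.sc.F0 (t := .St false) hr ⟨rfl, rfl⟩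

theorem ok_W (hr : 4 < r) : Ok I a r n p c (cl' (.W false d) F0) false :=
  fun _ h _ => h.sc.F0 (t := .W false d) hr ⟨rfl, rfl⟩

theorem ok_S (hr : 5 < r) : Ok I a r n p c (cl' (.S false d) F0) false :=
  fun _ h _ => h.sc.F0 (t := .S false d) hr ⟨rfl, rfl⟩

theorem ok_X (hr : 1 < r) : Ok I a r n p c (cl' (.X d) F0) false :=
  fun _ h _ => h.sc.F0 (t := .X d) hr ⟨rfl, rfl, h.lev⟩

theorem ok_inH {t : Pc} (ht : t.rk ≤ 10) (hm : t.mvp = false) (ha : ∀ q, t.ad (FM d q)) :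
    Ok I a r n p vM (inH d t) false := fun q h hc =>
  Pg.str_aft (fun s hs => ⟨mem_bx.2 (Cf.sw_mem (mem_bx.1 hs)), sw_sw d s⟩)
    (hm ▸ h.sc.FM h.rk h.lev hc ht (ha q))

theorem ok_half : Ok I a r n p vM (half d) true := fun _ h hc => h.sc.half h.rk h.lev hc

theorem ok_linkM : Ok I a r n p vM (linkM I) true := fun _ h hc => h.sc.linkM h.rk h.lev hc

theorem Mc.frH (h : Mc I a r n p q) (e : Bool) : (prog I).Str a n p (frH e lvM) q false :=
  h.sc.frH h.rk (Nat.sub_lt (Nat.pos_of_ne_zero h.lev) one_pos) (by unfold lvM; omega)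

theorem ok_inW : Ok I a r n p vM (inH d (.W true (!d))) false :=
  ok_inH (by simp [Pc.rk]) rfl fun _ => ⟨rfl, rfl⟩

theorem ok_wZ : Ok I a r n p vM (wZ I) false := fun q h hc =>
  str_wZ rfl (by have := h.B_le; omega) h.cxM_le
    ((Nat.sub_le _ _).trans ((Nat.le_add_left _ _).trans h.sc.fok.age)) (fun _ => ok_half q h hc)
    (fun _ => ok_inW q h hc) h.frH

theorem ok_wI : Ok I a r n p vM (wI I d) false := fun q h hc =>
  str_wI (by have := h.B_le; omega) h.cxM_le (fun _ => ok_half q h hc) (fun _ => ok_inW q h hc)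
    h.frH

/-! ### The terms of a link -/

theorem ok_inT : Ok I a r n p vM (inH d (.T true d')) false :=
  ok_inH (by simp [Pc.rk]) rfl fun _ => ⟨rfl, rfl⟩

theorem ok_inS : Ok I a r n p vM (inH d (.S true d')) false :=
  ok_inH le_rfl rfl fun _ => ⟨rfl, rfl⟩

theorem ok_g1t : Ok I a r n p vM (g1t d) false := ok_inS.gg

theorem ok_g2t : Ok I a r n p vM (g2t d) false := ok_inS.gg

theorem ok_hGt : Ok I a r n p vM (hGt d d') false := ok_inT.hG

theorem Ok.a1t (h : Ok I a r n p vM e false) : Ok I a r n p vM (a1t I d e) false :=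
  ok_ts.gd (ok_g1t.gd (ok_hGt.gd (ok_half.hp (ok_ts.gd (ok_hGt.gd h))))).enM

theorem Ok.Zt (h1 : Ok I a r n p vM e₁ false) (h2 : Ok I a r n p vM e₂ false) :
    Ok I a r n p vM (Zt I d e₁ e₂) false :=
  (ok_g2t.gd (ok_hGt.gd ((ok_half.hp ok_hGt).gd (ok_wZ.gd (h1.gd (ok_half.hp h2.enM)))))).a1t

theorem Ok.mass (h : Ok I a r n p vM e false) : Ok I a r n p nL (mass I d e) false :=
  (ok_one.Zt h).avL

theorem ok_g2n : Ok I a r n p vM (g2n I d) false := (ok_half.hp ok_g2t).enM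

theorem ok_alT : Ok I a r n p vM (alT I d) false :=
  ok_ts.gd (ok_g1t.gd (ok_half.hp ok_hGt)).enM

theorem ok_pAt (hr : 2 < r) : Ok I a r n p vM (pAt I d) false :=
  (ok_alT.gd (ok_g2n.gd (ok_linkM.hp (ok_T hr).Gd))).avR

theorem ok_pMt : Ok I a r n p vM (pMt I d) false :=
  ((ok_g2t.gd (ok_half.hp ok_hGt)).gd (ok_g2t.gd (ok_half.hp ok_hGt))).rot

theorem ok_wInT (hr : 2 < r) : Ok I a r n p nL (wInT I d) false :=
  (ok_alT.avR.inv.gd (ok_pMt.inv.Zt (ok_chT.gd (ok_pAt hr).inv))).avL.avR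

theorem ok_gateT (hr : 2 < r) {t : ℝ} : Ok I a r n p nL (gateT I d t) false :=
  (ok_T hr).Gp.gd ((ok_T hr).Gp.mass.ap (fun _ _ _ _ => abs_cl_le' _ _) fun q _ x x' h =>
    (abs_cl_sub _ _).trans (lip_of (k := iTa I a q) (by ring) (Nat.cast_nonneg _)
      (h.le (i := 1) (by norm_num) (by linarith [iTa_le (I := I) (a := a) q,
        (by positivity : (0 : ℝ) ≤ 2 ^ wd q)]))))

theorem ok_tstT (hr : 1 < r) : Ok I a r n p vM (tstT I d) false := by
  refine ok_ts.gd ((ok_g1t.enM.gd (ok_g2n.gd ((ok_linkM.hp ok_chT).gd (ok_X hr)).ch)).ap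
    (fun _ _ _ _ => abs_cl_le' _ _) fun q _ x x' h => (abs_cl_sub _ _).trans
      (lip_of (k := scX I a q * iTa I a q / 4) (by ring) (by unfold scX iTa; positivity)
        (h.le (i := 9) le_rfl ?_)))
  have h1 : scX I a q * iTa I a q ≤ (2 ^ wd q) ^ 9 := by
    rw [pow_succ, ← pow_mul, mul_comm (wd q)]
    exact mul_le_mul (scX_le q) (iTa_le q) (Nat.cast_nonneg _) (by positivity)
  linarith [(by positivity : (0 : ℝ) ≤ (2 ^ wd q) ^ 9)]

/-! ### The bodies -/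

theorem ok_bodyX : Ok I a r n p nL (bodyX I d) false :=
  ok_chT.mass.ap (fun _ _ _ _ => (abs_clp_le zero_le_one _).trans (one_le_pow₀ one_le_two))
    fun q _ x x' _ => (abs_clp_sub _ _ _).trans (lip_of (k := 1 / scX I a q) (by ring)
      (by unfold scX; positivity)
      ((div_le_self zero_le_one (one_le_pw _ _)).trans (one_le_pow₀ one_le_two)))

theorem ok_bodyTM : Ok I a r n p nL (bodyTM I d) false := fun q h hc => by
  have h0 : 0 ≤ iTa I a q := Nat.cast_nonneg _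
  have h1 := iTa_le (I := I) (a := a) q
  have h2 : (1 : ℝ) ≤ 2 ^ wd q := one_le_pow₀ one_le_two
  have h3 : 2 ≤ n := by have := h.B_le; omega
  refine ⟨rfl, fun s _ => ⟨fun _ _ => abs_cl3_le _ h3, fun x y x' y' ε e1 e2 =>
    (lip_cl3 _ _).trans (lip_two (k := 12 * iTa I a q) (l := 1) (by ring)
      (h.le (i := 1) (by norm_num) ?_) e1 e2)⟩, (ok_wI.gd ok_inT).a1t.avL.avR q h hc, rfl,
    fun s _ => ⟨fun _ _ => abs_cl3_le _ h3, fun x y x' y' ε e1 e2 =>
    (lip_cl3 _ _).trans (lip_two (k := iTa I a q ^ 2) (l := -iTa I a q ^ 2) (by ring)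
      (h.le (i := 2) (by norm_num) ?_) e1 e2)⟩, ok_one.mass.avR.gd ok_one.mass.avR q h hc,
    (ok_chT.mass.avR.gd ok_chT.mass.avR).ch q h hc⟩
  · rw [abs_of_nonneg (by positivity), abs_one]
    linarith
  · rw [abs_neg, abs_of_nonneg (by positivity)]
    linarith [pow_le_pow_left₀ h0 h1 2, (by positivity : (0 : ℝ) ≤ (2 ^ wd q) ^ 2)]

theorem ok_bodyStM (hr : 1 < r) : Ok I a r n p nL (bodyStM I) true := fun _ h hc =>
  ⟨rfl, hc, h.nl_le, ok_keyV rfl h.sc.ok _, fun _ hu =>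
    ⟨str_cs (ok_tstT hr _ (h.lab hu)) fun _ => Pg.str_cst (by simp),
      str_cs (ok_tstT hr _ (h.lab hu)) fun _ => Pg.str_cst (by simp),
      str_cs (ok_linkM _ (h.lab hu)) fun _ => Pg.str_stop⟩⟩

theorem ok_bodyWM (hr : 3 < r) : Ok I a r n p nL (bodyWM I d) false :=
  have h2 : 2 < r := by omega
  ((ok_gateT h2).gd (ok_chT.gd ((ok_St hr).hp ((ok_T h2).Gd.gd (ok_wInT h2)))).ch).avR.ap
    (fun _ _ _ _ => abs_cl_le' _ _) fun q _ x x' _ => (abs_cl_sub _ _).trans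
      (lip_of (k := 1 / pD I a q) (by ring) (by unfold pD; positivity)
        ((div_le_self zero_le_one (one_le_pw _ _)).trans (one_le_pow₀ one_le_two)))

theorem ok_bodySM (hr : 4 < r) : Ok I a r n p nL (bodySM I d) false := by
  have h2 : 2 < r := by omega
  refine (ok_gateT h2).gd ((ok_T h2).Gd.gd (((ok_St (by omega)).hp (ok_T h2).Gd).gd
    ((ok_W hr).ap (fun _ _ _ _ => abs_cl_le' _ _) fun q _ x x' h => (lip_psi _ _).trans ?_)))
  have h1 : pD I a q * iTh I a q ≤ (2 ^ wd q) ^ 2 := by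
    rw [sq]
    exact mul_le_mul h.pD_le (iTh_le q) (Nat.cast_nonneg _) (by positivity)
  have h3 : |sgR I a q x - sgR I a q x'| ≤ 2 * (2 ^ wd q) ^ 2 * |x - x'| :=
    (abs_cl_sub _ _).trans (lip_of (k := 2 * (pD I a q * iTh I a q)) (by ring)
      (by unfold pD iTh; positivity) (by linarith))
  have h4 := mul_le_mul_of_nonneg_right (h.le (x := 8 * (2 ^ wd q) ^ 2) (i := 2) (by norm_num)
    (by linarith [(by positivity : (0 : ℝ) ≤ (2 ^ wd q) ^ 2)])) (abs_nonneg (x - x'))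
  linarith

theorem ok_bodyHM (hr : 5 < r) : Ok I a r n p nL (bodyHM I d) false :=
  ((ok_S hr).gd (ok_W (by omega))).key.key.ap
    (fun _ _ _ h => abs_clH_le _ (by have := h.B_le; omega)) fun q _ x x' h => (lip_clH _ _).trans
      (lip_of (k := scH I a q) (by ring) (by unfold scH pD; positivity)
        (h.le (i := 3) (by norm_num) (by
          linarith [h.scH_le, (by positivity : (0 : ℝ) ≤ (2 ^ wd q) ^ 3)])))

/-! ### The level `0` -/

theorem str_bodySt0 (h : (I a).Ok2) : (prog I).Str a n p (bodySt0 I) q true := by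
  classical
  refine ⟨rfl, fun d s hs hd => ?_⟩
  simp only [decide_eq_true_eq] at hd ⊢
  obtain ⟨-, h1, h2, h3⟩ := Cf.ok0_symm hd
  have h4 := h1.trans_le (h.N_le.trans_eq (show _ = nm (I a).n0 0 by simp [nm]))
  rw [Cf.nx_mv h4, Cf.ky_mv, h3, Cf.mv_mv h4, Cf.mv_nx]
  exact ⟨mem_bx.2 (Cf.mv_mem (Nat.zero_le _) (mem_bx.1 hs) h4), h2, rfl⟩

theorem str_loc {f : α → QQ → SS → ℝ} (h : (prog I).Rng a (loc f) (B + 2) q) (hn : B + 4 ≤ n) :
    (prog I).Str a n p (loc f) q false :=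
  ⟨rfl, fun s hs => (h s hs).trans (pow_le_pow_right₀ one_le_two (by omega))⟩

theorem wfp_lv0 (h : (I a).Ok2) {t : Pc} (hb : body I t = lv0 e₁ e₂) (hr : 1 ≤ t.rk)
    (hs : ∀ q, (prog I).sz t a q = nA * (q .age + 1)) (hl : ∀ q, t.ad q → q .lab = 0)
    (h1 : ∀ n p q, B + 4 ≤ n → (prog I).Str a n p e₁ q t.mvp)
    (h2 : ∀ q, (prog I).Rng a e₁ (B + 2) q) (h3 : ∀ n p, Ok I a t.rk n p nL e₂ t.mvp)
    (h4 : ∀ q, (prog I).Rng a e₂ (B + 2) q) : WFp I a t := fun q hq => by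
  have h5 := sc_of_adm h hq
  rw [hb]
  refine ⟨str_cs (fun _ => h1 _ _ _ h5.n_ge) fun h0 => h3 _ _ q ⟨h5, hs q, h0, hr⟩ (hl q hq.2), ?_⟩
  unfold lv0 cs Pg.Rng
  split_ifs
  exacts [h2 q, h4 q]

theorem wfp_loc (h : (I a).Ok2) {t : Pc} {f : α → QQ → SS → ℝ} (hb : body I t = lv0 (loc f) e)
    (hm : t.mvp = false) (hr : 1 ≤ t.rk) (hs : ∀ q, (prog I).sz t a q = nA * (q .age + 1))
    (hl : ∀ q, t.ad q → q .lab = 0) (h1 : ∀ q s, |f a q s| ≤ 2 ^ (B + 2))
    (h2 : ∀ n p, Ok I a t.rk n p nL e false) (h3 : ∀ q, (prog I).Rng a e (B + 2) q) :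
    WFp I a t :=
  wfp_lv0 h hb hr hs hl (fun _ _ q hn => hm ▸ str_loc (fun s _ => h1 q s) hn)
    (fun q s _ => h1 q s) (hm ▸ h2) h3

theorem rng_fn {φ : ℝ → ℝ} (h : ∀ x, |φ x| ≤ 1) : (prog I).Rng a (fn φ e) 0 q :=
  Pg.rng_ap1 fun _ _ x => (h x).trans_eq (pow_zero _).symm

end S2

open S2 in
theorem wfp_false (h : (I a).Ok2) (d : Bool) : WFp I a (.T false d) ∧ WFp I a (.S false d) ∧
    WFp I a (.W false d) ∧ WFp I a (.H false d) ∧ WFp I a (.St false) ∧ WFp I a (.X d) := by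
  refine ⟨wfp_loc h rfl rfl one_le_two (fun _ => rfl) (fun _ hq => hq.1) (fun q s => ?_)
      (fun _ _ => ok_bodyTM) fun _ _ _ _ _ => abs_cl3_le _ (by omega),
    wfp_loc h rfl rfl (by simp [Pc.rk]) (fun _ => rfl) (fun _ hq => hq.1) (fun q s => ?_)
      (fun _ _ => ok_bodySM (by simp [Pc.rk])) fun q => ⟨0, 0, Nat.zero_le _,
        ⟨0, 0, le_rfl, rng_fn fun _ => abs_cl_le _, Pg.rng_ap1 fun _ _ _ => abs_cl_le' _ _⟩,
        0, 0, le_rfl, rng_fn fun _ => abs_cl_le _, 0, 0, le_rfl,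
        rng_fn (q := q) (e := cl' (.T false (!d)) F0) fun _ => abs_cl_le _,
        Pg.rng_ap1 fun _ _ _ => abs_cl_le' _ _⟩,
    wfp_loc h rfl rfl (by simp [Pc.rk]) (fun _ => rfl) (fun _ hq => hq.1)
      (fun _ _ => abs_cl_le' _ _) (fun _ _ => ok_bodyWM (by simp [Pc.rk]))
      fun _ => Pg.rng_ap1 fun _ _ _ => abs_cl_le' _ _,
    wfp_loc h rfl rfl (by simp [Pc.rk]) (fun _ => rfl) (fun _ hq => hq.1)
      (fun _ _ => abs_clH_le _ (by omega)) (fun _ _ => ok_bodyHM (by simp [Pc.rk]))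
      fun _ => Pg.rng_ap1 fun _ _ _ => abs_clH_le _ (by omega),
    wfp_lv0 h rfl (by simp [Pc.rk]) (fun _ => rfl) (fun _ hq => hq.1)
      (fun _ _ _ _ => str_bodySt0 h) (fun _ => trivial)
      (fun _ _ => ok_bodyStM (by simp [Pc.rk])) fun _ => trivial,
    fun q hq => ⟨ok_bodyX q ⟨sc_of_adm h hq, rfl, hq.2.2.2, le_rfl⟩ hq.2.1,
      Pg.rng_ap1 fun _ _ _ => (abs_clp_le zero_le_one _).trans (one_le_pow₀ one_le_two)⟩⟩
  · rw [abs_of_nonneg Cf.T0_nonneg]
    exact Cf.T0_le.trans (le_trans (by norm_num) (pow_le_pow_right₀ one_le_two (Nat.le_add_left 2 B)))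
  · rw [abs_of_nonneg Cf.s0_nonneg]
    exact Cf.s0_le_one.trans (one_le_pow₀ one_le_two)

end Vale.Agent.P313.Full
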