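import Vale.Agent.P313.Full.PgS0
import Vale.Agent.P313.Full.PgWS

/-! The structural conditions of the program for the tables: the chain and the weights of a link. -/

namespace Vale.Agent.P313.Full

open Finset Function Hi Tm

variable {α : Type} {I : α → In} {a : α} {r n p : ℕ} {q : QQ}

theorem wfp_Ch (h : (I a).Ok2) (d : Bool) : WFp I a (.Ch d) := fun q ht => by
  have S : Sc I a 7 nC (potR 7 q) q := sc_of_adm h ht
  obtain ⟨hf, hv, -, hi⟩ := ht
  have h1 : q .age + q .lev ≤ (I a).K := hf.age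
  have h2 := hv.2.1
  have h3 := hv.2.2.1
  refine ⟨str_bodyCh (I := I) (P := prog I) rfl (Nat.add_le_add_left (by norm_num) B : B + 2 ≤ nC)
    (by unfold lvC; omega) (fun _ => S.cU le_rfl hv (by simp [Pc.rk]) (fun _ => rfl)
      fun _ => ⟨rfl, rfl⟩) (fun h0 => S.chP le_rfl hv h0 hi) (fun _ => S.linkU le_rfl hv)
    fun h0 e => S.frH (by norm_num) (by unfold lvC; omega) (by unfold lvC; omega),
    rng_bodyCh (I := I) (P := prog I) (Nat.le_add_right B 2)⟩

theorem Sc.scM_le (h : Sc I a r n p q) :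
    (cxM q).D true + (cxM q).D false + cZ ≤ nA * (q .age + 1) := by
  have h1 : ∀ e, (cxM q).D e ≤ cw * (q .age + 1) := fun e =>
    ((Cx.up_D_le (cx q) 1 (lb q).1 e).trans (Nat.add_le_add_right (h.fok.D e) _)).trans
      ((mul_add B _ 1).ge.trans (Nat.mul_le_mul_right _ B_le_cw))
  have h2 := h1 true
  have h3 := h1 false
  have h4 := S0.cw_ge
  have h5 : cw ≤ cw * (q .age + 1) := Nat.le_mul_of_pos_right _ (Nat.succ_pos _)
  rw [nA, mul_assoc]
  omega

theorem Sc.frM (h : Sc I a r n p q) (hr : 1 ≤ r) (hl : q .lev ≠ 0) (e : Bool) :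
    (prog I).Str a n p (Full.frH e lvM) q false :=
  h.frH hr (by unfold lvM; omega) (by unfold lvM; omega)

theorem Sc.wZ (h : Sc I a r (nA * (q .age + 1)) p q) (hr : 1 ≤ r) (hl : q .lev ≠ 0) (hv : vM q) :
    (prog I).Str a (nA * (q .age + 1)) p (wZ I) q false := by
  have h1 : q .age + q .lev ≤ (I a).K := h.fok.age
  have h2 : B + 4 ≤ nA * (q .age + 1) := h.n_ge
  exact str_wZ (I := I) (P := prog I) rfl (by omega) h.scM_le (by unfold lvM; omega)
    (fun _ => h.half hr hl hv) (fun _ => h.inH hr hl hv (by simp [Pc.rk]) rfl ⟨rfl, rfl⟩)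
    (h.frM hr hl)

theorem Sc.wI (h : Sc I a r (nA * (q .age + 1)) p q) (hr : 1 ≤ r) (hl : q .lev ≠ 0) (hv : vM q)
    {d : Bool} : (prog I).Str a (nA * (q .age + 1)) p (wI I d) q false := by
  have h2 : B + 4 ≤ nA * (q .age + 1) := h.n_ge
  exact str_wI (I := I) (P := prog I) (by omega) h.scM_le
    (fun _ => h.half hr hl hv) (fun _ => h.inH hr hl hv (by simp [Pc.rk]) rfl ⟨rfl, rfl⟩)
    (h.frM hr hl)

end Vale.Agent.P313.Full
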