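import Vale.Agent.P313.Full.PgDef
import Vale.Agent.P313.Full.TabSP

/-! The program for the tables: the local parts are computable. -/

namespace Vale.Agent.P313.Full

open Finset Function Hi Tm Vale.Agent.Lib.Space

variable {A α β : Type} [Enc A α] [Enc A β] {Bu : Bud A}

/-- A power of two below a computable power of two. -/
theorem sp_pow_of_le {M e : β → ℕ} (hM : SP Bu fun b => 2 ^ M b) (he : SP Bu e)
    (h : ∀ (x : List A) b, Enc.ok x b → e b ≤ M b) : SP Bu fun b => 2 ^ e b :=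
  (hM.min_pow (SP.const 2) he).congr_ok fun x b hb =>
    min_eq_right (Nat.pow_le_pow_right two_pos (h x b hb))

theorem sp_pow_two_mul {e : β → ℕ} (h : SP Bu fun b => 2 ^ e b) : SP Bu fun b => 2 ^ (2 * e b) :=
  (h.mul h).congr fun _ => by rw [← pow_add, two_mul]

/-! ### Contexts -/

/-- Computable labels. -/
structure LabSP (Bu : Bud A) (r : β → Lab) : Prop where
  c : ∀ e, SP Bu fun b => (r b).1 e
  t : ∀ e, SP Bu fun b => (r b).2.1 e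
  w : SP Bu fun b => (r b).2.2

theorem psp_labs {r : β → Lab} {i j k : β → ℕ} (hr : LabSP Bu r) (hi : SP Bu i) (hj : SP Bu j)
    (hk : SP Bu k) : PSP Bu fun b => r b ∈ labs (i b) (j b) (k b) :=
  (((PSP.lt_pow (hr.c false) hi).and (PSP.lt_pow (hr.c true) hi)).and
    (((PSP.lt_pow (hr.t false) hj).and (PSP.lt_pow (hr.t true) hj)).and
      (PSP.lt_pow hr.w hk))).congr fun b => by
    simp only [labs, prs, mem_product, Fintype.mem_piFinset, mem_range, Bool.forall_bool]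

theorem labSP_dlab {w u : β → ℕ} (hw : SP Bu w) (hu : SP Bu u) :
    LabSP Bu fun b => dlab (w b) (u b) := by
  have h : ∀ {e : β → ℕ}, SP Bu e → SP Bu fun b => u b / 2 ^ e b % 2 ^ w b := fun he =>
    sp_mod_two_pow (hu.div_pow (SP.const 2) he) hw
  refine ⟨fun e => ?_, fun e => ?_, h ((SP.const 4).mul hw)⟩ <;> cases e
  exacts [h hw, h (SP.const 0), h ((SP.const 3).mul hw), h ((SP.const 2).mul hw)]

theorem sp_mk {k l i : β → ℕ} {c : β → Cx} {f : β → Bool → ℕ} (hk : SP Bu k) (hc : Cx.IsSP Bu c)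
    (hf : ∀ e, SP Bu fun b => f b e) (hl : SP Bu l) (hi : SP Bu i) :
    SP Bu fun b => mk (k b) (c b) (f b) (l b) (i b) :=
  sp_vec fun v => by
    cases v
    exacts [hk, hc.age, hc.D _, hc.E _, hf _, hl, hi]

theorem sp_fH {n : β → ℕ} (hn : SP Bu n) (e : Bool) : SP Bu fun b => fH (n b) e :=
  (SP.const cZ).add ((SP.const cS).mul hn)

theorem sp_Fr {k : β → ℕ} (hk : SP Bu k) : SP Bu fun b => Fr (k b) :=
  sp_mk hk Cx.IsSP.q0 (sp_fH (SP.const 0)) (SP.const 0) (SP.const 0)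

section ctx

variable {q : β → QQ} (hq : SP Bu q)
include hq

theorem cxSP : Cx.IsSP Bu fun b => cx (q b) :=
  ⟨sp_app hq .age, fun e => sp_app hq (.D e), fun e => sp_app hq (.E e)⟩

theorem sp_ff (e : Bool) : SP Bu fun b => ff (q b) e := sp_app hq (.f e)

theorem sp_cwa : SP Bu fun b => cw * (q b .age + 1) :=
  (SP.const cw).mul ((sp_app hq .age).add (SP.const 1))

theorem labSP_lb : LabSP Bu fun b => lb (q b) := labSP_dlab (sp_cwa hq) (sp_app hq .lab)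

theorem sp_bU : SP Bu fun b => bU (q b) := (labSP_lb hq).w

theorem labSP_rU : LabSP Bu fun b => rU (q b) := ⟨(labSP_lb hq).c, (labSP_lb hq).t, SP.const 0⟩

theorem psp_vU : PSP Bu fun b => vU (q b) :=
  (PSP.le (SP.const 1) (sp_bU hq)).and
    ((PSP.le (sp_bU hq) ((sp_app hq .age).add (SP.const 1))).and
      ((PSP.le (sp_bU hq) (sp_app hq .lev)).and (psp_labs (labSP_rU hq)
        ((SP.const a).mul (sp_bU hq)) ((SP.const cF).mul (sp_bU hq)) (SP.const 0))))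

theorem psp_vM : PSP Bu fun b => vM (q b) :=
  psp_labs (labSP_lb hq) (SP.const a) (SP.const cF)
    ((SP.const B).mul ((sp_app hq .age).add (SP.const 1)))

theorem sp_dn : SP Bu fun b => dn (q b) := (sp_app hq (.D true)).min (sp_app hq (.D false))

theorem sp_F0 : SP Bu fun b => F0 (q b) :=
  sp_mk (sp_app hq .lev) (cxSP hq) (sp_ff hq) (SP.const 0) (SP.const 0)

theorem sp_FH : SP Bu fun b => FH (q b) :=
  sp_mk (sp_app hq .lev) (cxSP hq) (sp_fH (sp_app hq .age)) (SP.const 0) (SP.const 0)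

theorem sp_FU : SP Bu fun b => FU (q b) :=
  sp_mk ((sp_app hq .lev).sub (sp_bU hq)) ((cxSP hq).up (sp_bU hq) (labSP_rU hq).c)
    (fun e => (sp_ff hq e).add ((SP.const cF).mul (sp_bU hq))) (SP.const 0) (SP.const 0)

theorem cxSP_up1 : Cx.IsSP Bu fun b => (cx (q b)).up 1 (lb (q b)).1 :=
  (cxSP hq).up (SP.const 1) (labSP_lb hq).c

theorem sp_FM (e : Bool) : SP Bu fun b => FM e (q b) :=
  sp_mk ((sp_app hq .lev).sub (SP.const 1)) Cx.IsSP.q0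
    (fun e' => sp_two e e' ((((cxSP_up1 hq).D e).add (sp_ff hq e)).add (SP.const cF))
      (((cxSP_up1 hq).D e).add (SP.const cZ))) (SP.const 0) (SP.const 0)

theorem sp_Fi {i : β → ℕ} (hi : SP Bu i) : SP Bu fun b => Fi (q b) (i b) :=
  sp_mk (sp_app hq .lev) (cxSP hq) (sp_ff hq) (sp_app hq .lab) hi

theorem cxSP_cxi {i : β → ℕ} (hi : SP Bu i) : Cx.IsSP Bu fun b => cxi (q b) (i b) :=
  (cxSP hq).up ((sp_bU hq).sub hi) fun e =>
    ((labSP_rU hq).c e).div_pow (SP.const 2) ((SP.const a).mul hi)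

theorem sp_lvC : SP Bu fun b => lvC (q b) :=
  ((sp_app hq .lev).sub (sp_bU hq)).add ((sp_app hq .idx).sub (SP.const 1))

theorem sp_gC (e : Bool) : SP Bu fun b => gC (q b) e :=
  sp_cd (SP.const 0) ((sp_app hq .idx).sub (SP.const 1)) ((labSP_rU hq).c e)

theorem sp_lvM : SP Bu fun b => lvM (q b) := (sp_app hq .lev).sub (SP.const 1)

end ctx

/-! ### States -/

theorem sp_ky {s : β → SS} (hs : SP Bu s) (e : Bool) : SP Bu fun b => ky (s b) e :=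
  (sp_app hs _).pair (sp_app hs _)

theorem sp_kc {s : β → SS} (hs : SP Bu s) : SP Bu fun b => kc (s b) :=
  (sp_app hs _).pair (sp_app hs _)

theorem sp_sw (e : Bool) {s : β → SS} (hs : SP Bu s) : SP Bu fun b => sw e (s b) :=
  sp_vec fun v => by cases v <;> exact sp_app hs _

namespace Cf.IsSP

variable {cf : β → Cf} (hc : Cf.IsSP Bu cf) {q : β → QQ} {s : β → SS} {k y n : β → ℕ}
  {r : β → Lab} (hq : SP Bu q) (hs : SP Bu s)
include hc

theorem nb : SP Bu fun b => (cf b).nb := hc.n0.add ((SP.const a).mul hc.K)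

include hq in
theorem nl : SP Bu fun b => (cf b).nl (q b) := hc.pw ((SP.const 5).mul (sp_cwa hq))

include hs

theorem nx (hk : SP Bu k) : SP Bu fun b => (cf b).nx (k b) (s b) :=
  sp_mod_nm hc.n0 hk (sp_app hs .nm)

theorem mv (hk : SP Bu k) (hy : SP Bu y) : SP Bu fun b => (cf b).mv (k b) (s b) (y b) :=
  (sp_update .nm hs (hy.add ((sp_app hs .nm).sub (hc.nx hs hk)))).congr fun b => by
    rw [Cf.mv, Cf.nx, Nat.mod_def, Nat.sub_sub_self (Nat.mul_div_le _ _)]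

theorem hv (hk : SP Bu k) (d : Bool) : SP Bu fun b => (cf b).hv (k b) d (s b) :=
  hc.val (sp_ky hs d) (hc.nx hs hk)

include hq

theorem mus (d : Bool) : SP Bu fun b => (cf b).mus d (q b) (s b) :=
  hc.mu d (sp_app hq .lev) (hc.nx hs (sp_app hq .lev))

theorem chs : RSP Bu fun b => (cf b).chs (q b) (s b) :=
  RSP.one.sub ((RSP.ofNat 2).mul (RSP.natCast (sp_ipb ((SP.const 2).mul hc.nb) (sp_app hs .ch)
    (hc.nx hs (sp_app hq .lev)))))

theorem lrs (hn : SP Bu n) (hr : LabSP Bu r) (e : Bool) :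
    SP Bu fun b => (cf b).lrs (n b) (r b) e (q b) (s b) :=
  (hc.vv e ((sp_app hq .lev).sub hn) (sp_app hs .nm)).l.add (((cxSP hq).up hn hr.c).D e)

theorem shs (hn : SP Bu n) (hr : LabSP Bu r) (e e' : Bool) :
    SP Bu fun b => (cf b).shs (n b) (r b) e (q b) (s b) e' :=
  KH.sp_xor (hc.shl (hr.t e') ((hc.lrs hq hs hn hr e).add (sp_ff hq e')))
    (hc.shl hr.w ((hc.lrs hq hs hn hr e).sub ((cxSP hq).om hn hr.c)))

theorem ens (hb : SP Bu fun b => 2 ^ (cf b).nb) (hn : SP Bu n) (hr : LabSP Bu r) (e : Bool) :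
    SP Bu fun b => (cf b).ens (n b) (r b) e (q b) (s b) := by
  have h : ∀ e, SP Bu fun b => (cf b).dgs (n b) (r b) e (q b) := fun e =>
    sp_shl hb (hr.c e) (hc.n0.add ((SP.const a).mul ((sp_app hq .lev).sub hn)))
  refine sp_vec fun v => ?_
  rcases v with _ | _ | _ | _ | (_ | e')
  exacts [KH.sp_xor (sp_app hs _) (h e), sp_app hs _, sp_app hs _, sp_app hs _, sp_app hs _,
    KH.sp_xor (KH.sp_xor (sp_app hs _) (hc.lin (sp_app hs _) (h e'))) (hc.shs hq hs hn hr e e')]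

theorem dgOk (hn : SP Bu n) (hr : LabSP Bu r) (e : Bool) :
    PSP Bu fun b => (cf b).dgOk (n b) (r b) e (q b) (s b) :=
  PSP.eq (sp_div_nm hc.n0 ((sp_app hq .lev).sub hn) (hc.nx hs (sp_app hq .lev))) (hr.c e)

theorem tU (d : Bool) : PSP Bu fun b => (cf b).tU d (q b) (s b) :=
  (PSP.eq (sp_bU hq) ((cxSP hq).hb (hc.mus hq hs d))).and
    (hc.dgOk hq hs (sp_bU hq) (labSP_rU hq) d)

theorem zU (d : Bool) : PSP Bu fun b => (cf b).zU d (q b) (s b) :=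
  PSP.eq (sp_mod_two_pow ((KH.sp_xor (hc.hv hs (sp_app hq .lev) d)
    (hc.shs hq hs (sp_bU hq) (labSP_rU hq) d d)).div_pow (SP.const 2)
      ((hc.lrs hq hs (sp_bU hq) (labSP_rU hq) d).add (sp_ff hq d)))
    ((SP.const cF).mul (sp_bU hq))) (SP.const 0)

theorem okS (d : Bool) : PSP Bu fun b => (cf b).okS d (q b) (s b) :=
  have h1 := hc.lrs hq hs (SP.const 1) (labSP_lb hq) d
  have h2 := (cxSP hq).om (SP.const 1) (labSP_lb hq).c
  (hc.dgOk hq hs (SP.const 1) (labSP_lb hq) d).and ((PSP.lt_pow (labSP_lb hq).w h2).and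
    (PSP.lt_pow (sp_mod_two_pow (KH.sp_xor (hc.hv hs (sp_app hq .lev) d)
      (hc.shs hq hs (SP.const 1) (labSP_lb hq) d d)) ((h1.add (sp_ff hq d)).add (SP.const cF)))
      (h1.sub h2)))

theorem locS : PSP Bu fun b => (cf b).locS (q b) (s b) :=
  have h := fun e => hc.vv e ((sp_app hq .lev).sub (SP.const 1)) (sp_app hs .nm)
  (PSP.eq ((h false).l.add ((cxSP_up1 hq).D true)) ((h true).l.add ((cxSP_up1 hq).D false))).and
    (PSP.eq ((h false).lam.add ((cxSP_up1 hq).E true)) ((h true).lam.add ((cxSP_up1 hq).E false)))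

end Cf.IsSP

/-! ### Terms -/

/-- Computable inputs. -/
structure In.IsSP (Bu : Bud A) (I : α → In) : Prop where
  cf : Cf.IsSP Bu fun a => (I a).toCf
  x0 : SP Bu fun a => (I a).x0
  m0 : SP Bu fun a => (I a).m0
  pnb : SP Bu fun a => 2 ^ (I a).nb
  pct : SP Bu fun a => 2 ^ ((C + 2) * (I a).K + 3)

/-- The arguments of a local part. -/
abbrev Ar (α : Type) : Type := α × QQ × SS

/-- The arguments of a function of numbers. -/
abbrev Ar2 (α : Type) : Type := Ar α × ℕ × ℕ × ℕ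

theorem spq : SP Bu fun z : Ar α => z.2.1 := SP.snd'.fst

theorem sps : SP Bu fun z : Ar α => z.2.2 := SP.snd'.snd

theorem spq2 : SP Bu fun z : Ar2 α => z.1.2.1 := SP.fst'.snd.fst

theorem isSP_cl' (t : Pc) {F : QQ → QQ} (h : SP Bu fun z : α × QQ => F z.2) :
    (cl' t F : Trm α).IsSP Bu := isSP_tcal h

theorem isSP_F0 (t : Pc) : (cl' t F0 : Trm α).IsSP Bu := isSP_cl' t (sp_F0 SP.snd')

theorem isSP_fn {φ : ℝ → ℝ} {e : Trm α}
    (h : ∀ {x : Ar2 α → ℝ}, RSP Bu x → RSP Bu fun z => φ (x z)) (he : e.IsSP Bu) :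
    (fn φ e).IsSP Bu := isSP_ap1 (fun _ hx => h hx) he

theorem isSP_one : (cst 1 : Trm α).IsSP Bu := isSP_cst 1 (by simp)

theorem isSP_zero : (cst 0 : Trm α).IsSP Bu := isSP_cst 0 (by simp)

theorem isSP_cs {p : QQ → Prop} {e₁ e₂ : Trm α} (h : PSP Bu fun z : α × QQ => p z.2)
    (h1 : e₁.IsSP Bu) (h2 : e₂.IsSP Bu) : (cs p e₁ e₂).IsSP Bu := ⟨h, h1, h2⟩

theorem isSP_cU (t : Bool → Pc) {F : QQ → QQ} (h : SP Bu fun z : α × QQ => F z.2) :
    (cU t F : Trm α).IsSP Bu :=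
  isSP_cs (PSP.le (sp_bU SP.snd') (sp_app SP.snd' Cv.age)) (isSP_cl' _ h) (isSP_cl' _ h)

theorem isSP_inH (e : Bool) (t : Pc) : (inH e t : Trm α).IsSP Bu :=
  isSP_aft (sp_sw e sps) (isSP_cl' t (sp_FM SP.snd' e))

theorem isSP_half (e : Bool) : (half e : Trm α).IsSP Bu :=
  ⟨isSP_inv (sp_sw e sps), isSP_cl' _ (sp_FM SP.snd' e), isSP_inv (sp_sw e sps)⟩

theorem isSP_frH (e : Bool) {k : QQ → ℕ} (h : SP Bu fun z : α × QQ => k z.2) :
    (frH e k : Trm α).IsSP Bu := isSP_cl' _ (sp_Fr h)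

theorem isSP_unV : (unV : View α Rg Cv).IsSP Bu := ⟨SP.const 1, SP.const 0, SP.fst'.snd.snd⟩

theorem rsp_hG {t : β → ℝ} (ht : RSP Bu t) : RSP Bu fun b => hG (t b) := rsp_pp (rsp_Gd ht)

theorem rsp_rw {t : β → ℝ} (ht : RSP Bu t) : RSP Bu fun b => cl (t b) * phi (t b) :=
  (rsp_cl ht).mul (rsp_phi ht)

namespace In.IsSP

variable {I : α → In} (hI : In.IsSP Bu I)
include hI

theorem c1 : Cf.IsSP Bu fun z : Ar α => (I z.1).toCf := hI.cf.comp SP.fst'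

theorem c2 : Cf.IsSP Bu fun z : Ar2 α => (I z.1.1).toCf := hI.cf.comp SP.fst'.fst

theorem bd : SP Bu fun a => (I a).bd :=
  sp_vec fun v => by
    cases v
    exacts [hI.pnb, sp_pow_two_mul hI.pnb, hI.pct, sp_pow_two_mul hI.cf.pL, hI.cf.pm]

theorem keyV (i : Option Bool) : (keyV I i).IsSP Bu := by
  have h : SP Bu fun z : Ar α × ℕ => 2 * (I z.1.1).L := (SP.const 2).mul (hI.cf.L.comp SP.fst'.fst)
  exact ⟨(hI.cf.pL.mul (sp_pow_of_le hI.cf.pm (hI.cf.m.div (SP.const 2))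
      fun _ _ _ => Nat.div_le_self _ _)).congr fun _ => (pow_add _ _ _).symm,
    (sp_app sps _).add ((sp_pow_two_mul hI.c1.pL).mul (sp_app sps _)),
    sp_update _ (sp_update _ SP.fst'.snd.snd (sp_mod_two_pow SP.snd' h))
      (SP.snd'.div_pow (SP.const 2) h)⟩

theorem rotV (i : Option Bool) (b : ℕ) : (rotV I i b).IsSP Bu := by
  have hc : Cf.IsSP Bu fun z : Ar α × ℕ => (I z.1.1).toCf := hI.cf.comp SP.fst'.fst
  have hs : SP Bu fun z : Ar α × ℕ => z.1.2.2 := SP.fst'.snd.snd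
  have h := hc.nx hs ((sp_app SP.fst'.snd.fst .lev).sub (SP.const b))
  exact ⟨hI.cf.pL, sp_app sps _, sp_update _ (sp_update _ hs SP.snd')
    (KH.sp_xor (hc.lin SP.snd' h) (KH.sp_xor (hc.lin (sp_app hs _) h) (sp_app hs _)))⟩

theorem chV : (chV I).IsSP Bu := ⟨hI.pnb, sp_app sps _, sp_update _ SP.fst'.snd.snd SP.snd'⟩

theorem nl' : SP Bu fun z : α × QQ => (I z.1).nl z.2 := (hI.cf.comp SP.fst').nl SP.snd'

omit hI in
theorem ts {p : Cf → QQ → SS → Prop} (h : PSP Bu fun z : Ar α => p (I z.1).toCf z.2.1 z.2.2) :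
    (ts I p).IsSP Bu := isSP_tst h

theorem smL {p : QQ → Prop} {e : Trm α} (h : PSP Bu fun z : α × QQ => p z.2) (he : e.IsSP Bu) :
    (smL I p e).IsSP Bu := ⟨hI.nl', isSP_cs h he isSP_zero⟩

theorem smU {e : Trm α} (he : e.IsSP Bu) : (Full.smL I vU e).IsSP Bu := hI.smL (psp_vU SP.snd') he

theorem chT : (chT I).IsSP Bu := hI.c1.chs spq sps

theorem avR (d : Bool) {e : Trm α} (he : e.IsSP Bu) : (avR I d e).IsSP Bu := ⟨hI.rotV _ _, he⟩

theorem avK (d : Bool) {e : Trm α} (he : e.IsSP Bu) : (avK I d e).IsSP Bu :=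
  ⟨hI.keyV _, hI.keyV _, he⟩

theorem enU (e : Bool) : SP Bu fun z : Ar α => enU I e z.1 z.2.1 z.2.2 :=
  hI.c1.ens spq sps (hI.pnb.comp SP.fst') (sp_bU spq) (labSP_rU spq) e

theorem enM (e : Bool) : SP Bu fun z : Ar α => enM I e z.1 z.2.1 z.2.2 :=
  hI.c1.ens spq sps (hI.pnb.comp SP.fst') (SP.const 1) (labSP_lb spq) e

theorem linkU : (linkU I).IsSP Bu :=
  ⟨isSP_inv (hI.enU true), isSP_cU _ (sp_FU SP.snd'), isSP_inv (hI.enU false)⟩

theorem linkM : (linkM I).IsSP Bu :=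
  ⟨isSP_inv (hI.enM true), isSP_half true, isSP_half false, isSP_inv (hI.enM false)⟩

theorem altM (d : Bool) {e₁ e₂ : Trm α} (h1 : e₁.IsSP Bu) (h2 : e₂.IsSP Bu) :
    (altM I d e₁ e₂).IsSP Bu := ⟨fun _ => (PSP.eq (hI.c1.mus spq sps d) (SP.const 0)).dec, h1, h2⟩

/-! ### Weights -/

theorem pr2 {φ : QQ → ℝ → ℝ → ℝ} {k : QQ → ℕ} (d : Bool) {M : Trm α}
    (h : ∀ {x y : Ar2 α → ℝ}, RSP Bu x → RSP Bu y → RSP Bu fun z => φ z.1.2.1 (x z) (y z))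
    (hk : SP Bu fun z : Ar α => k z.2.1) (hM : M.IsSP Bu) : (pr2 I φ k d M).IsSP Bu := by
  have h1 : ∀ i j, (prL I k d M i j).IsSP Bu := fun i j => isSP_pairP
    ((hI.c1.pw ((hI.c1.vv (!d) hk (sp_app sps .nm)).lam.add (SP.const i))).sub (SP.const 1))
    ((hI.c1.vv d hk (sp_app sps .nm)).lam.add (SP.const j)) hM
  refine isSP_app (fun x y hx hy => ?_) (h1 _ _) (h1 _ _)
  cases d
  exacts [h (RSP.one.sub hy) hx, h hx (RSP.one.sub hy)]

omit hI in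
theorem endT {φ : QQ → ℝ → ℝ → ℝ} {k : QQ → ℕ}
    (h : ∀ {x y : Ar2 α → ℝ}, RSP Bu x → RSP Bu y → RSP Bu fun z => φ z.1.2.1 (x z) (y z))
    (hk : SP Bu fun z : α × QQ => k z.2) : (endT φ k : Trm α).IsSP Bu :=
  isSP_app (fun _ _ hx hy => h hx hy) (isSP_frH _ hk) (isSP_frH _ hk)

theorem bodyCh (d : Bool) : (bodyCh I d).IsSP Bu := by
  classical
  have h1 := fun e => sp_gC (Bu := Bu) (spq2 (α := α)) e
  have h2 : ∀ e, (endC e : Trm α).IsSP Bu := fun e =>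
    endT (fun hx hy => rsp_endF e (h1 e) hx hy) (sp_lvC SP.snd')
  have h3 := cxSP_cxi (Bu := Bu) (spq2 (α := α)) ((sp_app spq2 Cv.idx).sub (SP.const 1))
  refine isSP_cs (PSP.eq (sp_app SP.snd' Cv.idx) (SP.const 0))
    (isSP_aft (hI.enU d) (isSP_cU _ (sp_FU SP.snd')))
    ⟨⟨rsp_two_pow (SP.const (2 ^ B)), isSP_app (fun x y hx hy => ?_)
      (isSP_cl' _ (sp_Fi SP.snd' ((sp_app SP.snd' Cv.idx).sub (SP.const 1))))
      (hI.pr2 d (fun hx hy => rsp_prt (h1 true) (h1 false) hx hy) (sp_lvC spq) hI.linkU)⟩,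
      h2 d, hI.linkU, h2 (!d)⟩
  exact ((psp_vld (h1 true)).and (psp_vld (h1 false))).rite
    ((rsp_stg h3.D h3.E (hI.c2.vv d (sp_lvC spq2) (sp_app SP.fst'.snd.snd .nm)).wt (h1 true)
      (h1 false) hx hy).div (rsp_two_pow (SP.const (2 ^ B)))) RSP.zero

theorem scM : RSP Bu fun z : Ar α => scM I z.1 z.2.1 :=
  hI.c1.rpw ((((cxSP_up1 spq).D true).add ((cxSP_up1 spq).D false)).add (SP.const cZ))

omit hI in
theorem omH (e : Bool) : (omH e : Trm α).IsSP Bu := isSP_fn rsp_rdw (isSP_inH _ _)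

omit hI in
theorem usH (e : Bool) : (usH e : Trm α).IsSP Bu :=
  isSP_fn (fun hx => RSP.one.sub (rsp_R (SP.const B) hx)) (isSP_frH _ (sp_lvM SP.snd'))

theorem wZ : (wZ I).IsSP Bu := by
  classical
  have h1 := (labSP_lb (Bu := Bu) (spq2 (α := α))).c
  have h2 := (labSP_lb (Bu := Bu) (spq (α := α))).c
  have h3 : ∀ e, (side I e).IsSP Bu := fun e => by
    refine ⟨⟨omH e, hI.pr2 _ (fun hx hy => ?_) (sp_lvM spq) (isSP_half e)⟩, isSP_half e,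
      endT (fun hx hy => rsp_endM e (h1 e) hx hy) (sp_lvM SP.snd')⟩
    cases e
    exacts [rsp_cl hy, rsp_prM (h1 true) hx hy]
  refine ⟨⟨((psp_vld (h2 true)).and ((psp_vld (h2 false)).and (PSP.of (sp_fitQ (cxSP_up1 spq).D
    (cxSP_up1 spq).E (SP.const false) (h2 true) (h2 false))))).rite (hI.scM.div ((RSP.ofNat 4).mul
      (rsp_two_pow (sp_two_pow_le (2 * B) ((sp_dig (fun g => g.1.2.1) (h2 true)).add
        (sp_dig (fun g => g.1.1) (h2 false))) fun z => ?_)))) RSP.zero, h3 true⟩,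
    ⟨usH false, usH true⟩, h3 false⟩
  have := (Hi.dig ((lb z.2.1).1 true)).1.2.1.2
  have := (Hi.dig ((lb z.2.1).1 false)).1.1.2
  omega

theorem wI (d : Bool) : (wI I d).IsSP Bu := ⟨hI.scM, omH d, usH _, isSP_half d, usH d⟩

/-! ### Layers -/

theorem iTh : RSP Bu fun z : Ar2 α => iTh I z.1.1 z.1.2.1 :=
  hI.c2.rpw ((SP.const (B + 1)).add (sp_app spq2 .age))

theorem iTa : RSP Bu fun z : Ar2 α => iTa I z.1.1 z.1.2.1 :=
  hI.c2.rpw ((SP.const (B + 6)).add (sp_app spq2 .age))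

theorem pD : RSP Bu fun z : Ar2 α => pD I z.1.1 z.1.2.1 := hI.c2.rpw (sp_dn spq2)

theorem scH : RSP Bu fun z : Ar2 α => scH I z.1.1 z.1.2.1 :=
  ((hI.c2.rpw ((SP.const 2).mul (sp_fH (sp_app spq2 .age) true))).div
    (hI.c2.rpw ((SP.const cH).mul (sp_app spq2 .age)))).mul hI.pD

theorem scX : RSP Bu fun z : Ar2 α => scX I z.1.1 z.1.2.1 :=
  hI.c2.rpw ((SP.const 8).mul (sp_cwa spq2))

theorem sgR {x : Ar2 α → ℝ} (hx : RSP Bu x) : RSP Bu fun z => sgR I z.1.1 z.1.2.1 (x z) :=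
  rsp_cl ((((RSP.ofNat 2).mul (hI.pD.mul hx)).mul hI.iTh).sub RSP.one)

theorem tsU (d : Bool) : (Full.ts I (Cf.tU · d)).IsSP Bu := ts (hI.c1.tU spq sps d)

theorem tsM (d : Bool) : (Full.ts I (Cf.okS · d)).IsSP Bu := ts (hI.c1.okS spq sps d)

theorem sUt (d : Bool) : (sUt I d).IsSP Bu :=
  ⟨hI.tsU d, isSP_aft (hI.enU d) (isSP_cU _ (sp_FU SP.snd'))⟩

omit hI in
theorem wUt (d : Bool) : (wUt d : Trm α).IsSP Bu := isSP_cl' _ (sp_Fi SP.snd' (sp_bU SP.snd'))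

theorem facT (e : Bool) : (facT I e).IsSP Bu :=
  hI.altM e isSP_one (isSP_fn rsp_rd (isSP_cl' _ (sp_FH SP.snd')))

theorem uUt (d : Bool) : (uUt I d).IsSP Bu :=
  ⟨hI.sUt d, ⟨isSP_ap1 (fun _ hx => hI.sgR hx) (wUt d), hI.facT d⟩, hI.linkU, hI.facT _⟩

theorem bodyTU (d : Bool) : (bodyTU I d).IsSP Bu :=
  have h := hI.avR d (hI.uUt d)
  isSP_app (fun _ _ hx hy => rsp_cl3 (((RSP.ofNat 2).mul hx).add hy))
    (hI.smU ⟨ts ((hI.c1.tU spq sps d).and (hI.c1.zU spq sps d)),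
      isSP_aft (hI.enU d) (isSP_cU _ (sp_FU SP.snd'))⟩)
    (isSP_app (fun _ _ hx hy => rsp_cl3 ((RSP.ofNat 100).mul (hx.sub hy)))
      ⟨hI.smU h, hI.smU h⟩ (hI.smU ⟨h, h⟩))

theorem bodyHU (d : Bool) : (bodyHU I d).IsSP Bu :=
  isSP_app (fun _ _ hx hy => rsp_clH ((hI.scH.mul hx).add
      (((RSP.ofNat 3).div (RSP.ofNat 2)).mul hy)))
    (hI.avK d (hI.smU ⟨hI.sUt d, wUt d⟩))
    (hI.smL ((psp_vU SP.snd').and ((PSP.eq ((labSP_lb SP.snd').t true) (SP.const 0)).and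
      (PSP.eq ((labSP_lb SP.snd').t false) (SP.const 0))))
      ⟨hI.tsU d, isSP_cU _ (sp_FH (sp_FU SP.snd'))⟩)

theorem bodySU (d : Bool) : (bodySU I d).IsSP Bu :=
  isSP_fn rsp_cl ⟨isSP_fn rsp_Gd (isSP_F0 _), hI.smU ⟨isSP_fn rsp_psi (hI.uUt d), hI.linkU,
    isSP_fn rsp_Gd (isSP_F0 _)⟩⟩

theorem bodyWU (d : Bool) : (bodyWU I d).IsSP Bu :=
  isSP_fn rsp_cl (hI.smU ⟨isSP_fn rsp_psw (hI.uUt d), wUt d⟩)

theorem bodyStU : (bodyStU I).IsSP Bu :=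
  ⟨isSP_unV, hI.nl', isSP_cs (psp_vU SP.snd') (hI.uUt _) isSP_zero,
    isSP_cs (psp_vU SP.snd') (hI.uUt _) isSP_zero, isSP_cs (psp_vU SP.snd') hI.linkU isSP_stop⟩

/-! ### Merged names -/

omit hI in
theorem g1t (d : Bool) : (g1t d : Trm α).IsSP Bu := isSP_fn rsp_gg (isSP_inH _ _)

omit hI in
theorem g2t (d : Bool) : (g2t d : Trm α).IsSP Bu := isSP_fn rsp_gg (isSP_inH _ _)

omit hI in
theorem hGt (e d : Bool) : (hGt e d : Trm α).IsSP Bu := isSP_fn rsp_hG (isSP_inH _ _)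

theorem a1t (d : Bool) {e : Trm α} (he : e.IsSP Bu) : (a1t I d e).IsSP Bu :=
  ⟨hI.tsM d, isSP_aft (hI.enM d) ⟨g1t d, hGt d d, isSP_half d, ts (hI.c1.locS spq sps),
    hGt _ _, he⟩⟩

theorem Zt (d : Bool) {e₁ e₂ : Trm α} (h1 : e₁.IsSP Bu) (h2 : e₂.IsSP Bu) :
    (Zt I d e₁ e₂).IsSP Bu :=
  hI.a1t d ⟨g2t d, hGt _ _, ⟨isSP_half _, hGt _ _⟩, hI.wZ, h1, isSP_half _,
    isSP_aft (hI.enM _) h2⟩

theorem avL {e : Trm α} (he : e.IsSP Bu) : (avL I e).IsSP Bu :=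
  ⟨hI.keyV _, hI.smL (psp_vM SP.snd') he⟩

theorem mass (d : Bool) {e : Trm α} (he : e.IsSP Bu) : (mass I d e).IsSP Bu :=
  hI.avL (hI.Zt d isSP_one he)

theorem bodyX (d : Bool) : (bodyX I d).IsSP Bu :=
  isSP_ap1 (fun _ hx => RSP.one.neg.max (RSP.one.min (hx.div hI.scX))) (hI.mass d hI.chT)

theorem bodyTM (d : Bool) : (bodyTM I d).IsSP Bu :=
  have h1 := hI.avR d (hI.mass d isSP_one)
  have h2 := hI.avR d (hI.mass d hI.chT)
  isSP_app (fun _ _ hx hy => rsp_cl3 ((((RSP.ofNat 12).mul hx).mul hI.iTa).add hy))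
    (hI.avR d (hI.avL (hI.a1t d ⟨hI.wI d, isSP_inH _ _⟩)))
    (isSP_app (fun _ _ hx hy => rsp_cl3 ((hx.sub hy).mul
      ((hI.iTa.mul hI.iTa).congr fun _ => (sq _).symm))) ⟨h1, h1⟩ ⟨hI.chV, h2, h2⟩)

theorem gateT (d : Bool) (t : ℕ) [t.AtLeastTwo] : (gateT I d (OfNat.ofNat t)).IsSP Bu :=
  ⟨isSP_fn rsp_Gp (isSP_F0 _), isSP_ap1 (fun _ hx => rsp_cl ((hx.mul hI.iTa).sub (RSP.ofNat t)))
    (hI.mass d (isSP_fn rsp_Gp (isSP_F0 _)))⟩

theorem g2n (d : Bool) : (g2n I d).IsSP Bu := isSP_aft (hI.enM d) ⟨isSP_half d, g2t d⟩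

theorem tstT (d : Bool) : (tstT I d).IsSP Bu :=
  ⟨hI.tsM d, isSP_ap1 (fun _ hx => rsp_cl (((hx.mul hI.scX).mul hI.iTa).div (RSP.ofNat 4)))
    ⟨isSP_aft (hI.enM d) (g1t d), hI.g2n d, hI.chV, ⟨hI.linkM, hI.chT⟩, isSP_F0 _⟩⟩

theorem bodyStM : (bodyStM I).IsSP Bu :=
  ⟨hI.keyV _, hI.nl', isSP_cs (psp_vM SP.snd') (hI.tstT _) isSP_zero,
    isSP_cs (psp_vM SP.snd') (hI.tstT _) isSP_zero, isSP_cs (psp_vM SP.snd') hI.linkM isSP_stop⟩

theorem alT (d : Bool) : (alT I d).IsSP Bu :=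
  ⟨ts (hI.c1.dgOk spq sps (SP.const 1) (labSP_lb spq) d),
    isSP_aft (hI.enM d) ⟨g1t d, isSP_half d, hGt _ _⟩⟩

theorem pAt (d : Bool) : (pAt I d).IsSP Bu :=
  hI.avR d ⟨hI.alT d, hI.g2n d, hI.linkM, isSP_fn rsp_Gd (isSP_F0 _)⟩

theorem pMt (d : Bool) : (pMt I d).IsSP Bu :=
  ⟨hI.rotV _ _, ⟨g2t _, isSP_half _, hGt _ _⟩, g2t _, isSP_half _, hGt _ _⟩

theorem wInT (d : Bool) : (wInT I d).IsSP Bu :=
  hI.avR d (hI.avL ⟨isSP_fn rsp_inv (hI.avR d (hI.alT d)),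
    hI.Zt d (isSP_fn rsp_inv (hI.pMt d)) ⟨hI.chT, isSP_fn rsp_inv (hI.pAt _)⟩⟩)

theorem bodyWM (d : Bool) : (bodyWM I d).IsSP Bu :=
  isSP_ap1 (fun _ hx => rsp_cl (hx.div hI.pD)) (hI.avR d ⟨hI.gateT d 4, hI.chV, hI.chT,
    isSP_F0 _, isSP_fn rsp_Gd (isSP_F0 _), hI.wInT _⟩)

theorem bodySM (d : Bool) : (bodySM I d).IsSP Bu :=
  ⟨hI.gateT d 8, isSP_fn rsp_Gd (isSP_F0 _), ⟨isSP_F0 _, isSP_fn rsp_Gd (isSP_F0 _)⟩,
    isSP_ap1 (fun _ hx => rsp_psi (hI.sgR hx)) (isSP_F0 _)⟩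

theorem bodyHM (d : Bool) : (bodyHM I d).IsSP Bu :=
  isSP_ap1 (fun _ hx => rsp_clH (hI.scH.mul hx)) (hI.avK d ⟨isSP_F0 _, isSP_F0 _⟩)

/-! ### The program -/

theorem body (t : Pc) : (body I t).IsSP Bu := by
  have h0 : ∀ {e₁ e₂ : Trm α}, e₁.IsSP Bu → e₂.IsSP Bu → (Full.lv0 e₁ e₂).IsSP Bu :=
    isSP_cs (PSP.eq (sp_app SP.snd' Cv.lev) (SP.const 0))
  have c := hI.c1
  have x := c.nx sps (SP.const 0)
  have p := fun d => c.p0 d (cxSP spq) (sp_ff spq) x (sp_ky sps)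
  have t0 : (tst fun a _ s => decide (s .nm = (I a).x0) : Trm α).IsSP Bu :=
    isSP_tst ((sp_app sps Rg.nm).decide_eq (hI.x0.comp SP.fst'))
  rcases t with ⟨_ | _, d⟩ | ⟨_ | _, d⟩ | ⟨_ | _, d⟩ | ⟨_ | _, d⟩ | (_ | _) | d | d | d | _
  · exact h0 (c.T0 d (cxSP spq) (sp_ff spq) x (c.hv sps (SP.const 0) d) (sp_ky sps _))
      (hI.bodyTM d)
  · exact hI.altM d (isSP_F0 _) (hI.bodyTU d)
  · exact h0 (c.s0 d (cxSP spq) (sp_ff spq) x (sp_ky sps)) (hI.bodySM d)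
  · exact hI.altM d (isSP_F0 _) (hI.bodySU d)
  · exact h0 (rsp_cl (c.w0 d x (p d))) (hI.bodyWM d)
  · exact hI.altM d (isSP_F0 _) (hI.bodyWU d)
  · exact h0 (rsp_clH (c.H0 d (cxSP spq) x)) (hI.bodyHM d)
  · exact hI.altM d (isSP_F0 _) (hI.bodyHU d)
  · exact h0 (fun d => ⟨c.ok0 d (cxSP spq) (sp_ff spq) x (sp_ky sps),
      c.mv sps (SP.const 0) (p d)⟩) hI.bodyStM
  · exact ⟨fun d => (PSP.eq (c.mus spq sps d) (SP.const 0)).dec, isSP_F0 _, hI.bodyStU⟩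
  · exact hI.bodyCh d
  · exact hI.bodyX d
  · exact ⟨t0, isSP_F0 _⟩
  · exact ⟨t0, isSP_F0 _, ⟨isSP_F0 _, isSP_tst ((sp_app sps Rg.nm).decide_eq
      (hI.m0.comp SP.fst'))⟩, isSP_fn rsp_rw (isSP_F0 _)⟩

end In.IsSP

/-- **The local parts of the program are computable.** -/
theorem prog_isSP {I : α → In} (hI : In.IsSP Bu I) : (prog I).IsSP Bu := by
  refine ⟨hI.bd, hI.body, fun t => ?_⟩
  have h : SP Bu fun z : α × QQ => nA * (z.2 .age + 1) :=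
    (SP.const nA).mul ((sp_app SP.snd' Cv.age).add (SP.const 1))
  cases t
  case Ch => exact SP.const nC
  all_goals exact h

end Vale.Agent.P313.Full
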