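import Vale.Agent.P313.Full.PgLay
import Vale.Agent.P313.Full.TabLev

/-! Rules for the small terms, views, involutions and links of the program for the tables. -/

namespace Vale.Agent.P313.Full

open Finset Function Hi Tm

/-! ### General derived terms -/

namespace Pg

section gen

variable {α σ κ τ : Type} [DecidableEq κ] [Fintype σ] [DecidableEq σ] {P : Pg α σ κ τ} {a : α}
  {n : ℕ} {q : κ → ℕ} {s s' : σ → ℕ} {v w : ℝ} {e g M M₁ M₂ : Tm α σ κ τ} {d : Bool}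
  {o : Option (σ → ℕ)}

/-- The procedure `t` computes the number `v`. -/
def PVal (P : Pg α σ κ τ) (a : α) (t : τ) (q : κ → ℕ) (s : σ → ℕ) (v : ℝ) : Prop :=
  P.adm t a q ∧ P.Val a (P.sz t a q) (P.body t) q s v

/-- The procedure `t` computes the move with the result `o`. -/
def PMov (P : Pg α σ κ τ) (a : α) (t : τ) (q : κ → ℕ) (d : Bool) (s : σ → ℕ)
    (o : Option (σ → ℕ)) : Prop :=
  P.adm t a q ∧ P.Mov a (P.sz t a q) (P.body t) q d s o

theorem Val.cst {r : ℝ} : P.Val a n (cst r) q s r := Val.loc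

theorem Val.tst {c : α → (κ → ℕ) → (σ → ℕ) → Bool} :
    P.Val a n (tst c) q s (if c a q s then 1 else 0) := Val.loc

theorem Val.ap1 {φ : α → (κ → ℕ) → (σ → ℕ) → ℝ → ℝ} (h : P.Val a n e q s v) :
    P.Val a n (ap1 φ e) q s (φ a q s v) := h.app Val.cst

theorem Mov.inv {π : α → (κ → ℕ) → (σ → ℕ) → σ → ℕ} :
    P.Mov a n (Tm.inv π) q d s (some (π a q s)) := Mov.mloc

theorem Mov.stop : P.Mov a n stop q d s none := Mov.mloc

theorem Val.aft {π : α → (κ → ℕ) → (σ → ℕ) → σ → ℕ} (h : P.Val a n e q (π a q s) v) :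
    P.Val a n (aft π e) q s v := Val.hop Mov.inv h

theorem Val.cal [Fintype κ] (hw : P.WF a) {t : τ} {F : α → (κ → ℕ) → κ → ℕ}
    (h : P.PVal a t (F a q) s v) : P.Val a n (cal t F) q s v := Val.call hw h.1 h.2

theorem Mov.cal [Fintype κ] (hw : P.WF a) {t : τ} {F : α → (κ → ℕ) → κ → ℕ}
    (h : P.PMov a t (F a q) d s o) : P.Mov a n (cal t F) q d s o := Mov.call hw h.1 h.2

/-- A guard which vanishes. -/
theorem Val.guard_zero (h : P.Val a n g q s 0) : P.Val a n (.guard g e) q s 0 :=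
  (Val.guard (w := 0) h fun h0 => absurd rfl h0).congr (mul_zero _)

/-- A guard which is a test. -/
theorem Val.guard_ite {p : Prop} [Decidable p] (h₁ : P.Val a n g q s (if p then 1 else 0))
    (h₂ : p → P.Val a n e q s w) : P.Val a n (.guard g e) q s (if p then w else 0) :=
  (h₁.guard fun h => h₂ (by simpa using h)).congr (by split_ifs <;> simp)

/-- The composition in the direction `d`. -/
theorem Mov.seq (h₁ : P.Mov a n (if d then M₁ else M₂) q d s (some s'))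
    (h₂ : P.Mov a n (if d then M₂ else M₁) q d s' o) : P.Mov a n (.seq M₁ M₂) q d s o := by
  cases d
  · exact h₁.seqF h₂
  · exact h₁.seqT h₂

/-- A move between two involutions. -/
theorem Mov.conj {π : Bool → α → (κ → ℕ) → (σ → ℕ) → σ → ℕ}
    (h : P.Mov a n M q d (π d a q s) (some s')) :
    P.Mov a n (.seq (Tm.inv (π true)) (.seq M (Tm.inv (π false)))) q d s
      (some (π (!d) a q s')) := by
  cases d
  · exact (Mov.inv.seqF h).seqF Mov.inv
  · exact Mov.inv.seqT (h.seqT Mov.inv)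

theorem unc_cst {r : ℝ} : P.Unc a n (cst r) q := trivial

theorem unc_tst {c : α → (κ → ℕ) → (σ → ℕ) → Bool} : P.Unc a n (tst c) q := trivial

theorem unc_ap1 {φ : α → (κ → ℕ) → (σ → ℕ) → ℝ → ℝ} (h : P.Unc a n e q) :
    P.Unc a n (ap1 φ e) q := ⟨h, trivial⟩

theorem unc_aft {π : α → (κ → ℕ) → (σ → ℕ) → σ → ℕ} (h : P.Unc a n e q) :
    P.Unc a n (aft π e) q := ⟨trivial, h⟩

theorem unc_cal [Fintype κ] {t : τ} {F : α → (κ → ℕ) → κ → ℕ} : P.Unc a n (cal t F) q := trivial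

theorem unc_cas {c : α → (κ → ℕ) → Bool} (h₁ : P.Unc a n e q) (h₂ : P.Unc a n g q) :
    P.Unc a n (.cas c e g) q := by
  unfold Unc
  split_ifs
  exacts [h₁, h₂]

end gen

end Pg

/-! ### Labels -/

theorem dlab_mem (w u : ℕ) : dlab w u ∈ labs w w w := by
  simp only [labs, prs, dlab, mem_product, Fintype.mem_piFinset, mem_range]
  exact ⟨fun _ => Nat.mod_lt _ (by positivity), fun _ => Nat.mod_lt _ (by positivity),
    Nat.mod_lt _ (by positivity)⟩

theorem dlab_inj {w u u' : ℕ} (hu : u < 2 ^ (5 * w)) (hu' : u' < 2 ^ (5 * w))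
    (h : dlab w u = dlab w u') : u = u' := by
  have h1 : ∀ i < 5, u / (2 ^ w) ^ i % 2 ^ w = u' / (2 ^ w) ^ i % 2 ^ w := by
    intro i hi
    rw [← pow_mul, mul_comm]
    have h2 := congrFun (congrArg Prod.fst h)
    have h3 := congrFun (congrArg (fun r : Lab => r.2.1) h)
    have h4 := congrArg (fun r : Lab => r.2.2) h
    interval_cases i
    · simpa [dlab] using h2 true
    · simpa [dlab] using h2 false
    · exact h3 true
    · exact h3 false
    · exact h4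
  have h2 : ∀ i ≤ 5, u % (2 ^ w) ^ i = u' % (2 ^ w) ^ i := by
    intro i hi
    induction i with
    | zero => simp [Nat.mod_one]
    | succ i ih => rw [Nat.mod_pow_succ, Nat.mod_pow_succ, ih (by omega), h1 i (by omega)]
  have h3 := h2 5 le_rfl
  rwa [← pow_mul, mul_comm, Nat.mod_eq_of_lt hu, Nat.mod_eq_of_lt hu'] at h3

theorem exists_dlab {w : ℕ} {r : Lab} (hr : r ∈ labs w w w) : ∃ u < 2 ^ (5 * w), dlab w u = r := by
  obtain ⟨u, hu, h⟩ := surj_on_of_inj_on_of_card_le (s := range (2 ^ (5 * w))) (t := labs w w w)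
    (fun u _ => dlab w u) (fun u _ => dlab_mem w u)
    (fun _ _ h1 h2 h => dlab_inj (mem_range.1 h1) (mem_range.1 h2) h)
    (by simp only [labs, prs, card_product, Fintype.card_piFinset, card_range, prod_const, card_univ,
      Fintype.card_bool, ← pow_mul, ← pow_add]; exact le_of_eq (by congr 1; ring)) r hr
  exact ⟨u, mem_range.1 hu, h.symm⟩

theorem sum_dlab (w : ℕ) (g : Lab → ℝ) :
    ∑ u ∈ range (2 ^ (5 * w)), g (dlab w u) = ∑ r ∈ labs w w w, g r :=
  sum_bij (fun u _ => dlab w u) (fun u _ => dlab_mem w u)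
    (fun _ h1 _ h2 h => dlab_inj (mem_range.1 h1) (mem_range.1 h2) h)
    (fun _ hr => let ⟨u, hu, h⟩ := exists_dlab hr; ⟨u, mem_range.2 hu, h⟩) fun _ _ => rfl

theorem labs_subset {i j k w : ℕ} (hi : i ≤ w) (hj : j ≤ w) (hk : k ≤ w) :
    labs i j k ⊆ labs w w w := fun _ hr =>
  have h := mem_labs.1 hr
  mem_labs.2 ⟨fun e => (h.1 e).trans_le (Nat.pow_le_pow_right two_pos hi),
    fun e => (h.2.1 e).trans_le (Nat.pow_le_pow_right two_pos hj),
    h.2.2.trans_le (Nat.pow_le_pow_right two_pos hk)⟩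

theorem sum_dlab_ite {w : ℕ} {S : Finset Lab} (hS : S ⊆ labs w w w) (g : Lab → ℝ)
    [∀ r, Decidable (r ∈ S)] :
    ∑ u ∈ range (2 ^ (5 * w)), (if dlab w u ∈ S then g (dlab w u) else 0) = ∑ r ∈ S, g r := by
  rw [sum_dlab w fun r => if r ∈ S then g r else 0, ← sum_filter]
  exact sum_congr (by ext r; simp only [mem_filter, and_iff_right_iff_imp]; exact fun h => hS h)
    fun _ _ => rfl

theorem a_le_cw : a ≤ cw := by unfold cw cZ; omega

theorem cF_le_cw : cF ≤ cw := by unfold cw; omega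

theorem B_le_cw : B ≤ cw := by unfold cw cZ; omega

theorem one_le_cw : 1 ≤ cw := by unfold cw cZ; omega

theorem labM_subset (c : Cx) : labM c ⊆ labs (cw * (c.age + 1)) (cw * (c.age + 1))
    (cw * (c.age + 1)) :=
  labs_subset (a_le_cw.trans (Nat.le_mul_of_pos_right _ (by omega)))
    (cF_le_cw.trans (Nat.le_mul_of_pos_right _ (by omega))) (Nat.mul_le_mul_right _ B_le_cw)

/-! ### Contexts -/

@[simp] theorem cx_mk (k : ℕ) (c : Cx) (f : Bool → ℕ) (l i : ℕ) : cx (mk k c f l i) = c := rfl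

@[simp] theorem ff_mk (k : ℕ) (c : Cx) (f : Bool → ℕ) (l i : ℕ) : ff (mk k c f l i) = f := rfl

@[simp] theorem cx_lab (q : QQ) (u : ℕ) : cx (update q .lab u) = cx q := by simp [cx]

@[simp] theorem ff_lab (q : QQ) (u : ℕ) : ff (update q .lab u) = ff q := by
  funext e
  simp [ff]

@[simp] theorem cx_idx (q : QQ) (u : ℕ) : cx (update q .idx u) = cx q := by simp [cx]

@[simp] theorem ff_idx (q : QQ) (u : ℕ) : ff (update q .idx u) = ff q := by
  funext e
  simp [ff]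

@[simp] theorem cx_age (q : QQ) : (cx q).age = q .age := rfl

theorem lb_lab (q : QQ) (u : ℕ) : lb (update q .lab u) = dlab (cw * (q .age + 1)) u := by simp [lb]

theorem mk_eq (q : QQ) : mk (q .lev) (cx q) (ff q) (q .lab) (q .idx) = q := by
  funext v
  cases v <;> rfl

theorem update_mk_lab (k : ℕ) (c : Cx) (f : Bool → ℕ) (l i u : ℕ) :
    update (mk k c f l i) .lab u = mk k c f u i := by
  funext v
  cases v <;> simp [mk]

theorem update_mk_idx (k : ℕ) (c : Cx) (f : Bool → ℕ) (l i u : ℕ) :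
    update (mk k c f l i) .idx u = mk k c f l u := by
  funext v
  cases v <;> simp [mk]

@[simp] theorem F0_lab (q : QQ) (u : ℕ) : F0 (update q .lab u) = F0 q := by simp [F0]

@[simp] theorem FH_lab (q : QQ) (u : ℕ) : FH (update q .lab u) = FH q := by simp [FH]

theorem F0_eq {q : QQ} (h1 : q .lab = 0) (h2 : q .idx = 0) : F0 q = q := by
  rw [F0, ← h2]
  nth_rewrite 1 [h2, ← h1]
  exact mk_eq q

/-! ### States -/

theorem shl_lt (m v e : ℕ) : shl m v e < 2 ^ m := Nat.mod_lt _ (by positivity)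

theorem shl_of_lt {m v e : ℕ} (h : v * 2 ^ e < 2 ^ m) : shl m v e = v * 2 ^ e := Nat.mod_eq_of_lt h

theorem shl_mod (m v e : ℕ) : shl m v e % 2 ^ e = 0 := by
  rcases le_total e m with h | h
  · rw [shl, Nat.mod_mod_of_dvd _ (pow_dvd_pow 2 h), Nat.mul_mod_left]
  · rw [shl, Nat.mod_eq_zero_of_dvd (Dvd.dvd.mul_left (pow_dvd_pow 2 h) v), Nat.zero_mod]

theorem sw_sw (e : Bool) (s : SS) : sw e (sw e s) = s := by
  funext r
  cases r <;> simp [sw]

@[simp] theorem sw_nm (e : Bool) (s : SS) : sw e s .nm = s .nm := rfl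

@[simp] theorem sw_ch (e : Bool) (s : SS) : sw e s .ch = s .ch := rfl

@[simp] theorem sw_ct (e : Bool) (s : SS) : sw e s .ct = s .ct := rfl

theorem ky_sw (e : Bool) (s : SS) : ky (sw e s) = two e (ky s e) (kc s) := by
  funext e'
  cases e <;> cases e' <;> simp [ky, kc, sw, two, Equiv.swap_apply_def]

theorem kc_sw (e : Bool) (s : SS) : kc (sw e s) = ky s (!e) := by simp [ky, kc, sw]

theorem xor_digits {i j t y c : ℕ} (hy : y < 2 ^ i) (hc : c < 2 ^ j) :
    (y + 2 ^ i * ((t ^^^ t % (2 ^ i * 2 ^ j) / 2 ^ i * 2 ^ i) / 2 ^ i)) ^^^ c * 2 ^ i =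
      y + 2 ^ i * c + 2 ^ i * 2 ^ j * (t / (2 ^ i * 2 ^ j)) := by
  have h1 : ∀ u, u ^^^ u % 2 ^ j = u / 2 ^ j * 2 ^ j := fun u => by
    nth_rewrite 1 [← Nat.mod_add_div u (2 ^ j)]
    rw [add_eq_xor (Nat.mod_lt _ (by positivity)), Nat.xor_comm, Nat.xor_xor_cancel_left]
  rw [Nat.xor_div_two_pow, Nat.mul_div_cancel _ (by positivity), Nat.mod_mul_right_div_self, h1,
    Nat.div_div_eq_div_mul, add_assoc, mul_assoc, ← mul_add, add_eq_xor hy, add_eq_xor hy,
    add_eq_xor hc, Nat.xor_assoc, ← Nat.shiftLeft_eq, ← Nat.shiftLeft_eq c,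
    ← Nat.shiftLeft_xor_distrib, Nat.shiftLeft_eq, Nat.xor_comm c]

namespace Cf

variable {cf : Cf} {s : SS} {k y z b : ℕ} {r : Lab} {e : Bool} {q : QQ}

theorem nm_K (cf : Cf) : nm cf.n0 cf.K = 2 ^ cf.nb := rfl

theorem pw_of_le {e : ℕ} (h : e ≤ cf.L) : cf.pw e = 2 ^ e := by rw [pw, min_eq_left h]

theorem pw_le (cf : Cf) (e : ℕ) : cf.pw e ≤ 2 ^ e := Nat.pow_le_pow_right two_pos (min_le_left _ _)

theorem nl_eq (h : cf.Ok2) (hq : q .age ≤ cf.K) : cf.nl q = 2 ^ (5 * (cw * (q .age + 1))) := by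
  refine pw_of_le (le_trans ?_ h.big)
  nlinarith [Nat.mul_le_mul_left cw hq]

theorem nx_lt (cf : Cf) (k : ℕ) (s : SS) : cf.nx k s < nm cf.n0 k := mod_nm_lt _ _ _

theorem nx_mod {i : ℕ} (h : i ≤ k) (s : SS) : cf.nx k s % nm cf.n0 i = cf.nx i s := mod_nm_mod _ h _

theorem mv_nm (cf : Cf) (k : ℕ) (s : SS) (y : ℕ) :
    cf.mv k s y .nm = y + nm cf.n0 k * (s .nm / nm cf.n0 k) := update_self ..

theorem mv_ne {t : Rg} (h : t ≠ .nm) : cf.mv k s y t = s t := update_of_ne h _ _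

theorem nx_mv (hy : y < nm cf.n0 k) : cf.nx k (cf.mv k s y) = y := by
  rw [nx, mv_nm, Nat.add_mul_mod_self_left, Nat.mod_eq_of_lt hy]

theorem mv_nx (cf : Cf) (k : ℕ) (s : SS) : cf.mv k s (cf.nx k s) = s := by
  rw [mv, nx, Nat.mod_add_div, update_eq_self]

theorem mv_mv (hy : y < nm cf.n0 k) : cf.mv k (cf.mv k s y) z = cf.mv k s z := by
  rw [mv, mv_nm, Nat.add_mul_div_left _ _ (nm_pos _ _), Nat.div_eq_of_lt hy, zero_add, mv,
    update_idem, mv]

@[simp] theorem ky_mv : ky (cf.mv k s y) = ky s := by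
  funext e
  simp [ky, mv]

@[simp] theorem kc_mv : kc (cf.mv k s y) = kc s := by simp [kc, mv]

@[simp] theorem nx_sw : cf.nx k (sw e s) = cf.nx k s := rfl

theorem sw_mv : sw e (cf.mv k s y) = cf.mv k (sw e s) y := by
  funext r
  cases r <;> simp [sw, mv]

theorem mv_mem (hk : k ≤ cf.K) (hs : s ∈ box cf.bd) (hy : y < nm cf.n0 k) :
    cf.mv k s y ∈ box cf.bd := by
  refine update_mem_box hs ?_
  obtain ⟨c, hc⟩ := nm_dvd cf.n0 hk
  have h1 : s .nm < nm cf.n0 k * c := hc ▸ mem_box.1 hs .nm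
  have h2 := Nat.mul_le_mul_left (nm cf.n0 k) (Nat.div_lt_of_lt_mul h1)
  change _ < nm cf.n0 cf.K
  rw [hc]
  rw [Nat.mul_succ] at h2
  omega

theorem sw_mem (hs : s ∈ box cf.bd) : sw e s ∈ box cf.bd := mem_box.2 fun r => by
  cases r <;> exact mem_box.1 hs _

theorem kOk (hs : s ∈ box cf.bd) : cf.KOk (ky s) := fun e => mem_box.1 hs (.of (some e))

theorem kc_lt (hs : s ∈ box cf.bd) : (kc s).2 < 2 ^ cf.m := mem_box.1 hs (.of none)

theorem ens_mod : cf.ens b r e q s .nm % nm cf.n0 (q .lev - b) = s .nm % nm cf.n0 (q .lev - b) := by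
  rw [ens, xor_mod_nm, dgs, nm, shl_mod, Nat.xor_zero]

theorem nx_ens : cf.nx (q .lev - b) (cf.ens b r e q s) = cf.nx (q .lev - b) s := ens_mod

theorem lrs_ens {e' : Bool} : cf.lrs b r e' q (cf.ens b r e q s) = cf.lrs b r e' q s := by
  rw [lrs, vw_congr _ _ _ _ le_rfl ens_mod, lrs]

theorem ens_ens : cf.ens b r e q (cf.ens b r e q s) = s := by
  funext t
  rcases t with _ | _ | _ | _ | (_ | e')
  · exact Nat.xor_xor_cancel_right _ _
  · rfl
  · rfl
  · rfl
  · rfl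
  · simp only [ens, shs, lrs_ens]
    rw [Nat.xor_assoc (s _), Nat.xor_assoc (s _ ^^^ _), Nat.xor_xor_cancel_right]

theorem ens_mem (hs : s ∈ box cf.bd) : cf.ens b r e q s ∈ box cf.bd := mem_box.2 fun t => by
  rcases t with _ | _ | _ | _ | (_ | e')
  · exact Nat.xor_lt_two_pow (mem_box.1 hs .nm) (shl_lt _ _ _)
  · exact mem_box.1 hs _
  · exact mem_box.1 hs _
  · exact mem_box.1 hs _
  · exact mem_box.1 hs _
  · exact Nat.xor_lt_two_pow (Nat.xor_lt_two_pow (mem_box.1 hs (.of (some e'))) (lin_lt _ _ _ _))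
      (Nat.xor_lt_two_pow (shl_lt _ _ _) (shl_lt _ _ _))

@[simp] theorem kc_ens : kc (cf.ens b r e q s) = kc s := rfl

@[simp] theorem ens_ch : cf.ens b r e q s .ch = s .ch := rfl

theorem ky_ens (e' : Bool) :
    ky (cf.ens b r e q s) e' = cf.ent (ky s e') (cf.dgs b r e' q) (cf.shs b r e q s e') := rfl

theorem dgs_eq (hb : b ≤ q .lev) (hk : q .lev ≤ cf.K) (hr : r.1 e < 2 ^ (a * b)) :
    cf.dgs b r e q = nm cf.n0 (q .lev - b) * r.1 e := by
  rw [mul_comm]
  refine shl_of_lt (lt_of_lt_of_le ?_ (nm_le cf.n0 hk))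
  conv_rhs => rw [← Nat.sub_add_cancel hb, nm_add, mul_comm]
  exact Nat.mul_lt_mul_of_pos_right hr (nm_pos _ _)

/-- Down at the end `e`, the move to `y` on the lower level, up at the other end. -/
theorem ens_mv_ens (hb : b ≤ q .lev) (hk : q .lev ≤ cf.K) (hr : ∀ e, r.1 e < 2 ^ (a * b))
    (hd : cf.dgOk b r e q s) (hy : y < nm cf.n0 (q .lev - b))
    (hl : (vw (!e) cf.N cf.n0 cf.K (q .lev - b) y).l + ((cx q).up b r.1).D (!e) =
      cf.lrs b r e q s) :
    cf.ens b r (!e) q (cf.mv (q .lev - b) (cf.ens b r e q s) y) =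
      cf.mv (q .lev) s (y + nm cf.n0 (q .lev - b) * r.1 (!e)) := by
  have h1 : cf.lrs b r (!e) q (cf.mv (q .lev - b) (cf.ens b r e q s) y) = cf.lrs b r e q s := by
    rw [← hl, lrs, vw_congr _ _ _ _ le_rfl ((nx_mv hy).trans (Nat.mod_eq_of_lt hy).symm)]
  funext t
  rcases t with _ | _ | _ | _ | (_ | e')
  · have h2 : nm cf.n0 (q .lev) = nm cf.n0 (q .lev - b) * 2 ^ (a * b) := by
      rw [← nm_add, Nat.sub_add_cancel hb]
    have h3 := xor_digits (t := s .nm) hy (hr (!e))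
    rw [mul_comm (r.1 _), mul_comm (s .nm % _ / _)] at h3
    rw [ens, mv_nm, mv_nm, ens, dgs_eq hb hk (hr _), dgs_eq hb hk (hr _), ← hd, nx, h2]
    exact h3
  · rfl
  · rfl
  · rfl
  · rfl
  · simp only [ens, shs, h1, mv_ne (show Rg.of _ ≠ .nm by simp), mv_ne (show Rg.sl _ ≠ .nm by simp)]
    rw [Nat.xor_assoc (s _), Nat.xor_assoc (s _ ^^^ _), Nat.xor_xor_cancel_right]

/-! ### The link with the tables -/

section tab

variable {V : Tb} {d : Bool}

theorem nx_mod_n (hn : V.L.n = nm cf.n0 (q .lev - b)) :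
    cf.nx (q .lev) s % V.L.n = cf.nx (q .lev - b) s := hn ▸ nx_mod (Nat.sub_le _ _) s

theorem shs_eq (hl : V.lr b d (cx q) (cf.nx (q .lev) s) r = cf.lrs b r d q s) (e : Bool)
    (h1 : r.2.1 e * 2 ^ (cf.lrs b r d q s + q (.f e)) < 2 ^ cf.m)
    (h2 : r.2.2 * 2 ^ (cf.lrs b r d q s - om b (cx q) r) < 2 ^ cf.m) :
    cf.shs b r d q s e = V.shf b d (cx q) (ff q) (cf.nx (q .lev) s) r e := by
  rw [shs, shl_of_lt h1, shl_of_lt h2, Tb.shf, hl, ff]

theorem ky_ens_eq (hb : b ≤ q .lev) (hk : q .lev ≤ cf.K) (hn : V.L.n = nm cf.n0 (q .lev - b))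
    (hr : ∀ e, r.1 e < 2 ^ (a * b))
    (hs : ∀ e, cf.shs b r d q s e = V.shf b d (cx q) (ff q) (cf.nx (q .lev) s) r e) :
    ky (cf.ens b r d q s) = V.kU cf b d (cx q) (ff q) (cf.nx (q .lev) s) (ky s) r := by
  funext e
  rw [ky_ens, dgs_eq hb hk (hr e), hs, Tb.kU, Tb.ek, hn]

end tab

end Cf

/-! ### Views -/

variable {α : Type} {I : α → In} {P : Pg α Rg Cv Pc} {a₀ : α} {n : ℕ} {q : QQ} {s s' : SS}
  {v w : ℝ} {e e₁ e₂ : Trm α} {d : Bool} {o : Option SS}

/-- The state with the key `K` in the register `i`. -/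
def setK (s : SS) (i : Option Bool) (K : Key) : SS := update (update s (.sl i) K.1) (.of i) K.2

@[simp] theorem setK_nm (s : SS) (i : Option Bool) (K : Key) : setK s i K .nm = s .nm := by
  simp [setK]

@[simp] theorem setK_ch (s : SS) (i : Option Bool) (K : Key) : setK s i K .ch = s .ch := by
  simp [setK]

@[simp] theorem nx_setK (cf : Cf) (k : ℕ) (s : SS) (i : Option Bool) (K : Key) :
    cf.nx k (setK s i K) = cf.nx k s := by simp [Cf.nx]

theorem ky_setK (s : SS) (d : Bool) (K : Key) : ky (setK s (some d) K) = two d K (ky s !d) := by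
  funext e
  cases d <;> cases e <;> simp [ky, setK, two]

@[simp] theorem kc_setK (s : SS) (d : Bool) (K : Key) : kc (setK s (some d) K) = kc s := by
  simp [kc, setK]

@[simp] theorem ky_setK_none (s : SS) (K : Key) : ky (setK s none K) = ky s := by
  funext e
  simp [ky, setK]

@[simp] theorem kc_setK_none (s : SS) (K : Key) : kc (setK s none K) = K := by simp [kc, setK]

theorem ky_setK_setK (s : SS) (d : Bool) (K K' : Key) :
    ky (setK (setK s (some d) K) (some !d) K') = two d K K' := by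
  funext e
  cases d <;> cases e <;> simp [ky, setK, two]

@[simp] theorem ky_ch (s : SS) (c : ℕ) : ky (update s .ch c) = ky s := by
  funext e
  simp [ky]

@[simp] theorem kc_ch (s : SS) (c : ℕ) : kc (update s .ch c) = kc s := by simp [kc]

@[simp] theorem nx_ch (cf : Cf) (k : ℕ) (s : SS) (c : ℕ) : cf.nx k (update s .ch c) = cf.nx k s := by
  simp [Cf.nx]

theorem setK_mem {cf : Cf} (hs : s ∈ box cf.bd) (i : Option Bool) {K : Key}
    (h1 : K.1 < 2 ^ (2 * cf.L)) (h2 : K.2 < 2 ^ cf.m) : setK s i K ∈ box cf.bd :=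
  update_mem_box (update_mem_box hs h1) h2

theorem rot_lt {cf : Cf} (c x : ℕ) {h : ℕ} (hh : h < 2 ^ cf.m) : (cf.rot c x h).2 < 2 ^ cf.m :=
  Nat.xor_lt_two_pow (lin_lt _ _ _ _) hh

theorem ky_rot (cf : Cf) (s : SS) (d : Bool) (x c : ℕ) :
    ky (setK s (some d) (cf.rot c x (cf.val (ky s d) x))) = cf.rt (ky s) d x c := ky_setK _ _ _

theorem box_eq (hb : P.bd a₀ = (I a₀).bd) : P.box a₀ = box (I a₀).bd := by rw [Pg.box, hb, box]

theorem two_mul_half {cf : Cf} (h : cf.Ok2) : 2 * (cf.m / 2) = cf.m := by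
  have := h.even
  omega

theorem ok_keyV (hb : P.bd a₀ = (I a₀).bd) (h : (I a₀).Ok2) (i : Option Bool) :
    (keyV I i).Ok a₀ q (P.box a₀) := by
  rw [box_eq hb]
  exact lens_key (by simp) rfl (by rw [two_mul_half h]; rfl)

theorem ok_rotV (hb : P.bd a₀ = (I a₀).bd) (i : Option Bool) (b : ℕ) :
    (rotV I i b).Ok a₀ q (P.box a₀) := by
  rw [box_eq hb]
  exact lens_rot (bd := (I a₀).bd) (iS := .sl i) (iO := .of i) (by simp) rfl rfl ((I a₀).nx (q .lev - b))
    (fun _ _ => by simp [Cf.nx]) fun _ _ => by simp [Cf.nx]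

theorem ok_chV (hb : P.bd a₀ = (I a₀).bd) : (chV I).Ok a₀ q (P.box a₀) := by
  rw [box_eq hb]
  exact lens_coord (m := 2 ^ (I a₀).nb) (Nat.two_pow_pos _) (by rw [← pow_add, ← two_mul]; rfl)

theorem ok_unV {b : Finset SS} : (unV : View α Rg Cv).Ok a₀ q b :=
  ⟨fun _ _ => one_pos, fun _ hs _ _ => hs, fun _ _ _ hv => (Nat.lt_one_iff.1 hv).symm,
    fun _ _ => rfl, fun _ _ _ _ _ _ => rfl⟩

namespace Pg

theorem Val.cl' (hw : P.WF a₀) {t : Pc} {F : QQ → QQ} (h : P.PVal a₀ t (F q) s v) :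
    P.Val a₀ n (cl' t F) q s v := Val.cal hw h

theorem Mov.cl' (hw : P.WF a₀) {t : Pc} {F : QQ → QQ} (h : P.PMov a₀ t (F q) d s o) :
    P.Mov a₀ n (cl' t F) q d s o := Mov.cal hw h

theorem Val.fn {φ : ℝ → ℝ} (h : P.Val a₀ n e q s v) : P.Val a₀ n (fn φ e) q s (φ v) := h.ap1

theorem Val.ts {p : Cf → QQ → SS → Prop} [Decidable (p (I a₀).toCf q s)] :
    P.Val a₀ n (ts I p) q s (if p (I a₀).toCf q s then 1 else 0) :=
  Val.tst.congr (by simp)

theorem Val.guard_ts {p : Cf → QQ → SS → Prop} [Decidable (p (I a₀).toCf q s)]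
    (h : p (I a₀).toCf q s → P.Val a₀ n e q s v) :
    P.Val a₀ n (.guard (Full.ts I p) e) q s (if p (I a₀).toCf q s then v else 0) :=
  Val.ts.guard_ite h

theorem Val.csT {p : QQ → Prop} (hp : p q) (h : P.Val a₀ n e₁ q s v) :
    P.Val a₀ n (cs p e₁ e₂) q s v := h.casT (by simpa using hp)

theorem Val.csF {p : QQ → Prop} (hp : ¬p q) (h : P.Val a₀ n e₂ q s v) :
    P.Val a₀ n (cs p e₁ e₂) q s v := h.casF (by simpa using hp)

theorem Mov.csT {p : QQ → Prop} (hp : p q) (h : P.Mov a₀ n e₁ q d s o) :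
    P.Mov a₀ n (cs p e₁ e₂) q d s o := h.casT (by simpa using hp)

theorem Mov.csF {p : QQ → Prop} (hp : ¬p q) (h : P.Mov a₀ n e₂ q d s o) :
    P.Mov a₀ n (cs p e₁ e₂) q d s o := h.casF (by simpa using hp)

theorem Val.smL {p : QQ → Prop} {f : ℕ → ℝ} [∀ u, Decidable (p (update q .lab u))]
    (h : ∀ u < (I a₀).nl q, p (update q .lab u) → P.Val a₀ n e (update q .lab u) s (f u)) :
    P.Val a₀ n (smL I p e) q s
      (∑ u ∈ range ((I a₀).nl q), if p (update q .lab u) then f u else 0) := by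
  refine Val.sum fun u hu => ?_
  split_ifs with hp
  · exact (h u hu hp).csT hp
  · exact Val.cst.csF hp

/-- The sum over the labels of a link. -/
theorem Val.smM (hc : (I a₀).Ok2) (hq : q .age ≤ (I a₀).K) {g : Lab → ℝ}
    (h : ∀ u < (I a₀).nl q, lb (update q .lab u) ∈ labM (cx q) →
      P.Val a₀ n e (update q .lab u) s (g (lb (update q .lab u)))) :
    P.Val a₀ n (Full.smL I vM e) q s (∑ r ∈ labM (cx q), g r) := by
  classical
  refine (Val.smL (f := fun u => g (lb (update q .lab u))) fun u hu hp =>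
    h u hu (by simpa [vM] using hp)).congr ?_
  simp only [vM, cx_lab, lb_lab]
  rw [Cf.nl_eq hc hq]
  exact sum_dlab_ite (labM_subset (cx q)) g

/-- The sum over the labels of a layer; only the height `b` contributes. -/
theorem Val.smU (hc : (I a₀).Ok2) (hq : q .age ≤ (I a₀).K) {b : ℕ} (h1 : 1 ≤ b)
    (h2 : b ≤ q .age + 1) (h3 : b ≤ q .lev) {g : Lab → ℝ}
    (h : ∀ u < (I a₀).nl q, vU (update q .lab u) → P.Val a₀ n e (update q .lab u) s
      (if bU (update q .lab u) = b then g (rU (update q .lab u)) else 0)) :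
    P.Val a₀ n (Full.smL I vU e) q s (∑ r ∈ labU b, g r) := by
  classical
  refine (Val.smL h).congr ?_
  have hw : ∀ c ≤ cw, c * b ≤ cw * (q .age + 1) := fun c hc => Nat.mul_le_mul hc h2
  have hb : b < 2 ^ (cw * (q .age + 1)) := Nat.lt_two_pow_self.trans_le
    (Nat.pow_le_pow_right two_pos (by simpa using hw 1 one_le_cw))
  have h4 := sum_dlab_ite (w := cw * (q .age + 1))
    (S := (labU b).image fun r : Lab => (r.1, r.2.1, b)) (fun r hr => by
      obtain ⟨r', hr', rfl⟩ := mem_image.1 hr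
      have h5 := mem_labs.1 (labs_subset (hw _ a_le_cw) (hw _ cF_le_cw) (Nat.zero_le _) hr')
      exact mem_labs.2 ⟨h5.1, h5.2.1, hb⟩) fun r => g (r.1, r.2.1, 0)
  have h6 : ∀ r ∈ labU b, r = (r.1, r.2.1, 0) := fun r hr =>
    Prod.ext rfl (Prod.ext rfl (Nat.lt_one_iff.1 (mem_labs.1 hr).2.2))
  rw [sum_image fun r hr r' hr' h => by
    rw [h6 r hr, h6 r' hr', (Prod.ext_iff.1 h).1.trans rfl]
    exact Prod.ext rfl (Prod.ext (Prod.ext_iff.1 (Prod.ext_iff.1 h).2).1 rfl)] at h4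
  rw [sum_congr rfl fun r hr => congrArg g (h6 r hr), ← h4, Cf.nl_eq hc hq]
  refine sum_congr rfl fun u _ => ?_
  rw [← ite_and, rU, lb_lab]
  refine if_congr ⟨fun h7 => mem_image.2 ⟨rU (update q .lab u), h7.2 ▸ h7.1.2.2.2, ?_⟩,
    fun h7 => ?_⟩ rfl rfl
  · rw [← h7.2, rU, bU, lb_lab]
  · obtain ⟨r, hr, h8⟩ := mem_image.1 h7
    have h9 : bU (update q .lab u) = b := by rw [bU, lb_lab, ← h8]
    refine ⟨⟨h9 ▸ h1, by simpa [h9] using h2, by simpa [h9] using h3, ?_⟩, h9⟩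
    rw [h9, rU, lb_lab, ← h8, ← h6 r hr]
    exact hr

theorem Val.chT : P.Val a₀ n (chT I) q s ((I a₀).chs q s) := Val.loc

theorem Val.avg_key (hc : (I a₀).Ok2) {i : Option Bool} {f : Key → ℝ}
    (h : ∀ K : Key, K.1 < 2 ^ (2 * (I a₀).L) → K.2 < 2 ^ (I a₀).m →
      P.Val a₀ n e q (setK s i K) (f K)) :
    P.Val a₀ n (.avg (keyV I i) e) q s ((I a₀).JK f) := by
  refine (Val.avg (V := keyV I i) (f := fun c => f (c % 2 ^ (2 * (I a₀).L), c / 2 ^ (2 * (I a₀).L)))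
    fun c hc' => h (c % 2 ^ (2 * (I a₀).L), c / 2 ^ (2 * (I a₀).L))
      (Nat.mod_lt _ (Nat.two_pow_pos _)) (Nat.div_lt_of_lt_mul ?_)).congr ?_
  · refine hc'.trans_le (le_of_eq ?_)
    simp only [keyV, ← pow_add]
    congr 1
    have := two_mul_half hc
    omega
  · refine (J_key (I a₀).L ((I a₀).m / 2) fun x y => f (x, y)).trans ?_
    rw [two_mul_half hc, Cf.JK, Cf.JS, sum_comm]
    simp only [mean, ← sum_div]
    push_cast
    rw [div_div, mul_comm ((2 : ℝ) ^ (I a₀).m)]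

theorem Val.avg_rot {i : Option Bool} {b : ℕ} {f : ℕ → ℝ}
    (h : ∀ c < 2 ^ (2 * (I a₀).L), P.Val a₀ n e q (setK s i ((I a₀).rot c
      ((I a₀).nx (q .lev - b) s) ((I a₀).val (s (.sl i), s (.of i)) ((I a₀).nx (q .lev - b) s))))
      (f c)) : P.Val a₀ n (.avg (rotV I i b) e) q s ((I a₀).JS f) := by
  have e : 2 ^ (I a₀).L * 2 ^ (I a₀).L = 2 ^ (2 * (I a₀).L) := by rw [← pow_add, two_mul]
  refine (Val.avg (V := rotV I i b) (f := f) fun c hc => h c (e ▸ hc)).congr ?_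
  rw [Cf.JS, mean, ← e]
  simp [rotV]

theorem Val.avg_ch {f : ℕ → ℝ}
    (h : ∀ c < 2 ^ (2 * (I a₀).nb), P.Val a₀ n e q (update s .ch c) (f c)) :
    P.Val a₀ n (.avg (chV I) e) q s (mean (2 ^ (2 * (I a₀).nb)) f) := by
  have e : 2 ^ (I a₀).nb * 2 ^ (I a₀).nb = 2 ^ (2 * (I a₀).nb) := by rw [← pow_add, two_mul]
  refine (Val.avg (V := chV I) (f := f) fun c hc => h c (e ▸ hc)).congr ?_
  rw [mean, ← e]
  simp [chV]

theorem Val.avR {f : ℕ → ℝ} (h : ∀ c < 2 ^ (2 * (I a₀).L), P.Val a₀ n e q (setK s (some d)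
      ((I a₀).rot c ((I a₀).nx (q .lev) s) ((I a₀).val (ky s d) ((I a₀).nx (q .lev) s)))) (f c)) :
    P.Val a₀ n (avR I d e) q s ((I a₀).JS f) := Val.avg_rot h

theorem Val.avK (hc : (I a₀).Ok2) {f : Key → Key → ℝ}
    (h : ∀ K K' : Key, K.1 < 2 ^ (2 * (I a₀).L) → K.2 < 2 ^ (I a₀).m →
      K'.1 < 2 ^ (2 * (I a₀).L) → K'.2 < 2 ^ (I a₀).m →
      P.Val a₀ n e q (setK (setK s (some d) K) (some !d) K') (f K K')) :
    P.Val a₀ n (avK I d e) q s ((I a₀).JK fun K => (I a₀).JK (f K)) :=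
  Val.avg_key hc fun K h1 h2 => Val.avg_key hc fun K' => h K K' h1 h2

/-! ### Links -/

theorem Val.cU (hw : P.WF a₀) {t : Bool → Pc} {F : QQ → QQ}
    (h : P.PVal a₀ (t (decide (q .age < bU q))) (F q) s v) : P.Val a₀ n (cU t F) q s v := by
  by_cases hp : bU q ≤ q .age
  · rw [decide_eq_false (not_lt.2 hp)] at h
    exact (Val.cl' hw h).csT hp
  · rw [decide_eq_true (not_le.1 hp)] at h
    exact (Val.cl' hw h).csF hp

theorem Mov.cU (hw : P.WF a₀) {t : Bool → Pc} {F : QQ → QQ}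
    (h : P.PMov a₀ (t (decide (q .age < bU q))) (F q) d s o) : P.Mov a₀ n (cU t F) q d s o := by
  by_cases hp : bU q ≤ q .age
  · rw [decide_eq_false (not_lt.2 hp)] at h
    exact (Mov.cl' hw h).csT hp
  · rw [decide_eq_true (not_le.1 hp)] at h
    exact (Mov.cl' hw h).csF hp

theorem Mov.linkU (hw : P.WF a₀)
    (h : P.PMov a₀ (.St (decide (q .age < bU q))) (FU q) d (enU I d a₀ q s) (some s')) :
    P.Mov a₀ n (linkU I) q d s (some (enU I (!d) a₀ q s')) :=
  Mov.conj (π := enU I) (Mov.cU hw h)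

theorem Val.inH (hw : P.WF a₀) {e : Bool} {t : Pc} (h : P.PVal a₀ t (FM e q) (sw e s) v) :
    P.Val a₀ n (inH e t) q s v := Val.aft (Val.cl' hw h)

theorem Mov.half (hw : P.WF a₀) {e : Bool}
    (h : P.PMov a₀ (.St true) (FM e q) d (sw e s) (some s')) :
    P.Mov a₀ n (half e) q d s (some (sw e s')) :=
  Mov.conj (π := fun _ _ _ => sw e) (Mov.cl' hw h)

theorem Mov.linkM {s₁ s₂ : SS} (h₁ : P.Mov a₀ n (Full.half d) q d (enM I d a₀ q s) (some s₁))
    (h₂ : P.Mov a₀ n (Full.half (!d)) q d s₁ (some s₂)) :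
    P.Mov a₀ n (linkM I) q d s (some (enM I (!d) a₀ q s₂)) := by
  cases d
  · exact ((Mov.inv.seqF h₁).seqF h₂).seqF Mov.inv
  · exact Mov.inv.seqT (h₁.seqT (h₂.seqT Mov.inv))

theorem Val.frH (hw : P.WF a₀) {e : Bool} {k : QQ → ℕ}
    (h : P.PVal a₀ (.H true e) (Fr (k q)) s v) : P.Val a₀ n (frH e k) q s v := Val.cl' hw h

end Pg

end Vale.Agent.P313.Full
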