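import Vale.Agent.P313.Full.PgDef
import Vale.Agent.P313.Full.PgRule
import Vale.Agent.P313.Full.PgBr

/-! The program for the tables: what the procedures and the terms compute (as propositions, so that
they can be proved independently). -/

namespace Vale.Agent.P313.Full

open Finset Function Hi Tm

variable {α : Type} (I : α → In) (a : α) (W : ℕ → Tb)

/-- The assumptions. -/
structure Env : Prop where
  ok : (I a).Ok2
  tab : IsTab (I a).toCf W
  good : ∀ k ≤ (I a).K, Good (I a).toCf W k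
  wf : (prog I).WF a
  stU : StU
  stM : StM
  stMv : StMv
  stMw : StMw

/-- A context of the level `k` and a state. -/
structure Ct (k : ℕ) (q : QQ) (s : SS) : Prop where
  lev : q .lev = k
  fok : FOk (I a).toCf k (cx q) (ff q)
  box : s ∈ (prog I).box a

/-- The value of a procedure. -/
abbrev PV (t : Pc) (q : QQ) (s : SS) (v : ℝ) : Prop := (prog I).PVal a t q s v

/-- The result of a move. -/
abbrev PM (t : Pc) (q : QQ) (d : Bool) (s s' : SS) : Prop := (prog I).PMov a t q d s (some s')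

/-- The value of a term, for all sizes. -/
def TV (e : Trm α) (q : QQ) (s : SS) (v : ℝ) : Prop := ∀ n, (prog I).Val a n e q s v

/-- The result of a move, for all sizes. -/
def TMv (e : Trm α) (q : QQ) (d : Bool) (s s' : SS) : Prop :=
  ∀ n, (prog I).Mov a n e q d s (some s')

/-! ### The procedures -/

section proc

variable (g : Bool) (k : ℕ)

/-- The trouble. -/
def VT : Prop := ∀ {d q s}, Ct I a k q s → (Pc.T g d).ad q → (g = false → (I a).mus d q s = 0) →
  PV I a (.T g d) q s ((W k).Tk (I a).toCf d (cx q) (ff q) ((I a).nx k s) (ky s))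

/-- The strength. -/
def VS : Prop := ∀ {d q s}, Ct I a k q s → (Pc.S g d).ad q → (g = false → (I a).mus d q s = 0) →
  PV I a (.S g d) q s ((W k).s (I a).toCf d (cx q) (ff q) ((I a).nx k s) (ky s))

/-- The weight. -/
def VW : Prop := ∀ {d q s}, Ct I a k q s → (Pc.W g d).ad q → (g = false → (I a).mus d q s = 0) →
  0 < (W k).s (I a).toCf d (cx q) (ff q) ((I a).nx k s) (ky s) →
  PV I a (.W g d) q s ((W k).w d (cx q) ((I a).nx k s)
    ((W k).pt (I a).toCf d (cx q) (ff q) ((I a).nx k s) (ky s)) / 2 ^ dn q)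

/-- The statistic. -/
def VH : Prop := ∀ {d q s}, Ct I a k q s → (Pc.H g d).ad q → (g = false → (I a).mus d q s = 0) →
  PV I a (.H g d) q s ((W k).H d (cx q) ((I a).nx k s))

/-- The move. -/
def VM : Prop := ∀ {d q s}, Ct I a k q s → (Pc.St g).ad q → (g = false → (I a).mus d q s = 0) →
  0 < (W k).s (I a).toCf d (cx q) (ff q) ((I a).nx k s) (ky s) →
  PM I a (.St g) q d s
    ((I a).mv k s ((W k).pt (I a).toCf d (cx q) (ff q) ((I a).nx k s) (ky s)))

/-- All procedures of one kind. -/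
structure Lvg : Prop where
  T : VT I a W g k
  S : VS I a W g k
  W' : VW I a W g k
  H : VH I a W g k
  M : VM I a W g k

end proc

/-- The lower levels are done. -/
def Low (k : ℕ) : Prop := ∀ j < k, ∀ g, Lvg I a W g j

/-! ### Layers -/

section U

variable (k : ℕ)

/-- The strength below the layer. -/
noncomputable def sUv (d : Bool) (q : QQ) (s : SS) : ℝ :=
  (W (k - bU q)).sU (I a).toCf (bU q) d (cx q) (ff q) ((I a).nx k s) (ky s) (rU q)

/-- The end of the option. -/
noncomputable def eUv (d : Bool) (q : QQ) (s : SS) : ℕ :=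
  (W (k - bU q)).eU (I a).toCf (bU q) d (cx q) (ff q) ((I a).nx k s) (ky s) (rU q)

/-- The height in the label is right. -/
def hOk (d : Bool) (q : QQ) (s : SS) : Prop := bU q = hb (cx q) ((I a).mus d q s)

open Classical in
/-- `sUt`. -/
def U1 : Prop := ∀ {d q s}, Ct I a k q s → vU q →
  TV I a (sUt I d) q s (if hOk I a d q s then sUv I a W k d q s else 0)

/-- `linkU`. -/
def U2 : Prop := ∀ {d q s}, Ct I a k q s → vU q → hOk I a d q s → sUv I a W k d q s ≠ 0 →
  eUv I a W k d q s < nm (I a).n0 k ∧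
    TMv I a (linkU I) q d s ((I a).mv k s (eUv I a W k d q s))

/-- The chain. -/
def U3 : Prop := ∀ {d q s}, Ct I a k q s → vU q → q .lab < 2 ^ (5 * (cw * (q .age + 1))) →
  hOk I a d q s → sUv I a W k d q s ≠ 0 →
  TV I a (wUt d) q s ((W k).w d (cx q) ((I a).nx k s) (eUv I a W k d q s) / 2 ^ dn q)

open Classical in
/-- `uUt`. -/
def U4 : Prop := ∀ {d q s}, Ct I a k q s → vU q → q .lab < 2 ^ (5 * (cw * (q .age + 1))) →
  TV I a (uUt I d) q s (if hOk I a d q s then
    (W k).uU (W (k - bU q)) (I a).toCf (bU q) d (cx q) (ff q) ((I a).nx k s) (ky s) (rU q) else 0)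

end U

/-! ### Merged names; `j + 1` is the level -/

section M

variable (j : ℕ) (d : Bool) (q : QQ) (s : SS)

/-- A quantity of the link in the context `q` from the state `s`. -/
noncomputable def lk {β : Type}
    (F : Tb → Cf → Bool → Cx → (Bool → ℕ) → ℕ → (Bool → Key) → Lab → Key → β) : β :=
  F (W j) (I a).toCf d (cx q) (ff q) ((I a).nx (j + 1) s) (ky s) (lb q) (kc s)

/-- The state at the midpoint. -/
noncomputable def mid : SS := (I a).mv j (enM I d a q s) (lk I a W j d q s Tb.mM)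

/-- The state at the end. -/
noncomputable def far : SS := (I a).mv (j + 1) s (lk I a W j d q s Tb.eM)

/-- A quantity at a merged name. -/
noncomputable def mg {β : Type}
    (F : Tb → Tb → Cf → Bool → Cx → (Bool → ℕ) → ℕ → (Bool → Key) → β) : β :=
  F (W (j + 1)) (W j) (I a).toCf d (cx q) (ff q) ((I a).nx (j + 1) s) (ky s)

/-- The result of the search. -/
noncomputable def stv : ℕ := (W j).st (I a).toCf d (cx q) (ff q) ((I a).nx (j + 1) s) (ky s)

end M

section M

variable (j : ℕ)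

/-- The moves along the halves and along the link. -/
def M0 : Prop := ∀ {d q s}, Ct I a (j + 1) q s → vM q → lk I a W j d q s Tb.s1 ≠ 0 →
  lk I a W j d q s Tb.mM < nm (I a).n0 j ∧
  TMv I a (half d) q d (enM I d a q s) (mid I a W j d q s) ∧
  TMv I a (half d) q (!d) (mid I a W j d q s) (enM I d a q s) ∧
  (lk I a W j d q s Tb.s2 ≠ 0 → lk I a W j d q s Tb.zM < nm (I a).n0 j ∧
    TMv I a (half (!d)) q d (mid I a W j d q s)
      ((I a).mv j (enM I d a q s) (lk I a W j d q s Tb.zM)) ∧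
    TMv I a (linkM I) q d s
      (enM I (!d) a q ((I a).mv j (enM I d a q s) (lk I a W j d q s Tb.zM))) ∧
    ((I a).dgOk 1 (lb q) d q s →
      (I a).nx (j + 1) (enM I (!d) a q ((I a).mv j (enM I d a q s) (lk I a W j d q s Tb.zM))) =
        lk I a W j d q s Tb.eM ∧
      ((W j).lr 1 d (cx q) ((I a).nx (j + 1) s) (lb q) =
          (W j).lr 1 (!d) (cx q) (lk I a W j d q s Tb.eM) (lb q) →
        enM I (!d) a q ((I a).mv j (enM I d a q s) (lk I a W j d q s Tb.zM)) =
          far I a W j d q s)))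

/-- `wZ`. -/
def M1 : Prop := ∀ {d q s}, Ct I a (j + 1) q s → vM q → (I a).dgOk 1 (lb q) d q s →
  lk I a W j d q s Tb.s1 ≠ 0 → lk I a W j d q s Tb.s2 ≠ 0 →
  (W j).locM (cx q) (lb q) (lk I a W j d q s Tb.mM) →
  TV I a (wZ I) q (mid I a W j d q s)
    (2 ^ (2 * (W j).lr 1 d (cx q) ((I a).nx (j + 1) s) (lb q) + cZ) *
      trm (W j).L d ((I a).nx (j + 1) s) (lk I a W j d q s Tb.mM) (lk I a W j d q s Tb.eM))

/-- `wI`. -/
def M2 : Prop := ∀ {d q s}, Ct I a (j + 1) q s → vM q → lk I a W j d q s Tb.s1 ≠ 0 →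
  TV I a (wI I d) q (mid I a W j d q s)
    (2 ^ ((W j).lr 1 d (cx q) ((I a).nx (j + 1) s) (lb q) + ((cx q).up 1 (lb q).1).D (!d) + cZ) *
      fre (W j).L d ((I a).nx (j + 1) s % (W j).L.n) (lk I a W j d q s Tb.mM))

/-- `a1t`. -/
def M3 : Prop := ∀ {d q s e v}, Ct I a (j + 1) q s → vM q →
  (lk I a W j d q s Tb.a1 ≠ 0 → TV I a e q (mid I a W j d q s) v) →
  TV I a (a1t I d e) q s (lk I a W j d q s Tb.a1 * v)

/-- `Zt`. -/
def M4 : Prop := ∀ {d q s e₁ e₂ v₁ v₂}, Ct I a (j + 1) q s → vM q →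
  (lk I a W j d q s Tb.Z ≠ 0 → TV I a e₁ q (mid I a W j d q s) v₁) →
  (lk I a W j d q s Tb.Z ≠ 0 → TV I a e₂ q (far I a W j d q s) v₂) →
  TV I a (Zt I d e₁ e₂) q s (lk I a W j d q s Tb.Z * (v₁ * v₂))

/-- The end of a link with a positive mass. -/
def M5 : Prop := ∀ {d q s}, Ct I a (j + 1) q s → vM q → lk I a W j d q s Tb.Z ≠ 0 →
  lk I a W j d q s Tb.eM < nm (I a).n0 (j + 1) ∧
    ((I a).mus d q s = 0 → (I a).mus (!d) q (far I a W j d q s) = 0)

/-- The mass weighted with the character. -/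
def VX : Prop := ∀ {d q s}, Ct I a (j + 1) q s → (Pc.X d).ad q →
  PV I a (.X d) q s (((I a).JK fun c => ∑ r ∈ labM (cx q),
    (W j).Z (I a).toCf d (cx q) (ff q) ((I a).nx (j + 1) s) (ky s) r c *
      chr (2 * (I a).nb) (s .ch)
        ((W j).eM (I a).toCf d (cx q) (ff q) ((I a).nx (j + 1) s) (ky s) r c)) / scX I a q)

/-- `gateT`. -/
def M6 : Prop := ∀ {d q s t}, Ct I a (j + 1) q s → q .lab = 0 → (I a).mus d q s = 0 →
  TV I a (gateT I d t) q s (mg I a W j d q s Tb.gate t)

/-- `tstT`; the link is defined if the test is positive. -/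
def M7 : Prop := ∀ {d q s}, Ct I a (j + 1) q s → vM q →
  TV I a (tstT I d) q s (lk I a W j d q s Tb.tst) ∧ (lk I a W j d q s Tb.tst ≠ 0 →
    (I a).dgOk 1 (lb q) d q s ∧ lk I a W j d q s Tb.s1 ≠ 0 ∧ lk I a W j d q s Tb.s2 ≠ 0)

/-- The search. -/
def VMd : Prop := ∀ {d q s}, Ct I a (j + 1) q s → (Pc.St false).ad q → (I a).mus d q s = 0 →
  mg I a W j d q s Tb.DM → PM I a (.St false) q d s ((I a).mv (j + 1) s (stv I a W j d q s))

/-- `alT`, `pN`. -/
def M8 : Prop := ∀ {d q s}, Ct I a (j + 1) q s → vM q →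
  TV I a (alT I d) q s (lk I a W j d q s Tb.al) ∧
    TV I a (avR I d (alT I d)) q s (lk I a W j d q s Tb.pN)

/-- `pMt`. -/
def M9 : Prop := ∀ {d q s}, Ct I a (j + 1) q s → vM q → lk I a W j d q s Tb.s1 ≠ 0 →
  TV I a (pMt I d) q (mid I a W j d q s) (lk I a W j d q s Tb.pM)

/-- `pAt` at the end of a link. -/
def M10 : Prop := ∀ {d q s}, Ct I a (j + 1) q s → vM q → (I a).mus d q s = 0 →
  lk I a W j d q s Tb.Z ≠ 0 → TV I a (pAt I (!d)) q (far I a W j d q s)
    (mg I a W j (!d) q (far I a W j d q s) Tb.pA (lb q) (kc s))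

/-- The weight as it is computed. -/
def VWm : Prop := ∀ {d q s}, Ct I a (j + 1) q s → (Pc.W false d).ad q → (I a).mus d q s = 0 →
  PV I a (.W false d) q s (cl (mg I a W j d q s Tb.wM / 2 ^ dn q))

end M

/-! ### The searches, the top, the structure -/

/-- The conditions on the search in the move of the level `k`. -/
def UncSt (g : Bool) (k : ℕ) : Prop := ∀ q, q .lev = k → (prog I).adm (.St g) a q →
  (prog I).Unc a ((prog I).sz (.St g) a q) (body I (.St g)) q

/-- The structural conditions for a procedure. -/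
def WFp (t : Pc) : Prop := ∀ q, (prog I).adm t a q →
  (prog I).Str a ((prog I).sz t a q) ((prog I).pot t a q) (body I t) q t.mvp ∧
    (prog I).Rng a (body I t) (B + 2) q

/-- The potential without the index. -/
noncomputable def pot0 (r : ℕ) (q : QQ) : ℕ :=
  uL * q .lev + r * (uR * (q .age + 1)) + cSv Cv * (q (.f true) + q (.f false))

/-- A node of size `n` in a procedure of rank `r` with the potential `p`. -/
structure Sc (r n p : ℕ) (q : QQ) : Prop where
  ok : (I a).Ok2
  fok : FOk (I a).toCf (q .lev) (cx q) (ff q)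
  lab : q .lab < 2 ^ (5 * (cw * (q .age + 1)))
  idx : q .idx ≤ q .age + 1
  n_ge : nC ≤ n
  n_le : n ≤ nA * (q .age + 1)
  pot : pot0 r q ≤ p

end Vale.Agent.P313.Full
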