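import Vale.Agent.P313.Full.TopRun
import Vale.Agent.P313.Full.PgStmt
import Vale.Agent.P313.Full.TabSP

/-! The procedures at the top deliver the approximations. -/

namespace Vale.Agent.P313.Full

open Finset Function Vale.Agent.Lib.Space Hi

variable {A α : Type} [Enc A α] {Bu : Bud A}

/-- The facts about the program which are used at the top. -/
structure TopFacts (I : α → In) (p : α) (W : ℕ → Tb) : Prop where
  wf : (prog I).WF p
  unc : ∀ t q, (prog I).adm t p q → (prog I).Unc p ((prog I).sz t p q) ((prog I).body t) q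
  H : ∀ d, ∀ k ≤ (I p).K, ∀ s ∈ box (I p).bd,
    (prog I).PVal p (.H true d) (Fr k) s ((W k).H d q0 ((I p).nx k s))
  S : ∀ k ≤ (I p).K, ∀ s ∈ box (I p).bd,
    (prog I).PVal p (.S true true) (Fr k) s ((W k).s (I p).toCf true q0 fZ ((I p).nx k s) (ky s))
  Wt : ∀ k ≤ (I p).K, ∀ s ∈ box (I p).bd,
    0 < (W k).s (I p).toCf true q0 fZ ((I p).nx k s) (ky s) → (prog I).PVal p (.W true true) (Fr k) s
      ((W k).w true q0 ((I p).nx k s) ((W k).pt (I p).toCf true q0 fZ ((I p).nx k s) (ky s)))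
  St : ∀ k ≤ (I p).K, ∀ s ∈ box (I p).bd,
    0 < (W k).s (I p).toCf true q0 fZ ((I p).nx k s) (ky s) → (prog I).PMov p (.St true) (Fr k) true s
      (some ((I p).mv k s ((W k).pt (I p).toCf true q0 fZ ((I p).nx k s) (ky s))))

theorem adm_le {I : α → In} {p : α} (hc : (I p).Ok2) {t : Pc} {q : QQ} (h : (prog I).adm t p q)
    (x : Cv) : q x ≤ 2 ^ (I p).L := by
  obtain ⟨hf, ht⟩ := h
  have h1 : q .age + q .lev ≤ (I p).K := hf.age
  have h2 := hc.big
  have h3 := hc.hash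
  have h4 := one_le_cw
  have h5 : cw * q .age ≤ cw * (I p).K := Nat.mul_le_mul_left _ (by omega)
  have h6 : (I p).K ≤ cw * (I p).K := Nat.le_mul_of_pos_left _ h4
  have h7 : (I p).L ≤ 2 ^ (I p).L := Nat.lt_two_pow_self.le
  have h8 : 8 * cw * ((I p).K + 1) = 8 * (cw * (I p).K) + 8 * cw := by ring
  have hl : q .lab ≤ 2 ^ (I p).L ∧ q .idx ≤ q .age + 1 := by
    cases t
    case Ch d =>
      refine ⟨ht.2.1.le.trans (Nat.pow_le_pow_right two_pos ?_), ht.2.2.trans ht.1.2.1⟩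
      rw [mul_add, mul_one]
      omega
    case topH d => rw [show q = Fr (q .lev) from ht]; exact ⟨Nat.zero_le _, Nat.zero_le _⟩
    case topR => rw [show q = Fr (q .lev) from ht]; exact ⟨Nat.zero_le _, Nat.zero_le _⟩
    case X d => rw [ht.1, ht.2.1]; exact ⟨Nat.zero_le _, Nat.zero_le _⟩
    case H g d => rw [ht.1, ht.2.1]; exact ⟨Nat.zero_le _, Nat.zero_le _⟩
    all_goals rw [ht.1, ht.2]; exact ⟨Nat.zero_le _, Nat.zero_le _⟩
  cases x
  · omega
  · omega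
  · rename_i e
    have h9 : q (.D e) ≤ B * q .age := hf.D e
    have h10 := Nat.mul_le_mul_right (q .age) B_le_cw
    omega
  · rename_i e
    have h9 : q (.E e) ≤ (C + 1) * q .age := hf.E e
    have h10 := Nat.mul_le_mul_right (q .age) (show C + 1 ≤ cw by unfold cw cZ; omega)
    omega
  · rename_i e
    have h9 : q (.D e) + q (.f e) + (B + cF) * q .lev ≤ (I p).m := hf.room e e
    omega
  · exact hl.1
  · omega

theorem F0_Fr (k : ℕ) : F0 (Fr k) = Fr k := rfl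

theorem fok_Fr {cf : Cf} (hc : cf.Ok) {k : ℕ} (hk : k ≤ cf.K) :
    FOk cf (Fr k .lev) (cx (Fr k)) (ff (Fr k)) := fok_fZ hc hk

/-- The bound for the potential per stage. -/
noncomputable def cP : ℕ := uL + 11 * uR + cSv Cv * (cZ + cZ)

theorem pot_Fr {k K : ℕ} (hk : k ≤ K) (h1 : 1 ≤ K) : potR 11 (Fr k) ≤ cP * K := by
  have h2 := Nat.mul_le_mul_left uL hk
  have h3 := Nat.mul_le_mul_left (11 * uR + cSv Cv * (cZ + cZ)) h1
  change uL * k + 11 * (uR * (0 + 1)) + cSv Cv * (cZ + cZ) + uC * 0 ≤ cP * K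
  rw [cP, add_assoc uL, add_mul]
  omega

/-- A term without searches. -/
def Tm.noS {α σ κ τ : Type} : Tm α σ κ τ → Bool
  | .app _ e₁ e₂ | .guard e₁ e₂ | .hop _ e₁ e₂ | .seq e₁ e₂ | .cas _ e₁ e₂ | .alt _ e₁ e₂ =>
    e₁.noS && e₂.noS
  | .sum _ _ e | .avg _ e => e.noS
  | .search .. => false
  | _ => true

theorem Pg.unc_of_noS {α σ κ τ : Type} [DecidableEq κ] [Fintype σ] [DecidableEq σ]
    {P : Pg α σ κ τ} {a : α} {n : ℕ} {e : Tm α σ κ τ} (h : e.noS = true) (q : κ → ℕ) :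
    P.Unc a n e q := by
  induction e generalizing q with
  | loc => trivial
  | mloc => trivial
  | call => trivial
  | search => exact absurd h Bool.false_ne_true
  | sum nl x e ih => exact fun u _ => ih h _
  | avg v e ih => exact ih h _
  | cas c e₁ e₂ i₁ i₂ =>
    exact Pg.unc_cas (i₁ (Bool.and_eq_true_iff.1 h).1 _) (i₂ (Bool.and_eq_true_iff.1 h).2 _)
  | app _ _ _ i₁ i₂ | guard _ _ i₁ i₂ | hop _ _ _ i₁ i₂ | seq _ _ i₁ i₂ | alt _ _ _ i₁ i₂ =>
    exact ⟨i₁ (Bool.and_eq_true_iff.1 h).1 _, i₂ (Bool.and_eq_true_iff.1 h).2 _⟩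

/-- The conditions on the searches for all procedures. -/
theorem unc_all {I : α → In} {p : α} (h : ∀ g k, UncSt I p g k) (t : Pc) (q : QQ)
    (hq : (prog I).adm t p q) : (prog I).Unc p ((prog I).sz t p q) ((prog I).body t) q := by
  rcases t with ⟨_ | _, d⟩ | ⟨_ | _, d⟩ | ⟨_ | _, d⟩ | ⟨_ | _, d⟩ | g | d | d | d | _
  case St => exact h g _ q rfl hq
  all_goals exact Pg.unc_of_noS rfl q

theorem topFacts_of {I : α → In} {p : α} {W : ℕ → Tb} (E : Env I p W)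
    (hL : ∀ k, Lvg I p W true k) (hU : ∀ g k, UncSt I p g k) : TopFacts I p W := by
  have hc : ∀ k ≤ (I p).K, ∀ s ∈ box (I p).bd, Ct I p k (Fr k) s := fun k hk s hs =>
    ⟨rfl, fok_Fr E.ok.toOk hk, hs⟩
  refine ⟨E.wf, unc_all hU, fun d k hk s hs => (hL k).H (hc k hk s hs) ⟨rfl, rfl, rfl⟩ nofun,
    fun k hk s hs => (hL k).S (hc k hk s hs) ⟨rfl, rfl⟩ nofun, fun k hk s hs h => ?_,
    fun k hk s hs h => (hL k).M (hc k hk s hs) ⟨rfl, rfl⟩ nofun h⟩
  have h1 := (hL k).W' (hc k hk s hs) ⟨rfl, rfl⟩ nofun h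
  rwa [show dn (Fr k) = 0 from rfl, pow_zero, div_one] at h1

theorem TopFacts.topH {I : α → In} {p : α} {W : ℕ → Tb} (h : TopFacts I p W) (d : Bool) {k : ℕ}
    (hk : k ≤ (I p).K) {s : SS} (hs : s ∈ box (I p).bd) {n : ℕ} :
    (prog I).Val p n (body I (.topH d)) (Fr k) s
      (if s .nm = (I p).x0 then (W k).H d q0 ((I p).nx k s) else 0) :=
  (Pg.Val.tst.congr (by simp)).guard_ite fun _ => Pg.Val.cl' h.wf (h.H d k hk s hs)

theorem TopFacts.topR {I : α → In} {p : α} {W : ℕ → Tb} (h : TopFacts I p W) {k : ℕ}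
    (hP : Pre (I p).toCf W k) {s : SS} (hs : s ∈ box (I p).bd) {n : ℕ} :
    ∃ v, (prog I).Val p n (body I .topR) (Fr k) s v ∧ ((I p).x0 < nm (I p).n0 k →
      v = if s .nm = (I p).x0 then (W k).rw (I p).toCf (I p).x0 (I p).m0 (ky s) else 0) := by
  classical
  set y := (W k).pt (I p).toCf true q0 fZ ((I p).nx k s) (ky s) with hy
  refine ⟨if s .nm = (I p).x0 then (W k).s (I p).toCf true q0 fZ ((I p).nx k s) (ky s) *
      ((if (I p).mv k s y .nm = (I p).m0 then 1 else 0) *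
        (cl ((W k).w true q0 ((I p).nx k s) y) * phi ((W k).w true q0 ((I p).nx k s) y))) else 0,
    (Pg.Val.tst.congr (by simp)).guard_ite fun _ =>
      (Pg.Val.cl' h.wf (h.S k hP.le s hs)).guard fun h0 => ?_, fun hx => ?_⟩
  · have h1 := G0.s_nonneg.lt_of_ne' h0
    exact (Pg.Val.hop (Pg.Mov.cl' h.wf (h.St k hP.le s hs h1))
      (Pg.Val.tst.congr (by simp only [decide_eq_true_eq, hy]))).guard fun _ => (Pg.Val.cl' h.wf (h.Wt k hP.le s hs h1)).fn
  · by_cases h1 : s .nm = (I p).x0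
    · have h2 : (I p).nx k s = (I p).x0 := by rw [Cf.nx, h1, Nat.mod_eq_of_lt hx]
      have h3 : (I p).mv k s y .nm = y := by
        rw [Cf.mv_nm, h1, Nat.div_eq_of_lt hx, mul_zero, add_zero]
      have h4 : cl ((W k).w true q0 (I p).x0 y) = (W k).w true q0 (I p).x0 y := by
        have h5 := hP.w_le true q0 (I p).x0 y
        have h6 := hP.tab.w_nonneg k true q0 (I p).x0 y
        rw [cl, min_eq_right (by simpa [q0] using h5), max_eq_right h6]
      rw [if_pos h1, if_pos h1, h3, h2, h4, Tb.rw, ← h2, ← hy]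
      split_ifs <;> simp
    · rw [if_neg h1, if_neg h1]

/-- The input of the program. -/
noncomputable def inOf (N : ℕ) (A0 : ℕ → ℕ → ℕ) (x0 m0 : ℕ) : In :=
  ⟨cfOf (16 * cw) (2 * cw) N A0, x0, m0⟩

theorem cw_m : cZ + B + cS + cF ≤ 2 * cw := by unfold cw cZ; omega

theorem cw_L : 2 * cw + 3 + 3 * a ≤ 16 * cw := by
  have := a_le_cw
  have := one_le_cw
  omega

theorem cfOf_ok2 {N : ℕ} {A0 : ℕ → ℕ → ℕ} (h : (cfOf (16 * cw) (2 * cw) N A0).Ok) :
    (cfOf (16 * cw) (2 * cw) N A0).Ok2 := by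
  refine ⟨h, ?_, ?_⟩
  · change 2 * cw * pK N % 2 = 0
    rw [mul_assoc, Nat.mul_mod_right]
  · change 8 * cw * (pK N + 1) ≤ 16 * cw * pK N
    have : 1 ≤ pK N := by unfold pK; omega
    nlinarith

theorem isSP_cfOf {N : α → ℕ} {A0 : α → ℕ → ℕ → ℕ} (cL cm : ℕ) (hN : SP Bu N)
    (hA : SP Bu fun p : α × ℕ × ℕ => A0 p.1 p.2.1 p.2.2) :
    Cf.IsSP Bu fun p => cfOf cL cm (N p) (A0 p) :=
  ⟨hN, sp_pn0 hN, sp_pK hN, (SP.const cL).mul (sp_pK hN), (SP.const cm).mul (sp_pK hN), hA,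
    sp_pow_pK hN cL, sp_pow_pK hN cm⟩

/-- The program delivers the approximations. -/
theorem progAll_of
    (hS : ∀ I : Inp A × ℕ × ℕ × ℕ → In, (Cf.IsSP (lenBud A) fun p => (I p).toCf) →
      (SP (lenBud A) fun p => (I p).x0) → (SP (lenBud A) fun p => (I p).m0) →
      (SP (lenBud A) fun p => 2 ^ (I p).nb) →
      (SP (lenBud A) fun p => 2 ^ ((C + 2) * (I p).K + 3)) → (prog I).IsSP (lenBud A))
    (hF : ∀ (I : Inp A × ℕ × ℕ × ℕ → In) p W, (I p).Ok2 → IsTab (I p).toCf W →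
      (∀ k ≤ (I p).K, Good (I p).toCf W k) → TopFacts I p W) :
    ProgAll A (16 * cw) (2 * cw) := by
  intro N A0 W _ hN hA hg
  set I : Inp A × ℕ × ℕ × ℕ → In := fun p => inOf (N p.1) (A0 p.1) p.2.2.1 p.2.2.2 with hI
  have hN' : SP (lenBud A) fun p : Inp A × ℕ × ℕ × ℕ => N p.1 := hN.comp SP.fst'
  have hc : Cf.IsSP (lenBud A) fun p => (I p).toCf :=
    isSP_cfOf _ _ hN' (hA.comp (SP.fst'.fst.pair SP.snd'))
  have hP : (prog I).IsSP (lenBud A) := hS I hc SP.snd'.snd.fst SP.snd'.snd.snd (sp_nmK hN')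
    (((sp_pow_pK hN' (C + 2)).mul (SP.const 8)).congr fun p => by rw [pow_add]; rfl)
  have hk : SP (lenBud A) fun p : Inp A × ℕ × ℕ × ℕ => min p.2.1 (pK (N p.1)) :=
    SP.snd'.fst.min (sp_pK hN')
  have hnb : SP (lenBud A) fun p => (I p).nb := hc.n0.add ((SP.const a).mul hc.K)
  have o2 : ∀ p, (I p).Ok2 := fun p => cfOf_ok2 (hg p.1).1
  have hT : ∀ p, TopFacts I p (W p.1) := fun p => hF I p _ (o2 p) (hg p.1).2.1 (hg p.1).2.2
  have h1 : ∀ x, 1 ≤ pK (N x) := fun x => by unfold pK; omega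
  have h2 : ∀ (x : Inp A) {k v : ℕ}, k < pK (N x) → v < nm (pn0 (N x)) k →
      v < 2 ^ (cfOf (16 * cw) (2 * cw) (N x) (A0 x)).nb := fun x k v hk hv =>
    hv.trans_le (nm_le _ hk.le)
  refine ⟨fun d => ?_, ?_⟩
  · obtain ⟨r, r1, r2⟩ := top_run (prog I) I hP (.topH d) rfl hk
      ((SP.const cP).mul (sp_pK hN')) (sp_pE hN') (sp_pow_pK hN' cP).pbd (sp_pow_pE hN').pbd
      hc.pL.pbd hnb (sp_nmK hN') (fun p _ => (W p.1 p.2.1).H d q0 p.2.2.1)
      (fun p => p.2.1 < pK (N p.1) ∧ p.2.2.1 < nm (pn0 (N p.1)) p.2.1) fun _ p _ =>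
        ⟨rfl, (hT p).wf, fun t q hq => ⟨(hT p).unc t q hq, adm_le (o2 p) hq⟩,
          ⟨fok_Fr (o2 p).toOk (min_le_right _ _), rfl⟩, pot_Fr (min_le_right _ _) (h1 _),
          fun s hs => ⟨_, (hT p).topH d (min_le_right _ _) hs, fun h3 => by
            rw [min_eq_left (b := (I p).K) h3.1.le]
            split_ifs with h4
            · rw [Cf.nx, h4]
              exact congrArg _ (Nat.mod_eq_of_lt h3.2)
            · rfl⟩⟩
    refine ⟨fun p => r (p.1, p.2.1, p.2.2, 0),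
      r1.comp (SP.fst'.pair (SP.snd'.fst.pair (SP.snd'.snd.pair (SP.const 0)))),
      fun x y hy k hk v hv => ?_⟩
    have h3 := r2 x (y, k, v, 0) ⟨hy, trivial, trivial, trivial⟩ ⟨hk, hv⟩ (h2 y hk hv)
    simpa only [Cf.JK, Cf.JS, mean_const (Nat.two_pow_pos _)] using h3
  · obtain ⟨r, r1, r2⟩ := top_run (prog I) I hP .topR rfl hk
      ((SP.const cP).mul (sp_pK hN')) ((sp_pE hN').add (SP.const (2 * cZ))) (sp_pow_pK hN' cP).pbd
      (((sp_pow_pE hN').pbd.mul (PBd.const (2 ^ (2 * cZ)))).mono fun p => (pow_add _ _ _).le)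
      hc.pL.pbd hnb (sp_nmK hN') (fun p => (W p.1 p.2.1).rw (I p).toCf p.2.2.1 p.2.2.2)
      (fun p => p.2.1 < pK (N p.1) ∧ p.2.2.1 < nm (pn0 (N p.1)) p.2.1) fun _ p _ =>
        ⟨rfl, (hT p).wf, fun t q hq => ⟨(hT p).unc t q hq, adm_le (o2 p) hq⟩,
          ⟨fok_Fr (o2 p).toOk (min_le_right _ _), rfl⟩, pot_Fr (min_le_right _ _) (h1 _),
          fun s hs => ((hT p).topR ⟨(hg p.1).1, (hg p.1).2.1, min_le_right _ _, fun j hj =>
            (hg p.1).2.2 j (hj.le.trans (min_le_right _ _))⟩ hs).imp fun v hv => ⟨hv.1, fun h3 => by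
              have h4 := hv.2
              rw [min_eq_left (b := (I p).K) h3.1.le] at h4
              exact h4 h3.2⟩⟩
    exact ⟨r, r1, fun x y hy k hk u hu v _ =>
      r2 x (y, k, u, v) ⟨hy, trivial, trivial, trivial⟩ ⟨hk, hu⟩ (h2 y hk hu)⟩

end Vale.Agent.P313.Full
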