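import Vale.Agent.P313.Full.PgStmt

/-! The program for the tables: the strength below a layer, the move through a layer and the
strength of an option. -/

namespace Vale.Agent.P313.Full

open Finset Function Hi Tm

variable {α : Type} {I : α → In} {a : α} {W : ℕ → Tb} {k j : ℕ}

namespace PU1

variable {d : Bool} {q : QQ} {s : SS}

theorem ent (E : Env I a W) (C : Ct I a k q s) (h : vU q) :
    Ent (I a).toCf q (bU q) (rU q) :=
  Ent.ofU E.ok.toOk (C.lev ▸ C.fok) h

theorem ct (E : Env I a W) (C : Ct I a k q s) (h : vU q) (d : Bool) :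
    Ct I a (k - bU q) (FU q) (enU I d a q s) := by
  obtain rfl := C.lev
  exact ⟨rfl, (ent E C h).fok_U, Cf.ens_mem C.box⟩

theorem lvlt (C : Ct I a k q s) (h : vU q) : k - bU q < k := by
  obtain rfl := C.lev
  have := h.1
  have := h.2.2.1
  omega

theorem mus0 (E : Env I a W) (C : Ct I a k q s) (h : vU q) (hO : hOk I a d q s)
    (hg : decide (q .age < bU q) = false) : (I a).mus d (FU q) (enU I d a q s) = 0 := by
  obtain rfl := C.lev
  have h1 : bU q ≤ q .age := by simpa using hg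
  have h2 : bU q = (I a).mus d q s := by
    have : bU q = min (q .age + 1) ((I a).mus d q s) := hO
    omega
  rw [mus_eq E.tab] at h2 ⊢
  rw [FU_lev, enU, (ent E C h).nx_ens' E.tab, E.tab.n_eq, E.tab.mu_down h2.le, ← h2, Nat.sub_self]

theorem s_eq (E : Env I a W) (C : Ct I a k q s) (h : vU q)
    {β : Type} (F : Tb → Cf → Bool → Cx → (Bool → ℕ) → ℕ → (Bool → Key) → β) :
    F (W (k - bU q)) (I a).toCf d (cx (FU q)) (ff (FU q))
      ((I a).nx (k - bU q) (enU I d a q s)) (ky (enU I d a q s)) =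
    F (W (k - bU q)) (I a).toCf d ((cx q).up (bU q) (rU q).1) (fU (bU q) (ff q))
      ((I a).nx k s % (W (k - bU q)).L.n)
      ((W (k - bU q)).kU (I a).toCf (bU q) d (cx q) (ff q) ((I a).nx k s) (ky s) (rU q)) := by
  obtain rfl := C.lev
  rw [enU, (ent E C h).nx_ens' E.tab, (ent E C h).ky_ens E.tab, cx_FU, ff_FU]

theorem sg (E : Env I a W) (C : Ct I a k q s) (x : ℝ) :
    sgR I a q (x / 2 ^ dn q) = cl (2 * x / thr (cx q).age - 1) := by
  have h1 := E.ok.big
  have h2 := C.fok.age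
  have h3 := C.fok.D true
  have h4 := B_le_cw
  have h5 := one_le_cw
  have h6 : dn q ≤ (cx q).D true := min_le_left _ _
  have h7 : B * (cx q).age ≤ cw * (I a).K := Nat.mul_le_mul h4 (by omega)
  have h8 : (I a).K ≤ cw * (I a).K := Nat.le_mul_of_pos_left _ h5
  rw [mul_assoc, mul_add, mul_one] at h1
  rw [cx_age] at h2
  rw [sgR, pD, iTh, Cf.pw_of_le (by omega), Cf.pw_of_le (by omega), thr, cx_age]
  congr 2
  push_cast
  field_simp

theorem fac (E : Env I a W) (hH : VH I a W true k) (C : Ct I a k q s) (e : Bool) :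
    TV I a (facT I e) q s ((W k).fac e (cx q) ((I a).nx k s)) := fun n => by
  obtain rfl := C.lev
  rw [Tb.fac, ← mus_eq E.tab]
  split_ifs with h
  · exact Pg.Val.altT (decide_eq_true h) Pg.Val.cst
  · exact Pg.Val.altF (decide_eq_false h) (Pg.Val.fn (Pg.Val.cl' E.wf
      (hH (q := FH q) ⟨rfl, FOk.stat E.ok.toOk C.fok.toOk, C.box⟩ ⟨rfl, rfl, rfl⟩ nofun)))

end PU1

open PU1

theorem u1 (E : Env I a W) (L : Low I a W k) : U1 I a W k := by
  classical
  intro d q s C h n
  have h1 := fun ht : (I a).tU d q s => Pg.Val.aft (n := n) (Pg.Val.cU (t := (.S · d)) E.wf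
    ((L _ (lvlt C h) _).S (ct E C h d) ⟨rfl, rfl⟩ (mus0 E C h ht.1)))
  rw [s_eq E C h Tb.s] at h1
  refine (Pg.Val.guard_ts (p := (Cf.tU · d)) h1).congr ?_
  obtain rfl := C.lev
  rw [sUv, Tb.sU, ← ite_and]
  exact if_congr (and_congr_right' (dgOk_iff E.tab _ _ _ _ _)) rfl rfl

theorem u2 (E : Env I a W) (L : Low I a W k) : U2 I a W k := by
  intro d q s C h hO hs
  have hM := fun hp => (L _ (lvlt C h) _).M (ct E C h d) ⟨rfl, rfl⟩ (mus0 E C h hO) hp
  rw [s_eq E C h Tb.s, s_eq E C h Tb.pt] at hM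
  have hE := ent E C h
  obtain rfl := C.lev
  rw [sUv, Tb.sU] at hs
  split_ifs at hs with hd
  swap
  · exact absurd rfl hs
  have hc := (Tb.of_s hs).1
  have hy := (E.tab.cand_lt E.ok.N_le hc).2
  rw [eUv, Tb.eU, E.tab.n_eq] at *
  refine ⟨hE.end_lt _ hy, fun n => (Pg.Mov.linkU E.wf
    (hM ((Tb.s_nonneg _ _ _ _ _ _ _).lt_of_ne' hs))).congr (congrArg some ?_)⟩
  refine hE.exit E.tab ((dgOk_iff E.tab _ _ _ _ _).2 ?_) hy ?_
  · rw [E.tab.n_eq, hd]
  · rw [Tb.lr, E.tab.n_eq]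
    exact hc.vis.1.symm

theorem u4 (E : Env I a W) (h1 : U1 I a W k) (h2 : U2 I a W k) (h3 : U3 I a W k)
    (hH : VH I a W true k) : U4 I a W k := by
  intro d q s C h hl n
  by_cases hO : hOk I a d q s
  · have h4 := h1 (d := d) C h n
    rw [if_pos hO] at h4 ⊢
    refine (h4.guard fun hs => ?_).congr (by rw [Tb.uU]; rfl)
    obtain ⟨hy, hm⟩ := h2 C h hO hs
    have C' : Ct I a k q ((I a).mv k s (eUv I a W k d q s)) :=
      ⟨C.lev, C.fok, Cf.mv_mem ((Nat.le_add_left _ _).trans C.fok.age) C.box hy⟩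
    have h5 := fac E hH C' (!d) n
    rw [Cf.nx_mv hy] at h5
    refine (((Pg.Val.ap1 (h3 C h hl hO hs n)).guard fun _ => fac E hH C d n).guard
      fun _ => Pg.Val.hop (hm n) h5).congr ?_
    rw [sg E C]
    rfl
  · have h4 := h1 (d := d) C h n
    rw [if_neg hO] at h4 ⊢
    exact h4.guard_zero

end Vale.Agent.P313.Full
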