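import Vale.Agent.P313.Full.PgStmt

/-! The program for the tables: the statistic at all names. -/

namespace Vale.Agent.P313.Full

open Finset Function Hi Tm

variable {α : Type} {I : α → In} {a : α} {W : ℕ → Tb} {k j : ℕ}

namespace PU2

open Classical in
/-- The sum over the codes of the labels of a layer. -/
theorem sum_vU (hc : (I a).Ok2) {q : QQ} (hq : q .age ≤ (I a).K) {b : ℕ} (h1 : 1 ≤ b)
    (h2 : b ≤ q .age + 1) (h3 : b ≤ q .lev) (g : Lab → ℝ) :
    (∑ u ∈ range ((I a).nl q), if vU (update q .lab u) then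
      (if bU (update q .lab u) = b then g (rU (update q .lab u)) else 0) else 0) =
      ∑ r ∈ labU b, g r :=
  (Pg.Val.smL (P := prog I) (I := I) (a₀ := a) (n := 0) (s := fun _ => 0)
    (e := loc fun _ q _ => if bU q = b then g (rU q) else 0) fun _ _ _ => Pg.Val.loc).unique
    (Pg.Val.smU (n := 0) hc hq h1 h2 h3 fun _ _ _ => Pg.Val.loc)

theorem sum_labU_zero (b : ℕ) (g : (Bool → ℕ) → ℝ) :
    (∑ r ∈ labU b, if r.2.1 true = 0 ∧ r.2.1 false = 0 then g r.1 else 0) =
      ∑ c ∈ prs (2 ^ (Hi.a * b)), g c := by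
  rw [labU, sum_labs]
  refine sum_congr rfl fun c _ => ?_
  rw [sum_eq_single_of_mem (fun _ => 0) (mem_prs.2 fun _ => Nat.two_pow_pos _)
    fun t _ ht => sum_eq_zero fun _ _ => if_neg fun h => ht (funext fun e => by
      cases e
      exacts [h.2, h.1])]
  simp

theorem scH_eq (hc : (I a).Ok2) {q : QQ} (hf : FOk (I a).toCf k (cx q) (ff q)) :
    scH I a q = 2 ^ (2 * (cZ + cS * q .age)) / 2 ^ (cH * q .age) * 2 ^ dn q := by
  have h1 := hc.big
  have h2 : q .age ≤ (I a).K := (Nat.le_add_right _ _).trans hf.age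
  have h3 : dn q ≤ B * q .age := (min_le_left _ _).trans (hf.D true)
  have h4 : cS * q .age ≤ cw * (I a).K := Nat.mul_le_mul (by unfold cw; omega) h2
  have h5 : cH * q .age ≤ cw * (I a).K := Nat.mul_le_mul (by unfold cw cH cS; omega) h2
  have h6 : B * q .age ≤ cw * (I a).K := Nat.mul_le_mul B_le_cw h2
  have h7 : cZ ≤ cw := by unfold cw; omega
  rw [mul_assoc, mul_add, mul_one] at h1
  rw [scH, pD, Cf.pw_of_le (by omega), Cf.pw_of_le (by omega), Cf.pw_of_le (by omega)]
  push_cast
  rfl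

end PU2

open PU2 in
/-- The statistic at all names. -/
theorem vh_true (E : Env I a W) (L : Low I a W k) (h1 : U1 I a W k) (h3 : U3 I a W k)
    (h : VH I a W false k) : VH I a W true k := by
  classical
  intro d q s c ad _
  obtain ⟨rfl, hf, hs⟩ := c
  refine ⟨⟨hf, ad⟩, ?_⟩
  by_cases h0 : (I a).mus d q s = 0
  · refine Pg.Val.altT (by simpa using h0) (Pg.Val.cl' E.wf ?_)
    rw [F0_eq ad.1 ad.2.1]
    exact h ⟨rfl, hf, hs⟩ ad fun _ => h0
  have hq : q .age ≤ (I a).K := (Nat.le_add_right _ _).trans hf.age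
  have hm := mus_eq E.tab d q s
  obtain ⟨b, hb⟩ : ∃ b, b = hb (cx q) ((I a).mus d q s) := ⟨_, rfl⟩
  have b1 : 1 ≤ b := hb ▸ Nat.one_le_iff_ne_zero.2 (hb_ne _ h0)
  have b2 : b ≤ q .age + 1 := hb ▸ hb_le_age _ _
  have b4 : b ≤ (I a).mus d q s := hb ▸ hb_le _ _
  have b3 : b ≤ q .lev := b4.trans (mu_le _ _ _ _)
  have hbx := box_eq (P := prog I) (I := I) (a₀ := a) rfl
  refine Pg.Val.altF (by simpa using h0) ((Pg.Val.app
    (Pg.Val.avK E.ok (f := fun K K' => ∑ r ∈ labU b,
      (W (q .lev - b)).sU (I a).toCf b d (cx q) (ff q) ((I a).nx (q .lev) s) (two d K K') r *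
        ((W (q .lev)).w d (cx q) ((I a).nx (q .lev) s) ((W (q .lev - b)).eU (I a).toCf b d (cx q)
          (ff q) ((I a).nx (q .lev) s) (two d K K') r) / 2 ^ dn q))
      fun K K' k1 k2 k3 k4 => Pg.Val.smU E.ok hq b1 b2 b3 fun u hu hv => ?_)
    (Pg.Val.smL (f := fun u => if (I a).tU d (update q .lab u) s then
      (W (q .lev - bU (update q .lab u))).H d
        ((cx q).up (bU (update q .lab u)) (rU (update q .lab u)).1)
        ((I a).nx (q .lev - bU (update q .lab u)) s) else 0)
      fun u hu hp => Pg.Val.guard_ts fun ht => Pg.Val.cU E.wf ?_)).congr ?_)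
  · have c' : Ct I a (q .lev) (update q .lab u) (setK (setK s (some d) K) (some !d) K') :=
      ⟨by simp, by simpa using hf, hbx ▸ setK_mem (setK_mem (hbx ▸ hs) _ k1 k2) _ k3 k4⟩
    have ho : hOk I a d (update q .lab u) (setK (setK s (some d) K) (some !d) K') ↔
        bU (update q .lab u) = b := by simp [hOk, hb, Cf.mus]
    refine ((h1 c' hv _).guard fun hne => h3 c' hv (by simpa [Cf.nl_eq E.ok hq] using hu)
      (by_contra fun h5 => hne (if_neg h5)) (fun h5 => hne (by simp [h5])) _).congr ?_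
    rw [ite_mul, zero_mul]
    refine if_ctx_congr ho (fun h5 => ?_) fun _ => rfl
    simp only [sUv, eUv, h5, cx_upd, ff_upd, nx_setK, ky_setK_setK, dn_upd]
  · have e := Ent.ofU (q := update q .lab u) E.ok.toOk (by simpa using hf) hp.1
    have e1 := hp.1.1
    have e2 : bU (update q .lab u) ≤ q .lev := by simpa using e.le
    have := (L (q .lev - bU (update q .lab u)) (by omega)
      (decide (update q .lab u .age < bU (update q .lab u)))).H (d := d)
      (q := FH (FU (update q .lab u))) (s := s)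
      ⟨by simp, upd_lev u q ▸ FOk.stat E.ok.toOk e.fok_U.toOk, hs⟩ ⟨rfl, rfl, rfl⟩ fun hg => ?_
    · simpa using this
    · have h5 : bU (update q .lab u) = b := by simpa [hb, Cf.mus] using ht.1
      have h6 : b = (I a).mus d q s := by
        rw [h5] at hg
        simp only [upd_age, decide_eq_false_iff_not] at hg
        unfold Full.hb at hb
        rw [cx_age] at hb
        omega
      simp only [Cf.mus, FH_lev, FU_lev, upd_lev, h5]
      rw [← Cf.nx_mod (Nat.sub_le _ b), mu_mod _ _ _ le_rfl, mu_sub b4]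
      exact Nat.sub_eq_zero_of_le h6.ge
  · rw [E.tab.HU _ _ _ _ (hm ▸ h0), ← hm, ← hb, Tb.HU, stat, ← sum_labU_zero,
      ← sum_vU E.ok hq b1 b2 b3, scH_eq E.ok hf]
    congr 2
    · simp only [← mul_div_assoc, ← sum_div, Cf.JK_div, ad.2.2]
      rw [mul_right_comm, mul_div_cancel_right₀ _ (by positivity)]
      rfl
    · congr 1
      refine sum_congr rfl fun u _ => ?_
      rw [ite_and]
      refine if_ctx_congr Iff.rfl (fun hv => ?_) fun _ => rfl
      by_cases h5 : bU (update q .lab u) = b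
      · simp only [tU_iff E.tab, h5, cx_upd, upd_lev, ← hm, ← hb, true_and, if_true, E.tab.n_eq,
          Cf.nx_mod (Nat.sub_le _ _)]
        rfl
      · simp only [tU_iff E.tab, h5, cx_upd, upd_lev, ← hm, ← hb, false_and, if_false, ite_self]

end Vale.Agent.P313.Full
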