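import Vale.Agent.P313.Full.PgStmt

/-! The program for the tables: the trouble at a name without a merge. -/

namespace Vale.Agent.P313.Full

open Finset Function Hi Tm

namespace PU3

theorem cl3_add {x y : ℝ} (hx : 0 ≤ x) (hy : 0 ≤ y) : cl3 (x + cl3 y) = cl3 (x + y) := by
  unfold cl3
  rcases le_total 3 y with h | h
  · rw [min_eq_left h, max_eq_right (by norm_num : (0 : ℝ) ≤ 3), min_eq_left (by linarith),
      min_eq_left (by linarith)]
  · rw [min_eq_right h, max_eq_right hy]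

theorem uU_nonneg (A V : Tb) (cf : Cf) (b : ℕ) (d : Bool) (c : Cx) (f : Bool → ℕ) (x : ℕ)
    (K : Bool → Key) (r : Lab) : 0 ≤ A.uU V cf b d c f x K r := by
  refine mul_nonneg ?_ (Tb.sig_nonneg ..)
  unfold Tb.sU
  split_ifs
  exacts [Tb.s_nonneg .., le_rfl]

variable {α : Type} {I : α → In} {a : α} {W : ℕ → Tb} {k n : ℕ} {d : Bool} {q : QQ} {s : SS}

theorem box_mem (c : Ct I a k q s) : s ∈ box (I a).bd := box_eq (P := prog I) rfl ▸ c.box

theorem ct_lab (c : Ct I a k q s) (u : ℕ) : Ct I a k (update q .lab u) s :=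
  ⟨(upd_lev u q).trans c.lev, by rw [cx_upd, ff_upd]; exact c.fok, c.box⟩

theorem age_le (c : Ct I a k q s) : q .age ≤ (I a).K := (Nat.le_add_right _ _).trans c.fok.age

/-- The trouble below the layer. -/
theorem below (E : Env I a W) (L : Low I a W k) (c : Ct I a k q s) (hv : vU q)
    (ht : (I a).tU d q s) :
    (prog I).Val a n (aft (enU I d) (cU (.T · d) FU)) q s
      ((W (k - bU q)).T d ((cx q).up (bU q) (rU q).1) (fU (bU q) (ff q))
        ((I a).nx k s % (W (k - bU q)).L.n)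
        ((I a).val (ky s d) ((I a).nx k s) ^^^
          (W (k - bU q)).shf (bU q) d (cx q) (ff q) ((I a).nx k s) (rU q) d)
        ((W (k - bU q)).ek (I a).toCf (bU q) d (cx q) (ff q) ((I a).nx k s) (ky s (!d)) (rU q)
          (!d))) := by
  obtain rfl := c.lev
  have en := Ent.ofU E.ok.toOk c.fok hv
  have c' : Ct I a (q .lev - bU q) (FU q) ((I a).ens (bU q) (rU q) d q s) :=
    ⟨rfl, en.fok_U, (box_eq (P := prog I) rfl).symm ▸ Cf.ens_mem (box_mem c)⟩
  have h1 := hv.1
  have h2 := hv.2.2.1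
  have h := (L (q .lev - bU q) (by omega) (decide (q .age < bU q))).T (d := d) c' ⟨rfl, rfl⟩
    fun hg => by
      have h3 := ht.1
      have h4 : ¬q .age < bU q := by simpa using hg
      rw [mus_eq E.tab, hb, cx_age] at h3
      rw [mus_eq E.tab, FU_lev, en.nx_ens' E.tab, E.tab.n_eq, E.tab.mu_down (by omega)]
      omega
  rw [Tb.Tk, en.val_ens E.tab ht.2, en.ky_ens E.tab, en.nx_ens' E.tab] at h
  exact Pg.Val.aft (Pg.Val.cU E.wf h)

/-- The mean strength of an option. -/
theorem avU (h4 : U4 I a W k) (c : Ct I a k q s) (hv : vU q)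
    (hl : q .lab < 2 ^ (5 * (cw * (q .age + 1)))) :
    (prog I).Val a n (avR I d (uUt I d)) q s (if bU q = hb (cx q) ((I a).mus d q s) then
      (I a).JS fun t => (W k).uU (W (k - bU q)) (I a).toCf (bU q) d (cx q) (ff q) ((I a).nx k s)
        ((I a).rt (ky s) d ((I a).nx k s) t) (rU q) else 0) := by
  classical
  obtain rfl := c.lev
  have hs := box_mem c
  refine (Pg.Val.avR (f := fun t => if bU q = hb (cx q) ((I a).mus d q s) then
    (W (q .lev)).uU (W (q .lev - bU q)) (I a).toCf (bU q) d (cx q) (ff q) ((I a).nx (q .lev) s)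
      ((I a).rt (ky s) d ((I a).nx (q .lev) s) t) (rU q) else 0) fun t ht => ?_).congr ?_
  · refine (h4 ⟨rfl, c.fok, (box_eq (P := prog I) rfl).symm ▸ setK_mem hs _ ht
      (rot_lt _ _ (Cf.val_lt _ (Cf.kOk hs d) _))⟩ hv hl n).congr ?_
    rw [nx_setK, ky_rot]
    exact if_congr (by rw [hOk, Cf.mus, nx_setK, Cf.mus]) rfl rfl
  · split_ifs
    exacts [rfl, Cf.JS_const _ _]

end PU3

open PU3

variable {α : Type} {I : α → In} {a : α} {W : ℕ → Tb} {k j : ℕ}

theorem vt_true (E : Env I a W) (L : Low I a W k) (h4 : U4 I a W k) (h : VT I a W false k) :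
    VT I a W true k := by
  classical
  intro d q s c ad _
  refine ⟨⟨c.lev ▸ c.fok, ad⟩, ?_⟩
  generalize (prog I).sz (.T true d) a q = n
  change (prog I).Val a n (altM I d (cl' (.T false d) F0) (bodyTU I d)) q s _
  by_cases h0 : (I a).mus d q s = 0
  · refine Pg.Val.altT (decide_eq_true h0) (Pg.Val.cl' E.wf ?_)
    rw [F0_eq ad.1 ad.2]
    exact h c ad fun _ => h0
  refine Pg.Val.altF (decide_eq_false h0) ?_
  have hm : (I a).mus d q s = (W k).mu d ((I a).nx k s) := by rw [mus_eq E.tab, c.lev]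
  obtain ⟨b, hb'⟩ : ∃ b, b = hb (cx q) ((I a).mus d q s) := ⟨_, rfl⟩
  have b1 : 1 ≤ b := by rw [hb', hb]; omega
  have b2 : b ≤ q .age + 1 := by rw [hb', hb, cx_age]; omega
  have b3 : b ≤ q .lev := by rw [hb', hm, c.lev]; exact E.tab.hb_le _ _ _ _
  have hmu : ∀ u, hb (cx (update q .lab u)) ((I a).mus d (update q .lab u) s) = b := fun u => by
    rw [hb', cx_upd, Cf.mus, upd_lev, Cf.mus]
  have hl : ∀ u < (I a).nl q, update q .lab u .lab < 2 ^ (5 * (cw * (update q .lab u .age + 1))) :=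
    fun u hu => by rwa [update_self, upd_age, ← Cf.nl_eq E.ok (age_le c)]
  rw [Tb.Tk, E.tab.TU _ _ _ _ _ _ _ (hm ▸ h0), ← hm, ← hb', Tb.TU]
  obtain ⟨g, hg⟩ : ∃ g : Lab → ℝ, g = fun r => (I a).JS fun t =>
      (W k).uU (W (k - b)) (I a).toCf b d (cx q) (ff q) ((I a).nx k s)
        ((I a).rt (ky s) d ((I a).nx k s) t) r := ⟨_, rfl⟩
  have hA : ∀ u < (I a).nl q, vU (update q .lab u) → (prog I).Val a n (avR I d (uUt I d))
      (update q .lab u) s (if bU (update q .lab u) = b then g (rU (update q .lab u)) else 0) :=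
    fun u hu hv => (avU h4 (ct_lab c u) hv (hl u hu)).congr (by
      rw [hmu, cx_upd, ff_upd, hg]
      split_ifs with h1
      · rw [h1]
      · rfl)
  have s1 := Pg.Val.smU E.ok (age_le c) b1 b2 b3 hA
  have s2 := Pg.Val.smU E.ok (age_le c) b1 b2 b3 (g := fun r => g r ^ 2) fun u hu hv =>
    ((hA u hu hv).guard fun _ => hA u hu hv).congr (by split_ifs <;> ring)
  have s3 := Pg.Val.smU (P := prog I) (n := n) (s := s) (e := .guard
      (ts I fun cf q s => cf.tU d q s ∧ cf.zU d q s) (aft (enU I d) (cU (.T · d) FU)))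
    E.ok (age_le c) b1 b2 b3 (g := fun r => if (I a).nx k s / (W (k - b)).L.n = r.1 d ∧
        ((I a).val (ky s d) ((I a).nx k s) ^^^
          (W (k - b)).shf b d (cx q) (ff q) ((I a).nx k s) r d) /
          2 ^ ((W (k - b)).lr b d (cx q) ((I a).nx k s) r + ff q d) % 2 ^ (cF * b) = 0 then
      (W (k - b)).T d ((cx q).up b r.1) (fU b (ff q)) ((I a).nx k s % (W (k - b)).L.n)
        ((I a).val (ky s d) ((I a).nx k s) ^^^
          (W (k - b)).shf b d (cx q) (ff q) ((I a).nx k s) r d)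
        ((W (k - b)).ek (I a).toCf b d (cx q) (ff q) ((I a).nx k s) (ky s (!d)) r (!d)) else 0)
    fun u hu hv => by
      have c' := ct_lab c u
      refine (Pg.Val.guard_ts fun ht => below E L c' hv ht.1).congr ?_
      have en := Ent.ofU E.ok.toOk (c'.lev ▸ c'.fok) hv
      have e1 := tU_iff E.tab d (update q .lab u) s
      have e2 := en.zU_iff E.tab d s
      rw [← mus_eq E.tab, hmu, c'.lev] at e1
      rw [c'.lev, cx_upd, ff_upd] at e2
      rw [cx_upd, ff_upd]
      by_cases h1 : bU (update q .lab u) = b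
      · rw [if_pos h1]
        rw [h1] at e1 e2 ⊢
        exact if_congr (by rw [e1, e2]; simp) rfl rfl
      · rw [if_neg h1, if_neg fun h2 => h1 (e1.1 h2.1).1]
  refine (s3.app ((s1.guard fun _ => s1).app s2)).congr ?_
  have g0 : ∀ r ∈ labU b, 0 ≤ g r := fun r _ => by
    rw [hg]
    exact Cf.JS_nonneg _ fun _ => uU_nonneg ..
  have h5 := sum_sq_le_sq_sum_of_nonneg g0
  rw [cl3_add, ← sq, hg]
  · rfl
  · refine mul_nonneg zero_le_two (sum_nonneg fun r _ => ?_)
    split_ifs
    exacts [E.tab.T_nonneg .., le_rfl]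
  · rw [← sq]
    linarith

end Vale.Agent.P313.Full
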