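import Vale.Agent.P313.Full.PgStmt

/-! The program for the tables: the strength and the weight at a name without a merge. -/

namespace Vale.Agent.P313.Full

open Finset Function Hi Tm

variable {α : Type} {I : α → In} {a : α} {W : ℕ → Tb} {k : ℕ}

namespace PU4

variable {d : Bool} {q : QQ} {s : SS} {n : ℕ}

theorem mbox (C : Ct I a k q s) : s ∈ box (I a).bd := box_eq (P := prog I) rfl ▸ C.box

theorem le_K (C : Ct I a k q s) : k ≤ (I a).K := (Nat.le_add_left _ _).trans C.fok.age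

theorem pre (E : Env I a W) (C : Ct I a k q s) : Pre (I a).toCf W k :=
  ⟨E.ok.toOk, E.tab, le_K C, fun j hj => E.good j (hj.le.trans (le_K C))⟩

theorem adm (C : Ct I a k q s) {t : Pc} (h : t.ad q) : (prog I).adm t a q :=
  ⟨C.lev.symm ▸ C.fok, h⟩

theorem mus (E : Env I a W) (C : Ct I a k q s) :
    (I a).mus d q s = (W k).mu d ((I a).nx k s) := by rw [mus_eq E.tab, C.lev]

theorem lab (C : Ct I a k q s) (u : ℕ) : Ct I a k (update q .lab u) s :=
  ⟨by rw [upd_lev, C.lev], by rw [cx_upd, ff_upd]; exact C.fok, C.box⟩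

/-- A sum over the options of the layer which is guarded by a function of `uU`. -/
theorem sm (E : Env I a W) (h4 : U4 I a W k) (C : Ct I a k q s) (h0 : (I a).mus d q s ≠ 0)
    {b : ℕ} (hb' : b = hb (cx q) ((W k).mu d ((I a).nx k s))) {φ : ℝ → ℝ} (hφ : φ 0 = 0)
    {e : Trm α} {g : Lab → ℝ} (he : ∀ q', Ct I a k q' s → cx q' = cx q → ff q' = ff q → vU q' →
      q' .lab < 2 ^ (5 * (cw * (q' .age + 1))) → bU q' = b → hOk I a d q' s →
      sUv I a W k d q' s ≠ 0 → (prog I).Val a n e q' s (g (rU q'))) :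
    (prog I).Val a n (smL I vU (.guard (fn φ (uUt I d)) e)) q s (∑ r ∈ labU b,
      φ ((W k).uU (W (k - b)) (I a).toCf b d (cx q) (ff q) ((I a).nx k s) (ky s) r) * g r) := by
  have hK : q .age ≤ (I a).K := (Nat.le_add_right _ _).trans C.fok.age
  rw [mus E C] at h0
  refine Pg.Val.smU E.ok hK (hb' ▸ Nat.one_le_iff_ne_zero.2 (hb_ne _ h0)) (hb' ▸ hb_le_age _ _)
    (by rw [hb', C.lev]; exact E.tab.hb_le _ _ _ _) fun u hu hv => ?_
  have C' := lab C u
  have hl : update q Cv.lab u .lab < 2 ^ (5 * (cw * (update q Cv.lab u .age + 1))) := by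
    rwa [update_self, upd_age, ← Cf.nl_eq E.ok hK]
  have hk : hOk I a d (update q .lab u) s ↔ bU (update q .lab u) = b := by
    rw [hOk, mus E C', cx_upd, hb']
  have h1 := (h4 (d := d) C' hv hl n).fn (φ := φ)
  by_cases h2 : bU (update q .lab u) = b
  · rw [if_pos (hk.2 h2), cx_upd, ff_upd, h2] at h1
    rw [if_pos h2]
    refine h1.guard fun h3 => he _ C' (cx_upd _ _) (ff_upd _ _) hv hl h2 (hk.2 h2) fun h5 => h3 ?_
    rw [sUv, cx_upd, ff_upd, h2] at h5
    rw [Tb.uU, h5, zero_mul, hφ]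
  · rw [if_neg fun h => h2 (hk.1 h), hφ] at h1
    rw [if_neg h2]
    exact h1.guard_zero

end PU4

open PU4

theorem vs_true (E : Env I a W) (h2 : U2 I a W k) (h4 : U4 I a W k) (hT : VT I a W true k)
    (h : VS I a W false k) : VS I a W true k := by
  intro d q s C ad _
  have e0 := F0_eq ad.1 ad.2
  refine ⟨adm C ad, ?_⟩
  by_cases h0 : (I a).mus d q s = 0
  · exact Pg.Val.altT (decide_eq_true h0) (Pg.Val.cl' E.wf (e0.symm ▸ h C ad fun _ => h0))
  obtain ⟨b, hb'⟩ : ∃ b, b = hb (cx q) ((W k).mu d ((I a).nx k s)) := ⟨_, rfl⟩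
  refine Pg.Val.altF (decide_eq_false h0) (Pg.Val.congr (Pg.Val.fn (Pg.Val.guard
    (Pg.Val.fn (Pg.Val.cl' E.wf (e0.symm ▸ hT C ad nofun))) fun _ =>
      sm E h4 C h0 hb' psi_zero (g := fun r => Gd ((W k).Tr (I a).toCf d (cx q) (ff q)
        ((W (k - b)).eU (I a).toCf b d (cx q) (ff q) ((I a).nx k s) (ky s) r) (ky s)))
        fun q' C' e1 e2 hv _ e3 hk hs => ?_)) ?_)
  · obtain ⟨h5, h6⟩ := h2 C' hv hk hs
    have h7 := hT (d := !d) (q := F0 q') ⟨C'.lev, C'.fok, (box_eq (P := prog I) rfl).symm ▸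
      Cf.mv_mem (le_K C) (mbox C) h5⟩ ⟨rfl, rfl⟩ nofun
    refine Pg.Val.hop (h6 _) (Pg.Val.fn (Pg.Val.congr (Pg.Val.cl' E.wf h7) ?_))
    rw [Cf.nx_mv h5, Cf.ky_mv, cx_F0, ff_F0, Tb.Tk, Tb.Tr, Bool.not_not, eUv, e1, e2, e3]
  · rw [e0, ← (E.stU ((pre E C).at C.fok (mbox C)) (mus E C ▸ h0) hb').1]
    exact cl_eq (Tb.s_nonneg ..) (Tb.s_le_one ..)

theorem vw_true (E : Env I a W) (h3 : U3 I a W k) (h4 : U4 I a W k) (h : VW I a W false k) :
    VW I a W true k := by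
  intro d q s C ad _ hs
  refine ⟨adm C ad, ?_⟩
  by_cases h0 : (I a).mus d q s = 0
  · exact Pg.Val.altT (decide_eq_true h0)
      (Pg.Val.cl' E.wf ((F0_eq ad.1 ad.2).symm ▸ h C ad (fun _ => h0) hs))
  obtain ⟨b, hb'⟩ : ∃ b, b = hb (cx q) ((W k).mu d ((I a).nx k s)) := ⟨_, rfl⟩
  refine Pg.Val.altF (decide_eq_false h0) (Pg.Val.congr (Pg.Val.fn
    (sm E h4 C h0 hb' (psw_eq_zero (by norm_num)) (g := fun r => (W k).w d (cx q) ((I a).nx k s)
      ((W (k - b)).eU (I a).toCf b d (cx q) (ff q) ((I a).nx k s) (ky s) r) / 2 ^ dn q)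
      fun q' C' e1 e2 hv hl e3 hk hs => ?_)) ?_)
  · refine (h3 C' hv hl hk hs _).congr ?_
    rw [eUv, dn_eq, dn_eq, e1, e2, e3]
  · simp only [← mul_div_assoc]
    rw [← sum_div, ← ((E.stU ((pre E C).at C.fok (mbox C)) (mus E C ▸ h0) hb').2 hs).2.1]
    refine cl_eq (div_nonneg (E.tab.w_nonneg ..) (by positivity))
      ((div_le_one (by positivity)).2 ?_)
    have h5 := (pre E C).w_le d (cx q) ((I a).nx k s)
    have h6 := (pre E C).w_le' d (cx q) ((I a).nx k s)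
    rw [dn_eq]
    rcases min_choice ((cx q).D true) ((cx q).D false) with e | e <;> rw [e] <;> cases d
    exacts [h6 _, h5 _, h5 _, h6 _]

end Vale.Agent.P313.Full
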