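import Vale.Agent.P313.Full.PgStmt
import Vale.Agent.P313.Full.TabGen

/-! The program for the tables: the move at a name without a merge. -/

namespace Vale.Agent.P313.Full

open Finset Function Hi Tm Pg

variable {α : Type} {I : α → In} {a : α} {W : ℕ → Tb} {k : ℕ} {q : QQ} {s : SS} {d : Bool}

namespace PU5

theorem le_K (h : Ct I a k q s) : k ≤ (I a).K := (Nat.le_add_left _ _).trans h.fok.age

theorem age_le (h : Ct I a k q s) : q .age ≤ (I a).K := (Nat.le_add_right _ _).trans h.fok.age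

theorem at' (E : Env I a W) (h : Ct I a k q s) :
    At (I a).toCf W k (cx q) (ff q) ((I a).nx k s) (ky s) :=
  Pre.at ⟨E.ok.toOk, E.tab, le_K h, fun j hj => E.good j (hj.le.trans (le_K h))⟩ h.fok h.box

theorem lab' (h : Ct I a k q s) (u : ℕ) : Ct I a k (update q .lab u) s :=
  ⟨(upd_lev u q).trans h.lev, by simpa using h.fok, h.box⟩

theorem mus_eq' (E : Env I a W) (h : Ct I a k q s) (d : Bool) :
    (I a).mus d q s = (W k).mu d ((I a).nx k s) := by
  rw [mus_eq E.tab, h.lev]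

theorem lab_lt {u : ℕ} (hu : u < (I a).nl q) :
    update q .lab u .lab < 2 ^ (5 * (cw * (update q .lab u .age + 1))) := by
  rw [update_self, upd_age]
  exact hu.trans_le (Cf.pw_le _ _)

open Classical in
/-- The value of the test. -/
theorem val_test (h4 : U4 I a W k) (h : Ct I a k q s) {u : ℕ} (hu : u < (I a).nl q) (n : ℕ) :
    (prog I).Val a n (cs vU (uUt I d) (cst 0)) (update q .lab u) s
      (if vU (update q .lab u) ∧ hOk I a d (update q .lab u) s then
        (W k).uU (W (k - bU (update q .lab u))) (I a).toCf (bU (update q .lab u)) d (cx q) (ff q)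
          ((I a).nx k s) (ky s) (rU (update q .lab u)) else 0) := by
  by_cases hv : vU (update q .lab u)
  · refine ((h4 (lab' h u) hv (lab_lt hu) n).csT hv).congr ?_
    simp only [hv, true_and, cx_upd, ff_upd]
  · exact (Val.cst.csF hv).congr (if_neg fun h => hv h.1).symm

/-- The link of an accepted candidate. -/
theorem mov_test (h2 : U2 I a W k) (h4 : U4 I a W k) (h : Ct I a k q s) {u : ℕ}
    (hu : u < (I a).nl q)
    (ht : 1 / 4 < ((prog I).cv a (cs vU (uUt I d) (cst 0)) (update q .lab u)).val s) (n : ℕ) :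
    vU (update q .lab u) ∧ hOk I a d (update q .lab u) s ∧
      1 / 4 < (W k).uU (W (k - bU (update q .lab u))) (I a).toCf (bU (update q .lab u)) d (cx q)
        (ff q) ((I a).nx k s) (ky s) (rU (update q .lab u)) ∧
      (prog I).Mov a n (cs vU (linkU I) stop) (update q .lab u) d s
        (some ((I a).mv k s (eUv I a W k d (update q .lab u) s))) := by
  rw [(val_test h4 h hu 0).2] at ht
  split_ifs at ht with hv
  · refine ⟨hv.1, hv.2, ht, ((h2 (lab' h u) hv.1 hv.2 fun h0 => ?_).2 n).csT hv.1⟩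
    rw [sUv, cx_upd, ff_upd] at h0
    rw [Tb.uU, h0, zero_mul] at ht
    norm_num at ht
  · norm_num at ht

theorem mov_pt (E : Env I a W) (h2 : U2 I a W k) (h4 : U4 I a W k) (h : Ct I a k q s)
    (hm : (I a).mus d q s ≠ 0)
    (hs : 0 < (W k).s (I a).toCf d (cx q) (ff q) ((I a).nx k s) (ky s)) {u : ℕ}
    (hu : u < (I a).nl q)
    (ht : 1 / 4 < ((prog I).cv a (cs vU (uUt I d) (cst 0)) (update q .lab u)).val s) :
    ((prog I).cv a (cs vU (linkU I) stop) (update q .lab u)).mv d s =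
      some ((I a).mv k s ((W k).pt (I a).toCf d (cx q) (ff q) ((I a).nx k s) (ky s))) := by
  obtain ⟨h1, h3, h5, h6⟩ := mov_test h2 h4 h hu ht 0
  rw [mus_eq' E h] at hm
  rw [hOk, mus_eq' E (lab' h u), cx_upd] at h3
  rw [h6.2, eUv, cx_upd, ff_upd, ((E.stU (at' E h) hm h3).2 hs).2.2.1 _ h1.2.2.2 h5]

/-- The code of the label of an option. -/
theorem exists_code (E : Env I a W) (h : Ct I a k q s) {b : ℕ} (h1 : 1 ≤ b) (h2 : b ≤ q .age + 1)
    (h3 : b ≤ k) {r : Lab} (hr : r ∈ labU b) : ∃ u < (I a).nl q, vU (update q .lab u) ∧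
      bU (update q .lab u) = b ∧ rU (update q .lab u) = r := by
  have hw : ∀ c ≤ cw, c * b ≤ cw * (q .age + 1) := fun c hc => Nat.mul_le_mul hc h2
  have hb : b < 2 ^ (cw * (q .age + 1)) := Nat.lt_two_pow_self.trans_le
    (Nat.pow_le_pow_right two_pos (by simpa using hw 1 one_le_cw))
  have h5 := mem_labs.1 (labs_subset (hw _ a_le_cw) (hw _ cF_le_cw) (Nat.zero_le _) hr)
  obtain ⟨u, hu, e⟩ := exists_dlab (r := (r.1, r.2.1, b)) (mem_labs.2 ⟨h5.1, h5.2.1, hb⟩)
  have e1 : bU (update q .lab u) = b := by rw [bU, lb_lab, e]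
  have e2 : rU (update q .lab u) = r := by
    rw [rU, lb_lab, e]
    exact Prod.ext rfl (Prod.ext rfl (Nat.lt_one_iff.1 (mem_labs.1 hr).2.2).symm)
  refine ⟨u, Cf.nl_eq E.ok (age_le h) ▸ hu, ⟨e1 ▸ h1, ?_, ?_, ?_⟩, e1, e2⟩
  · rwa [e1, upd_age]
  · rwa [e1, upd_lev, h.lev]
  · rwa [e1, e2]

theorem unc_cU {n : ℕ} {t : Bool → Pc} {F : QQ → QQ} : (prog I).Unc a n (cU t F) q :=
  unc_cas trivial trivial

theorem unc_linkU {n : ℕ} : (prog I).Unc a n (linkU I) q := ⟨trivial, unc_cU, trivial⟩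

theorem unc_facT {n : ℕ} : (prog I).Unc a n (facT I d) q := ⟨trivial, trivial, trivial⟩

theorem unc_uUt {n : ℕ} : (prog I).Unc a n (uUt I d) q :=
  ⟨⟨trivial, trivial, unc_cU⟩, ⟨⟨trivial, trivial⟩, unc_facT⟩, unc_linkU, unc_facT⟩

end PU5

open PU5

theorem vm_true (E : Env I a W) (h2 : U2 I a W k) (h4 : U4 I a W k) (h : VM I a W false k) :
    VM I a W true k := by
  intro d q s hc ha _ hs
  have hA := at' E hc
  obtain ⟨hy, -, hp, hs'⟩ := stSym hA (E.good k (le_K hc)).T hs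
  have hm := E.tab.mu_far E.ok.N_le (Tb.of_w (Tb.of_s hs.ne').1.w_ne).2.1
  set y := (W k).pt (I a).toCf d (cx q) (ff q) ((I a).nx k s) (ky s) with hy0
  have hc' : Ct I a k q ((I a).mv k s y) := ⟨hc.lev, hc.fok, Cf.mv_mem (le_K hc) hc.box hy⟩
  have hx : (I a).nx k ((I a).mv k s y) = y := Cf.nx_mv hy
  have hm' : (I a).mus (!d) q ((I a).mv k s y) = (I a).mus d q s := by
    rw [mus_eq' E hc', mus_eq' E hc, hx, hm]
  refine ⟨⟨hc.lev ▸ hc.fok, ha⟩, ?_⟩
  by_cases h0 : (I a).mus d q s = 0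
  · refine Mov.altT (decide_eq_true h0) (decide_eq_true (hm'.trans h0)) (Mov.cl' E.wf ?_)
    rw [F0_eq ha.1 ha.2]
    exact h hc ha (fun _ => h0) hs
  refine Mov.altF (decide_eq_false h0) (decide_eq_false (hm' ▸ h0)) ?_
  have f1 := fun u => mov_pt (u := u) E h2 h4 hc h0 hs
  have f2 := fun u => mov_pt (d := !d) (u := u) E h2 h4 hc' (hm' ▸ h0) (by
    rw [hx, Cf.ky_mv, hs']
    exact hs)
  rw [hx, Cf.ky_mv, hp, Cf.mv_mv hy, Cf.mv_nx] at f2
  have h1 := mus_eq' E hc d ▸ h0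
  obtain ⟨r, hr, g1, g2⟩ := ((E.stU hA h1 rfl).2 hs).2.2.2
  obtain ⟨u, hu, hv, e1, e2⟩ := exists_code (b := hb (cx q) ((W k).mu d ((I a).nx k s))) E hc
    (le_min (Nat.le_add_left _ _) (Nat.one_le_iff_ne_zero.2 h1)) (min_le_left _ _)
    (E.tab.hb_le k d (cx q) _) hr
  have t1 := (val_test (d := d) h4 hc hu 0).2
  have t2 := (val_test (d := !d) h4 hc' hu 0).2
  rw [if_pos ⟨hv, by rw [hOk, mus_eq' E (lab' hc u), cx_upd, e1]⟩, e1, e2] at t1
  rw [if_pos ⟨hv, by rw [hOk, mus_eq' E (lab' hc' u), cx_upd, e1, hx, hm]⟩, e1, e2, hx,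
    Cf.ky_mv] at t2
  rw [← t1] at g1
  rw [← t2] at g2
  cases d
  · exact (Mov.search (G := {0}) ok_unV ⟨hc'.box, hc.box, rfl, fun _ _ => f2, fun _ _ => f1,
      by simp [unV], fun _ _ => ⟨u, hu, g2, g1⟩, by simp⟩
      (by simpa [unV] using Nat.one_le_two_pow)).2
  · exact (Mov.search (G := {0}) ok_unV ⟨hc.box, hc'.box, rfl, fun _ _ => f1, fun _ _ => f2,
      by simp [unV], fun _ _ => ⟨u, hu, g1, g2⟩, by simp⟩
      (by simpa [unV] using Nat.one_le_two_pow)).1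

theorem uncSt_true (_E : Env I a W) (h2 : U2 I a W k) (h4 : U4 I a W k) : UncSt I a true k := by
  intro q hq ha
  refine ⟨trivial, fun u hu => ⟨⟨unc_cas unc_uUt trivial, unc_cas unc_uUt trivial,
    unc_cas unc_linkU trivial⟩, fun s hs => ?_⟩⟩
  have hc : Ct I a k q s := ⟨hq, hq ▸ ha.1, hs⟩
  exact ⟨(val_test h4 hc hu _).1, (val_test h4 hc hu _).1,
    fun ht => (mov_test h2 h4 hc hu ht _).2.2.2.1, fun ht => (mov_test h2 h4 hc hu ht _).2.2.2.1⟩

end Vale.Agent.P313.Full
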