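import Vale.Agent.P313.Full.PgM7
import Vale.Agent.P313.Full.PgWS
import Vale.Agent.P313.Full.TabGen

/-! The program for the tables: the weights of a link. -/

namespace Vale.Agent.P313.Full

open Finset Function Hi Tm PM7

variable {α : Type} {I : α → In} {a : α} {W : ℕ → Tb} {j : ℕ}

namespace PWM

theorem ky_ct (e : Bool) (t : SS) (c : ℕ) : ky (sw e (update t .ct c)) = ky (sw e t) := by
  simp [ky_sw, ky, kc]

theorem lam_le {cf : Cf} (h : cf.Ok2) : (C + 2) * cf.K + 3 ≤ cf.L := by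
  have h1 := h.big
  have h2 : C ≤ cw := by unfold cw; omega
  have h3 := one_le_cw
  nlinarith

variable (E : Env I a W) (L : Lvg I a W true j) {q : QQ} {s t : SS} (h : Ct I a (j + 1) q s)
  (ht : t ∈ box (I a).bd)

include h

theorem le_K : j ≤ (I a).K := by have := h.fok.age; omega

include E

theorem scM_eq : scM I a q = 2 ^ ((cxM q).D true + (cxM q).D false + cZ) := by
  have h1 : ∀ e, (cxM q).D e ≤ cw * ((I a).K + 1) := fun e => by
    have a1 := (cx q).up_D_le 1 (lb q).1 e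
    have a2 := h.fok.D e
    have a3 := h.fok.age
    have a4 : B * ((cx q).age + 1) ≤ cw * ((I a).K + 1) := Nat.mul_le_mul B_le_cw (by omega)
    rw [mul_add] at a4
    rw [cxM]
    omega
  have h2 : cZ ≤ cw * ((I a).K + 1) :=
    le_trans (by unfold cw; omega) (Nat.le_mul_of_pos_right _ (Nat.succ_pos _))
  have h3 := E.ok.big
  have h4 := h1 true
  have h5 := h1 false
  rw [mul_assoc] at h3
  rw [scM, Cf.pw_of_le (by omega)]
  push_cast
  rfl

include L ht

theorem val_frH (e : Bool) : TV I a (frH e lvM) q t ((W j).H e q0 ((I a).nx j t)) := fun _ =>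
  Pg.Val.frH E.wf (L.H ⟨lev h, FOk.stat E.ok.toOk (Cx.ok_q0 (le_K h)),
    (box_eq (P := prog I) rfl).symm ▸ ht⟩ ⟨rfl, rfl, rfl⟩ nofun)

theorem val_usH (e : Bool) : TV I a (usH e) q t (1 - R B ((W j).H e q0 ((I a).nx j t))) :=
  fun n => (val_frH E L h ht e n).fn

theorem val_endT (φ : QQ → ℝ → ℝ → ℝ) : TV I a (endT φ lvM) q t
    (φ q ((W j).L.hc ((I a).nx j t)) ((W j).L.hr ((I a).nx j t))) := fun n => by
  rw [E.tab.hc_eq, E.tab.hr_eq]
  exact (val_frH E L h ht false n).app (val_frH E L h ht true n)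

variable {e d : Bool} {z : ℕ} (hs : (W j).s (I a).toCf d q0 (fM (cx q) (ff q) (lb q) e)
    ((I a).nx j t) (ky (sw e t)) ≠ 0) (hz : (W j).pt (I a).toCf d q0 (fM (cx q) (ff q) (lb q) e)
    ((I a).nx j t) (ky (sw e t)) = z)

include hs hz

omit L h ht in
theorem z_lt : z < nm (I a).n0 j := hz ▸ (E.tab.cand_lt E.ok.N_le (Tb.of_s hs).1).2

omit E L h ht in
theorem z_vis : (W j).vis d q0 ((I a).nx j t) z := hz ▸ (Tb.of_s hs).1.vis

theorem val_prL {i : ℕ} (hi : i ≤ 3) (k : ℕ) : TV I a (prL I lvM d (half e) i k) q t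
    (if (ve (W j).L d z).lam + k < (ve (W j).L (!d) ((I a).nx j t)).lam + i then 1 else 0) := by
  intro n
  have hl : lvM q = j := lev h
  have h1 : (I a).nx j (update t .ct (t .ct ^^^ ((I a).pw ((I a).lmv (!d) (lvM q) t + i) - 1))) =
      (I a).nx j t := by simp [Cf.nx]
  have h2 := half_mv E L h (update_mem_box ht (Nat.xor_lt_two_pow (mem_box.1 ht .ct)
    (row_lt (hl ▸ le_K h) hi (!d) t))) e d (by rwa [h1, ky_ct]) n
  rw [h1, ky_ct, hz] at h2
  refine ((Pg.Val.aft (Pg.Val.hop h2 Pg.Val.loc)).app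
    (Pg.Val.hop (hz ▸ half_mv E L h ht e d hs n) Pg.Val.loc)).congr ?_
  have h3 : ∀ u, (I a).lmv d j ((I a).mv j u z) = (ve (W j).L d z).lam := fun u => by
    rw [Cf.lmv, ← ve_nx E.tab, Cf.nx_mv (z_lt E hs hz)]
  have h4 := lmv_le (le_K h) (!d) t
  have h5 := lam_le E.ok
  beta_reduce
  rw [hl, h3, h3, Cf.mv_ne (by simp), Cf.mv_ne (by simp), update_self, dst_bt,
    Cf.pw_of_le (by omega), bt_therm, Cf.lmv, ← ve_nx E.tab]
  split_ifs <;> simp

open Classical in
theorem val_pr2 (φ : QQ → ℝ → ℝ → ℝ) : TV I a (pr2 I φ lvM d (half e)) q t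
    (φ q (if (W j).L.P1 (if d then (I a).nx j t else z) (if d then z else (I a).nx j t) then 1
      else 0) (if (W j).L.P2 (if d then (I a).nx j t else z) (if d then z else (I a).nx j t) then 1
      else 0)) := fun n => by
  refine ((val_prL E L h ht hs hz le_rfl 0 n).app
    (val_prL E L h ht hs hz (Nat.zero_le _) 2 n)).congr ?_
  cases d <;> simp only [Lv.P1, Lv.P2, ve, Bool.not_true, Bool.not_false, if_true, if_false,
    Bool.false_eq_true] <;> congr 1 <;> split_ifs <;> first | omega | simp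

end PWM

namespace PWM

variable (E : Env I a W) (L : Lvg I a W true j) {q : QQ} {s t : SS} (h : Ct I a (j + 1) q s)
  (ht : t ∈ box (I a).bd) {e : Bool} {z : ℕ}
  (hs : (W j).s (I a).toCf (!e) q0 (fM (cx q) (ff q) (lb q) e) ((I a).nx j t) (ky (sw e t)) ≠ 0)
  (hz : (W j).pt (I a).toCf (!e) q0 (fM (cx q) (ff q) (lb q) e) ((I a).nx j t) (ky (sw e t)) = z)

include E L h ht hs hz

theorem val_omH : TV I a (omH e) q t
    (rdw (if e then omg (W j).L z ((I a).nx j t) else omg (W j).L ((I a).nx j t) z)) := fun n => by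
  refine (Pg.Val.inH E.wf (L.W' (ct h ht e) ⟨rfl, rfl⟩ nofun
    ((Tb.s_nonneg ..).lt_of_ne' hs))).fn.congr (congrArg rdw ?_)
  refine Eq.trans (congrArg (fun y => (W j).w (!e) q0 ((I a).nx j t) y /
    2 ^ min (q0.D true) (q0.D false)) hz) (((W j).w_div (z_vis hs hz)).trans ?_)
  cases e <;> rfl

open Classical in
theorem val_side : TV I a (side I e) q t (if e then rdw (omg (W j).L z ((I a).nx j t)) *
      prM (Hi.dig ((lb q).1 true)).1 (if (W j).L.P1 z ((I a).nx j t) then 1 else 0)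
        (if (W j).L.P2 z ((I a).nx j t) then 1 else 0) * (W j).L.fo (z, (Hi.dig ((lb q).1 true)).1)
    else rdw (omg (W j).L ((I a).nx j t) z) * (if (W j).L.P2 ((I a).nx j t) z then 1 else 0) *
      (W j).L.fi (z, (Hi.dig ((lb q).1 false)).1)) := fun n => by
  have hy := z_lt E hs hz
  refine (((val_omH E L h ht hs hz n).guard fun _ => val_pr2 E L h ht hs hz _ n).guard fun _ =>
    Pg.Val.hop (hz ▸ half_mv E L h ht e (!e) hs n)
      (val_endT E L h (Cf.mv_mem (le_K h) ht hy) _ n)).congr ?_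
  rw [Cf.nx_mv hy]
  cases e
  · simp only [Bool.not_false, if_true, if_false, Bool.false_eq_true, endM_false]
    split_ifs <;> simp [cl_zero, cl_one]
  · simp only [Bool.not_true, if_true, if_false, Bool.false_eq_true, endM_true]

omit hs hz in
theorem val_wZ {X : Bool → ℕ} (hX : ∀ e, (W j).s (I a).toCf (!e) q0 (fM (cx q) (ff q) (lb q) e)
      ((I a).nx j t) (ky (sw e t)) ≠ 0 ∧ (W j).pt (I a).toCf (!e) q0 (fM (cx q) (ff q) (lb q) e)
      ((I a).nx j t) (ky (sw e t)) = X e % (W j).L.n ∧ X e / (W j).L.n = (lb q).1 e)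
    (hl : (W j).locM (cx q) (lb q) ((I a).nx j t)) :
    TV I a (wZ I) q t (2 ^ (2 * (((W j).L.vi ((I a).nx j t)).l + (cxM q).D true) + cZ) *
      trm0 (W j).L (X true) ((I a).nx j t) (X false)) := fun n => by
  have hP : Pre (I a).toCf W j := ⟨E.ok.toOk, E.tab, le_K h, fun i hi =>
    E.good i (hi.le.trans (le_K h))⟩
  have v1 := z_vis (hX true).1 (hX true).2.1
  have v2 := z_vis (hX false).1 (hX false).2.1
  refine ((Pg.Val.loc.guard fun _ => val_side E L h ht (hX true).1 (hX true).2.1 n).guard fun _ =>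
    ((val_usH E L h ht false n).guard fun _ => val_usH E L h ht true n).guard fun _ =>
      val_side E L h ht (hX false).1 (hX false).2.1 n).congr ?_
  rw [pow_add, mul_right_comm _ (2 ^ cZ : ℝ), cxM,
    trm0_eq hP.inv v1.1.symm v1.2.symm v2.1 v2.2 hl.1 hl.2,
    (hX true).2.2, (hX false).2.2, coefM, scM_eq E h, Lv.mid, chi_B, chi_B, E.tab.hc_eq,
    E.tab.hr_eq]
  simp only [if_true, if_false, Bool.false_eq_true, cxM]
  by_cases hc : vld ((lb q).1 true) ∧ vld ((lb q).1 false) ∧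
    fitQ ((cx q).up 1 (lb q).1).D ((cx q).up 1 (lb q).1).E false (Hi.dig ((lb q).1 true)).2.2.2
      (Hi.dig ((lb q).1 false)).2.2.1
  · simp only [hc, and_self, if_true]
    ring
  · simp only [hc, if_false, zero_mul]

end PWM

open PWM

section

variable (E : Env I a W) {d : Bool} {q : QQ} {s : SS} (h : Ct I a (j + 1) q s) (hv : vM q)
  (hs : lk I a W j d q s Tb.s1 ≠ 0)

include E h hv hs

/-- The first half, seen from the midpoint. -/
theorem PWM.back : (W j).pt (I a).toCf (!d) q0 (fM (cx q) (ff q) (lb q) d)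
      (lk I a W j d q s Tb.mM) (lk I a W j d q s Tb.kM d) = (I a).nx (j + 1) s % (W j).L.n ∧
    (W j).s (I a).toCf (!d) q0 (fM (cx q) (ff q) (lb q) d)
      (lk I a W j d q s Tb.mM) (lk I a W j d q s Tb.kM d) ≠ 0 := by
  have hP : Pre (I a).toCf W j := ⟨E.ok.toOk, E.tab, le_K h, fun i hi =>
    E.good i (hi.le.trans (le_K h))⟩
  have e2 := (ent E h hv).ky_half E.tab d d s
  rw [lev h, h.lev] at e2
  have h1 := stSym (d := d) (x := (I a).nx (j + 1) s % (W j).L.n) (K := lk I a W j d q s Tb.kM d)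
    ⟨hP, h.fok.fM (lb q) d, by rw [E.tab.n_eq]; exact mod_nm_lt _ _ _,
      by rw [lk, ← e2]; exact kok_ky (Cf.sw_mem (Cf.ens_mem (mem h)))⟩ (E.good j (le_K h)).T
    ((Tb.s_nonneg ..).lt_of_ne' hs)
  exact ⟨h1.2.2.1, h1.2.2.2.trans_ne hs⟩

omit hs in
theorem PWM.ky_mid' (e : Bool) : ky (sw e (mid I a W j d q s)) = lk I a W j d q s Tb.kM e := by
  have e2 := (ent E h hv).ky_half_mv E.tab d e s j (lk I a W j d q s Tb.mM)
  rwa [lev h, h.lev] at e2

end

theorem m1 (E : Env I a W) (L : Lvg I a W true j) (h0 : M0 I a W j) : M1 I a W j := by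
  intro d q s h hv hd hs1 hs2 hl n
  obtain ⟨hm, -, -, h4⟩ := h0 h hv hs1
  have hz := (h4 hs2).1
  have hb : mid I a W j d q s ∈ box (I a).bd := Cf.mv_mem (le_K h) (Cf.ens_mem (mem h)) hm
  have e1 : (I a).nx j (mid I a W j d q s) = lk I a W j d q s Tb.mM := Cf.nx_mv hm
  have e3 := (dgOk_iff E.tab 1 (lb q) d q s).1 hd
  rw [lev h, h.lev] at e3
  obtain ⟨b1, b2⟩ := back E h hv hs1
  have b3 := (Tb.of_s hs1).1.vis.1
  rw [← E.tab.n_eq] at hz
  refine (val_wZ E L h hb (X := two d ((I a).nx (j + 1) s) (lk I a W j d q s Tb.eM))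
    ((forall_two d).2 ?_) (e1.symm ▸ hl) n).congr ?_
  · rw [e1, ky_mid' E h hv, ky_mid' E h hv, two_same, two_not, Bool.not_not]
    refine ⟨⟨b2, b1, e3⟩, hs2, ?_, ?_⟩
    · exact (Nat.mod_eq_of_lt hz).symm.trans (Nat.add_mul_mod_self_left ..).symm
    · exact (Nat.add_mul_div_left _ _ (Nat.zero_lt_of_lt hz)).trans
        ((congrArg (· + _) (Nat.div_eq_of_lt hz)).trans (zero_add _))
  · rw [e1]
    have a1 := hl.1
    cases d
    · exact congrArg (fun u => (2 : ℝ) ^ (2 * u + cZ) * _)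
        (a1.trans (congrArg (· + _) (show _ = _ from b3.symm)))
    · exact congrArg (fun u => (2 : ℝ) ^ (2 * u + cZ) * _)
        (congrArg (· + _) (show _ = _ from b3.symm))

theorem m2 (E : Env I a W) (L : Lvg I a W true j) (h0 : M0 I a W j) : M2 I a W j := by
  intro d q s h hv hs1 n
  obtain ⟨hm, -, h3, -⟩ := h0 h hv hs1
  have hP : Pre (I a).toCf W j := ⟨E.ok.toOk, E.tab, le_K h, fun i hi =>
    E.good i (hi.le.trans (le_K h))⟩
  have hb : mid I a W j d q s ∈ box (I a).bd := Cf.mv_mem (le_K h) (Cf.ens_mem (mem h)) hm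
  have e1 : (I a).nx j (mid I a W j d q s) = lk I a W j d q s Tb.mM := Cf.nx_mv hm
  have e2 := (ent E h hv).nx_ens' E.tab d s
  rw [lev h, h.lev] at e2
  obtain ⟨b1, b2⟩ := back E h hv hs1
  have b3 := (Tb.of_s hs1).1.vis
  refine (Pg.Val.loc.guard fun _ => (val_omH E L h hb (z := (I a).nx (j + 1) s % (W j).L.n)
    (by rwa [e1, ky_mid' E h hv]) (by rwa [e1, ky_mid' E h hv]) n).guard fun _ =>
      (val_usH E L h hb (!d) n).guard fun _ => Pg.Val.hop (h3 n)
        (val_usH E L h (Cf.ens_mem (mem h)) d n)).congr ?_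
  rw [e1, e2, scM_eq E h, Tb.lr, Tb.lam]
  cases d
  · have := fre0_eq hP.inv (x := lk I a W j false q s Tb.mM)
      (z := (I a).nx (j + 1) s % (W j).L.n) b3.1.symm b3.2.symm
    rw [show ((W j).L.vo (lk I a W j false q s Tb.mM)).l =
      ((W j).L.vi ((I a).nx (j + 1) s % (W j).L.n)).l from b3.1.symm, E.tab.hc_eq,
      E.tab.hr_eq] at this
    simp only [fre, ve, cxM, pow_add, Bool.not_false, if_false, Bool.false_eq_true]
    linear_combination (-2 ^ ((cx q).up 1 (lb q).1).D true * 2 ^ ((cx q).up 1 (lb q).1).D false *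
      2 ^ cZ) * this
  · have := fre0_eq hP.inv (x := (I a).nx (j + 1) s % (W j).L.n)
      (z := lk I a W j true q s Tb.mM) b3.1 b3.2
    rw [E.tab.hc_eq, E.tab.hr_eq] at this
    simp only [fre, ve, cxM, pow_add, Bool.not_true, if_true]
    linear_combination (-2 ^ ((cx q).up 1 (lb q).1).D true * 2 ^ ((cx q).up 1 (lb q).1).D false *
      2 ^ cZ) * this

end Vale.Agent.P313.Full
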