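import Vale.Agent.P313.Full.PgWS
import Vale.Agent.P313.Full.PgStmt
import Vale.Agent.P313.Full.TabGen

/-! The values of the terms for the weights. -/

namespace Vale.Agent.P313.Full

open Finset Function Hi Tm KH

theorem Pg.Val.pairP {α σ κ τ : Type} [DecidableEq κ] [Fintype σ] [DecidableEq σ]
    {P : Pg α σ κ τ} {a : α} {n : ℕ} {q : κ → ℕ} {s s' : σ → ℕ} {d : Bool} {R : σ}
    {row idx : α → (κ → ℕ) → (σ → ℕ) → ℕ} {M : Tm α σ κ τ} (h1 : P.Mov a n M q d s (some s'))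
    (hR : s' R = s R) (h2 : P.Mov a n M q d (update s R (s R ^^^ row a q s))
      (some (update s' R (s R ^^^ row a q s)))) (hi : ∀ c, idx a q (update s' R c) = idx a q s') :
    P.Val a n (pairP R row idx d M) q s (bt (row a q s) (idx a q s')) :=
  (Pg.Val.app (Pg.Val.aft (Pg.Val.hop h2 Pg.Val.loc)) (Pg.Val.hop h1 Pg.Val.loc)).congr (by
    rw [hi, hR, update_self, dst_bt])

/-! ### One stage in terms of the tables -/

open Classical in
theorem Pre.omg_succ {cf : Cf} {W : ℕ → Tb} {j : ℕ} (hP : Pre cf W j) {x g : Bool → ℕ} {c : Cx}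
    {d wt : Bool} (hx : ∀ e, x e < nm cf.n0 j) (hv : (W j).vis true c (x true) (x false))
    (hw : wt = (ve (W j).L d (x d)).wt) (ho : ((Hi.dig (g d)).ed d).2.2.1 ≠ 2)
    (hD : ∀ e, (((Hi.dig (g e)).ed e).1 : ℕ) ≤ c.D e) :
    omg (W (j + 1)).L (x true + nm cf.n0 j * g true) (x false + nm cf.n0 j * g false) =
      (if vld (g true) ∧ vld (g false) then stg c.D c.E wt (Hi.dig (g true)) (Hi.dig (g false))
        (omg (W j).L (x true) (x false)) (prt (Hi.dig (g true)).1 (Hi.dig (g false)).1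
          (if (W j).L.P1 (x true) (x false) then 1 else 0)
          (if (W j).L.P2 (x true) (x false) then 1 else 0)) else 0) *
      (endF true (Hi.dig (g true)).1 ((W j).L.hc (x true)) ((W j).L.hr (x true)) *
        endF false (Hi.dig (g false)).1 ((W j).L.hc (x false)) ((W j).L.hr (x false))) := by
  have hL : (W (j + 1)).L = (W j).L.step ((W (j + 1)).H false q0) ((W (j + 1)).H true q0) := by
    rw [hP.tab.L, hP.tab.L]
    rfl
  rw [hL, omg]
  simp only [Lv.step, hP.tab.n_eq, add_nm_mod (hx _), add_nm_div (hx _), View.upd]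
  by_cases h : vld (g true) ∧ vld (g false)
  swap
  · simp [if_neg h]
  rw [if_pos h, if_pos h]
  by_cases h2 : (Hi.dig (g true)).2.2.2.2.2.1 = 2
  · have h3 : (Hi.dig (g true)).2.2.2.2.2 ≠ (Hi.dig (g false)).2.2.1.2.2 := fun h3 => by
      cases d
      · exact ho ((congrArg Prod.fst h3).symm.trans h2)
      · exact ho h2
    rw [Lv.Sd, stg, if_neg fun h4 => h3 h4.1, if_neg fun h4 => h3 h4.1]
    simp
  · rw [← mul_assoc]
    refine stage_omg hP.inv hv.1 hv.2 ?_ h2 (hD true) (hD false)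
    cases d
    exacts [Or.inr hw, Or.inl hw]

/-! ### The pair predicates -/

variable {α : Type} {I : α → In} {P : Pg α Rg Cv Pc} {a₀ : α} {n : ℕ} {q : QQ} {s : SS}
  {d : Bool} {M : Trm α} {W : ℕ → Tb} {km y : ℕ} {k : QQ → ℕ}

/-- The move leads to the name `y` on the level `km`, for every content of the register `ct`. -/
def MvC (I : α → In) (P : Pg α Rg Cv Pc) (a₀ : α) (n : ℕ) (M : Trm α) (q : QQ) (d : Bool) (km : ℕ)
    (s : SS) (y : ℕ) : Prop :=
  ∀ c < (I a₀).bd .ct, P.Mov a₀ n M q d (update s .ct c) (some ((I a₀).mv km (update s .ct c) y))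

theorem MvC.mov (h : MvC I P a₀ n M q d km s y) (hs : s ∈ box (I a₀).bd) :
    P.Mov a₀ n M q d s (some ((I a₀).mv km s y)) := by
  simpa using h _ (mem_box.1 hs .ct)

theorem ct_le {cf : Cf} (hc : cf.Ok2) : (C + 2) * cf.K + 3 ≤ cf.L := by
  have h1 : C + 3 ≤ cw := by unfold cw cZ; omega
  have h2 := hc.big
  nlinarith [Nat.mul_le_mul_right (cf.K + 1) h1]

theorem val_prL (hc : (I a₀).Ok2) (hs : s ∈ box (I a₀).bd) (hk : k q ≤ (I a₀).K)
    (h : MvC I P a₀ n M q d km s y) {i : ℕ} (hi : i ≤ 3) (j : ℕ) :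
    P.Val a₀ n (prL I k d M i j) q s
      (if (I a₀).lmv d (k q) ((I a₀).mv km s y) + j < (I a₀).lmv (!d) (k q) s + i then 1 else 0) := by
  refine (Pg.Val.pairP (h.mov hs) (Cf.mv_ne (by simp)) ?_ fun c => by simp [Cf.lmv]).congr ?_
  · refine (h _ (Nat.xor_lt_two_pow (mem_box.1 hs .ct) (row_lt hk hi _ _))).congr ?_
    simp [Cf.mv, update_comm]
  · rw [Cf.pw_of_le ((add_le_add (lmv_le hk _ s) hi).trans (ct_le hc)), bt_therm]
    simp

open Classical in
theorem val_pr2 (hc : (I a₀).Ok2) (hW : IsTab (I a₀).toCf W) (hs : s ∈ box (I a₀).bd)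
    (hk : k q ≤ (I a₀).K) (h : MvC I P a₀ n M q d km s y) {x : Bool → ℕ}
    (h1 : x d = (I a₀).nx (k q) s) (h2 : x (!d) = (I a₀).nx (k q) ((I a₀).mv km s y))
    (φ : QQ → ℝ → ℝ → ℝ) : P.Val a₀ n (pr2 I φ k d M) q s
      (φ q (if (W (k q)).L.P1 (x true) (x false) then 1 else 0)
        (if (W (k q)).L.P2 (x true) (x false) then 1 else 0)) := by
  refine ((val_prL hc hs hk h le_rfl 0).app (val_prL hc hs hk h (Nat.zero_le _) 2)).congr ?_
  have a1 : ∀ (u v : ℕ) (p : Prop) [Decidable p], (p ↔ v ≤ u + 2) →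
      (if v + 0 < u + 3 then (1 : ℝ) else 0) = if p then 1 else 0 := fun u v p _ h =>
    if_congr (by rw [h]; omega) rfl rfl
  have a2 : ∀ (u v : ℕ) (p : Prop) [Decidable p], (p ↔ u ≤ v + 2) →
      1 - (if v + 2 < u + 0 then (1 : ℝ) else 0) = if p then 1 else 0 := fun u v p _ h => by
    rw [if_congr h rfl rfl]
    split_ifs <;> first | omega | simp
  simp only [Cf.lmv, ← ve_nx hW, ← h1, ← h2]
  cases d
  · exact congrArg₂ (φ q) (a2 _ _ _ Iff.rfl) (a1 _ _ _ Iff.rfl)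
  · exact congrArg₂ (φ q) (a1 _ _ _ Iff.rfl) (a2 _ _ _ Iff.rfl)

theorem val_endT (hW : IsTab (I a₀).toCf W) {x : ℕ}
    (h : ∀ e, P.Val a₀ n (frH e k) q s ((W (k q)).H e q0 x)) (φ : QQ → ℝ → ℝ → ℝ) :
    P.Val a₀ n (endT φ k) q s (φ q ((W (k q)).L.hc x) ((W (k q)).L.hr x)) := by
  rw [hW.hc_eq, hW.hr_eq]
  exact (h false).app (h true)

/-! ### The chain -/

theorem cxi_D (q : QQ) {i : ℕ} (hi : i < bU q) (e : Bool) :
    (((dg 0 i ((rU q).1 e)).ed e).1 : ℕ) ≤ (cxi q i).D e := by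
  have h := single_le_sum (f := fun t => (((dg 0 t ((rU q).1 e / 2 ^ (a * i))).ed e).1 : ℕ))
    (fun _ _ => Nat.zero_le _) (mem_range.2 (Nat.sub_pos_of_lt hi))
  have h1 := dg_div 0 i 0 ((rU q).1 e)
  rw [nm, zero_add] at h1
  rw [h1] at h
  exact h.trans (Nat.le_add_left _ _)

theorem org_ne {n0 k i : ℕ} {d : Bool} {x : ℕ} (h : k - i ≤ mu n0 k d x) (hi : i < k) :
    ((dg n0 i x).ed d).2.2.1 ≠ 2 := by
  have h1 := mu_sub (b := k - (i + 1)) (n0 := n0) (k := k) (d := d) (x := x) (by omega)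
  rw [show k - (k - (i + 1)) = i + 1 by omega] at h1
  rw [Ne, ← mu_succ_eq_zero, h1]
  omega

/-- The data of a chain: `en e` are the names of the two ends on the level of `q`. -/
structure ChD (cf : Cf) (W : ℕ → Tb) (q : QQ) (d : Bool) (en : Bool → ℕ) : Prop where
  pre : Pre cf W (q .lev)
  le : bU q ≤ (W (q .lev)).mu d (en d)
  lt : ∀ e, en e < nm cf.n0 (q .lev)
  dg : ∀ e, en e / nm cf.n0 (q .lev - bU q) = (rU q).1 e
  vis : (W (q .lev)).vis true (cx q) (en true) (en false)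

/-- The normalised weight `i` steps above the bottom of the layer. -/
noncomputable def chW (cf : Cf) (W : ℕ → Tb) (q : QQ) (en : Bool → ℕ) (i : ℕ) : ℝ :=
  omg (W (q .lev - bU q + i)).L (en true % nm cf.n0 (q .lev - bU q + i))
    (en false % nm cf.n0 (q .lev - bU q + i))

theorem ChD.vis_cxi {cf : Cf} {en : Bool → ℕ} (h : ChD cf W q d en) {i : ℕ} (hi : i ≤ bU q) :
    (W (q .lev - bU q + i)).vis true (cxi q i) (en true % nm cf.n0 (q .lev - bU q + i))
      (en false % nm cf.n0 (q .lev - bU q + i)) := by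
  have hb := h.le.trans (h.pre.tab.mu_le _ _ _)
  have e : q .lev - bU q + i = q .lev - (bU q - i) := by omega
  have hc : ∀ e', (rU q).1 e' / 2 ^ (a * i) = en e' / nm cf.n0 (q .lev - (bU q - i)) := fun e' => by
    rw [← h.dg, ← e, nm_add, Nat.div_div_eq_div_mul]
  rw [e]
  exact (h.pre.tab.vis_up (by omega) (h.lt _) (h.lt _) (cx q) (hc _) (hc _)).2 h.vis

/-- **One step of the chain.** -/
theorem val_stepC (hc : (I a₀).Ok2) (hs : s ∈ box (I a₀).bd) {en : Bool → ℕ}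
    (h : ChD (I a₀).toCf W q d en) (hx : en d = (I a₀).nx (q .lev) s) {i : ℕ} (hi : q .idx = i + 1)
    (hb : i < bU q) (hM : MvC I P a₀ n (linkU I) q d (q .lev) s (en (!d)))
    (hC : P.Val a₀ n (chP d) q s (chW (I a₀).toCf W q en i))
    (hH : ∀ s' ∈ box (I a₀).bd, ∀ e,
      P.Val a₀ n (frH e lvC) q s' ((W (lvC q)).H e q0 ((I a₀).nx (lvC q) s'))) :
    P.Val a₀ n (stepC I d) q s (chW (I a₀).toCf W q en (i + 1)) := by
  have hW := h.pre.tab
  have hb' := h.le.trans (hW.mu_le _ _ _)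
  have e1 : lvC q = q .lev - bU q + i := by rw [lvC, hi, Nat.add_sub_cancel]
  have hj : lvC q ≤ q .lev := by omega
  have h1 : en d % nm (I a₀).n0 (lvC q) = (I a₀).nx (lvC q) s := by rw [hx, Cf.nx_mod hj]
  have h2 : en (!d) % nm (I a₀).n0 (lvC q) =
      (I a₀).nx (lvC q) ((I a₀).mv (q .lev) s (en (!d))) := by
    rw [← Cf.nx_mod hj, Cf.nx_mv (h.lt _)]
  have hg : ∀ e, gC q e = cd (I a₀).n0 (lvC q) (en e) := fun e => by
    rw [gC, hi, Nat.add_sub_cancel, ← h.dg, e1, cd, cd, Nat.div_div_eq_div_mul, nm_add]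
    simp [nm]
  have h3 := (h.pre.down hj).omg_succ (x := fun e => en e % nm (I a₀).n0 (lvC q)) (g := gC q)
    (c := cxi q i) (d := d) (wt := (vw d (I a₀).N (I a₀).n0 (I a₀).K (lvC q) (s .nm)).wt)
    (fun _ => mod_nm_lt _ _ _) (e1 ▸ h.vis_cxi hb.le) (by rw [h1, ve_nx hW])
    (by
      have := h.le
      rw [hW.mu] at this
      rw [hg]
      exact org_ne (k := q .lev) (by omega) (by omega))
    fun e => by
      have := cxi_D q hb e
      rwa [gC, hi, Nat.add_sub_cancel]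
  simp only [hg, ← mod_nm_succ] at h3
  refine ((Pg.Val.cst.guard fun _ => hC.app (val_pr2 hc hW hs (hj.trans h.pre.le) hM
    (x := fun e => en e % nm (I a₀).n0 (lvC q)) h1 h2 _)).guard fun _ =>
    (val_endT hW (hH s hs) _).guard fun _ => Pg.Val.hop (hM.mov hs)
      (val_endT hW (hH _ (Cf.mv_mem h.pre.le hs (h.lt _))) _)).congr ?_
  rw [chW, chW, ← add_assoc, ← e1, h3, ← h1, ← h2, hi, Nat.add_sub_cancel]
  simp only [hg]
  congr 1
  · rw [mul_ite, mul_zero, mul_div_cancel₀ _ (by positivity)]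
  · cases d
    · exact mul_comm _ _
    · rfl

/-! ### The statements -/

namespace WV

variable {a : α} {k : ℕ}

theorem pre (E : Env I a W) (hk : k ≤ (I a).K) : Pre (I a).toCf W k :=
  ⟨E.ok.toOk, E.tab, hk, fun j hj => E.good j (by omega)⟩

theorem le_K (h : Ct I a k q s) : k ≤ (I a).K := (Nat.le_add_left _ _).trans h.fok.age

theorem ct_upd (h : Ct I a k q s) {c : ℕ} (hc : c < (I a).bd .ct) : Ct I a k q (update s .ct c) :=
  ⟨h.lev, h.fok, update_mem_box h.box hc⟩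

theorem nx_ct (cf : Cf) (k : ℕ) (s : SS) (c : ℕ) : cf.nx k (update s .ct c) = cf.nx k s := by
  simp [Cf.nx]

theorem ky_ct (s : SS) (c : ℕ) : ky (update s .ct c) = ky s := by
  funext e
  simp [ky]

theorem val_frH (E : Env I a W) {k : QQ → ℕ} (hk : k q ≤ (I a).K) (L : VH I a W true (k q))
    (s : SS) (hs : s ∈ box (I a).bd) (e : Bool) :
    (prog I).Val a n (frH e k) q s ((W (k q)).H e q0 ((I a).nx (k q) s)) :=
  Pg.Val.frH E.wf (L ⟨rfl, FOk.stat E.ok.toOk (Cx.ok_q0 hk), hs⟩ ⟨rfl, rfl, rfl⟩ (by simp))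

/-- The facts about the bottom of a chain. -/
theorem bot (E : Env I a W) (h : Ct I a (q .lev) q s) (hv : vU q)
    (hs : sUv I a W (q .lev) d q s ≠ 0) : ∃ y < nm (I a).n0 (q .lev - bU q),
    (I a).nx (q .lev) s / nm (I a).n0 (q .lev - bU q) = (rU q).1 d ∧
    eUv I a W (q .lev) d q s = y + nm (I a).n0 (q .lev - bU q) * (rU q).1 (!d) ∧
    (W (q .lev - bU q)).vis d (cx (FU q)) ((I a).nx (q .lev - bU q) s) y ∧
    0 < (W (q .lev - bU q)).s (I a).toCf d (cx (FU q)) (ff (FU q))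
      ((I a).nx (q .lev - bU q) (enU I d a q s)) (ky (enU I d a q s)) ∧
    (W (q .lev - bU q)).pt (I a).toCf d (cx (FU q)) (ff (FU q))
      ((I a).nx (q .lev - bU q) (enU I d a q s)) (ky (enU I d a q s)) = y := by
  have hE := Ent.ofU E.ok.toOk h.fok hv
  have hk := (Nat.sub_le _ (bU q)).trans (le_K h)
  rw [sUv, Tb.sU] at hs
  split_ifs at hs with h1
  swap
  · exact absurd rfl hs
  rw [← hE.ky_ens E.tab, ← hE.nx_ens' E.tab] at hs
  have h2 := (Tb.s_nonneg ..).lt_of_ne' hs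
  obtain ⟨h4, h5, -⟩ := stSym ((pre E hk).at hE.fok_U (Cf.ens_mem h.box)) (E.good _ hk).T h2
  refine ⟨_, h4, E.tab.n_eq _ ▸ h1, ?_, ?_, h2, rfl⟩
  · rw [eUv, Tb.eU, hE.ky_ens E.tab, hE.nx_ens' E.tab, E.tab.n_eq]
  · nth_rewrite 1 [Cf.nx_ens] at h5
    exact h5

theorem chD (E : Env I a W) (h : Ct I a (q .lev) q s) (hv : vU q) (hh : hOk I a d q s)
    (hs : sUv I a W (q .lev) d q s ≠ 0) :
    ChD (I a).toCf W q d (two d ((I a).nx (q .lev) s) (eUv I a W (q .lev) d q s)) := by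
  obtain ⟨y, h4, h1, h3, h5, -⟩ := bot E h hv hs
  have hE := Ent.ofU E.ok.toOk h.fok hv
  have h6 := hE.end_lt (!d) h4
  have h7 := add_nm_div h4 ((rU q).1 (!d))
  have h8 := (E.tab.vis_up hE.le (Cf.nx_lt _ _ s) h6 (cx q) h1.symm h7.symm).1 (by
    rwa [add_nm_mod h4, Cf.nx_mod (Nat.sub_le _ _)])
  rw [h3]
  refine ⟨pre E (le_K h), ?_, (forall_two d).2 ?_, (forall_two d).2 ?_, ?_⟩
  · rw [two_same, ← mus_eq E.tab, hh]
    exact hb_le _ _
  · exact ⟨by simpa using Cf.nx_lt _ _ _, by simpa using h6⟩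
  · exact ⟨by simpa using h1, by simpa using h7⟩
  · cases d
    exacts [(Tb.vis_symm ..).2 h8, h8]

theorem ch (E : Env I a W) (L : Low I a W k) (h2 : U2 I a W k) : ∀ (i : ℕ) {q : QQ} {s : SS},
    Ct I a k q s → vU q → q .lab < 2 ^ (5 * (cw * (q .age + 1))) → hOk I a d q s →
    sUv I a W k d q s ≠ 0 → q .idx = i → i ≤ bU q →
    PV I a (.Ch d) q s (chW (I a).toCf W q (two d ((I a).nx k s) (eUv I a W k d q s)) i)
  | 0, q, s, h, hv, hl, hh, hs, hi, hb => by
    obtain rfl := h.lev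
    obtain ⟨y, h6, -, h5, h7, h4, h3⟩ := bot E h hv hs
    have hD := chD E h hv hh hs
    have hE := Ent.ofU E.ok.toOk h.fok hv
    refine ⟨⟨h.fok, hv, hl, hi ▸ hb⟩, Pg.Val.csT hi (Pg.Val.aft (Pg.Val.cU E.wf ?_))⟩
    have h8 := (L (q .lev - bU q) (by have := hv.1; have := hv.2.2.1; omega)
      (decide (q .age < bU q))).W' (q := FU q) (s := enU I d a q s)
      ⟨rfl, hE.fok_U, Cf.ens_mem h.box⟩ ⟨rfl, rfl⟩ (fun hg => by
        have h9 := E.tab.mu_down hD.le
        rw [two_same, Cf.nx_mod (Nat.sub_le _ _)] at h9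
        rw [mus_eq E.tab, FU_lev, enU, Cf.nx_ens, h9, ← mus_eq E.tab]
        have : bU q ≤ q .age := by simpa using hg
        have h10 : bU q = min (q .age + 1) _ := hh
        omega) h4
    rw [h3, enU, Cf.nx_ens, dn_eq, Tb.w_div _ h7] at h8
    refine ⟨h8.1, h8.2.congr ?_⟩
    rw [chW, add_zero, h5, ← Cf.nx_mod (Nat.sub_le _ (bU q))]
    cases d <;> simp [two, Nat.mod_eq_of_lt h6]
  | i + 1, q, s, h, hv, hl, hh, hs, hi, hb => by
    have ih := ch E L h2 i (q := Fi q i) ⟨h.lev, h.fok, h.box⟩ hv hl hh hs rfl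
      (Nat.le_of_succ_le hb)
    obtain rfl := h.lev
    have hj : lvC q < q .lev := by
      have := hv.2.2.1
      rw [lvC, hi]
      omega
    refine ⟨⟨h.fok, hv, hl, hi ▸ hb⟩, Pg.Val.csF (by omega) (val_stepC E.ok h.box
      (chD E h hv hh hs) (two_same ..) hi hb (fun c hc => ?_) (Pg.Val.cl' E.wf ?_)
      (val_frH E (hj.le.trans (le_K h)) (L _ hj true).H))⟩
    · have h3 := (h2 (d := d) (ct_upd h hc) hv (by simpa [hOk, Cf.mus, nx_ct] using hh)
        (by rwa [sUv, nx_ct, ky_ct])).2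
      rw [eUv, nx_ct, ky_ct] at h3
      rw [two_not]
      exact h3 _
    · rw [hi, Nat.add_sub_cancel]
      exact ih

end WV

variable {a : α} {k : ℕ}

theorem u3 (E : Env I a W) (L : Low I a W k) (h2 : U2 I a W k) : U3 I a W k := by
  intro d q s h hv hl hh hs n
  have h1 := WV.ch E L h2 (bU q) (q := Fi q (bU q)) ⟨h.lev, h.fok, h.box⟩ hv hl hh hs rfl le_rfl
  obtain rfl := h.lev
  have hD := WV.chD E h hv hh hs
  refine (Pg.Val.cl' E.wf h1).congr ?_
  change chW _ W q (two d _ (eUv I a W (q .lev) d q s)) _ = _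
  rw [chW, Nat.sub_add_cancel hv.2.2.1, Nat.mod_eq_of_lt (hD.lt _), Nat.mod_eq_of_lt (hD.lt _),
    dn_eq]
  cases d
  · exact (Tb.w_div _ ((Tb.vis_symm ..).2 hD.vis)).symm
  · exact (Tb.w_div _ hD.vis).symm

end Vale.Agent.P313.Full
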