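import Vale.Agent.P313.Full.TabLev

/-! The ideal tables exist. -/

namespace Vale.Agent.P313.Full

open Finset Hi

namespace Ex

variable (cf : Cf) (P : ℕ → Tb)

/-- The level without statistics. -/
noncomputable def L0 : ℕ → Lv
  | 0 => lv0 cf.N cf.n0 cf.K cf.A0 0 0
  | j + 1 => (P j).L.step 0 0

/-- The empty table. -/
noncomputable def A0 (k : ℕ) : Tb := ⟨L0 cf P k, mu cf.n0 k, fun _ _ _ _ _ _ => 0, fun _ _ _ => 0⟩

/-- The trouble at merged names. -/
noncomputable def T1 : ℕ → Bool → Cx → (Bool → ℕ) → ℕ → ℕ → Key → ℝ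
  | 0 => fun d q f x h c => (A0 cf P 0).TB cf d q f x h c
  | j + 1 => fun d q f x h c => (P j).TM cf d q f x h c

/-- The table with the trouble at merged names. -/
noncomputable def A1 (k : ℕ) : Tb := ⟨L0 cf P k, mu cf.n0 k, T1 cf P k, fun _ _ _ => 0⟩

/-- The statistic. -/
noncomputable def H1 (k : ℕ) (d : Bool) (q : Cx) (x : ℕ) : ℝ :=
  if mu cf.n0 k d x = 0 then (if k = 0 then (A0 cf P k).HB d q x else (A1 cf P k).HM cf d q x)
  else (A0 cf P k).HU (P (k - hb q (mu cf.n0 k d x))) cf (hb q (mu cf.n0 k d x)) d q x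

/-- The table with the statistic. -/
noncomputable def A2 (k : ℕ) : Tb := ⟨L0 cf P k, mu cf.n0 k, fun _ _ _ _ _ _ => 0, H1 cf P k⟩

/-- The table. -/
noncomputable def mkT (k : ℕ) : Tb where
  L := { L0 cf P k with hc := H1 cf P k false q0, hr := H1 cf P k true q0 }
  mu := mu cf.n0 k
  T d q f x h c := if mu cf.n0 k d x = 0 then T1 cf P k d q f x h c else
    (A2 cf P k).TU (P (k - hb q (mu cf.n0 k d x))) cf (hb q (mu cf.n0 k d x)) d q f x h c
  H := H1 cf P k

theorem exists_fix : ∃ W : ℕ → Tb, ∀ k, ∃ P : ℕ → Tb, (∀ j < k, P j = W j) ∧ W k = mkT cf P k := by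
  let z : Tb := A0 cf (fun _ => ⟨lv0 0 0 0 (fun _ _ => 0) 0 0, fun _ _ => 0,
    fun _ _ _ _ _ _ => 0, fun _ _ _ => 0⟩) 0
  let W : ℕ → Tb := fun k => Nat.strongRec
    (fun k (p : ∀ j < k, Tb) => mkT cf (fun j => if h : j < k then p j h else z) k) k
  refine ⟨W, fun k => ⟨fun j => if j < k then W j else z, fun j hj => if_pos hj, ?_⟩⟩
  simp only [W]
  rw [Nat.strongRec_eq]
  rfl

end Ex

open Ex in
theorem exists_isTab (cf : Cf) (hN : cf.N ≤ 2 ^ cf.n0) : ∃ W, IsTab cf W := by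
  obtain ⟨W, hW⟩ := exists_fix cf
  have hL : ∀ k, (W k).L = lv cf.N cf.n0 cf.K cf.A0 (fun j => (W j).H false q0)
      (fun j => (W j).H true q0) k := by
    intro k
    induction k with
    | zero =>
      obtain ⟨P, -, h⟩ := hW 0
      simp only [lv, h]
      rfl
    | succ j ih =>
      obtain ⟨P, hP, h⟩ := hW (j + 1)
      simp only [lv, ← ih, h, ← hP j (Nat.lt_succ_self j)]
      rfl
  have hmu : ∀ k, (W k).mu = mu cf.n0 k := by
    intro k
    obtain ⟨P, -, h⟩ := hW k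
    rw [h]; rfl
  have hlt : ∀ {k d x} q, mu cf.n0 k d x ≠ 0 → k - hb q (mu cf.n0 k d x) < k := by
    intro k d x q h
    have h1 := hb_ne q h
    have h2 := mu_le cf.n0 d x k
    omega
  refine ⟨W, hL, hmu, fun d q f x h c => ?_, fun d q x => ?_, fun j d q f x h c hm => ?_,
    fun j d q x hm => ?_, fun k d q f x h c hm => ?_, fun k d q x hm => ?_⟩
  · obtain ⟨P, -, e⟩ := hW 0
    rw [e]
    rfl
  · obtain ⟨P, -, e⟩ := hW 0
    rw [e]
    rfl
  · obtain ⟨P, hP, e⟩ := hW (j + 1)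
    rw [hmu] at hm
    rw [e, ← hP j (Nat.lt_succ_self j)]
    exact if_pos hm
  · obtain ⟨P, hP, e⟩ := hW (j + 1)
    have hfar : ∀ y, (mkT cf P (j + 1)).w d q x y ≠ 0 → mu cf.n0 (j + 1) (!d) y = 0 := by
      intro y hy
      have h1 := (Tb.of_w hy).2.1
      rw [← e, hL] at h1
      rw [hmu] at hm
      rw [← hm]
      cases d
      exacts [lv_mu hN h1, (lv_mu hN h1).symm]
    rw [hmu] at hm
    have hw : (A1 cf P (j + 1)).w = (mkT cf P (j + 1)).w := rfl
    have hsig : ∀ y, (A1 cf P (j + 1)).sig d q x y = (mkT cf P (j + 1)).sig d q x y := by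
      intro y
      by_cases h0 : (mkT cf P (j + 1)).w d q x y = 0
      · rw [Tb.sig, Tb.sig, hw, h0, cl_of_le (by norm_num)]
        simp
      · have h1 := hfar y h0
        rw [Tb.sig, Tb.sig, hw]
        simp only [Tb.fac, A1, mkT, hm, h1, if_true]
    have hc : ∀ f h c, (A1 cf P (j + 1)).cand cf d q f x h c =
        (mkT cf P (j + 1)).cand cf d q f x h c := by
      intro f h c
      funext y
      simp only [Tb.cand, Tb.se, hsig]
      rfl
    have hp : ∀ f K, (A1 cf P (j + 1)).pt cf d q f x K = (mkT cf P (j + 1)).pt cf d q f x K := by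
      intro f K
      simp only [Tb.pt, hc]
    have hs : ∀ f K, (A1 cf P (j + 1)).s cf d q f x K = (mkT cf P (j + 1)).s cf d q f x K := by
      intro f K
      unfold Tb.s
      rw [hc, hp, Tb.se, Tb.se, hsig]
      split_ifs with h1
      · have h2 := hfar _ h1.w_ne
        generalize (mkT cf P (j + 1)).pt cf d q f x K = y at h2 ⊢
        simp only [Tb.Tk, Tb.Tr, A1, mkT, hm, h2, if_true]
      · rfl
    rw [e]
    change H1 cf P (j + 1) d q x = _
    rw [H1, if_pos hm, if_neg (Nat.succ_ne_zero j)]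
    simp only [Tb.HM, hs, hp, hw]
  · obtain ⟨P, hP, e⟩ := hW k
    rw [hmu] at hm ⊢
    rw [← hP _ (hlt q hm), e]
    exact if_neg hm
  · obtain ⟨P, hP, e⟩ := hW k
    rw [hmu] at hm ⊢
    rw [← hP _ (hlt q hm), e]
    exact if_neg hm

end Vale.Agent.P313.Full
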