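import Vale.Agent.P313.Full.TabH0
import Vale.Agent.P313.Full.TabBasic
import Vale.Agent.P313.Full.TabGen

/-! The ideal tables: nesting, the number of significant entries, the statistics. -/

namespace Vale.Agent.P313.Full

open Finset Hi

namespace TH

variable {cf : Cf} {W : ℕ → Tb}

theorem w_nonneg {k : ℕ} (h : Pre cf W k) (d : Bool) (q : Cx) (x y : ℕ) : 0 ≤ (W k).w d q x y := by
  unfold Tb.w
  split_ifs
  · exact mul_nonneg (sd_nonneg h _ _ _) (by positivity)
  · exact le_rfl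

theorem H_nonneg {k : ℕ} (h : Pre cf W k) (d : Bool) (q : Cx) (x : ℕ) : 0 ≤ (W k).H d q x := by
  by_cases h1 : (W k).mu d x = 0
  · cases k with
    | zero =>
      rw [h.tab.HB]
      exact div_nonneg (sum_nonneg fun y _ => sd_nonneg h _ _ _) (by positivity)
    | succ j =>
      rw [h.tab.HM _ _ _ _ h1]
      exact clH_nonneg _
  · rw [h.tab.HU _ _ _ _ h1]
    exact clH_nonneg _

theorem le_clH' {t : ℝ} (h : clH t < 3 / 2 * 2 ^ B) : t ≤ clH t := by
  have h2 : (0 : ℝ) < 2 ^ B := by positivity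
  exact le_clH (by rw [pow_succ]; linarith)

/-- The mean of a function of the partner. -/
theorem JK_pt {k x : ℕ} {d : Bool} {q : Cx} {f : Bool → ℕ} (h : Pre cf W k)
    (hT : GoodT cf (W k) k) (hf : FOk cf k q f) (hx : x < nm cf.n0 k) (g : ℕ → ℝ) :
    ∃ N : ℕ → ℝ, (∀ y, 3 / 4 ≤ N y ∧ N y ≤ 1) ∧
      2 ^ ((W k).lam d q x + f true + f false) * (cf.JK fun c => cf.JK fun c' =>
        (W k).s cf d q f x (two d c c') * g ((W k).pt cf d q f x (two d c c'))) =
      ∑ y ∈ range (nm cf.n0 k), g y * ((W k).se d q x y * N y) := by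
  classical
  choose N h1 h2 h3 using fun y => stVis (y := y) (d := d) h hT hf hx
  refine ⟨N, fun y => ⟨by linarith [h1 y, eps_le q (f true), eps_le q (f false)], h2 y⟩, ?_⟩
  simp only [← h3, mul_left_comm (g _), ← mul_sum, ← cf.JK_mul_left, ← cf.JK_sum]
  refine cf.JK_congr fun c _ => cf.JK_congr fun c' _ => congrArg _ ?_
  by_cases hs : (W k).s cf d q f x (two d c c') = 0
  · simp [hs]
  · simp only [mul_ite, mul_zero]
    rw [sum_ite_eq, if_pos (mem_range.2 (sd_supp h.ok h.tab (Tb.of_w (Tb.of_s hs).1.w_ne).2.1).2),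
      mul_comm]

/-! ### Labels -/

theorem sum_prs_near {n u : ℕ} (d : Bool) (hu : u < n) (F : (Bool → ℕ) → ℝ) :
    ∑ c ∈ prs n, (if u = c d then F c else 0) = ∑ v ∈ range n, F (two d u v) := by
  simp only [sum_prs d, two_same, sum_ite_irrel, sum_const_zero, sum_ite_eq, mem_range, hu, if_true]

theorem cx_up {j b : ℕ} {q : Cx} (h : Cx.Ok cf (j + b) q) (c : Bool → ℕ) :
    Cx.Ok cf j (q.up b c) := by
  refine ⟨by have := h.age; simp only [Cx.up]; omega, fun e => ?_, fun e => ?_⟩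
  · have := sum_le_card_nsmul (range b) (fun i => (((dg 0 i (c e)).ed e).1 : ℕ)) B
      fun i _ => Nat.lt_succ_iff.1 (Fin.is_lt _)
    rw [card_range, smul_eq_mul, mul_comm] at this
    exact (add_le_add (h.D e) this).trans_eq (mul_add _ _ _).symm
  · have := sum_le_card_nsmul (range b) (fun i => (((dg 0 i (c e)).ed e).2.1 : ℕ)) (C + 1)
      fun i _ => Nat.lt_succ_iff.1 (Fin.is_lt _)
    rw [card_range, smul_eq_mul, mul_comm] at this
    exact (add_le_add (h.E e) this).trans_eq (mul_add _ _ _).symm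

theorem cS_le_cF : cS ≤ cF := by unfold cS cF; omega

/-- Fresh filters, extended on `b` levels. -/
theorem fok_stat (hc : cf.Ok) {j b : ℕ} {q : Cx} (h : Cx.Ok cf (j + b) q) (c : Bool → ℕ) :
    FOk cf j (q.up b c) (fU b fun _ => cZ + cS * q.age) := by
  have h1 := cx_up h c
  refine ⟨h1, fun e => ?_, fun e e' => ?_⟩
  · have := Nat.mul_le_mul_right b cS_le_cF
    simp only [fU, Cx.up, mul_add]
    omega
  · have h2 := h1.D e'
    have h3 := hc.room
    have h4 := Nat.mul_le_mul_left (B + cS + cF) h.age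
    simp only [fU, Cx.up] at h2 ⊢
    nlinarith [Nat.zero_le (cF * q.age), Nat.zero_le (cS * j), Nat.zero_le (cS * b)]

theorem div_lt {j b x : ℕ} (hx : x < nm cf.n0 (j + b)) : x / nm cf.n0 j < 2 ^ (a * b) := by
  rwa [Nat.div_lt_iff_lt_mul (nm_pos _ _), mul_comm, ← nm_add]

/-! ### The mass which is seen by the statistics -/

open Classical in
/-- The statistic at a merged name. -/
theorem stat_M {k x : ℕ} {d : Bool} {q : Cx} (h : Pre cf W k)
    (hT : GoodT cf (W k) k) (hq : Cx.Ok cf k q) (hx : x < nm cf.n0 k) :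
    ∃ N : ℕ → ℝ, (∀ y, 3 / 4 ≤ N y ∧ N y ≤ 1) ∧
      (stat cf d q.age fun f K => (W k).s cf d q f x K * (W k).w d q x ((W k).pt cf d q f x K)) =
      (∑ y ∈ range (nm cf.n0 k), (if (W k).vis d q x y then sd (W k).L d x y else 0) *
        ((W k).se d q x y * N y)) / 2 ^ (cH * q.age) := by
  have hf : FOk cf k q fun _ => cZ + cS * q.age := fok_stat (b := 0) h.ok hq fun _ => 0
  obtain ⟨N, h1, h2⟩ := JK_pt (d := d) h hT hf hx ((W k).w d q x)
  refine ⟨N, h1, ?_⟩
  rw [stat, div_mul_eq_mul_div]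
  congr 1
  refine mul_left_cancel₀ (show (2 : ℝ) ^ (W k).lam d q x ≠ 0 by positivity) ?_
  rw [← mul_assoc, ← pow_add, two_mul, ← add_assoc, h2, mul_sum]
  refine sum_congr rfl fun y _ => ?_
  unfold Tb.w
  split_ifs <;> ring

open Classical in
/-- The statistic at a name without a merge. -/
theorem stat_U {j b x : ℕ} {d : Bool} {q : Cx} (h : Pre cf W (j + b)) (hb : b ≠ 0)
    (hq : Cx.Ok cf (j + b) q) (hx : x < nm cf.n0 (j + b)) :
    ∃ N : ℕ → ℝ, (∀ y, 3 / 4 ≤ N y ∧ N y ≤ 1) ∧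
      (stat cf d q.age fun f K => ∑ r ∈ labU b,
        (W j).sU cf b d q f x K r * (W (j + b)).w d q x ((W j).eU cf b d q f x K r)) =
      (∑ y ∈ range (nm cf.n0 (j + b)),
        (if (W (j + b)).vis d q x y then sd (W (j + b)).L d x y else 0) *
        ((W j).se d (q.up b (two d (x / nm cf.n0 j) (y / nm cf.n0 j))) (x % nm cf.n0 j)
          (y % nm cf.n0 j) * N y)) / 2 ^ (cH * q.age) := by
  have hn := n_eq h.tab j
  set f : Bool → ℕ := fun _ => cZ + cS * q.age with hf
  choose N h1 h2 using fun v => JK_pt (d := d) (down h (Nat.le_add_right j b))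
    (h.good j (by omega)).T (fok_stat h.ok hq (two d (x / nm cf.n0 j) v)) (mod_nm_lt cf.n0 j x)
    fun y => (W (j + b)).w d q x (y + nm cf.n0 j * v)
  refine ⟨fun y => N (y / nm cf.n0 j) (y % nm cf.n0 j), fun y => h1 _ _, ?_⟩
  rw [stat, div_mul_eq_mul_div]
  congr 1
  -- the sum over the labels
  have e1 : ∀ r ∈ labU b, (cf.JK fun k => cf.JK fun k' => (W j).sU cf b d q f x (two d k k') r *
      (W (j + b)).w d q x ((W j).eU cf b d q f x (two d k k') r)) =
      if x / nm cf.n0 j = r.1 d then cf.JK fun k => cf.JK fun k' =>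
        (W j).s cf d (q.up b r.1) (fU b f) (x % nm cf.n0 j) (two d k k') * (W (j + b)).w d q x
          ((W j).pt cf d (q.up b r.1) (fU b f) (x % nm cf.n0 j) (two d k k') + nm cf.n0 j * r.1 (!d))
      else 0 := fun r hr => by
    simp only [Tb.sU, Tb.eU, hn]
    split_ifs with h3
    · simp only [labU, labs, mem_product, mem_prs, mem_range] at hr
      have h4 : ∀ e, (W j).shf b d q f x r e < 2 ^ cf.m := fun e => by
        have h5 := lam_le h.tab d (q.up b r.1) (mod_nm_lt cf.n0 j x)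
        have h6 := (fok_stat h.ok hq r.1).room e d
        rw [Tb.shf, show r.2.2 = 0 by omega, zero_mul, Nat.xor_zero, Tb.lr, hn]
        calc _ < 2 ^ (cF * b) * 2 ^ _ := Nat.mul_lt_mul_of_pos_right (hr.2.1 e) (by positivity)
          _ ≤ _ := by
            rw [← pow_add]
            refine Nat.pow_le_pow_right two_pos ?_
            simp only [fU, hf, add_mul] at h6 ⊢
            omega
      have h5 : ∀ k k', (W j).kU cf b d q f x (two d k k') r =
          two d ((W j).ek cf b d q f x k r d) ((W j).ek cf b d q f x k' r (!d)) := fun k k' => by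
        funext e
        cases d <;> cases e <;> rfl
      simp only [h5, Tb.ek]
      symm
      rw [← cf.JK_ent ((W j).L.n * r.1 d) (h4 d)]
      refine cf.JK_congr fun k _ => ?_
      rw [← cf.JK_ent ((W j).L.n * r.1 (!d)) (h4 (!d))]
    · simp only [zero_mul, cf.JK_const]
  simp only [cf.JK_sum]
  rw [sum_congr rfl e1, labU, labs, sum_product]
  simp only [sum_const, card_product, prs, Fintype.card_piFinset, card_range, prod_const,
    card_univ, Fintype.card_bool, pow_zero, mul_one, nsmul_eq_mul]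
  rw [← mul_sum, ← prs, sum_prs_near d (div_lt hx), nm_add, sum_range_mul, ← mul_assoc, mul_sum]
  refine sum_congr rfl fun v _ => ?_
  refine mul_left_cancel₀ (show (2 : ℝ) ^ (W (j + b)).lam d q x ≠ 0 by positivity) ?_
  have h3 := h2 v
  rw [(lam_up h.tab q hx (two_same _ _ _)).1] at h3
  rw [two_not, ← mul_assoc, mul_sum]
  refine Eq.trans ?_ (h3.trans (sum_congr rfl fun y hy => ?_))
  · congr 1
    simp only [fU]
    push_cast
    ring
  · rw [Nat.add_mul_div_left _ _ (nm_pos _ _), Nat.div_eq_of_lt (mem_range.1 hy), zero_add,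
      Nat.add_mul_mod_self_left, Nat.mod_eq_of_lt (mem_range.1 hy)]
    unfold Tb.w
    split_ifs <;> ring

/-! ### Names without a merge -/

theorem exists_eq_add {k x b : ℕ} {d : Bool} {q : Cx} (hW : IsTab cf W) (hm : (W k).mu d x ≠ 0)
    (hb : b = hb q ((W k).mu d x)) : b ≠ 0 ∧ b ≤ (W k).mu d x ∧ ∃ j, k = j + b := by
  have h1 := mu_le cf.n0 d x k
  rw [← hW.mu] at h1
  unfold Full.hb at hb
  exact ⟨by omega, by omega, k - b, by omega⟩

theorem H_eq {j b x : ℕ} {d : Bool} {q : Cx} (hW : IsTab cf W) (hm : (W (j + b)).mu d x ≠ 0)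
    (hb : b = hb q ((W (j + b)).mu d x)) : (W (j + b)).H d q x =
    clH ((stat cf d q.age fun f K => ∑ r ∈ labU b,
        (W j).sU cf b d q f x K r * (W (j + b)).w d q x ((W j).eU cf b d q f x K r)) +
      3 / 2 * ∑ c ∈ prs (2 ^ (a * b)),
        if x / nm cf.n0 j = c d then (W j).H d (q.up b c) (x % nm cf.n0 j) else 0) := by
  rw [hW.HU _ _ _ _ hm, ← hb, Nat.add_sub_cancel, Tb.HU, n_eq hW]

theorem statU_nonneg {j b x : ℕ} {d : Bool} {q : Cx} (h : Pre cf W (j + b)) :
    0 ≤ stat cf d q.age fun f K => ∑ r ∈ labU b,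
      (W j).sU cf b d q f x K r * (W (j + b)).w d q x ((W j).eU cf b d q f x K r) := by
  refine stat_nonneg _ _ _ fun f K => sum_nonneg fun r _ => mul_nonneg ?_ (w_nonneg h _ _ _ _)
  unfold Tb.sU
  split_ifs
  exacts [Tb.s_nonneg _ _ _ _ _ _ _, le_rfl]

theorem sumH_nonneg {j b x : ℕ} {d : Bool} {q : Cx} (h : Pre cf W (j + b)) :
    ∀ c ∈ prs (2 ^ (a * b)),
      0 ≤ if x / nm cf.n0 j = c d then (W j).H d (q.up b c) (x % nm cf.n0 j) else 0 := fun c _ => by
  split_ifs
  exacts [H_nonneg (down h (Nat.le_add_right _ _)) _ _ _, le_rfl]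

/-- The guard for the load on the lower level. -/
theorem fac_up {j b x : ℕ} {d : Bool} {q : Cx} {c : Bool → ℕ} (h : Pre cf W (j + b))
    (hm : (W (j + b)).mu d x ≠ 0) (hb : b = hb q ((W (j + b)).mu d x))
    (hf : (W (j + b)).fac d q x ≠ 0) (hc : c ∈ prs (2 ^ (a * b))) (hx : x / nm cf.n0 j = c d) :
    (W j).fac d (q.up b c) (x % nm cf.n0 j) = 1 := by
  rw [Tb.fac, if_neg hm, H_eq h.tab hm hb] at hf
  have h1 := lt_of_rd hf
  have h2 := (le_clH' h1).trans_lt h1
  have h3 := single_le_sum (sumH_nonneg (x := x) (d := d) (q := q) h) hc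
  have h4 := statU_nonneg (x := x) (d := d) (q := q) h
  rw [if_pos hx] at h3
  unfold Tb.fac
  split_ifs
  · rfl
  · exact rd_eq_one (by linarith)

theorem nest {j b x y : ℕ} {d : Bool} {q : Cx} (h : Pre cf W (j + b))
    (hm : (W (j + b)).mu d x ≠ 0) (hb : b = hb q ((W (j + b)).mu d x))
    (hs : (W (j + b)).sig d q x y ≠ 0) :
    (W j).sig d (q.up b (two d (x / nm cf.n0 j) (y / nm cf.n0 j))) (x % nm cf.n0 j)
      (y % nm cf.n0 j) = 1 := by
  obtain ⟨hv, hS, hw⟩ := Tb.of_w (Tb.w_ne_of_sig hs)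
  obtain ⟨hx, hy⟩ := sd_supp h.ok h.tab hS
  obtain ⟨hb0, hb1, -⟩ := exists_eq_add h.tab hm hb
  have hmu := sd_mu h hS
  have hc := two_mem_prs d (div_lt hx) (div_lt hy)
  have h1 := Tb.lt_w_of_sig hs
  have h2 := thr_add_le q.age hb0
  have h3 : (W (j + b)).w d q x y ≤ (W j).w d (q.up b (two d (x / nm cf.n0 j) (y / nm cf.n0 j)))
      (x % nm cf.n0 j) (y % nm cf.n0 j) := by
    rw [hw, Tb.w, if_pos ((vis_up h.tab q hx hy (two_same _ _ _) (two_not _ _ _)).2 hv),
      (lam_up h.tab q hx (two_same _ _ _)).1]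
    exact mul_le_mul_of_nonneg_right (sd_down h hb1 hS) (by positivity)
  rw [Tb.sig, fac_up h hm hb (right_ne_zero_of_mul (left_ne_zero_of_mul hs)) hc (two_same _ _ _).symm,
    fac_up h (hmu ▸ hm) (hmu ▸ hb) (right_ne_zero_of_mul hs) hc (two_not _ _ _).symm, mul_one,
    mul_one]
  refine cl_of_ge ?_
  rw [le_sub_iff_add_le, le_div_iff₀ (thr_pos _)]
  change _ * thr (q.age + b) ≤ _
  linarith

/-! ### Usable entries and the upper bounds -/

theorem sig_of_use {k x z : ℕ} (h : Pre cf W k) (hu : (W k).L.use x z) :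
    (W k).sig true q0 x z = 1 := by
  obtain ⟨h1, h2, h3⟩ := hu
  unfold Lv.rdy at h1
  split_ifs at h1 with h4
  · have h5 := pos_of_cl h1
    have hS : (W k).L.S x z ≠ 0 := fun e => by rw [e] at h5; norm_num at h5
    have h6 : (W k).vis true q0 x z := ((inv h).sy x z hS).1 h4
    rw [h.tab.L, lv_hr] at h2
    rw [h.tab.L, lv_hc] at h3
    have h7 : ∀ d v, (W k).H d q0 v < 2 ^ B → (W k).fac d q0 v = 1 := fun d v hv => by
      unfold Tb.fac
      split_ifs
      exacts [rfl, rd_eq_one hv.le]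
    rw [Tb.sig, h7 _ _ h2, Bool.not_true, h7 _ _ h3, mul_one, mul_one, Tb.w, if_pos h6]
    refine cl_of_ge ?_
    rw [thr, div_div_eq_mul_div, div_one]
    change 1 ≤ 2 * ((W k).L.S x z * 2 ^ ((W k).L.vo x).l) * 2 ^ (B + 1) - 1
    linarith
  · exact absurd rfl h1

theorem low_of {k x : ℕ} {d : Bool} (h : Pre cf W (k + 1)) (hT : GoodT cf (W (k + 1)) (k + 1))
    (hx : x < nm cf.n0 (k + 1)) (p : ℕ → Prop) [DecidablePred p]
    (hp : ∀ y, p y → (W (k + 1)).sig d q0 x y = 1 ∧ (W (k + 1)).H d q0 x < 2 ^ B) :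
    ∑ y ∈ range (nm cf.n0 (k + 1)) with p y, sd (W (k + 1)).L d x y ≤
      2 * (W (k + 1)).H d q0 x := by
  classical
  have hH := H_nonneg h d q0 x
  by_cases he : ∃ y, p y
  swap
  · rw [filter_false_of_mem fun y _ hy => he ⟨y, hy⟩, sum_empty]
    linarith
  obtain ⟨y0, hy0⟩ := he
  have h1 : (W (k + 1)).H d q0 x < 3 / 2 * 2 ^ B := by
    have : (0 : ℝ) < 2 ^ B := by positivity
    linarith [(hp y0 hy0).2]
  have hq : Cx.Ok cf (k + 1) q0 := ⟨by simpa [q0] using h.le, fun _ => le_rfl, fun _ => le_rfl⟩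
  have key : ∀ (e N : ℕ → ℝ), (∀ y, 3 / 4 ≤ N y ∧ N y ≤ 1) → (∀ y, 0 ≤ e y) →
      (∀ y, p y → e y = 1) → ∑ y ∈ range (nm cf.n0 (k + 1)) with p y, sd (W (k + 1)).L d x y ≤
      2 * ((∑ y ∈ range (nm cf.n0 (k + 1)), (if (W (k + 1)).vis d q0 x y then
        sd (W (k + 1)).L d x y else 0) * (e y * N y)) / 2 ^ (cH * q0.age)) := fun e N hN he0 he => by
    rw [show cH * q0.age = 0 from rfl, pow_zero, div_one, mul_sum, sum_filter]
    refine sum_le_sum fun y _ => ?_
    have h2 := sd_nonneg h d x y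
    have h3 := hN y
    by_cases hy : p y
    · rw [if_pos hy, if_pos (Tb.of_w (Tb.w_ne_of_sig ((hp y hy).1 ▸ one_ne_zero))).1, he y hy]
      nlinarith
    · rw [if_neg hy]
      refine mul_nonneg two_pos.le (mul_nonneg ?_ (mul_nonneg (he0 y) (by linarith)))
      split_ifs
      exacts [h2, le_rfl]
  by_cases hm : (W (k + 1)).mu d x = 0
  · obtain ⟨N, hN, e⟩ := stat_M (d := d) h hT hq hx
    refine (key _ N hN (fun y => Tb.se_nonneg _ _ _ _ _) fun y hy => Tb.se_of_sig (hp y hy).1).trans ?_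
    rw [h.tab.HM _ _ _ _ hm, Tb.HM] at h1 ⊢
    rw [← e]
    linarith [le_clH' h1]
  · generalize k + 1 = k' at *
    generalize hb : Full.hb q0 ((W k').mu d x) = b
    obtain ⟨hb0, -, j, rfl⟩ := exists_eq_add h.tab hm hb.symm
    obtain ⟨N, hN, e⟩ := stat_U (d := d) h hb0 hq hx
    refine (key _ N hN (fun y => Tb.se_nonneg _ _ _ _ _) fun y hy =>
      Tb.se_of_sig (nest h hm hb.symm ((hp y hy).1 ▸ one_ne_zero))).trans ?_
    rw [H_eq h.tab hm hb.symm] at h1 ⊢
    rw [← e]
    linarith [le_clH' h1, sum_nonneg (sumH_nonneg (x := x) (d := d) (q := q0) h)]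

theorem upB_nonneg {k : ℕ} (h : Pre cf W k) (d : Bool) (x : ℕ) : 0 ≤ upB W k d x := by
  unfold upB
  split_ifs
  · exact upR_nonneg k (fun i hi => (inv (down h hi)).S_nonneg) x
  · exact upC_nonneg k (fun i hi => (inv (down h hi)).S_nonneg) x

theorem upB_succ (hW : IsTab cf W) (k : ℕ) (d : Bool) (x : ℕ) : upB W (k + 1) d x =
    ∑ y ∈ range (nm cf.n0 (k + 1)), sd (W (k + 1)).L d x y + upB W k d (x % nm cf.n0 k) / rho := by
  cases d <;> simp [upB, upR, upC, Lv.row, Lv.col, sd, n_eq hW]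

theorem upB_down {j x : ℕ} {d : Bool} : ∀ {b : ℕ}, Pre cf W (j + b) →
    upB W j d (x % nm cf.n0 j) / rho ^ b ≤ upB W (j + b) d (x % nm cf.n0 (j + b))
  | 0, _ => by simp
  | b + 1, h => by
    rw [← add_assoc, upB_succ h.tab, mod_nm_mod _ (Nat.le_succ _), pow_succ, ← div_div]
    exact le_add_of_nonneg_of_le (sum_nonneg fun y _ => sd_nonneg h _ _ _)
      (div_le_div_of_nonneg_right (upB_down (down h (Nat.le_succ _))) (by unfold rho; positivity))

open Classical in
theorem sum_le_load {k x : ℕ} {d : Bool} {q : Cx} (h : Pre cf W k) {e N : ℕ → ℝ}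
    (hN : ∀ y, 3 / 4 ≤ N y ∧ N y ≤ 1) (he : ∀ y, e y ≤ 1) :
    ∑ y ∈ range (nm cf.n0 k), (if (W k).vis d q x y then sd (W k).L d x y else 0) * (e y * N y) ≤
      ∑ y ∈ range (nm cf.n0 k), sd (W k).L d x y := by
  refine sum_le_sum fun y _ => ?_
  have h1 := sd_nonneg h d x y
  split_ifs
  · exact mul_le_of_le_one_right h1 (mul_le_one₀ (he y) (by linarith [hN y]) (hN y).2)
  · rwa [zero_mul]

theorem up_of {k x : ℕ} {d : Bool} {q : Cx} (h : Pre cf W (k + 1))
    (hT : GoodT cf (W (k + 1)) (k + 1)) (hq : Cx.Ok cf (k + 1) q) (hx : x < nm cf.n0 (k + 1)) :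
    (W (k + 1)).H d q x ≤ upB W (k + 1) d x / 2 ^ (cH * q.age) := by
  have h0 : 0 ≤ upB W (k + 1) d x / 2 ^ (cH * q.age) :=
    div_nonneg (upB_nonneg h _ _) (by positivity)
  have hr : 0 < rho := by unfold rho; positivity
  by_cases hm : (W (k + 1)).mu d x = 0
  · obtain ⟨N, hN, e⟩ := stat_M (d := d) h hT hq hx
    rw [h.tab.HM _ _ _ _ hm, Tb.HM, e]
    refine max_le h0 ((min_le_right _ _).trans (div_le_div_of_nonneg_right ?_ (by positivity)))
    rw [upB_succ h.tab]
    exact le_add_of_le_of_nonneg (sum_le_load h hN fun y => Tb.se_le_one _ _ _ _ _)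
      (div_nonneg (upB_nonneg (down h (Nat.le_succ _)) _ _) hr.le)
  · generalize hb : Full.hb q ((W (k + 1)).mu d x) = b
    obtain ⟨hb0, -, j, hj⟩ := exists_eq_add h.tab hm hb.symm
    obtain ⟨b, rfl⟩ := Nat.exists_eq_succ_of_ne_zero hb0
    obtain rfl : k = j + b := by omega
    obtain ⟨N, hN, e⟩ := stat_U (j := j) (b := b + 1) (d := d) h hb0 hq hx
    refine (H_eq (j := j) (b := b + 1) h.tab hm hb.symm).trans_le ?_
    rw [e]
    refine max_le h0 ((min_le_right _ _).trans ?_)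
    rw [upB_succ h.tab, add_div, sum_prs_near d (div_lt (j := j) (b := b + 1) hx)]
    refine add_le_add (div_le_div_of_nonneg_right
      (sum_le_load h hN fun y => Tb.se_le_one _ _ _ _ _) (by positivity)) ?_
    have h1 := sum_le_card_nsmul (range (2 ^ (a * (b + 1))))
      (fun v => (W j).H d (q.up (b + 1) (two d (x / nm cf.n0 j) v)) (x % nm cf.n0 j))
      (upB W j d (x % nm cf.n0 j) / 2 ^ (cH * (q.age + (b + 1)))) fun v _ =>
        (h.good j (by omega)).up d _ (cx_up (b := b + 1) hq _) _ (mod_nm_lt _ _ _)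
    have h2 := upB_down (j := j) (b := b) (x := x) (d := d) (down h (Nat.le_succ _))
    have h3 := upB_nonneg (down h (show j ≤ j + b + 1 by omega)) d (x % nm cf.n0 j)
    refine (mul_le_mul_of_nonneg_left h1 (by norm_num)).trans (le_trans ?_
      (div_le_div_of_nonneg_right (div_le_div_of_nonneg_right h2 hr.le) (by positivity)))
    rw [card_range, nsmul_eq_mul, div_div, div_div, ← mul_assoc, ← mul_div_assoc,
      div_le_div_iff₀ (by positivity) (by positivity), mul_right_comm, mul_comm]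
    refine mul_le_mul_of_nonneg_left ?_ h3
    rw [← mul_assoc (rho ^ b), ← pow_succ, rho, ← pow_mul, cH]
    push_cast
    calc (3 / 2 : ℝ) * 2 ^ (a * (b + 1)) * (2 ^ ((a + 1) * (b + 1)) * 2 ^ ((2 * a + 2) * q.age))
        ≤ 2 ^ (b + 1) * 2 ^ (a * (b + 1)) * (2 ^ ((a + 1) * (b + 1)) * 2 ^ ((2 * a + 2) * q.age)) := by
          gcongr
          have : (1 : ℝ) ≤ 2 ^ b := one_le_pow₀ one_le_two
          rw [pow_succ]
          linarith
      _ = _ := by
          rw [← pow_add, ← pow_add, ← pow_add]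
          congr 1
          ring

end TH

open TH

theorem stNest : StNest := by
  intro cf W k q x y d b h _ hm hb hs
  obtain ⟨-, -, j, rfl⟩ := exists_eq_add h.tab hm hb
  rw [Nat.add_sub_cancel]
  exact nest h hm hb hs

theorem stCnt : StCnt := by
  classical
  intro cf W k q x d h hq hx hm
  generalize hb : Full.hb q ((W k).mu d x) = b
  obtain ⟨hb0, -, j, rfl⟩ := exists_eq_add h.tab hm hb.symm
  by_cases he : ∃ y, (W (j + b)).sig d q x y ≠ 0
  swap
  · rw [filter_false_of_mem fun y _ hy => he ⟨y, hy⟩, card_empty, Nat.cast_zero]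
    positivity
  obtain ⟨y0, hy0⟩ := he
  have h1 := right_ne_zero_of_mul (left_ne_zero_of_mul hy0)
  rw [Tb.fac, if_neg hm, H_eq h.tab hm hb.symm] at h1
  obtain ⟨N, hN, e⟩ := stat_U (d := d) h hb0 hq hx
  have h2 := (le_clH' (lt_of_rd h1)).trans_lt (lt_of_rd h1)
  have h3 := sum_nonneg (sumH_nonneg (x := x) (d := d) (q := q) h)
  rw [e] at h2
  have h4 := (div_le_iff₀ (by positivity)).1 ((le_add_of_nonneg_right (by linarith)).trans h2.le)
  refine le_trans ?_ ((mul_le_mul_of_nonneg_left h4 (show (0 : ℝ) ≤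
    8 / 3 * 2 ^ (B + 1 + q.age) * 2 ^ (W (j + b)).lam d q x by positivity)).trans_eq (by ring))
  rw [card_filter, mul_sum]
  push_cast
  refine sum_le_sum fun y _ => ?_
  have h5 := sd_nonneg h d x y
  have h6 := hN y
  by_cases hy : (W (j + b)).sig d q x y ≠ 0
  · obtain ⟨hv, -, hw⟩ := Tb.of_w (Tb.w_ne_of_sig hy)
    have h7 := Tb.lt_w_of_sig hy
    rw [hw, thr, div_div, div_lt_iff₀ (by positivity)] at h7
    rw [if_pos hy, if_pos hv, Tb.se_of_sig (nest h hm hb.symm hy)]
    nlinarith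
  · rw [if_neg hy]
    refine mul_nonneg (by positivity) (mul_nonneg ?_
      (mul_nonneg (Tb.se_nonneg _ _ _ _ _) (by linarith)))
    split_ifs
    exacts [h5, le_rfl]

theorem stH : StH := by
  classical
  intro cf W j h hT
  refine ⟨hT, ⟨fun z hz => ?_, fun x hx => ?_⟩, fun d q hq x hx => up_of h hT hq hx⟩
  · rw [n_eq h.tab] at hz ⊢
    have h1 : (W (j + 1)).L.hc z = (W (j + 1)).H false q0 z := by rw [h.tab.L, lv_hc]
    rw [h1]
    exact low_of (d := false) h hT hz _ fun y hy =>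
      ⟨(Tb.sig_symm _ true _ _ _).trans (sig_of_use h hy), h1 ▸ hy.2.2⟩
  · rw [n_eq h.tab] at hx ⊢
    have h1 : (W (j + 1)).L.hr x = (W (j + 1)).H true q0 x := by rw [h.tab.L, lv_hr]
    rw [h1]
    exact low_of (d := true) h hT hx _ fun y hy => ⟨sig_of_use h hy, h1 ▸ hy.2.1⟩

end Vale.Agent.P313.Full
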