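import Vale.Agent.P313.Full.TabM0
import Vale.Agent.P313.Full.TabBasic

/-! Estimates for the visible mass at merged names. -/

namespace Vale.Agent.P313.Full.MM

open Finset Hi Tb

section defs

variable (V : Tb) (cf : Cf) (d : Bool) (q : Cx) (f : Bool → ℕ) (x v : ℕ) (K : Bool → Key)

open Classical in
/-- The weight of a matched entry. -/
noncomputable def Wt : ℝ :=
  if Vis V d q x v ∧ Mt V cf d q f x v K then
    2 ^ Lm V d q x v * ∑ m ∈ range V.L.n, trm V.L d x m v else 0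

open Classical in
/-- The mean of `g m h` over the midpoints `m` and their values `h`. -/
noncomputable def Fn (g : ℕ → ℕ → ℝ) : ℝ :=
  if Vis V d q x v ∧ Mt V cf d q f x v K then ∑ m ∈ range V.L.n,
    2 ^ (2 * Lm V d q x v + cZ) * trm V.L d x m v * mean (2 ^ cf.m) fun h =>
      if Hit V cf d q x v K h then g m h else 0
  else 0

/-- The visible mass, averaged over the slope of the near key. -/
noncomputable def Xb : ℝ := cf.JS fun s => V.X cf d q f x (cf.rt K d x s) v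

/-- The trouble of the second halves. -/
noncomputable def II : ℝ :=
  cf.JS fun s => cf.JK fun c => ∑ r ∈ labM q, V.ZI cf d q f x (cf.rt K d x s) r c

/-- The collision mass. -/
noncomputable def QQ : ℝ := (∑ v ∈ range (V.L.n * 2 ^ a), Xb V cf d q f x v K) ^ 2 -
  ∑ v ∈ range (V.L.n * 2 ^ a), Xb V cf d q f x v K ^ 2

theorem TM_eq : V.TM cf d q f x (cf.val (K d) x) (K !d) =
    cl3 (12 * II V cf d q f x K / tau q.age + QQ V cf d q f x K / tau q.age ^ 2) := rfl

/-- The guard which depends on the near key. -/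
noncomputable def ga1 (k : Key) (m h : ℕ) : ℝ :=
  pp (Gd (Ta V cf d q f x (lab V cf d q f x v K) m h k))

/-- The trouble which depends on the far key. -/
noncomputable def tb1 (m h : ℕ) : ℝ := Tb' V cf d q f x (lab V cf d q f x v K) m h (K !d)

/-- The mean of the guard which depends on the near key. -/
noncomputable def alp (m h : ℕ) : ℝ :=
  cf.JS fun s => ga1 V cf d q f x v K (cf.rot s x (cf.val (K d) x)) m h

/-- The mean of the first guard which depends on the key of the midpoint. -/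
noncomputable def del (m h : ℕ) : ℝ :=
  cf.JS fun s => pp (Gd (Tc V cf d q f x K (lab V cf d q f x v K) (cf.rot s m h)))

/-- The mean of the guards which depend on the key of the midpoint. -/
noncomputable def gam (m h : ℕ) : ℝ :=
  cf.JS fun s => pp (Gd (Tc V cf d q f x K (lab V cf d q f x v K) (cf.rot s m h))) *
    pp (Gd (Td V cf d q f x v K (lab V cf d q f x v K) (cf.rot s m h)))

end defs

variable {V : Tb} {cf : Cf} {d : Bool} {q : Cx} {f : Bool → ℕ} {x v : ℕ} {K : Bool → Key}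

theorem val_rt (s : ℕ) : cf.val (cf.rt K d x s d) x = cf.val (K d) x := by
  rw [Cf.rt, two_self, val_rot]

theorem rt_far (s : ℕ) : cf.rt K d x s (!d) = K !d := by rw [Cf.rt, two_not]

theorem rt_near (s : ℕ) : cf.rt K d x s d = cf.rot s x (cf.val (K d) x) := by rw [Cf.rt, two_self]

theorem lab_rt (s : ℕ) : lab V cf d q f x v (cf.rt K d x s) = lab V cf d q f x v K := by
  rw [lab, lab, val_rt, rt_far]

theorem Mt_rt (s : ℕ) : Mt V cf d q f x v (cf.rt K d x s) = Mt V cf d q f x v K := by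
  rw [Mt, Mt, val_rt, rt_far]

theorem Hit_rt (s : ℕ) : Hit V cf d q x v (cf.rt K d x s) = Hit V cf d q x v K := by
  funext h
  rw [Hit, Hit, val_rt]

theorem Wt_rt (s : ℕ) : Wt V cf d q f x v (cf.rt K d x s) = Wt V cf d q f x v K := by
  rw [Wt, Mt_rt, Wt]

theorem Fn_rt (s : ℕ) (g : ℕ → ℕ → ℝ) :
    Fn V cf d q f x v (cf.rt K d x s) g = Fn V cf d q f x v K g := by
  rw [Fn, Mt_rt, Hit_rt, Fn]

theorem rt_rt' (s s' : ℕ) : cf.rt (cf.rt K d x s) d x s' = cf.rt K d x s' := by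
  rw [Cf.rt, val_rt, rt_far, Cf.rt]

theorem Xb_rt (s : ℕ) : Xb V cf d q f x v (cf.rt K d x s) = Xb V cf d q f x v K := by
  simp only [Xb, rt_rt']

theorem Fn_sub (g g' : ℕ → ℕ → ℝ) : Fn V cf d q f x v K (fun m h => g m h - g' m h) =
    Fn V cf d q f x v K g - Fn V cf d q f x v K g' := by
  simp only [Fn]
  split_ifs
  · rw [← sum_sub_distrib]
    refine sum_congr rfl fun m _ => ?_
    rw [← mul_sub, ← mean_sub]
    congr 1
    exact mean_congr fun h _ => by split_ifs <;> simp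
  · simp

theorem Fn_mul (c : ℝ) (g : ℕ → ℕ → ℝ) :
    Fn V cf d q f x v K (fun m h => c * g m h) = c * Fn V cf d q f x v K g := by
  simp only [Fn]
  split_ifs
  · rw [mul_sum]
    refine sum_congr rfl fun m _ => ?_
    rw [mul_left_comm c, ← mean_mul_left _ c]
    congr 1
    exact mean_congr fun h _ => by split_ifs <;> simp
  · simp

theorem JS_Fn (g : ℕ → ℕ → ℕ → ℝ) : (cf.JS fun s => Fn V cf d q f x v K (g s)) =
    Fn V cf d q f x v K fun m h => cf.JS fun s => g s m h := by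
  simp only [Fn]
  split_ifs
  · rw [Cf.JS_sum]
    refine sum_congr rfl fun m _ => ?_
    rw [Cf.JS_mul_left, Cf.JS, mean_comm]
    congr 1
    refine mean_congr fun h _ => ?_
    split_ifs
    · rfl
    · exact mean_zero _
  · exact cf.JS_const 0

open Classical in
theorem JK_Fn (g : ℕ → Key → ℝ) : (cf.JK fun c => ∑ m ∈ range V.L.n,
      if Vis V d q x v ∧ Mt V cf d q f x v K ∧ Hit V cf d q x v K (cf.val c m) then
        2 ^ (2 * Lm V d q x v + cZ) * trm V.L d x m v * g m c else 0) =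
    Fn V cf d q f x v K fun m h => cf.JS fun s => g m (cf.rot s m h) := by
  rw [Fn]
  split_ifs with h
  · rw [Cf.JK_sum]
    refine sum_congr rfl fun m _ => ?_
    rw [← mean_mul_left, JK_rot m]
    refine mean_congr fun t _ => ?_
    simp only [val_rot, h.1, h.2, true_and]
    split_ifs
    · rw [Cf.JS_mul_left]
    · rw [cf.JS_const, mul_zero]
  · have : ∀ c : Key, ∀ m, ¬ (Vis V d q x v ∧ Mt V cf d q f x v K ∧
        Hit V cf d q x v K (cf.val c m)) := fun c m e => h ⟨e.1, e.2.1⟩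
    simp only [this, if_false, sum_const_zero, cf.JK_const]

theorem Fn_symm (g : ℕ → ℕ → ℝ) : Fn V cf (!d) q f v x K g = Fn V cf d q f x v K g := by
  classical
  rw [Fn, Fn]
  by_cases h : Vis V d q x v ∧ Mt V cf d q f x v K
  · rw [if_pos h, if_pos ⟨h.1.symm, h.2.symm h.1⟩]
    simp only [h.1.Lm_symm, Blw.trm_comm, hit_symm h.1 h.2]
  · rw [if_neg h, if_neg fun e => h ⟨by simpa using e.1.symm, by simpa using e.2.symm e.1⟩]

theorem chi_le_one_sub {g : ℕ} (hg : g < B) (t : ℝ) : chi g t ≤ 1 - R B t := by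
  have h : ∀ i, R (g + 1 + i) t ≤ R (g + 1) t := fun i => by
    induction i with
    | zero => exact le_rfl
    | succ i ih => exact (R_succ_le _ _).trans ih
  obtain ⟨i, hi⟩ := Nat.exists_eq_add_of_le (Nat.succ_le_of_lt hg)
  have h1 := h i
  rw [show g + 1 + i = B from hi.symm] at h1
  linarith [R_le_one g t, chi.eq_1 g t]

theorem chi_B (t : ℝ) : chi B t = R B t := by rw [chi, R_big (Nat.lt_succ_self B), sub_zero]

theorem fo_le (L : Lv) (u : ℕ × G) : L.fo u ≤ 1 - R B (L.hr u.1) := by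
  rw [Lv.fo]
  split_ifs with h
  · exact (mul_le_of_le_one_left (chi_nonneg _ _) (zeta_le_one _ _)).trans (chi_le_one_sub h _)
  · linarith [R_le_one B (L.hr u.1)]

theorem fi_le (L : Lv) (u : ℕ × G) : L.fi u ≤ 1 - R B (L.hc u.1) := by
  rw [Lv.fi]
  split_ifs with h
  · exact (mul_le_of_le_one_right (chi_nonneg _ _) (zeta_le_one _ _)).trans (chi_le_one_sub h _)
  · linarith [R_le_one B (L.hc u.1)]

namespace Blw

variable {j : ℕ} (hV : Blw V cf j)

include hV

theorem fre0_nonneg (x z : ℕ) : 0 ≤ fre0 V.L x z :=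
  mul_nonneg (mul_nonneg (mul_nonneg (hV.inv.S_nonneg _ _) (V.L.rdy_nonneg _ _))
    (sub_nonneg.2 (R_le_one _ _))) (sub_nonneg.2 (R_le_one _ _))

theorem fre_nonneg (d : Bool) (x z : ℕ) : 0 ≤ fre V.L d x z := by
  cases d <;> exact hV.fre0_nonneg _ _

theorem fre0_le (x z : ℕ) : fre0 V.L x z ≤ V.L.S x z := by
  rw [fre0, mul_assoc, mul_assoc]
  refine mul_le_of_le_one_right (hV.inv.S_nonneg _ _) (mul_le_one₀ (V.L.rdy_le_one _ _)
    (mul_nonneg (sub_nonneg.2 (R_le_one _ _)) (sub_nonneg.2 (R_le_one _ _)))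
    (mul_le_one₀ ?_ (sub_nonneg.2 (R_le_one _ _)) ?_)) <;> linarith [R_nonneg B (V.L.hr x),
      R_nonneg B (V.L.hc z)]

theorem trm0_le (x m z : ℕ) :
    trm0 V.L x m z ≤ fre0 V.L (x % V.L.n) m * fre0 V.L m (z % V.L.n) := by
  have h0 := mul_nonneg (hV.fre0_nonneg (x % V.L.n) m) (hV.fre0_nonneg m (z % V.L.n))
  rw [trm0]
  split_ifs
  · rw [sum_Cm_Fb]
    split_ifs
    · refine (div_le_self ?_ (one_le_pow₀ one_le_two)).trans ?_
      · exact div_nonneg (mul_nonneg (mul_nonneg (V.L.fo_nonneg _) (V.L.fi_nonneg _))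
          (mul_nonneg (mul_nonneg (V.L.om_nonneg hV.inv.S_nonneg _ _) (V.L.mid_nonneg _))
            (V.L.om_nonneg hV.inv.S_nonneg _ _))) (by norm_num)
      · have h1 := mul_le_mul_of_nonneg_right (mul_le_mul (fo_le V.L (x % V.L.n,
          (dig (x / V.L.n)).1)) (fi_le V.L (z % V.L.n, (dig (z / V.L.n)).1)) (V.L.fi_nonneg _)
          (sub_nonneg.2 (R_le_one _ _))) (mul_nonneg (mul_nonneg
            (V.L.om_nonneg hV.inv.S_nonneg (x % V.L.n) m) (V.L.mid_nonneg m))
            (V.L.om_nonneg hV.inv.S_nonneg m (z % V.L.n)))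
        have h2 : (1 - R B (V.L.hr (x % V.L.n))) * (1 - R B (V.L.hc (z % V.L.n))) *
            (V.L.om (x % V.L.n) m * V.L.mid m * V.L.om m (z % V.L.n)) =
            fre0 V.L (x % V.L.n) m * fre0 V.L m (z % V.L.n) := by
          simp only [fre0, Lv.om, Lv.mid, chi_B]
          ring
        simp only at h1 ⊢
        linarith
    · simpa using h0
  · exact h0

theorem S_le (x z : ℕ) : V.L.S x z * 2 ^ (V.L.vo x).l ≤ 1 ∧ V.L.S x z * 2 ^ (V.L.vi z).l ≤ 1 :=
  ⟨(mul_le_mul_of_nonneg_left (pow_le_pow_right₀ one_le_two (le_max_left _ _))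
    (hV.inv.S_nonneg _ _)).trans (hV.inv.val x z), (mul_le_mul_of_nonneg_left
      (pow_le_pow_right₀ one_le_two (le_max_right _ _)) (hV.inv.S_nonneg _ _)).trans
      (hV.inv.val x z)⟩

theorem fre_le (d : Bool) (x z : ℕ) : fre V.L d x z * 2 ^ (ve V.L d x).l ≤ 1 := by
  cases d
  · exact (mul_le_mul_of_nonneg_right (hV.fre0_le _ _) (by positivity)).trans (hV.S_le z x).2
  · exact (mul_le_mul_of_nonneg_right (hV.fre0_le _ _) (by positivity)).trans (hV.S_le x z).1

theorem trm_le (d : Bool) (x m z : ℕ) :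
    trm V.L d x m z ≤ fre V.L d (x % V.L.n) m * fre V.L d m (z % V.L.n) := by
  cases d
  · exact (hV.trm0_le z m x).trans (mul_comm _ _).le
  · exact hV.trm0_le x m z

theorem trm_le' (d : Bool) (x m z : ℕ) :
    trm V.L d x m z * 2 ^ (ve V.L d m).l ≤ fre V.L d (x % V.L.n) m := by
  refine (mul_le_mul_of_nonneg_right (hV.trm_le d x m z) (by positivity)).trans ?_
  rw [mul_assoc]
  exact mul_le_of_le_one_right (hV.fre_nonneg _ _ _) (hV.fre_le _ _ _)

theorem Wt_nonneg : 0 ≤ Wt V cf d q f x v K := by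
  rw [Wt]
  split_ifs
  · exact mul_nonneg (by positivity) (sum_nonneg fun m _ => hV.trm_nonneg _ _ _ _)
  · exact le_rfl

theorem Fn_mono {g g' : ℕ → ℕ → ℝ} (h : Vis V d q x v → Mt V cf d q f x v K →
    ∀ m, Trm V d x m v → ∀ t < 2 ^ cf.m, g m t ≤ g' m t) :
    Fn V cf d q f x v K g ≤ Fn V cf d q f x v K g' := by
  rw [Fn, Fn]
  split_ifs with h1
  · refine sum_le_sum fun m _ => ?_
    by_cases h0 : trm V.L d x m v = 0
    · simp [h0]
    refine mul_le_mul_of_nonneg_left (mean_mono fun t ht => ?_)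
      (mul_nonneg (by positivity) (hV.trm_nonneg _ _ _ _))
    split_ifs
    · exact h h1.1 h1.2 m (hV.of_trm h0) t ht
    · exact le_rfl
  · exact le_rfl

variable (hf : FOk cf (j + 1) q f)

include hf

theorem Fn_const (c : ℝ) : Fn V cf d q f x v K (fun _ _ => c) = c * Wt V cf d q f x v K := by
  classical
  rw [Fn, Wt]
  split_ifs with h
  · have h1 : Lm V d q x v + cZ ≤ cf.m := by
      have a1 := hV.lr_le hf d x (lab V cf d q f x v K) d
      have a2 := hf.slack d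
      rw [lr_eq rfl] at a1
      omega
    have h2 : mean (2 ^ cf.m) (fun h => if Hit V cf d q x v K h then c else 0) =
        c / 2 ^ (Lm V d q x v + cZ) := by
      rw [← mean_mod_eq h1 (r := cf.val (K d) x % 2 ^ (Lm V d q x v - ow V d q x v))
        ((Nat.mod_lt _ (by positivity)).trans_le (Nat.pow_le_pow_right (by norm_num) (by omega)))]
      exact mean_congr fun t _ => if_congr Iff.rfl rfl rfl
    rw [h2, mul_sum, mul_sum]
    refine sum_congr rfl fun m _ => ?_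
    rw [two_mul, add_assoc, pow_add]
    field_simp
  · simp

theorem Fn_nonneg {g : ℕ → ℕ → ℝ} (h : ∀ m t, 0 ≤ g m t) : 0 ≤ Fn V cf d q f x v K g := by
  have h1 := hV.Fn_mono (d := d) (q := q) (f := f) (x := x) (v := v) (K := K)
    (g := fun _ _ => 0) (g' := g) fun _ _ m _ t _ => h m t
  rwa [hV.Fn_const hf, zero_mul] at h1

theorem X_Fn (hK : cf.KOk K) : V.X cf d q f x K v = Fn V cf d q f x v K fun m h =>
    ga1 V cf d q f x v K (K d) m h * pp (Gd (tb1 V cf d q f x v K m h)) *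
      gam V cf d q f x v K m h := by
  rw [hV.X_eq hf hK, Fn]
  simp only [P4, val_rot, Cf.JS_mul_left, ga1, tb1, gam]

theorem Xb_Fn (hK : cf.KOk K) : Xb V cf d q f x v K = Fn V cf d q f x v K fun m h =>
    alp V cf d q f x v K m h * pp (Gd (tb1 V cf d q f x v K m h)) * gam V cf d q f x v K m h := by
  rw [Xb, cf.JS_congr fun s => hV.X_Fn hf (hK.rt d x s)]
  simp only [Fn_rt, JS_Fn, ga1, tb1, gam, alp, lab_rt, Tc, Td, val_rot, rt_far, rt_near,
    Cf.JS_mul_right]

omit hf in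
theorem lt_K (hj : j ≤ cf.K) {m : ℕ} (hm : m < V.L.n) : m < nm cf.n0 cf.K :=
  hm.trans_le (hV.n_eq ▸ nm_le _ hj)

theorem own {e : Bool} {r : Lab} {e' : Bool} {y p h h' : ℕ} (hy : y < V.L.n) (hp : p < V.L.n)
    (hh : h < 2 ^ cf.m) (hh' : h' < 2 ^ cf.m) :
    (cf.JS fun s => V.T e q0 (fM q f r e') y h (cf.rot s p h')) ≤ 1 / 1024 :=
  ((hV.good e y (hV.n_eq ▸ hy)).own (fok_fM hf r e') hh
    (hV.lt_K (by have := hf.age; omega) hp) hh').trans (eps_le _ _)

variable (hK : cf.KOk K) {m t : ℕ} (ht : Trm V d x m v) (htm : t < 2 ^ cf.m)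

include hK ht htm

theorem le_alp : 1 - 1 / 1024 ≤ alp V cf d q f x v K m t := by
  have hr := lab_mem (cf := cf) (d := d) (f := f) (K := K) hf.toOk ht.x_lt ht.v_lt
  refine cf.one_sub_le_JS (T := fun s => Ta V cf d q f x (lab V cf d q f x v K) m t
    (cf.rot s x (cf.val (K d) x))) (fun s => one_sub_le_ppG (hV.T0 _ _ _ _ _ _)) ?_
  simp only [Ta, ek_rot hV.n_eq (r := lab V cf d q f x v K) (e := d) (y := x) (two_self _ _ _)]
  exact hV.own hf ht.m_lt (Nat.mod_lt _ hV.n_pos) htm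
    (Nat.xor_lt_two_pow (val_lt (hK d) x) (hV.shf_lt hf d x hr d))

theorem Tc_le : (cf.JS fun s => Tc V cf d q f x K (lab V cf d q f x v K) (cf.rot s m t)) ≤
    1 / 1024 :=
  hV.own hf (Nat.mod_lt _ hV.n_pos) ht.m_lt (Nat.xor_lt_two_pow (val_lt (hK d) x)
    (hV.shf_lt hf d x (lab_mem hf.toOk ht.x_lt ht.v_lt) d)) htm

theorem Td_le : (cf.JS fun s => Td V cf d q f x v K (lab V cf d q f x v K) (cf.rot s m t)) ≤
    1 / 1024 :=
  hV.own hf (Nat.mod_lt _ hV.n_pos) ht.m_lt (Nat.xor_lt_two_pow (val_lt (hK !d) v)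
    (hV.shf_lt hf d x (lab_mem hf.toOk ht.x_lt ht.v_lt) !d)) htm

theorem le_del : 1 - 1 / 1024 ≤ del V cf d q f x v K m t :=
  cf.one_sub_le_JS (fun _ => one_sub_le_ppG (hV.T0 _ _ _ _ _ _)) (hV.Tc_le hf hK ht htm)

theorem le_gam : 1 - 2 / 1024 ≤ gam V cf d q f x v K m t := by
  refine cf.one_sub_le_JS (T := fun s => Tc V cf d q f x K (lab V cf d q f x v K) (cf.rot s m t) +
    Td V cf d q f x v K (lab V cf d q f x v K) (cf.rot s m t)) (fun s => ?_) ?_
  · have a1 : 1 - Tc V cf d q f x K (lab V cf d q f x v K) (cf.rot s m t) ≤ _ :=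
      one_sub_le_ppG (hV.T0 _ _ _ _ _ _)
    have a2 : 1 - Td V cf d q f x v K (lab V cf d q f x v K) (cf.rot s m t) ≤ _ :=
      one_sub_le_ppG (hV.T0 _ _ _ _ _ _)
    nlinarith [mul_nonneg (sub_nonneg.2 (pp_le_one (Gd (Tc V cf d q f x K (lab V cf d q f x v K)
      (cf.rot s m t))))) (sub_nonneg.2 (pp_le_one (Gd (Td V cf d q f x v K (lab V cf d q f x v K)
      (cf.rot s m t)))))]
  · rw [Cf.JS_add]
    linarith [hV.Tc_le hf hK ht htm, hV.Td_le hf hK ht htm]

end Blw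

theorem alp_le (m t : ℕ) : alp V cf d q f x v K m t ≤ 1 := cf.JS_le fun _ => pp_le_one _

theorem gam_nonneg (m t : ℕ) : 0 ≤ gam V cf d q f x v K m t :=
  cf.JS_nonneg fun _ => mul_nonneg (pp_nonneg _) (pp_nonneg _)

theorem gam_le (m t : ℕ) : gam V cf d q f x v K m t ≤ 1 :=
  cf.JS_le fun _ => mul_le_one₀ (pp_le_one _) (pp_nonneg _) (pp_le_one _)

theorem three_ge {α β γ t : ℝ} (h1 : α ≤ 1) (h2 : β ≤ 1) (h3 : 0 ≤ β) (h4 : γ ≤ 1)
    (h5 : 1 - t ≤ β) : γ - (1 - α) - t ≤ α * β * γ := by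
  have h6 : α * β ≤ 1 := mul_le_one₀ h1 h3 h2
  nlinarith [mul_nonneg (sub_nonneg.2 h1) (sub_nonneg.2 h2),
    mul_nonneg (sub_nonneg.2 h6) (sub_nonneg.2 h4)]

namespace Blw

variable {j : ℕ} (hV : Blw V cf j) (hf : FOk cf (j + 1) q f) (hK : cf.KOk K)

include hV hf hK

theorem X_nonneg : 0 ≤ V.X cf d q f x K v := by
  rw [hV.X_Fn hf hK]
  exact hV.Fn_nonneg hf fun m t =>
    mul_nonneg (mul_nonneg (pp_nonneg _) (pp_nonneg _)) (gam_nonneg _ _)

theorem X_le : V.X cf d q f x K v ≤ Wt V cf d q f x v K := by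
  rw [hV.X_Fn hf hK, ← one_mul (Wt ..), ← hV.Fn_const hf]
  exact hV.Fn_mono fun _ _ m _ t _ => mul_le_one₀ (mul_le_one₀ (pp_le_one _) (pp_nonneg _)
    (pp_le_one _)) (gam_nonneg _ _) (gam_le _ _)

theorem Xb_nonneg : 0 ≤ Xb V cf d q f x v K := cf.JS_nonneg fun s => hV.X_nonneg hf (hK.rt d x s)

theorem Xb_le : Xb V cf d q f x v K ≤ Wt V cf d q f x v K :=
  cf.JS_le fun s => (hV.X_le hf (hK.rt d x s)).trans (Wt_rt s).le

theorem X_le_Xb : (1 - 1 / 1024) * V.X cf d q f x K v ≤ Xb V cf d q f x v K := by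
  rw [hV.X_Fn hf hK, hV.Xb_Fn hf hK, ← Fn_mul]
  refine hV.Fn_mono fun _ _ m ht t htm => ?_
  rw [← mul_assoc, ← mul_assoc]
  refine mul_le_mul_of_nonneg_right (mul_le_mul_of_nonneg_right ?_ (pp_nonneg _)) (gam_nonneg _ _)
  exact (mul_le_of_le_one_right (by norm_num) (pp_le_one _)).trans (hV.le_alp hf hK ht htm)

omit hV hf hK in
theorem a1_nonneg (r : Lab) (c : Key) : 0 ≤ V.a1 cf d q f x K r c := by
  rw [a1]
  split_ifs
  · exact amp_nonneg _ _ _ _ _ _ _
  · exact le_rfl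

omit hf hK in
theorem ZI_nonneg (r : Lab) (c : Key) : 0 ≤ V.ZI cf d q f x K r c :=
  mul_nonneg (mul_nonneg (a1_nonneg r c) (mul_nonneg (by positivity) (hV.fre_nonneg _ _ _)))
    (hV.T0 _ _ _ _ _ _)

omit hf hK in
theorem Z_nonneg (r : Lab) (c : Key) : 0 ≤ V.Z cf d q f x K r c :=
  mul_nonneg (mul_nonneg (a1_nonneg r c) (amp_nonneg _ _ _ _ _ _ _))
    (mul_nonneg (by positivity) (hV.trm_nonneg _ _ _ _))

omit hf hK in
theorem II_nonneg : 0 ≤ II V cf d q f x K :=
  cf.JS_nonneg fun _ => cf.JK_nonneg fun c _ => sum_nonneg fun r _ => hV.ZI_nonneg r c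

open Classical in
theorem le_ZI {c : Key} (hc : c.2 < 2 ^ cf.m) : ∑ m ∈ range V.L.n,
    (if Vis V d q x v ∧ Mt V cf d q f x v K ∧ Hit V cf d q x v K (cf.val c m) then
      2 ^ (2 * Lm V d q x v + cZ) * trm V.L d x m v *
        (ga1 V cf d q f x v K (K d) m (cf.val c m) * tb1 V cf d q f x v K m (cf.val c m) *
          pp (Gd (Tc V cf d q f x K (lab V cf d q f x v K) c))) else 0) ≤
    ∑ r ∈ labM q, V.ZI cf d q f x K r c := by
  by_cases h0 : ∀ m, trm V.L d x m v = 0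
  · simp only [h0, mul_zero, zero_mul, ite_self, sum_const_zero]
    exact sum_nonneg fun r _ => hV.ZI_nonneg r c
  obtain ⟨m0, hm0⟩ := not_forall.1 h0
  have hr := lab_mem (cf := cf) (d := d) (f := f) (K := K) hf.toOk (hV.of_trm hm0).x_lt
    (hV.of_trm hm0).v_lt
  refine le_trans ?_ (single_le_sum (fun r _ => hV.ZI_nonneg r c) hr)
  set r := lab V cf d q f x v K with hrr
  have hz := hV.ZI_nonneg (d := d) (q := q) (f := f) (x := x) (K := K) r c
  refine (sum_le_sum (g := fun m => if V.mM cf d q f x K r c = m then V.ZI cf d q f x K r c else 0)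
    fun m _ => ?_).trans (by rw [sum_ite_eq]; split_ifs; exacts [le_rfl, hz])
  have hz' : 0 ≤ if V.mM cf d q f x K r c = m then V.ZI cf d q f x K r c else 0 := by
    split_ifs; exacts [hz, le_rfl]
  by_cases h1 : trm V.L d x m v = 0
  · simpa only [h1, mul_zero, zero_mul, ite_self] using hz'
  by_cases h : Vis V d q x v ∧ Mt V cf d q f x v K ∧ Hit V cf d q x v K (cf.val c m)
  swap
  · rwa [if_neg h]
  rw [if_pos h]
  have ht := hV.of_trm h1
  obtain ⟨b1, b2, b3, -⟩ := (link_iff (f := f) (K := K) hV.n_eq ht hr (two_not _ _ _) c).2 ⟨rfl, h⟩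
  have p1 := hV.amp_pin (fok_fM hf r d) (hV.kM_ok hf (d := d) (x := x) hK hr hc d) ht.se1
  have p2 : pp (Gd (V.Tk cf d q0 (fM q f r d) (x % V.L.n) (V.kM cf d q f x K r c d))) *
      pp (Gd (V.Tr cf d q0 (fM q f r d) m (V.kM cf d q f x K r c d))) =
      pp (Gd (Tc V cf d q f x K r c)) * ga1 V cf d q f x v K (K d) m (cf.val c m) := by
    simp only [Tk, Tr, kM, two_self, two_not, val_ek hV.n_eq b1.1.symm, Tc, ga1, Ta, ← hrr]
  rw [if_pos b3, p2] at p1
  have e2 : (ve V.L d m).l + (q.up 1 r.1).D (!d) = Lm V d q x v := by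
    rw [← h.1.Lm_symm, Lm, qd_symm, lam, ht.l2]; rfl
  have e3 : 2 ^ (2 * Lm V d q x v + cZ) * trm V.L d x m v ≤
      2 ^ (Lm V d q x v + (q.up 1 r.1).D (!d) + cZ) * fre V.L d (x % V.L.n) m := by
    refine le_trans (le_of_eq ?_) (mul_le_mul_of_nonneg_left (hV.trm_le' d x m v) (by positivity))
    rw [show 2 * Lm V d q x v + cZ = Lm V d q x v + (q.up 1 r.1).D (!d) + cZ + (ve V.L d m).l by
      omega, pow_add]
    ring
  split_ifs with h2
  · rw [ZI, a1, h2, if_pos ⟨b1, b2⟩, lr_eq rfl]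
    rw [if_pos (show V.pt cf d q0 _ _ _ = m from h2)] at p1
    rw [p1]
    have a0 : 0 ≤ ga1 V cf d q f x v K (K d) m (cf.val c m) *
        tb1 V cf d q f x v K m (cf.val c m) * pp (Gd (Tc V cf d q f x K r c)) :=
      mul_nonneg (mul_nonneg (pp_nonneg _) (hV.T0 _ _ _ _ _ _)) (pp_nonneg _)
    refine (mul_le_mul_of_nonneg_right e3 a0).trans (le_of_eq ?_)
    simp only [tb1, Tb', Tk, kM, two_self, two_not', ← hrr]
    ring
  · rw [if_neg (show ¬ V.pt cf d q0 _ _ _ = m from h2)] at p1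
    refine le_of_eq ?_
    have : ga1 V cf d q f x v K (K d) m (cf.val c m) * tb1 V cf d q f x v K m (cf.val c m) *
        pp (Gd (Tc V cf d q f x K r c)) = 0 * tb1 V cf d q f x v K m (cf.val c m) := by
      rw [p1]
      ring
    rw [this, zero_mul, mul_zero]

theorem le_II : (1 - 2 / 1024) * Fn V cf d q f x v K (tb1 V cf d q f x v K) ≤
    II V cf d q f x K := by
  classical
  refine le_trans ?_ (cf.JS_mono fun s => cf.JK_mono fun c hc =>
    hV.le_ZI hf (v := v) (hK.rt d x s) hc)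
  simp only [JK_Fn (g := fun m c => ga1 V cf d q f x v (cf.rt K d x _) _ m (cf.val c m) *
    tb1 V cf d q f x v (cf.rt K d x _) m (cf.val c m) * pp (Gd (Tc V cf d q f x (cf.rt K d x _)
      (lab V cf d q f x v (cf.rt K d x _)) c))), Fn_rt, JS_Fn, ← Fn_mul]
  refine hV.Fn_mono fun _ _ m ht t htm => ?_
  simp only [val_rot, ga1, tb1, Tc, lab_rt, rt_far, rt_near, Cf.JS_mul_left,
    Cf.JS_mul_right]
  have a1 := hV.le_alp hf hK ht htm
  have a2 := hV.le_del hf hK ht htm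
  have a3 : 0 ≤ tb1 V cf d q f x v K m t := hV.T0 _ _ _ _ _ _
  have a4 : 1 - 2 / 1024 ≤ alp V cf d q f x v K m t * del V cf d q f x v K m t := by nlinarith
  have a5 := mul_le_mul_of_nonneg_right a4 a3
  simp only [alp, del, ga1, tb1, Tc] at a5
  linarith

theorem le_Xb : (1 - 3 / 1024) * Wt V cf d q f x v K - 2 * II V cf d q f x K ≤
    Xb V cf d q f x v K := by
  have h1 := hV.le_II hf (d := d) (x := x) (v := v) hK
  have h0 := hV.II_nonneg (d := d) (q := q) (f := f) (x := x) (K := K)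
  have h2 : Fn V cf d q f x v K (fun m t => (1 - 3 / 1024) - tb1 V cf d q f x v K m t) ≤
      Xb V cf d q f x v K := by
    rw [hV.Xb_Fn hf hK]
    refine hV.Fn_mono fun _ _ m ht t htm => le_trans ?_ (three_ge (alp_le _ _)
      (pp_le_one _) (pp_nonneg _) (gam_le _ _)
      (one_sub_le_ppG (hV.T0 _ _ _ _ _ _)))
    have a1 := hV.le_alp hf hK ht htm
    have a2 := hV.le_gam hf hK ht htm
    change _ ≤ _ - (1 - alp V cf d q f x v K m t) - tb1 V cf d q f x v K m t
    linarith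
  rw [Fn_sub, hV.Fn_const hf] at h2
  linarith

theorem le_X : (1 - 2 / 1024) * Wt V cf d q f x v K - 2 * II V cf d q f x K -
    2 * II V cf (!d) q f v K ≤ V.X cf d q f x K v := by
  have h1 := hV.le_II hf (d := d) (x := x) (v := v) hK
  have h1' := hV.le_II hf (d := !d) (x := v) (v := x) hK
  have h0 := hV.II_nonneg (d := d) (q := q) (f := f) (x := x) (K := K)
  have h0' := hV.II_nonneg (d := !d) (q := q) (f := f) (x := v) (K := K)
  have h2 : Fn V cf d q f x v K (fun m t => (1 - 2 / 1024) - tb1 V cf (!d) q f v x K m t -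
      tb1 V cf d q f x v K m t) ≤ V.X cf d q f x K v := by
    rw [hV.X_Fn hf hK]
    refine hV.Fn_mono fun hv hm m ht t htm => le_trans ?_ (three_ge (pp_le_one _)
      (pp_le_one _) (pp_nonneg _) (gam_le _ _)
      (one_sub_le_ppG (hV.T0 _ _ _ _ _ _)))
    have a1 : 1 - tb1 V cf (!d) q f v x K m t ≤ ga1 V cf d q f x v K (K d) m t := by
      simp only [tb1, ga1, Ta, Tb', Bool.not_not, lab_symm hv hm,
        ek_symm hv (r := lab V cf d q f x v K) rfl]
      exact one_sub_le_ppG (hV.T0 _ _ _ _ _ _)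
    have a2 := hV.le_gam hf hK ht htm
    change _ ≤ _ - (1 - ga1 V cf d q f x v K (K d) m t) - tb1 V cf d q f x v K m t
    linarith
  rw [Fn_sub, Fn_sub, hV.Fn_const hf, ← Fn_symm (tb1 V cf (!d) q f v x K)] at h2
  linarith

end Blw

end Vale.Agent.P313.Full.MM
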