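import Vale.Agent.P313.Full.TabMw
import Vale.Agent.P313.Full.TabM1
import Vale.Agent.P313.Full.TabLev

/-! The weight at merged names is computed exactly. -/

namespace Vale.Agent.P313.Full

open Finset Hi Tb

namespace MW

open MM

theorem lv_l_le {N n0 K : ℕ} {A0 : ℕ → ℕ → ℕ} {hc hr : ℕ → ℕ → ℝ} (e : Bool) :
    ∀ k x, (ve (lv N n0 K A0 hc hr k) e x).l ≤ B * k
  | 0, x => by cases e <;> exact le_rfl
  | k + 1, x => by
    have h := lv_l_le (N := N) (n0 := n0) (K := K) (A0 := A0) (hc := hc) (hr := hr) e k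
      (x % (lv N n0 K A0 hc hr k).n)
    rw [mul_add, mul_one]
    cases e
    · exact Nat.add_le_add h (Nat.lt_succ_iff.1 (Fin.is_lt _))
    · exact Nat.add_le_add h (Nat.lt_succ_iff.1 (Fin.is_lt _))

theorem blw {cf : Cf} {W : ℕ → Tb} {j : ℕ} (hP : Pre cf W (j + 1)) : Blw (W j) cf j where
  ok := hP.ok
  n_eq := hP.tab.n_eq j
  inv := (hP.down (Nat.le_succ j)).inv
  low := (hP.good j (Nat.lt_succ_self j)).low
  lt x y h := by
    rw [hP.tab.n_eq]
    exact hP.tab.supp hP.ok.N_le (d := true) h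
  l_le e x := by rw [hP.tab.L]; exact lv_l_le e j x
  good := (hP.good j (Nat.lt_succ_self j)).T
  T0 := hP.tab.T_nonneg j
  se x z h := by
    refine Tb.se_of_sig ((hP.down (Nat.le_succ j)).sig_of_use (fun e => h.1 ?_) h)
    rw [Lv.rdy, e, zero_mul, phi, cl_of_le (by norm_num), ite_self]

variable {V : Tb} {cf : Cf} {d : Bool} {q : Cx} {f : Bool → ℕ} {x v j : ℕ} {K : Bool → Key}
  (hV : Blw V cf j) (hf : FOk cf (j + 1) q f) (hK : cf.KOk K)

include hV hf hK

theorem QQ_nonneg : 0 ≤ MM.QQ V cf d q f x K := coll_nonneg fun _ _ => hV.Xb_nonneg hf hK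

theorem II_lt (h : V.TM cf d q f x (cf.val (K d) x) (K !d) < 2) :
    II V cf d q f x K < tau q.age / 6 := by
  rw [TM_eq] at h
  have h1 := lt_of_cl3 (by norm_num) h
  have h2 := tau_pos q.age
  have h3 := div_nonneg (QQ_nonneg hV hf hK (d := d) (x := x)) (sq_nonneg (tau q.age))
  have h4 : 12 * II V cf d q f x K / tau q.age < 2 := by linarith
  rw [div_lt_iff₀ h2] at h4
  linarith

omit hf hK in
theorem QQ_lt (h : V.TM cf d q f x (cf.val (K d) x) (K !d) < 2) :
    MM.QQ V cf d q f x K < 2 * tau q.age ^ 2 := by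
  rw [TM_eq] at h
  have h1 := lt_of_cl3 (by norm_num) h
  have h2 := tau_pos q.age
  have h3 := div_nonneg (mul_nonneg (show (0 : ℝ) ≤ 12 by norm_num)
    (hV.II_nonneg (d := d) (q := q) (f := f) (x := x) (K := K))) h2.le
  have h4 : MM.QQ V cf d q f x K / tau q.age ^ 2 < 2 := by linarith
  rwa [div_lt_iff₀ (by positivity)] at h4

theorem of_X (h : V.X cf d q f x K v ≠ 0) :
    Vis V d q x v ∧ Mt V cf d q f x v K ∧ v < V.L.n * 2 ^ a ∧ ∃ m, trm V.L d x m v ≠ 0 := by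
  have h1 := ((hV.X_nonneg hf hK).lt_of_ne' h).trans_le (hV.X_le hf hK)
  rw [Wt] at h1
  split_ifs at h1 with h2
  · obtain ⟨m, -, hm⟩ := exists_ne_zero_of_sum_ne_zero (right_ne_zero_of_mul h1.ne')
    refine ⟨h2.1, h2.2, ?_, m, hm⟩
    rw [mul_comm]
    exact Nat.lt_mul_of_div_lt (hV.of_trm hm).v_lt hV.n_pos
  · exact absurd h1 (lt_irrefl _)

omit hf hK in
theorem mass_le : (cf.JK fun c => ∑ r ∈ labM q, V.Z cf d q f x K r c) ≤
    ∑ v ∈ range (V.L.n * 2 ^ a), V.X cf d q f x K v := by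
  simp only [X]
  rw [← cf.JK_sum]
  refine cf.JK_mono fun c _ => ?_
  rw [sum_comm]
  refine sum_le_sum fun r _ => ?_
  rw [sum_ite_eq]
  split_ifs with h
  · exact le_rfl
  · refine le_of_eq (by_contra fun h0 => h (mem_range.2 ?_))
    rw [mul_comm]
    exact Nat.lt_mul_of_div_lt
      (hV.of_trm (right_ne_zero_of_mul (right_ne_zero_of_mul h0))).v_lt hV.n_pos

omit hf hK in
/-- The total mass is large if the gate is open. -/
theorem lt_of_gate {A : Tb} {t : ℝ} (h : A.gate V cf d q f x K t ≠ 0) :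
    t * tau q.age < ∑ v ∈ range (V.L.n * 2 ^ a), V.X cf d q f x K v := by
  have h1 := Full.pos_of_cl (right_ne_zero_of_mul h)
  rw [sub_pos, lt_div_iff₀ (tau_pos _)] at h1
  refine h1.trans_le (le_trans (cf.JK_mono fun c _ => sum_le_sum fun r _ => ?_) (mass_le hV))
  exact mul_le_of_le_one_right (hV.Z_nonneg r c) (Gp_le_one _)

omit hf hK in
theorem gate_eq_one {A : Tb} (h1 : A.Tk cf d q f x K < 2) (h2 : A.Tr cf d q f v K < 2)
    (h3 : 5 * tau q.age ≤ V.X cf d q f x K v) : A.gate V cf d q f x K 4 = 1 := by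
  rw [gate, Gp_eq_one h1.le, one_mul]
  refine cl_of_ge ?_
  rw [le_sub_iff_add_le, le_div_iff₀ (tau_pos _)]
  refine le_trans (by linarith) (h3.trans (cf.JK_mono fun c _ => sum_le_sum fun r _ => ?_))
  split_ifs with e
  · rw [e, Gp_eq_one h2.le, mul_one]
  · exact mul_nonneg (hV.Z_nonneg r c) (Gp_nonneg _)

/-- The rest is small if one end has a large mean mass. -/
theorem rest_le (hQ : MM.QQ V cf d q f x K < 2 * tau q.age ^ 2) (hv : v < V.L.n * 2 ^ a)
    (h : 3 / 2 * tau q.age ≤ Xb V cf d q f x v K) :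
    ∑ z ∈ (range (V.L.n * 2 ^ a)).erase v, V.X cf d q f x K z ≤ tau q.age := by
  have h1 := coll_ge (s := range (V.L.n * 2 ^ a)) (X := fun z => Xb V cf d q f x z K)
    (fun _ _ => hV.Xb_nonneg hf hK) (mem_range.2 hv)
  have h2 : (1 - 1 / 1024) * ∑ z ∈ (range (V.L.n * 2 ^ a)).erase v, V.X cf d q f x K z ≤
      ∑ z ∈ (range (V.L.n * 2 ^ a)).erase v, Xb V cf d q f x z K := by
    rw [mul_sum]
    exact sum_le_sum fun z _ => hV.X_le_Xb hf hK
  have h3 : 0 ≤ ∑ z ∈ (range (V.L.n * 2 ^ a)).erase v, Xb V cf d q f x z K :=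
    sum_nonneg fun _ _ => hV.Xb_nonneg hf hK
  have h4 := tau_pos q.age
  rw [MM.QQ] at hQ
  have h5 : 3 * tau q.age * ∑ z ∈ (range (V.L.n * 2 ^ a)).erase v, Xb V cf d q f x z K <
      3 * tau q.age * (2 / 3 * tau q.age) := by nlinarith
  have h6 := lt_of_mul_lt_mul_left h5 (by positivity)
  linarith

theorem st_eq (hQ : MM.QQ V cf d q f x K < 2 * tau q.age ^ 2) (hv : v < V.L.n * 2 ^ a)
    (h : 2 * tau q.age < V.X cf d q f x K v) : V.st cf d q f x K = v := by
  have h1 : 2 * tau q.age < V.X cf d q f x K (V.st cf d q f x K) :=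
    Classical.epsilon_spec (p := fun v => 2 * tau q.age < V.X cf d q f x K v) ⟨v, h⟩
  have h4 := tau_pos q.age
  have h2 := rest_le hV hf hK hQ hv (by linarith [hV.X_le_Xb hf hK (d := d) (x := x) (v := v)])
  by_contra hne
  have h3 := single_le_sum (f := fun z => V.X cf d q f x K z)
    (s := (range (V.L.n * 2 ^ a)).erase v) (fun _ _ => hV.X_nonneg hf hK)
    (mem_erase.2 ⟨hne, mem_range.2 (of_X hV hf hK (by linarith)).2.2.1⟩)
  linarith

/-- An end with a large mass exists if the total mass is large. -/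
theorem exists_big (hQ : MM.QQ V cf d q f x K < 2 * tau q.age ^ 2)
    (h : 8 * tau q.age < ∑ v ∈ range (V.L.n * 2 ^ a), V.X cf d q f x K v) :
    ∃ v < V.L.n * 2 ^ a, 7 * tau q.age ≤ V.X cf d q f x K v := by
  have h4 := tau_pos q.age
  obtain ⟨y, hy, h1⟩ := exists_dom (s := range (V.L.n * 2 ^ a))
    (X := fun z => Xb V cf d q f x z K) (fun _ _ => hV.Xb_nonneg hf hK)
    ⟨0, mem_range.2 (Nat.mul_pos hV.n_pos (by positivity))⟩
  have h2 : (1 - 1 / 1024) * ∑ z ∈ range (V.L.n * 2 ^ a), V.X cf d q f x K z ≤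
      ∑ z ∈ range (V.L.n * 2 ^ a), Xb V cf d q f x z K := by
    rw [mul_sum]
    exact sum_le_sum fun z _ => hV.X_le_Xb hf hK
  have h3 : 0 ≤ ∑ z ∈ (range (V.L.n * 2 ^ a)).erase y, Xb V cf d q f x z K :=
    sum_nonneg fun _ _ => hV.Xb_nonneg hf hK
  have h5 := add_sum_erase _ (fun z => Xb V cf d q f x z K) hy
  have h6 := add_sum_erase _ (fun z => V.X cf d q f x K z) hy
  have hQ' := hQ
  rw [MM.QQ] at hQ'
  have h7 : 7 * tau q.age * ∑ z ∈ (range (V.L.n * 2 ^ a)).erase y, Xb V cf d q f x z K <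
      7 * tau q.age * tau q.age := by nlinarith
  have h8 := lt_of_mul_lt_mul_left h7 (by positivity)
  have h9 := rest_le hV hf hK hQ (mem_range.1 hy) (by linarith)
  exact ⟨y, mem_range.1 hy, by linarith⟩

end MW

open MM MW in
theorem stMw_of (hMB : StMB) : StMw := by
  intro cf W j q f x K d hA hm hg hT hT'
  have hV := blw hA.toPre
  have hf := hA.fok
  have hK := hA.kok
  have ht := tau_pos q.age
  have eT : ∀ K', (W (j + 1)).Tk cf d q f x K' =
      (W j).TM cf d q f x (cf.val (K' d) x) (K' !d) := fun K' => hA.tab.TM j d q f x _ _ hm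
  have T1 : (W (j + 1)).Tk cf d q f x K < 2 := lt_of_Gd hT
  have hQ := QQ_lt hV (eT K ▸ T1)
  obtain ⟨y, hy, hX⟩ := exists_big hV hf hK hQ (lt_of_gate hV hg)
  have ey : (W j).st cf d q f x K = y := st_eq hV hf hK hQ hy (by linarith)
  rw [ey] at hT' ⊢
  obtain ⟨hv, hmt, -, m, htm⟩ := of_X hV hf hK (v := y) (d := d) (x := x) (by linarith)
  have hy' : y < nm cf.n0 (j + 1) := by rwa [nm_succ, ← hA.tab.n_eq]
  have hmy : (W (j + 1)).mu (!d) y = 0 := by
    rw [hA.tab.mu_succ_eq_zero hy', ← (Full.of_trm htm).2.2, ← hA.tab.mu_succ_eq_zero hA.lt]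
    exact hm
  have eT' : ∀ K', (W (j + 1)).Tr cf d q f y K' =
      (W j).TM cf (!d) q f y (cf.val (K' !d) y) (K' !!d) := fun K' => by
    rw [Bool.not_not]
    exact hA.tab.TM j (!d) q f y _ _ hmy
  have hW : 7 * tau q.age ≤ Wt (W j) cf d q f x y K := hX.trans (hV.X_le hf hK)
  have hXb := hV.X_le_Xb hf hK (d := d) (x := x) (v := y)
  have key : ∀ s, (W (j + 1)).gate (W j) cf d q f x (cf.rt K d x s) 4 *
      (Gd ((W (j + 1)).Tr cf d q f ((W j).st cf d q f x (cf.rt K d x s)) (cf.rt K d x s)) *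
        (W (j + 1)).wIn (W j) cf (!d) q f ((W j).st cf d q f x (cf.rt K d x s)) (cf.rt K d x s) x) =
      Gd ((W (j + 1)).Tr cf d q f y (cf.rt K d x s)) *
        (W (j + 1)).wIn (W j) cf (!d) q f y (cf.rt K d x s) x := by
    intro s
    have hK' := hK.rt d x s
    have T2 : (W (j + 1)).Tk cf d q f x (cf.rt K d x s) < 2 := by
      rw [eT, val_rt, rt_far, ← eT]
      exact T1
    have hQ' := QQ_lt hV (eT _ ▸ T2)
    by_cases h1 : Gd ((W (j + 1)).Tr cf d q f y (cf.rt K d x s)) = 0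
    · by_cases h2 : (W (j + 1)).gate (W j) cf d q f x (cf.rt K d x s) 4 = 0
      · rw [h1, h2, zero_mul, zero_mul]
      · have h3 := lt_of_gate hV h2
        have h4 := rest_le hV hf hK' hQ' hy (by rw [Xb_rt]; linarith)
        have h5 := add_sum_erase _ (fun z => (W j).X cf d q f x (cf.rt K d x s) z) (mem_range.2 hy)
        rw [st_eq hV hf hK' hQ' hy (by linarith), h1, zero_mul, mul_zero]
    · have h2 := lt_of_Gd h1
      have h3 := II_lt hV hf hK' (eT _ ▸ T2)
      have h4 := II_lt hV hf hK' (eT' _ ▸ h2)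
      have h5 := hV.le_X hf hK' (d := d) (x := x) (v := y)
      rw [Wt_rt] at h5
      rw [gate_eq_one hV T2 h2 (by linarith), st_eq hV hf hK' hQ' hy (by linarith), one_mul]
  have hd : dgs (W j) d x y d = x / nm cf.n0 (j + 1 - 1) := by
    rw [dgs, MM.two_self, hA.tab.n_eq]; rfl
  have hd' : dgs (W j) d x y (!d) = y / nm cf.n0 (j + 1 - 1) := by
    rw [dgs, MM.two_not, hA.tab.n_eq]; rfl
  have hvis : (W (j + 1)).vis d q x y := by
    refine (hA.tab.vis_up (b := 1) (by omega) hA.lt hy' q hd hd').1 ?_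
    have := hv
    rw [Vis, qd, hA.tab.n_eq] at this
    exact this
  have hl : Lm (W j) d q x y = (W (j + 1)).lam d q x := by
    rw [← hA.tab.lam_up (b := 1) (by omega) hA.lt q hd, Lm, qd, hA.tab.n_eq]
    rfl
  rw [wM, cf.JS_congr key, hV.mean_wIn hf hK hv hmt (fun _ => hA.tab.T_nonneg _ _ _ _ _ _ _)
    (((hMB hA.toPre hy' hmy).own hf (MM.val_lt (hK _) _) (hA.toPre.nm_le_K hA.lt)
      (MM.val_lt (hK _) _)).trans (eps_le _ _)), w, if_pos hvis,
    hA.tab.sd_eq_sum_trm hA.lt hm, hl, hA.tab.n_eq, mul_comm]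

end Vale.Agent.P313.Full
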