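import Vale.Agent.P313.Full.TabBasic

/-! The mean number of collisions under a rotation of a key. -/

namespace Vale.Agent.P313.Full

open Finset

namespace Cf

variable (cf : Cf)

theorem val_rot_self' (s p c : ℕ) : cf.val (cf.rot s p c) p = c := by
  rw [val_rot', ← Nat.xor_assoc, Nat.xor_self, Nat.zero_xor]

variable {cf}

theorem JS_match_le {n p c v F : ℕ} (hL : cf.m + 3 * n ≤ cf.L) (hp : p < 2 ^ n) (hv : v < 2 ^ n)
    (hc : c < 2 ^ cf.m) (hne : v ≠ p) (hF : F ≤ cf.m) (ρ : ℕ) :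
    cf.JS (fun s => if cf.val (cf.rot s p c) v % 2 ^ F = ρ then 1 else 0) ≤ 1 / 2 ^ F := by
  exact (mean_rot_one hne hp hv hc hL fun t => if t % 2 ^ F = ρ then 1 else 0).trans_le
    (mean_mod_eq_le hF ρ zero_le_one)

theorem JS_match_two_le {n p c v z F : ℕ} (hL : cf.m + 3 * n ≤ cf.L) (hp : p < 2 ^ n)
    (hv : v < 2 ^ n) (hz : z < 2 ^ n) (hc : c < 2 ^ cf.m) (h1 : v ≠ p) (h2 : z ≠ p) (h3 : v ≠ z)
    (hF : F ≤ cf.m) (ρ : ℕ) :
    cf.JS (fun s => (if cf.val (cf.rot s p c) v % 2 ^ F = ρ then 1 else 0) *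
      if cf.val (cf.rot s p c) z % 2 ^ F = ρ then 1 else 0) ≤ 1 / 2 ^ F * (1 / 2 ^ F) := by
  refine (mean_rot_two h1 h2 h3 hp hv hz hc hL (fun t => if t % 2 ^ F = ρ then 1 else 0)
    fun t => if t % 2 ^ F = ρ then 1 else 0).trans_le ?_
  have h4 := mean_mod_eq_le hF ρ zero_le_one
  exact mul_le_mul h4 h4 (mean_nonneg fun _ _ => by split_ifs <;> norm_num) (by positivity)

theorem JK_match_le {v F : ℕ} (hF : F ≤ cf.m) (ρ : ℕ) :
    cf.JK (fun k => if cf.val k v % 2 ^ F = ρ then 1 else 0) ≤ 1 / 2 ^ F := by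
  refine mean_le (Nat.two_pow_pos _) fun s _ => ?_
  exact (mean_xor' (lin_lt _ _ _ _) fun t => if t % 2 ^ F = ρ then 1 else 0).trans_le
    (mean_mod_eq_le hF ρ zero_le_one)

/-- The collisions of weights which are visible only at matched points. -/
theorem JS_coll_le {n p c F ρ : ℕ} (hL : cf.m + 3 * n ≤ cf.L) (hp : p < 2 ^ n) (hc : c < 2 ^ cf.m)
    (hF : F ≤ cf.m) (t : Finset ℕ) (ht : ∀ v ∈ t, v < 2 ^ n) (W : ℕ → ℝ) (hW : ∀ v ∈ t, 0 ≤ W v)
    (X : Key → ℕ → ℝ) (h0 : ∀ k, ∀ v ∈ t, 0 ≤ X k v)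
    (h1 : ∀ k, ∀ v ∈ t, X k v ≤ if cf.val k v % 2 ^ F = ρ then W v else 0) :
    cf.JS (fun s => (∑ v ∈ t, X (cf.rot s p c) v) ^ 2 - ∑ v ∈ t, X (cf.rot s p c) v ^ 2) ≤
      ((∑ v ∈ t, W v) / 2 ^ F) ^ 2 +
        if p ∈ t ∧ c % 2 ^ F = ρ then 2 * W p * ((∑ v ∈ t, W v) / 2 ^ F) else 0 := by
  set I : ℕ → ℕ → ℝ := fun s v => if cf.val (cf.rot s p c) v % 2 ^ F = ρ then 1 else 0 with hI
  set o : ℝ := if c % 2 ^ F = ρ then 1 else 0 with ho
  have ho0 : 0 ≤ o := by rw [ho]; split_ifs <;> norm_num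
  have hIp : ∀ s, I s p = o := fun s => by simp only [hI, val_rot_self', ho]
  have h2 : ∀ s, (∑ v ∈ t, X (cf.rot s p c) v) ^ 2 - ∑ v ∈ t, X (cf.rot s p c) v ^ 2 ≤
      ∑ v ∈ t, ∑ z ∈ t.erase v, W v * W z * (I s v * I s z) := by
    intro s
    rw [coll_eq]
    refine sum_le_sum fun v hv => ?_
    rw [mul_sum]
    refine sum_le_sum fun z hz => ?_
    have hz' := mem_of_mem_erase hz
    refine (mul_le_mul (h1 _ v hv) (h1 _ z hz') (h0 _ z hz') ((h0 _ v hv).trans (h1 _ v hv))).trans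
      (le_of_eq ?_)
    simp only [hI]
    split_ifs <;> ring
  have h3 : ∀ v ∈ t, ∀ z ∈ t.erase v, cf.JS (fun s => I s v * I s z) ≤
      1 / 2 ^ F * (1 / 2 ^ F) + (if v = p then o / 2 ^ F else 0) +
        if z = p then o / 2 ^ F else 0 := by
    intro v hv z hz
    have hz' := mem_of_mem_erase hz
    have hne := ne_of_mem_erase hz
    have h4 : (0 : ℝ) ≤ 1 / 2 ^ F * (1 / 2 ^ F) := by positivity
    by_cases hvp : v = p
    · subst hvp
      rw [if_pos rfl, if_neg hne]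
      simp only [hIp]
      have h5 := mul_le_mul_of_nonneg_left (JS_match_le hL hp (ht z hz') hc hne hF ρ) ho0
      rw [JS, ← mean_mul_left, mul_one_div] at h5
      rw [JS]
      linarith
    by_cases hzp : z = p
    · subst hzp
      rw [if_pos rfl, if_neg hvp]
      simp only [hIp]
      have h5 := mul_le_mul_of_nonneg_right (JS_match_le hL hp (ht v hv) hc hvp hF ρ) ho0
      rw [JS, ← mean_mul_right, one_div_mul_eq_div] at h5
      rw [JS]
      linarith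
    · rw [if_neg hvp, if_neg hzp, add_zero, add_zero]
      exact JS_match_two_le hL hp (ht v hv) (ht z hz') hc hvp hzp hne.symm hF ρ
  refine (mean_mono fun s _ => h2 s).trans ?_
  rw [mean_sum]
  have h6 : ∀ v ∈ t, mean (2 ^ (2 * cf.L)) (fun s => ∑ z ∈ t.erase v, W v * W z * (I s v * I s z)) ≤
      ∑ z ∈ t, W v * W z * (1 / 2 ^ F * (1 / 2 ^ F) + (if v = p then o / 2 ^ F else 0) +
        if z = p then o / 2 ^ F else 0) := by
    intro v hv
    rw [mean_sum]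
    refine (sum_le_sum fun z hz => ?_).trans (sum_le_sum_of_subset_of_nonneg (erase_subset v t)
      fun z hz _ => mul_nonneg (mul_nonneg (hW v hv) (hW z hz)) (by split_ifs <;> positivity))
    rw [mean_mul_left]
    exact mul_le_mul_of_nonneg_left (h3 v hv z hz)
      (mul_nonneg (hW v hv) (hW z (mem_of_mem_erase hz)))
  refine (sum_le_sum h6).trans (le_of_eq ?_)
  simp only [mul_add, sum_add_distrib, mul_ite, mul_zero, sum_ite_eq', ← sum_mul, ← mul_sum,
    sum_ite_irrel, sum_const_zero]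
  by_cases h7 : p ∈ t <;> by_cases h8 : c % 2 ^ F = ρ <;> simp only [ho, h7, h8, if_true, if_false,
    and_true, and_false] <;> ring

end Cf

end Vale.Agent.P313.Full
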