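import Vale.Agent.P313.Full.TabM0
import Vale.Agent.P313.Full.TabLev
import Vale.Agent.P313.Full.TabColl

/-! The ideal tables: the mean trouble at a merged name. -/

namespace Vale.Agent.P313.Full

open Finset Hi

namespace MB

theorem two_d {β : Type} (d : Bool) (u v : β) : two d u v d = u := if_pos rfl

theorem two_nd {β : Type} (d : Bool) (u v : β) : two d u v (!d) = v := if_neg (by simp)

theorem two_dn {β : Type} (d : Bool) (u v : β) : two (!d) u v d = v := if_neg (by simp)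

theorem ext2 {β : Type} (d : Bool) {u v : Bool → β} (h1 : u d = v d) (h2 : u (!d) = v (!d)) :
    u = v := by
  funext e
  by_cases h : e = d
  · rw [h, h1]
  · rw [show e = !d by cases e <;> cases d <;> simp_all, h2]

theorem mem_labM {q : Cx} {r : Lab} : r ∈ labM q ↔
    (∀ e, r.1 e < 2 ^ a) ∧ (∀ e, r.2.1 e < 2 ^ cF) ∧ r.2.2 < 2 ^ (B * (q.age + 1)) := by
  simp only [labM, labs, prs, mem_product, Fintype.mem_piFinset, mem_range]

theorem amp_nonneg (V : Tb) (cf : Cf) (d : Bool) (q : Cx) (f : Bool → ℕ) (x : ℕ) (K : Bool → Key) :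
    0 ≤ V.amp cf d q f x K :=
  mul_nonneg (mul_nonneg (cl_nonneg _) (cl_nonneg _)) (cl_nonneg _)

theorem amp_le_one (V : Tb) (cf : Cf) (d : Bool) (q : Cx) (f : Bool → ℕ) (x : ℕ) (K : Bool → Key) :
    V.amp cf d q f x K ≤ 1 :=
  mul_le_one₀ (mul_le_one₀ (cl_le_one _) (cl_nonneg _) (cl_le_one _)) (cl_nonneg _) (cl_le_one _)

theorem cand_of_amp {V : Tb} {cf : Cf} {d : Bool} {q : Cx} {f : Bool → ℕ} {x : ℕ} {K : Bool → Key}
    (h : V.amp cf d q f x K ≠ 0) :
    V.cand cf d q f x (cf.val (K d) x) (K !d) (V.pt cf d q f x K) := by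
  by_contra hc
  apply h
  have h1 : V.s cf d q f x K = 0 := if_neg hc
  have h2 : gg 0 = 0 := cl_of_le (by norm_num)
  rw [Tb.amp, h1, h2, zero_mul, zero_mul]

theorem w_ne_of_se {V : Tb} {d : Bool} {q : Cx} {x y : ℕ} (h : 0 < V.se d q x y) :
    V.w d q x y ≠ 0 := by
  intro h0
  have h1 : cl (-1) = 0 := cl_of_le (by norm_num)
  have h2 : psi 0 = 0 := cl_of_le (by norm_num)
  simp [Tb.se, Tb.sig, h0, h1, h2] at h

theorem of_se {V : Tb} {d : Bool} {q : Cx} {x y : ℕ} (h : 0 < V.se d q x y) :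
    V.vis d q x y ∧ sd V.L d x y ≠ 0 := by
  have h1 := w_ne_of_se h
  unfold Tb.w at h1
  split_ifs at h1 with h2
  · exact ⟨h2, left_ne_zero_of_mul h1⟩
  · exact absurd rfl h1

/-- What is used about the lower level. -/
structure MH (cf : Cf) (V : Tb) (j : ℕ) : Prop where
  ok : cf.Ok
  n_eq : V.L.n = nm cf.n0 j
  supp : ∀ d x y, sd V.L d x y ≠ 0 → y < V.L.n
  T0 : ∀ d q f x h k, 0 ≤ V.T d q f x h k
  fre0 : ∀ d x y, 0 ≤ fre V.L d x y
  fre_le : ∀ d, ∀ x < V.L.n, ∑ m ∈ range V.L.n, fre V.L d x m ≤ 2 ^ (B + 1)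
  trm0 : ∀ d x m y, 0 ≤ trm V.L d x m y
  trm_le : ∀ d x m y, trm V.L d x m y ≤ fre V.L d (x % V.L.n) m * fre V.L d m (y % V.L.n) / 4
  trm_sum : ∀ d x y, (∑ m ∈ range V.L.n, trm V.L d x m y) * 2 ^ (ve V.L d (x % V.L.n)).l ≤ 1
  mn : ∀ d, ∀ x < V.L.n, MnAt cf V j d x
  l_le : ∀ d, ∀ x < V.L.n, (ve V.L d x).l ≤ B * j

section

variable {cf : Cf} {V : Tb} {j : ℕ} {d : Bool} {q : Cx} {f : Bool → ℕ} {x : ℕ}

theorem up_D (q : Cx) (c : Bool → ℕ) (e : Bool) :
    (q.up 1 c).D e = q.D e + ((dg 0 0 (c e)).ed e).1 := by simp [Cx.up]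

theorem up_D_le {k : ℕ} (hq : Cx.Ok cf k q) (c : Bool → ℕ) (e : Bool) :
    (q.up 1 c).D e ≤ B * (q.age + 1) := by
  have h1 := hq.D e
  have h2 := ((dg 0 0 (c e)).ed e).1.2
  rw [up_D, mul_add]
  omega

/-- The number of matched bits. -/
noncomputable def Lm (V : Tb) (d : Bool) (q : Cx) (x : ℕ) : ℕ :=
  (ve V.L d (x % V.L.n)).l + (q.D d + ((dg 0 0 (x / V.L.n)).ed d).1)

theorem lr_eq {r : Lab} (h : x / V.L.n = r.1 d) : V.lr 1 d q x r = Lm V d q x := by
  rw [Tb.lr, Tb.lam, up_D, Lm, h]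

theorem fok_fM (hf : FOk cf (j + 1) q f) (r : Lab) (e : Bool) : FOk cf j q0 (fM q f r e) := by
  have h1 := hf.age
  have h2 := ((dg 0 0 (r.1 e)).ed e).1.2
  refine ⟨⟨by simp only [q0]; omega, fun _ => Nat.zero_le _, fun _ => Nat.zero_le _⟩,
    fun e' => ?_, fun e' e'' => ?_⟩
  · have h3 := hf.slack e
    simp only [fM, two, q0]
    split_ifs <;> omega
  · have h3 := hf.slack e
    have h4 := hf.room e e
    rw [mul_add, mul_one] at h4
    simp only [fM, two, q0, up_D]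
    split_ifs <;> omega

theorem Lm_le (H : MH cf V j) (hf : FOk cf (j + 1) q f) (e : Bool) :
    Lm V d q x + f e + cF ≤ cf.m := by
  have h1 := H.l_le d _ (Nat.mod_lt x (H.n_eq ▸ nm_pos _ _))
  have h2 := ((dg 0 0 (x / V.L.n)).ed d).1.2
  have h4 := hf.room e d
  rw [mul_add, mul_one, add_mul] at h4
  unfold Lm
  omega

variable {K : Bool → Key} {r : Lab} {c : Key}

/-- The consequences of a nonzero first half. -/
structure Half (cf : Cf) (V : Tb) (d : Bool) (q : Cx) (f : Bool → ℕ) (x h : ℕ) (r : Lab) (c : Key)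
    (m : ℕ) : Prop where
  ok : V.okM d q f x h r
  lt : m < V.L.n
  om_le : om 1 q r ≤ Lm V d q x
  lam : V.lam d q0 m + (q.up 1 r.1).D (!d) = Lm V d q x
  val : cf.val c m % 2 ^ (Lm V d q x + cZ) = h % 2 ^ (Lm V d q x - om 1 q r)

theorem val_ek (H : MH cf V j) (k : Key) (r : Lab) (e : Bool) {v : ℕ} (hv : v < V.L.n) :
    cf.val (V.ek cf 1 d q f x k r e) v = cf.val k (v + V.L.n * r.1 e) ^^^ V.shf 1 d q f x r e := by
  rw [H.n_eq, nm] at hv
  simp only [Tb.ek, Cf.ent, Cf.val]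
  rw [H.n_eq, nm, add_mul_xor hv, lin_xor]
  ac_rfl

theorem half_of_a1 (H : MH cf V j) (hr : r ∈ labM q) (h : V.a1 cf d q f x K r c ≠ 0) :
    Half cf V d q f x (cf.val (K d) x) r c (V.mM cf d q f x K r c) := by
  unfold Tb.a1 at h
  split_ifs at h with h1
  swap
  · exact absurd rfl h
  obtain ⟨hok, hloc⟩ := h1
  obtain ⟨hse, hmt⟩ := cand_of_amp h
  obtain ⟨hvis, hS⟩ := of_se hse
  have hn : 0 < V.L.n := H.n_eq ▸ nm_pos _ _
  have h2 : V.lam d q0 (x % V.L.n) + (q.up 1 r.1).D d = Lm V d q x := by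
    rw [← lr_eq hok.1]
    simp [Tb.lr, Tb.lam, q0]
  have h3 := hvis.1
  have h4 := hloc.1
  change V.lam d q0 (x % V.L.n) = V.lam (!d) q0 (V.mM cf d q f x K r c) at h3
  have h5 : V.lam d q0 (V.mM cf d q f x K r c) + (q.up 1 r.1).D (!d) = Lm V d q x := by
    cases d <;> simp only [Tb.lam, q0, Bool.not_true, Bool.not_false] at h2 h3 ⊢ <;> omega
  have h6 : om 1 q r ≤ Lm V d q x := by
    unfold om
    cases d <;> simp only [Bool.not_true, Bool.not_false] at h2 h5 <;> omega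
  refine ⟨hok, H.supp _ _ _ hS, h6, h5, ?_⟩
  have h7 := hmt.2
  have h8 := hok.2.2
  simp only [Tb.kM, fM, two_d, two_nd] at h7
  rw [val_ek H _ _ _ (Nat.mod_lt x hn), ← hok.1, Nat.mod_add_div, ← add_assoc, ← add_assoc,
    ← add_assoc, h2] at h7
  rw [lr_eq hok.1] at h8
  refine h7.trans ?_
  rw [← mod_mod_of_lt h8 le_rfl (by omega), Tb.shf, lr_eq hok.1]
  exact shift_mod ((mem_labM.1 hr).2.1 d) hok.2.1 h6

/-- A label is determined by its far parts. -/
theorem lab_ext {h : ℕ} {r r' : Lab} (hr : r ∈ labM q) (hr' : r' ∈ labM q)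
    (h1 : V.okM d q f x h r) (h2 : V.okM d q f x h r') (h3 : om 1 q r ≤ Lm V d q x)
    (h4 : r.1 (!d) = r'.1 (!d)) (h5 : r.2.1 (!d) = r'.2.1 (!d)) : r = r' := by
  have e1 : r.1 = r'.1 := ext2 d (h1.1.symm.trans h2.1) h4
  have e2 : om 1 q r' = om 1 q r := by simp only [om, e1]
  have h6 := h1.2.2
  have h7 := h2.2.2
  rw [Tb.shf, lr_eq h1.1, shift_lt_iff ((mem_labM.1 hr).2.1 d) h1.2.1 h3] at h6
  rw [Tb.shf, lr_eq h2.1, shift_lt_iff ((mem_labM.1 hr').2.1 d) h2.2.1 (e2 ▸ h3), e2] at h7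
  exact Prod.ext e1 (Prod.ext (ext2 d (h6.1.trans h7.1.symm) h5) (h6.2.1.trans h7.2.1.symm))

theorem a1_nonneg : 0 ≤ V.a1 cf d q f x K r c := by
  unfold Tb.a1
  split_ifs
  exacts [amp_nonneg _ _ _ _ _ _ _, le_rfl]

theorem a1_le_one : V.a1 cf d q f x K r c ≤ 1 := by
  unfold Tb.a1
  split_ifs
  exacts [amp_le_one _ _ _ _ _ _ _, zero_le_one]

open Classical in
/-- The labels which pass the near tests. -/
noncomputable def Rl (V : Tb) (d : Bool) (q : Cx) (f : Bool → ℕ) (x h : ℕ) : Finset Lab :=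
  (labM q).filter fun r => V.okM d q f x h r ∧ om 1 q r ≤ Lm V d q x

theorem card_Rl (h : ℕ) : (#(Rl V d q f x h) : ℝ) ≤ 2 ^ (a + cF) := by
  classical
  have h1 : #(Rl V d q f x h) ≤ #(range (2 ^ a) ×ˢ range (2 ^ cF)) := by
    refine card_le_card_of_injOn (fun r => (r.1 (!d), r.2.1 (!d))) (fun r hr => ?_)
      fun r hr r' hr' e => ?_
    · have := mem_labM.1 (mem_filter.1 hr).1
      simp [this.1, this.2.1]
    · have h2 := mem_filter.1 hr
      have h3 := mem_filter.1 hr'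
      exact lab_ext h2.1 h3.1 h2.2.1 h3.2.1 h2.2.2 (congrArg Prod.fst e) (congrArg Prod.snd e)
  rw [card_product, card_range, card_range, ← pow_add] at h1
  exact_mod_cast h1

/-- The conditioning point is a name of the level and passes the filter. -/
def Own (cf : Cf) (V : Tb) (j : ℕ) (d : Bool) (q : Cx) (f : Bool → ℕ) (x p hp : ℕ) : Prop :=
  p < nm cf.n0 (j + 1) ∧ hp % 2 ^ (Lm V d q x + f !d) < 2 ^ Lm V d q x

/-- The label which belongs to the conditioning point. -/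
def OwnL (cf : Cf) (V : Tb) (j : ℕ) (d : Bool) (q : Cx) (f : Bool → ℕ) (x p hp : ℕ) (r : Lab) :
    Prop :=
  Own cf V j d q f x p hp ∧ r.1 (!d) = p / V.L.n ∧
    r.2.1 (!d) = hp / 2 ^ (Lm V d q x + f !d) % 2 ^ cF

theorem ek_rot (s p hp : ℕ) (r : Lab) (e : Bool) : V.ek cf 1 d q f x (cf.rot s p hp) r e =
    cf.rot s (p ^^^ V.L.n * r.1 e) (hp ^^^ V.shf 1 d q f x r e) := by
  simp only [Tb.ek, Cf.ent, Cf.rot, lin_xor, Prod.mk.injEq, true_and]
  ac_rfl

open Classical in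
theorem JS_T_le (H : MH cf V j) (hf : FOk cf (j + 1) q f) (hr : r ∈ labM q) (hc : c.2 < 2 ^ cf.m)
    {h m p hp : ℕ} (h1 : Half cf V d q f x h r c m) (h2 : p < nm cf.n0 cf.K) (h3 : hp < 2 ^ cf.m) :
    cf.JS (fun s => V.T d q0 (fM q f r (!d)) m (cf.val c m)
      (V.ek cf 1 d q f x (cf.rot s p hp) r (!d))) ≤
      (if OwnL cf V j d q f x p hp r then eps q0 ((q.up 1 r.1).D (!d) + f (!d) + cF) else 0) +
        eps q0 ((q.up 1 r.1).D (!d) + f (!d) + cF) ^ 2 := by
  have hr' := mem_labM.1 hr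
  have hn : 0 < V.L.n := H.n_eq ▸ nm_pos _ _
  have h4 : V.L.n * r.1 (!d) < nm cf.n0 cf.K := by
    have h5 := hf.age
    refine lt_of_lt_of_le ?_ (nm_le cf.n0 (show j + 1 ≤ cf.K by omega))
    rw [nm_succ, ← H.n_eq]
    exact Nat.mul_lt_mul_of_pos_left (hr'.1 _) hn
  have h5 : p ^^^ V.L.n * r.1 (!d) < nm cf.n0 cf.K := Nat.xor_lt_two_pow h2 h4
  have h6 : hp ^^^ V.shf 1 d q f x r (!d) < 2 ^ cf.m := by
    refine Nat.xor_lt_two_pow h3 ?_
    rw [Tb.shf, lr_eq h1.ok.1]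
    exact shift_lt (hr'.2.1 _) h1.ok.2.1 h1.om_le (Lm_le H hf _)
  have h7 : cf.val c m < 2 ^ cf.m := Nat.xor_lt_two_pow (lin_lt _ _ _ _) hc
  have h8 : fM q f r (!d) (!d) = (q.up 1 r.1).D (!d) + f (!d) + cF := two_d _ _ _
  have h9 : 0 ≤ eps q0 ((q.up 1 r.1).D (!d) + f (!d) + cF) := by unfold eps; positivity
  simp only [ek_rot]
  split_ifs with ho
  · have := (H.mn d m h1.lt).own (fok_fM hf r (!d)) h7 h5 h6
    rw [h8] at this
    exact le_add_of_le_of_nonneg this (by positivity)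
  · have := (H.mn d m h1.lt).oth (fok_fM hf r (!d)) h7 h5 h6 ?_
    · rwa [h8, ← zero_add (_ ^ 2)] at this
    rintro ⟨h10, h11⟩
    apply ho
    have h12 : p = (p ^^^ V.L.n * r.1 (!d)) + V.L.n * r.1 (!d) := by
      rw [H.n_eq, nm] at *
      rw [add_mul_xor h10, Nat.xor_assoc, Nat.xor_self, Nat.xor_zero]
    rw [← H.n_eq] at h10
    rw [h8, ← add_assoc, ← add_assoc, h1.lam, Tb.shf, lr_eq h1.ok.1, mod_lt_iff] at h11
    simp only [testBit_shift (hr'.2.1 (!d)) h1.ok.2.1 h1.om_le] at h11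
    have h13 := h1.lam
    refine ⟨⟨?_, mod_lt_iff.2 fun i hi hi' => ?_⟩, ?_, (eq_win_iff (hr'.2.1 _)).2 fun i hi => ?_⟩
    · rw [h12, nm_succ, ← H.n_eq]
      have := Nat.mul_le_mul_left V.L.n (Nat.succ_le_of_lt (hr'.1 (!d)))
      rw [Nat.mul_succ] at this
      omega
    · have := h11 i (by omega) (by omega)
      rwa [if_neg (by omega), if_neg (by omega), if_pos hi'] at this
    · rw [h12, Nat.add_mul_div_left _ _ hn, Nat.div_eq_of_lt h10, zero_add]
    · have := h11 (Lm V d q x + f (!d) + i) (by omega) (by omega)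
      rw [if_neg (by omega), if_neg (by omega), if_neg (by omega), if_pos (by omega),
        Nat.add_sub_cancel_left] at this
      revert this
      cases hp.testBit _ <;> cases (r.2.1 (!d)).testBit i <;> simp

theorem mM_congr {K' : Bool → Key} (h : K d = K' d) :
    V.mM cf d q f x K r c = V.mM cf d q f x K' r c := by
  unfold Tb.mM Tb.kM
  rw [h]

theorem a1_congr {K' : Bool → Key} (h : K d = K' d) :
    V.a1 cf d q f x K r c = V.a1 cf d q f x K' r c := by
  unfold Tb.a1 Tb.mM Tb.kM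
  rw [h]

theorem ZI_eq (kn k : Key) : V.ZI cf d q f x (two d kn k) r c =
    V.a1 cf d q f x (two d kn kn) r c * fre V.L d (x % V.L.n) (V.mM cf d q f x (two d kn kn) r c) *
      2 ^ (V.lr 1 d q x r + (q.up 1 r.1).D (!d) + cZ) *
      V.T d q0 (fM q f r (!d)) (V.mM cf d q f x (two d kn kn) r c)
        (cf.val c (V.mM cf d q f x (two d kn kn) r c)) (V.ek cf 1 d q f x k r (!d)) := by
  have h : two d kn k d = two d kn kn d := by rw [two_d, two_d]
  rw [Tb.ZI, a1_congr h, mM_congr h]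
  simp only [Tb.kM, Tb.Tk, two_d, two_nd, two_dn]
  ring

theorem JK_sum_le (H : MH cf V j) (hf : FOk cf (j + 1) q f) (ρ : ℕ) (g : ℕ → ℝ) (hg : ∀ m, 0 ≤ g m) :
    cf.JK (fun c => ∑ m ∈ range V.L.n,
      (if cf.val c m % 2 ^ (Lm V d q x + cZ) = ρ then 1 else 0) * g m) ≤
      (∑ m ∈ range V.L.n, g m) / 2 ^ (Lm V d q x + cZ) := by
  simp only [Cf.JK, Cf.JS, mean_sum, mean_mul_right]
  rw [sum_div]
  refine sum_le_sum fun m _ => ?_
  have h1 := Lm_le (d := d) (x := x) H hf d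
  have h2 := hf.slack d
  rw [← one_div_mul_eq_div]
  exact mul_le_mul_of_nonneg_right (Cf.JK_match_le (by omega) ρ) (hg m)

open Classical in
theorem JK_a1_le (H : MH cf V j) (hf : FOk cf (j + 1) q f) (hr : r ∈ labM q) :
    cf.JK (fun c => V.a1 cf d q f x K r c * fre V.L d (x % V.L.n) (V.mM cf d q f x K r c)) ≤
      if r ∈ Rl V d q f x (cf.val (K d) x) then 2 ^ (B + 1) / 2 ^ (Lm V d q x + cZ) else 0 := by
  have hn : 0 < V.L.n := H.n_eq ▸ nm_pos _ _
  split_ifs with h1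
  · refine le_trans (mean_mono fun s _ => mean_mono fun o _ => ?_)
      ((JK_sum_le H hf (cf.val (K d) x % 2 ^ (Lm V d q x - om 1 q r)) _
        (H.fre0 d (x % V.L.n))).trans
        (div_le_div_of_nonneg_right (H.fre_le d _ (Nat.mod_lt x hn)) (by positivity)))
    have h0 : ∀ m ∈ range V.L.n, 0 ≤ (if cf.val (s, o) m % 2 ^ (Lm V d q x + cZ) =
        cf.val (K d) x % 2 ^ (Lm V d q x - om 1 q r) then 1 else 0) * fre V.L d (x % V.L.n) m :=
      fun m _ => mul_nonneg (by split_ifs <;> norm_num) (H.fre0 _ _ _)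
    beta_reduce
    by_cases h2 : V.a1 cf d q f x K r (s, o) = 0
    · rw [h2, zero_mul]
      exact sum_nonneg h0
    · have h3 := half_of_a1 H hr h2
      refine le_trans ?_ (single_le_sum h0 (mem_range.2 h3.lt))
      rw [if_pos h3.val]
      exact mul_le_mul_of_nonneg_right a1_le_one (H.fre0 _ _ _)
  · refine mean_le (Nat.two_pow_pos _) fun s _ => mean_le (Nat.two_pow_pos _) fun o _ => ?_
    beta_reduce
    by_cases h2 : V.a1 cf d q f x K r (s, o) = 0
    · rw [h2, zero_mul]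
    · have h3 := half_of_a1 H hr h2
      exact absurd (mem_filter.2 ⟨hr, h3.ok, h3.om_le⟩) h1

theorem eps_up (hf : FOk cf (j + 1) q f) (D : ℕ) : eps q0 (D + f (!d) + cF) =
    eps q (f !d) / 2 ^ (cS * q.age + cF) / 2 ^ D := by
  obtain ⟨t, ht⟩ := Nat.exists_eq_add_of_le (hf.slack (!d))
  simp only [eps, q0, ht, div_div, ← pow_add]
  congr 2
  omega

open Classical in
/-- The mean of the first part of the trouble. -/
theorem JS_I_le (H : MH cf V j) (hf : FOk cf (j + 1) q f) {h p hp : ℕ} (h2 : p < nm cf.n0 cf.K)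
    (h3 : hp < 2 ^ cf.m) :
    cf.JS (fun s' => cf.JS fun s => cf.JK fun c => ∑ r ∈ labM q,
      V.ZI cf d q f x (two d (cf.rot s x h) (cf.rot s' p hp)) r c) ≤
      2 ^ (B + 1) * ((if Own cf V j d q f x p hp then eps q (f !d) / 2 ^ (cS * q.age + cF) else 0) +
        2 ^ (a + cF) * (eps q (f !d) / 2 ^ (cS * q.age + cF)) ^ 2) := by
  set δ := eps q (f !d) / 2 ^ (cS * q.age + cF) with hδ
  have hδ0 : 0 ≤ δ := by rw [hδ]; unfold eps; positivity
  have h4 : ∀ r ∈ labM q, ∀ s, cf.JK (fun c => cf.JS fun s' =>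
      V.ZI cf d q f x (two d (cf.rot s x h) (cf.rot s' p hp)) r c) ≤
      if r ∈ Rl V d q f x h then 2 ^ (B + 1) *
        ((if OwnL cf V j d q f x p hp r then δ else 0) + δ ^ 2) else 0 := by
    intro r hr s
    set D := (q.up 1 r.1).D (!d) with hD
    set β := (if OwnL cf V j d q f x p hp r then δ / 2 ^ D else 0) + (δ / 2 ^ D) ^ 2 with hβ
    have hβ0 : 0 ≤ β := by rw [hβ]; split_ifs <;> positivity
    have h5 := JK_a1_le (d := d) (x := x) (K := two d (cf.rot s x h) (cf.rot s x h)) H hf hr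
    rw [two_d, Cf.val_rot_self'] at h5
    have h6 := mul_le_mul_of_nonneg_right h5
      (show 0 ≤ 2 ^ (V.lr 1 d q x r + D + cZ) * β by positivity)
    rw [Cf.JK, Cf.JS, ← mean_mul_right] at h6
    refine le_trans (mean_mono fun s₁ _ => ?_) (h6.trans ?_)
    · rw [← mean_mul_right]
      refine mean_mono fun o ho => ?_
      simp only [ZI_eq, Cf.JS, mean_mul_left]
      by_cases h7 : V.a1 cf d q f x (two d (cf.rot s x h) (cf.rot s x h)) r (s₁, o) = 0
      · simp only [h7, zero_mul, le_refl]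
      · have h8 := JS_T_le H hf hr (c := (s₁, o)) ho (half_of_a1 H hr h7) h2 h3
        rw [eps_up hf] at h8
        rw [mul_assoc _ (2 ^ _)]
        exact mul_le_mul_of_nonneg_left (mul_le_mul_of_nonneg_left h8 (by positivity))
          (mul_nonneg a1_nonneg (H.fre0 _ _ _))
    · by_cases h7 : r ∈ Rl V d q f x h
      · rw [if_pos h7, if_pos h7, lr_eq (mem_filter.1 h7).2.1.1]
        have h8 : (2 : ℝ) ^ D * β ≤ (if OwnL cf V j d q f x p hp r then δ else 0) + δ ^ 2 := by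
          have h9 : (2 : ℝ) ^ D * (δ / 2 ^ D) = δ := by field_simp
          have h10 : δ / 2 ^ D ≤ δ := div_le_self hδ0 (one_le_pow₀ one_le_two)
          rw [hβ, mul_add, pow_two, ← mul_assoc, h9, pow_two]
          refine add_le_add ?_ (mul_le_mul_of_nonneg_left h10 hδ0)
          split_ifs
          exacts [h9.le, (mul_zero _).le]
        refine le_trans (le_of_eq ?_) (mul_le_mul_of_nonneg_left h8 (by positivity))
        simp only [pow_add]
        field_simp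
      · rw [if_neg h7, if_neg h7, zero_mul]
  have h5 : cf.JS (fun s' => cf.JS fun s => cf.JK fun c => ∑ r ∈ labM q,
      V.ZI cf d q f x (two d (cf.rot s x h) (cf.rot s' p hp)) r c) =
      ∑ r ∈ labM q, cf.JS fun s => cf.JK fun c => cf.JS fun s' =>
        V.ZI cf d q f x (two d (cf.rot s x h) (cf.rot s' p hp)) r c := by
    simp only [Cf.JK, Cf.JS, mean_sum]
    refine sum_congr rfl fun r _ => ?_
    rw [mean_comm]
    refine mean_congr fun s _ => ?_
    rw [mean_comm]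
    refine mean_congr fun s₁ _ => ?_
    rw [mean_comm]
  rw [h5]
  refine (sum_le_sum fun r hr => mean_le (Nat.two_pow_pos _) fun s _ => h4 r hr s).trans ?_
  rw [← sum_filter, filter_mem_eq_inter,
    inter_eq_right.2 (show Rl V d q f x h ⊆ labM q from filter_subset _ _), ← mul_sum,
    sum_add_distrib, sum_const, nsmul_eq_mul, ← sum_filter, sum_const, nsmul_eq_mul]
  refine mul_le_mul_of_nonneg_left (add_le_add ?_
    (mul_le_mul_of_nonneg_right (card_Rl h) (by positivity))) (by positivity)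
  split_ifs with ho
  · refine mul_le_of_le_one_left hδ0 (Nat.cast_le_one.2 (card_le_one.2 fun r hr r' hr' => ?_))
    have h6 := mem_filter.1 hr
    have h7 := mem_filter.1 hr'
    have h8 := mem_filter.1 h6.1
    have h9 := mem_filter.1 h7.1
    exact lab_ext h8.1 h9.1 h8.2.1 h9.2.1 h8.2.2 (h6.2.2.1.trans h7.2.2.1.symm)
      (h6.2.2.2.trans h7.2.2.2.symm)
  · rw [filter_false_of_mem fun r _ hr => ho hr.1]
    simp

theorem sum_trm0_le {L : Lv} {N M K k : ℕ} (hI : Inv N M K k L) (hL : L.Low) (x z : ℕ) :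
    (∑ m ∈ range L.n, trm0 L x m z) * 2 ^ max (L.vo (x % L.n)).l (L.vi (z % L.n)).l ≤ 1 := by
  unfold trm0
  split_ifs
  · have h1 := Lv.Mg_val hI hL (x % L.n, (dig (x / L.n)).1) (z % L.n, (dig (z / L.n)).1)
      (Nat.mod_lt _ hI.n_pos) (Nat.mod_lt _ hI.n_pos)
    rw [Lv.Mg, Lv.cls, sum_product] at h1
    rwa [← sum_div, div_mul_eq_mul_div, div_le_one (by positivity)]
  · simp

theorem mh_of_blw (hV : MM.Blw V cf j) : MH cf V j where
  ok := hV.ok
  n_eq := hV.n_eq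
  supp _ _ _ h := (hV.sd_lt h).2
  T0 := hV.T0
  fre0 := fre_nonneg hV.inv.S_nonneg
  fre_le d _ hx := sum_fre_le hV.inv.S_nonneg hV.low d hx
  trm0 := hV.trm_nonneg
  trm_le := trm_le hV.inv.S_nonneg
  trm_sum d x y := by
    have h0 : 0 ≤ ∑ m ∈ range V.L.n, trm V.L d x m y := sum_nonneg fun m _ => hV.trm_nonneg _ _ _ _
    cases d
    · exact (mul_le_mul_of_nonneg_left (pow_le_pow_right₀ one_le_two (le_max_right _ _)) h0).trans
        (sum_trm0_le hV.inv hV.low y x)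
    · exact (mul_le_mul_of_nonneg_left (pow_le_pow_right₀ one_le_two (le_max_left _ _)) h0).trans
        (sum_trm0_le hV.inv hV.low x y)
  mn d x hx := (hV.good d x (hV.n_eq ▸ hx)).toMnAt
  l_le d x _ := hV.l_le d x

theorem Lm_eq (v : ℕ) : MM.Lm V d q x v = Lm V d q x := by
  rw [← MM.lr_eq (r := (MM.dgs V d x v, fun _ => 0, 0)) rfl]
  exact lr_eq (two_d _ _ _).symm

open Classical in
theorem X_le (hV : MM.Blw V cf j) (hf : FOk cf (j + 1) q f) (hK : cf.KOk K) (v : ℕ) :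
    0 ≤ V.X cf d q f x K v ∧ V.X cf d q f x K v ≤
      if mt (Lm V d q x) f d (cf.val (K d) x) (cf.val (K !d) v) then
        2 ^ Lm V d q x * ∑ m ∈ range V.L.n, trm V.L d x m v else 0 := by
  have h1 : ∀ m, 0 ≤ (mean (2 ^ cf.m) fun h => if MM.Hit V cf d q x v K h then
      cf.JS fun s => MM.P4 V cf d q f x v K (MM.lab V cf d q f x v K) m (cf.rot s m h) else 0) ∧
      (mean (2 ^ cf.m) fun h => if MM.Hit V cf d q x v K h then
      cf.JS fun s => MM.P4 V cf d q f x v K (MM.lab V cf d q f x v K) m (cf.rot s m h) else 0) ≤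
      1 / 2 ^ (Lm V d q x + cZ) := by
    intro m
    refine ⟨mean_nonneg fun h _ => ?_, ?_⟩
    · split_ifs
      exacts [cf.JS_nonneg fun s => MM.P4_nonneg _ _ _ _ _ _ _ _ _ _ _, le_rfl]
    · have h2 := Lm_le (d := d) (x := x) (mh_of_blw hV) hf d
      have h3 := hf.slack d
      refine le_trans (mean_mono fun h _ => ?_) (mean_mod_eq_le (F := Lm V d q x + cZ) (by omega)
        (cf.val (K d) x % 2 ^ (Lm V d q x - MM.ow V d q x v)) zero_le_one)
      simp only [MM.Hit, Lm_eq]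
      split_ifs
      exacts [cf.JS_le fun s => MM.P4_le_one _ _ _ _ _ _ _ _ _ _ _, le_rfl]
  have h4 : ∀ m, 0 ≤ 2 ^ (2 * Lm V d q x + cZ) * trm V.L d x m v := fun m =>
    mul_nonneg (by positivity) (hV.trm_nonneg _ _ _ _)
  rw [hV.X_eq hf hK, MM.Mt, Lm_eq]
  by_cases h5 : mt (Lm V d q x) f d (cf.val (K d) x) (cf.val (K !d) v)
  · rw [if_pos h5]
    split_ifs
    · refine ⟨sum_nonneg fun m _ => mul_nonneg (h4 m) (h1 m).1, ?_⟩
      rw [mul_sum]
      refine sum_le_sum fun m _ => (mul_le_mul_of_nonneg_left (h1 m).2 (h4 m)).trans (le_of_eq ?_)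
      rw [two_mul, pow_add, pow_add, pow_add]
      field_simp
    · exact ⟨le_rfl, mul_nonneg (by positivity) (sum_nonneg fun m _ => hV.trm_nonneg _ _ _ _)⟩
  · rw [if_neg h5, if_neg fun h => h5 h.2]
    exact ⟨le_rfl, le_rfl⟩

theorem sum_trm_le (H : MH cf V j) :
    ∑ v ∈ range (V.L.n * 2 ^ a), ∑ m ∈ range V.L.n, trm V.L d x m v ≤ 2 ^ (a + 2 * B) := by
  have hn : 0 < V.L.n := H.n_eq ▸ nm_pos _ _
  rw [sum_comm]
  have h1 : ∀ m ∈ range V.L.n, ∑ v ∈ range (V.L.n * 2 ^ a), trm V.L d x m v ≤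
      fre V.L d (x % V.L.n) m * (2 ^ (B + 1) * 2 ^ a / 4) := by
    intro m hm
    refine (sum_le_sum fun v _ => H.trm_le d x m v).trans ?_
    rw [sum_range_mul_eq hn (2 ^ a) fun z _ => fre V.L d (x % V.L.n) m * fre V.L d m z / 4]
    simp only [sum_const, card_range, nsmul_eq_mul, ← mul_sum, ← sum_div]
    have h2 := mul_le_mul_of_nonneg_left (H.fre_le d m (mem_range.1 hm)) (H.fre0 d (x % V.L.n) m)
    have h3 : (0 : ℝ) < 2 ^ a := by positivity
    push_cast
    nlinarith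
  refine (sum_le_sum h1).trans ?_
  rw [← sum_mul]
  refine (mul_le_mul_of_nonneg_right (H.fre_le d _ (Nat.mod_lt x hn)) (by positivity)).trans
    (le_of_eq ?_)
  ring

open Classical in
/-- The mean of the second part of the trouble. -/
theorem JS_Q_le (hV : MM.Blw V cf j) (hf : FOk cf (j + 1) q f) {h p hp : ℕ} (h1 : h < 2 ^ cf.m)
    (h2 : p < nm cf.n0 cf.K) (h3 : hp < 2 ^ cf.m) :
    cf.JS (fun s' => (∑ v ∈ range (V.L.n * 2 ^ a),
        cf.JS fun s => V.X cf d q f x (two d (cf.rot s x h) (cf.rot s' p hp)) v) ^ 2 -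
      ∑ v ∈ range (V.L.n * 2 ^ a),
        (cf.JS fun s => V.X cf d q f x (two d (cf.rot s x h) (cf.rot s' p hp)) v) ^ 2) ≤
      (2 ^ (a + 2 * B) / 2 ^ f (!d)) ^ 2 + if Own cf V j d q f x p hp then
        2 * 2 ^ (B * (q.age + 1)) * (2 ^ (a + 2 * B) / 2 ^ f (!d)) else 0 := by
  have H := mh_of_blw hV
  set W : ℕ → ℝ := fun v => if h % 2 ^ (Lm V d q x + f d) < 2 ^ Lm V d q x then
    2 ^ Lm V d q x * ∑ m ∈ range V.L.n, trm V.L d x m v else 0 with hW
  have hW1 : ∀ v, 0 ≤ 2 ^ Lm V d q x * ∑ m ∈ range V.L.n, trm V.L d x m v := fun v =>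
    mul_nonneg (by positivity) (sum_nonneg fun m _ => H.trm0 _ _ _ _)
  have hW0 : ∀ v, 0 ≤ W v := fun v => by
    simp only [hW]
    split_ifs
    exacts [hW1 v, le_rfl]
  have hn : V.L.n * 2 ^ a = nm cf.n0 (j + 1) := by rw [nm_succ, H.n_eq]
  have h4 := hf.age
  have h5 := Cf.JS_coll_le (ρ := h % 2 ^ (Lm V d q x + f d)) (F := Lm V d q x + f !d) hV.ok.hash
    h2 h3 (by have := Lm_le (d := d) (x := x) H hf (!d); omega) (range (V.L.n * 2 ^ a))
    (fun v hv => (hn ▸ mem_range.1 hv).trans_le (nm_le cf.n0 (show j + 1 ≤ cf.K by omega))) W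
    (fun v _ => hW0 v)
    (fun k v => if k.2 < 2 ^ cf.m then
      cf.JS fun s => V.X cf d q f x (two d (cf.rot s x h) k) v else 0)
    (fun k v _ => by
      split_ifs with hk
      · exact cf.JS_nonneg fun s => (X_le hV hf (Cf.KOk.two d (cf.rot_lt _ _ h1) hk) v).1
      · exact le_rfl)
    (fun k v _ => by
      by_cases hk : k.2 < 2 ^ cf.m
      · rw [if_pos hk]
        refine cf.JS_le fun s => (X_le hV hf (Cf.KOk.two d (cf.rot_lt _ _ h1) hk) v).2.trans ?_
        rw [two_d, two_nd, Cf.val_rot_self']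
        by_cases a1 : mt (Lm V d q x) f d h (cf.val k v)
        · simp only [hW, if_pos a1, if_pos a1.1, if_pos a1.2, le_refl]
        · rw [if_neg a1]
          split_ifs
          exacts [hW0 v, le_rfl]
      · rw [if_neg hk]
        split_ifs
        exacts [hW0 v, le_rfl])
  simp only [cf.rot_lt _ _ h3, if_true] at h5
  refine h5.trans ?_
  have h6 : (∑ v ∈ range (V.L.n * 2 ^ a), W v) / 2 ^ (Lm V d q x + f !d) ≤
      2 ^ (a + 2 * B) / 2 ^ f (!d) := by
    have h7 : ∑ v ∈ range (V.L.n * 2 ^ a), W v ≤ 2 ^ Lm V d q x * 2 ^ (a + 2 * B) := by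
      refine le_trans (sum_le_sum fun v _ => ?_) ((mul_sum _ _ _).symm.trans_le
        (mul_le_mul_of_nonneg_left (sum_trm_le (d := d) (x := x) H) (by positivity)))
      simp only [hW]
      split_ifs
      exacts [le_rfl, hW1 v]
    refine (div_le_div_of_nonneg_right h7 (by positivity)).trans (le_of_eq ?_)
    rw [pow_add _ (Lm V d q x)]
    field_simp
  have h7 : 0 ≤ (∑ v ∈ range (V.L.n * 2 ^ a), W v) / 2 ^ (Lm V d q x + f !d) :=
    div_nonneg (sum_nonneg fun v _ => hW0 v) (by positivity)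
  refine add_le_add (pow_le_pow_left₀ h7 h6 2) ?_
  have h8 : W p ≤ 2 ^ (B * (q.age + 1)) := by
    have h9 := H.trm_sum d x p
    have h10 := up_D_le hf.toOk (fun _ => x / V.L.n) d
    rw [up_D] at h10
    simp only [hW]
    split_ifs
    · rw [Lm, pow_add, mul_right_comm, mul_comm (2 ^ _)]
      exact (mul_le_of_le_one_left (by positivity) h9).trans (pow_le_pow_right₀ one_le_two h10)
    · positivity
  by_cases ho : Own cf V j d q f x p hp
  · rw [if_pos ho]
    split_ifs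
    · exact mul_le_mul (mul_le_mul_of_nonneg_left h8 (by norm_num)) h6 h7 (by positivity)
    · positivity
  · rw [if_neg ho]
    split_ifs with h9
    · have : W p = 0 := if_neg fun h10 => ho ⟨hn ▸ mem_range.1 h9.1, h9.2 ▸ h10⟩
      rw [this, mul_zero, zero_mul]
    · exact le_rfl

theorem pow_div_le {i k : ℕ} (h : i + 2 ≤ k) : (2 : ℝ) ^ i / 2 ^ k ≤ 1 / 4 := by
  rw [div_le_div_iff₀ (by positivity) (by norm_num), one_mul,
    show (4 : ℝ) = 2 ^ 2 by norm_num, ← pow_add]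
  exact pow_le_pow_right₀ one_le_two h

open Classical in
/-- The mean trouble. -/
theorem JS_TM_le (hV : MM.Blw V cf j) (hf : FOk cf (j + 1) q f) {h p hp : ℕ} (h1 : h < 2 ^ cf.m)
    (h2 : p < nm cf.n0 cf.K) (h3 : hp < 2 ^ cf.m) :
    cf.JS (fun s => V.TM cf d q f x h (cf.rot s p hp)) ≤
      (if Own cf V j d q f x p hp then eps q (f !d) / 2 else 0) + eps q (f !d) ^ 2 / 2 := by
  have H := mh_of_blw hV
  have hI := JS_I_le (d := d) (x := x) (h := h) H hf h2 h3
  have hQ := JS_Q_le (d := d) (x := x) hV hf h1 h2 h3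
  have hτ := tau_pos q.age
  have h4 := add_le_add (div_le_div_of_nonneg_right (mul_le_mul_of_nonneg_left hI
    (show (0 : ℝ) ≤ 12 by norm_num)) hτ.le) (div_le_div_of_nonneg_right hQ (pow_pos hτ 2).le)
  rw [← cf.JS_mul_left, ← cf.JS_div, ← cf.JS_div, ← cf.JS_add] at h4
  refine le_trans (cf.JS_mono fun s' => cl3_le_self (add_nonneg (div_nonneg (mul_nonneg
    (by norm_num) ?_) hτ.le) (div_nonneg (coll_nonneg fun v _ => ?_) (pow_pos hτ 2).le)))
    (h4.trans ?_)
  · refine cf.JS_nonneg fun s => cf.JK_nonneg fun c _ => sum_nonneg fun r _ => ?_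
    exact mul_nonneg (mul_nonneg a1_nonneg (mul_nonneg (by positivity) (H.fre0 _ _ _)))
      (H.T0 _ _ _ _ _ _)
  · exact cf.JS_nonneg fun s =>
      (X_le hV hf (Cf.KOk.two d (cf.rot_lt _ _ h1) (cf.rot_lt _ _ h3)) v).1
  obtain ⟨t, ht⟩ := Nat.exists_eq_add_of_le (hf.slack (!d))
  have hε := eps_pos q (f !d)
  have e1 : (2 : ℝ) ^ (a + 2 * B) / 2 ^ f (!d) =
      eps q (f !d) * (2 ^ (a + 2 * B + 10) / 2 ^ (cZ + cS * q.age)) := by
    rw [eps, ht, Nat.add_sub_cancel_left]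
    simp only [pow_add]
    field_simp
  have e2 : cS * q.age = (2 * a + B) * q.age + 3 * q.age := by rw [cS, add_mul]
  have e3 : (2 * a + B) * q.age = 2 * a * q.age + B * q.age := add_mul _ _ _
  have b1 := pow_div_le (i := 2 * B + 11 + q.age) (k := cS * q.age + cF) (by unfold cF; omega)
  have b2 := pow_div_le (i := 2 * B + 11 + q.age + (a + cF)) (k := 2 * (cS * q.age + cF))
    (by unfold cF; omega)
  have b3 := pow_div_le (i := 2 * (a + 2 * B + 10 + (B + 6 + q.age))) (k := 2 * (cZ + cS * q.age))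
    (by unfold cZ; omega)
  have b4 := pow_div_le (i := 1 + B * (q.age + 1) + (a + 2 * B + 10) + 2 * (B + 6 + q.age))
    (k := cZ + cS * q.age) (by rw [mul_add]; unfold cZ; omega)
  rw [e1, tau_eq]
  generalize eps q (f !d) = ε at hε ⊢
  have c1 : 12 * (2 ^ (B + 1) * (ε / 2 ^ (cS * q.age + cF))) / (1 / 2 ^ (B + 6 + q.age)) =
      3 / 4 * ε * (2 ^ (2 * B + 11 + q.age) / 2 ^ (cS * q.age + cF)) := by
    generalize cS * q.age + cF = u
    field_simp
    ring
  have c2 : 12 * (2 ^ (B + 1) * (2 ^ (a + cF) * (ε / 2 ^ (cS * q.age + cF)) ^ 2)) /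
      (1 / 2 ^ (B + 6 + q.age)) =
      3 / 4 * ε ^ 2 * (2 ^ (2 * B + 11 + q.age + (a + cF)) / 2 ^ (2 * (cS * q.age + cF))) := by
    generalize cS * q.age + cF = u
    field_simp
    ring
  have c3 : (ε * (2 ^ (a + 2 * B + 10) / 2 ^ (cZ + cS * q.age))) ^ 2 /
      (1 / 2 ^ (B + 6 + q.age)) ^ 2 =
      ε ^ 2 * (2 ^ (2 * (a + 2 * B + 10 + (B + 6 + q.age))) / 2 ^ (2 * (cZ + cS * q.age))) := by
    generalize cZ + cS * q.age = u
    field_simp
    ring
  have c4 : 2 * 2 ^ (B * (q.age + 1)) * (ε * (2 ^ (a + 2 * B + 10) / 2 ^ (cZ + cS * q.age))) /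
      (1 / 2 ^ (B + 6 + q.age)) ^ 2 =
      ε * (2 ^ (1 + B * (q.age + 1) + (a + 2 * B + 10) + 2 * (B + 6 + q.age)) /
        2 ^ (cZ + cS * q.age)) := by
    generalize cZ + cS * q.age = u
    generalize B * (q.age + 1) = w
    field_simp
    ring
  have d1 := mul_le_mul_of_nonneg_left b1 (show 0 ≤ 3 / 4 * ε by positivity)
  have d2 := mul_le_mul_of_nonneg_left b2 (show 0 ≤ 3 / 4 * ε ^ 2 by positivity)
  have d3 := mul_le_mul_of_nonneg_left b3 (show 0 ≤ ε ^ 2 by positivity)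
  have d4 := mul_le_mul_of_nonneg_left b4 hε.le
  have d5 : 0 ≤ ε ^ 2 := by positivity
  split_ifs
  · rw [mul_add, mul_add, add_div, add_div, c1, c2, c3, c4]
    linarith
  · rw [zero_add, add_zero, c2, c3]
    linarith

theorem mnAt_of_blw (hV : MM.Blw V cf j) {A : Tb} (hT : ∀ q f h k, A.T d q f x h k =
    V.TM cf d q f x h k) (hl : ∀ q, A.lam d q x = Lm V d q x) : MnAt cf A (j + 1) d x := by
  classical
  refine ⟨fun {q f h p hp} hf h1 h2 h3 => ?_, fun {q f h p hp} hf h1 h2 h3 h4 => ?_⟩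
  · simp only [hT]
    have h5 := eps_pos q (f !d)
    have h6 := eps_le q (f !d)
    refine (JS_TM_le hV hf h1 h2 h3).trans ?_
    split_ifs <;> nlinarith
  · simp only [hT]
    refine (JS_TM_le hV hf h1 h2 h3).trans ?_
    rw [hl] at h4
    rw [if_neg (show ¬ Own cf V j d q f x p hp from h4)]
    linarith [sq_nonneg (eps q (f !d))]

theorem lv_l_le {N n0 K : ℕ} {A0 : ℕ → ℕ → ℕ} {hc hr : ℕ → ℕ → ℝ} (e : Bool) :
    ∀ k x, (ve (lv N n0 K A0 hc hr k) e x).l ≤ B * k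
  | 0, x => by cases e <;> exact Nat.zero_le _
  | k + 1, x => by
    have h1 := lv_l_le (N := N) (n0 := n0) (K := K) (A0 := A0) (hc := hc) (hr := hr) e k
      (x % (lv N n0 K A0 hc hr k).n)
    have h2 := ((dig (x / (lv N n0 K A0 hc hr k).n)).ed e).1.2
    have h3 : (ve (lv N n0 K A0 hc hr (k + 1)) e x).l =
        (ve (lv N n0 K A0 hc hr k) e (x % (lv N n0 K A0 hc hr k).n)).l +
          ((dig (x / (lv N n0 K A0 hc hr k).n)).ed e).1 := by cases e <;> rfl
    rw [h3, mul_add]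
    omega

theorem blw_of_pre {W : ℕ → Tb} (hP : Pre cf W (j + 1)) : MM.Blw (W j) cf j where
  ok := hP.ok
  n_eq := hP.tab.n_eq j
  inv := (hP.down (Nat.le_succ j)).inv
  low := (hP.good j (Nat.lt_succ_self j)).low
  lt x y h := by
    rw [hP.tab.n_eq]
    exact hP.tab.supp hP.ok.N_le (d := true) h
  l_le e x := by
    rw [hP.tab.L]
    exact lv_l_le e j x
  good := (hP.good j (Nat.lt_succ_self j)).T
  T0 := hP.tab.T_nonneg j
  se x z h := by
    refine Tb.se_of_sig ((hP.down (Nat.le_succ j)).sig_of_use (fun h0 => h.1 ?_) h)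
    rw [Lv.rdy, h0, zero_mul, phi, cl_of_le (by norm_num), ite_self]

end

end MB

/-- The mean trouble at a merged name. -/
theorem stMB : StMB := by
  intro cf W j x d hP hx hm
  refine MB.mnAt_of_blw (MB.blw_of_pre hP) (fun q f h k => hP.tab.TM j d q f x h k hm) fun q => ?_
  rw [← MB.lr_eq (r := (fun _ => x / (W j).L.n, fun _ => 0, 0)) rfl]
  exact (hP.tab.lr_eq (k := j + 1) (b := 1) (Nat.le_add_left 1 j) hx q rfl).symm

end Vale.Agent.P313.Full
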