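import Vale.Agent.P313.Full.TabBasic
import Vale.Agent.P313.Full.TabBit
import Vale.Agent.P313.Full.TabGen

/-! The ideal tables at names without a merge: uniqueness and the equations. -/

namespace Vale.Agent.P313.Full

open Finset Hi

namespace TU

section names

variable {cf : Cf} {W : ℕ → Tb}

theorem n_eq (h : IsTab cf W) (k : ℕ) : (W k).L.n = nm cf.n0 k := by rw [h.L, lv_nm]

theorem mu_le (n0 : ℕ) (d : Bool) (x : ℕ) : ∀ k, mu n0 k d x ≤ k
  | 0 => le_rfl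
  | k + 1 => by
    have := mu_le n0 d x k
    unfold mu
    split_ifs <;> omega

theorem mu_lv {N n0 K : ℕ} {A0 : ℕ → ℕ → ℕ} {hc hr : ℕ → ℕ → ℝ} {x z : ℕ} :
    ∀ k, (lv N n0 K A0 hc hr k).S (x % nm n0 k) (z % nm n0 k) ≠ 0 →
      mu n0 k true x = mu n0 k false z
  | 0, _ => rfl
  | k + 1, h => by
    rw [lv_S_succ] at h
    have h1 := not_not.1 fun h' => h (if_neg h')
    rw [if_pos h1] at h
    have h2 : ((dg n0 k x).ed true).2.2.1 = ((dg n0 k z).ed false).2.2.1 := by rw [h1.2.2.1]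
    unfold mu
    rw [← h2]
    split_ifs with h3
    · rfl
    · have h4 : (lv N n0 K A0 hc hr k).S (x % nm n0 k) (z % nm n0 k) ≠ 0 := fun h4 => h (by
        unfold Lv.T
        split_ifs with h5 h6
        · simp [Lv.Nb, h4]
        · simp [Lv.Fb, Lv.Cm, h4]
        · omega)
      rw [mu_lv k h4]

theorem supp (hc : cf.Ok) (h : IsTab cf W) {k d x y} (hs : sd (W k).L d x y ≠ 0) :
    x < nm cf.n0 k ∧ y < nm cf.n0 k := by
  rw [h.L] at hs
  cases d
  exacts [(G0.lv_supp hc.N_le hs).symm, G0.lv_supp hc.N_le hs]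

theorem mu_far (hc : cf.Ok) (h : IsTab cf W) {k d x y} (hs : sd (W k).L d x y ≠ 0) :
    (W k).mu (!d) y = (W k).mu d x := by
  obtain ⟨h1, h2⟩ := supp hc h hs
  rw [h.L, ← Nat.mod_eq_of_lt h1, ← Nat.mod_eq_of_lt h2] at hs
  rw [h.mu]
  cases d
  exacts [mu_lv k hs, (mu_lv k hs).symm]

theorem ve_eq (h : IsTab cf W) {k x : ℕ} (hx : x < nm cf.n0 k) (d : Bool) :
    ve (W k).L d x = vw d cf.N cf.n0 cf.K k x := by
  rw [h.L]
  cases d
  exacts [lv_vi hx, lv_vo hx]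

theorem dg_div (n0 j i x : ℕ) : dg 0 i (x / nm n0 j) = dg n0 (j + i) x := by
  rw [dg, dg, cd, cd, nm_add, Nat.div_div_eq_div_mul, nm.eq_1 0, zero_add]

theorem lam_up (h : IsTab cf W) {j b d q x} {c : Bool → ℕ} (hx : x < nm cf.n0 (j + b))
    (hc : x / nm cf.n0 j = c d) :
    (W j).lam d (q.up b c) (x % nm cf.n0 j) = (W (j + b)).lam d q x := by
  rw [Tb.lam, Tb.lam, ve_eq h hx, ve_eq h (mod_nm_lt _ _ _), vw_mod _ _ _ _ _ le_rfl, vw_l, vw_l,
    sum_range_add]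
  simp only [Cx.up, ← hc, dg_div]
  omega

theorem fok_up {j b q f} (h : FOk cf (j + b) q f) (c : Bool → ℕ) :
    FOk cf j (q.up b c) (fU b f) := by
  have h1 : ∀ e, ∑ i ∈ range b, (((dg 0 i (c e)).ed e).1 : ℕ) ≤ B * b := fun e =>
    (sum_le_card_nsmul _ _ B fun i _ => Nat.le_of_lt_succ (Fin.is_lt _)).trans (by simp [mul_comm])
  have h2 : ∀ e, ∑ i ∈ range b, (((dg 0 i (c e)).ed e).2.1 : ℕ) ≤ (C + 1) * b := fun e =>
    (sum_le_card_nsmul _ _ (C + 1) fun i _ => Nat.le_of_lt_succ (Fin.is_lt _)).trans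
      (by simp [mul_comm])
  have h3 : cS * b ≤ cF * b := Nat.mul_le_mul_right _ (by unfold cS cF; omega)
  refine ⟨⟨?_, fun e => ?_, fun e => ?_⟩, fun e => ?_, fun e e' => ?_⟩ <;>
    simp only [Cx.up, fU, mul_add]
  · have := h.age
    omega
  · exact add_le_add (h.D e) (h1 e)
  · exact add_le_add (h.E e) (h2 e)
  · have := h.slack e
    omega
  · have := h.room e e'
    have := h1 e'
    simp only [mul_add, add_mul] at *
    omega

end names

theorem bool_ext {β : Type} {u v : Bool → β} (d : Bool) (h1 : u d = v d) (h2 : u (!d) = v (!d)) :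
    u = v := by
  funext e
  cases d <;> cases e <;> simp_all

theorem mem_labU {b : ℕ} {r : Lab} : r ∈ labU b ↔
    (∀ e, r.1 e < 2 ^ (a * b)) ∧ (∀ e, r.2.1 e < 2 ^ (cF * b)) ∧ r.2.2 = 0 := by
  simp only [labU, labs, prs, Fintype.mem_piFinset, mem_product, mem_range, pow_zero,
    Nat.lt_one_iff]

/-- The label of the pair `(x, y)` with the values `hx`, `hy`. -/
noncomputable def lab (n l b : ℕ) (d : Bool) (f : Bool → ℕ) (x y hx hy : ℕ) : Lab :=
  (two d (x / n) (y / n), two d (hx / 2 ^ (l + f d) % 2 ^ (cF * b))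
    (hy / 2 ^ (l + f !d) % 2 ^ (cF * b)), 0)

theorem lab_swap (n l b : ℕ) (d : Bool) (f : Bool → ℕ) (x y hx hy : ℕ) :
    lab n l b (!d) f y x hy hx = lab n l b d f x y hx hy := by
  simp only [lab, two_swap, Bool.not_not]

theorem lab_d (n l b : ℕ) (d : Bool) (f : Bool → ℕ) (x y hx hy : ℕ) :
    x / n = (lab n l b d f x y hx hy).1 d := (two_same d _ _).symm

theorem lab_nd (n l b : ℕ) (d : Bool) (f : Bool → ℕ) (x y hx hy : ℕ) :
    y / n = (lab n l b d f x y hx hy).1 (!d) := (two_not d _ _).symm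

theorem lab_t (n l b : ℕ) (d : Bool) (f : Bool → ℕ) (x y hx hy : ℕ) :
    (lab n l b d f x y hx hy).2.1 d = hx / 2 ^ (l + f d) % 2 ^ (cF * b) := two_same d _ _

theorem lab_nt (n l b : ℕ) (d : Bool) (f : Bool → ℕ) (x y hx hy : ℕ) :
    (lab n l b d f x y hx hy).2.1 (!d) = hy / 2 ^ (l + f !d) % 2 ^ (cF * b) := two_not d _ _

/-- The shift by the new filter bits. -/
theorem shift_iff {h t l F c : ℕ} (ht : t < 2 ^ c) :
    (h ^^^ t * 2 ^ (l + F)) % 2 ^ (l + (F + c)) < 2 ^ l ↔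
      t = h / 2 ^ (l + F) % 2 ^ c ∧ h % 2 ^ (l + F) < 2 ^ l := by
  have := shift_lt_iff (h := h) (σ := 0) (l := l) (o := 0) (F := F) ht (by simp) (by simp)
  simpa [add_assoc, Nat.mod_one] using this

theorem shift_low {h t l F c : ℕ} (ht : t < 2 ^ c) : (h ^^^ t * 2 ^ (l + F)) % 2 ^ l = h % 2 ^ l := by
  have := shift_mod (h := h) (σ := 0) (l := l) (o := 0) (F := F) ht (by simp) (by simp)
  simpa using this

theorem shift_win {h l F c : ℕ} :
    (h ^^^ h / 2 ^ (l + F) % 2 ^ c * 2 ^ (l + F)) / 2 ^ (l + F) % 2 ^ c = 0 := by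
  rw [Nat.xor_div_two_pow, Nat.mul_div_cancel _ (Nat.two_pow_pos _), Nat.xor_mod_two_pow,
    Nat.mod_mod, Nat.xor_self]

theorem mt_shift {l b : ℕ} {f : Bool → ℕ} {d : Bool} {hx hy tx ty : ℕ} (h1 : tx < 2 ^ (cF * b))
    (h2 : ty < 2 ^ (cF * b)) :
    mt l (fU b f) d (hx ^^^ tx * 2 ^ (l + f d)) (hy ^^^ ty * 2 ^ (l + f !d)) ↔
      mt l f d hx hy ∧ tx = hx / 2 ^ (l + f d) % 2 ^ (cF * b) ∧
        ty = hy / 2 ^ (l + f !d) % 2 ^ (cF * b) := by
  simp only [mt_iff, fU, shift_iff h1, shift_iff h2, shift_low h1, shift_low h2]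
  tauto

theorem mod_xor (n0 j x : ℕ) : x % nm n0 j ^^^ nm n0 j * (x / nm n0 j) = x := by
  rw [nm, ← add_mul_xor (Nat.mod_lt _ (Nat.two_pow_pos _)), Nat.mod_add_div]

theorem xor_div (n0 j x : ℕ) : x ^^^ nm n0 j * (x / nm n0 j) = x % nm n0 j := by
  conv_lhs => enter [1]; rw [← mod_xor n0 j x]
  rw [Nat.xor_assoc, Nat.xor_self, Nat.xor_zero]

theorem w_ne {A : Tb} {d : Bool} {q : Cx} {x y : ℕ} (h : A.sig d q x y ≠ 0) :
    A.vis d q x y ∧ sd A.L d x y ≠ 0 :=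
  have h1 := Tb.of_w (Tb.w_ne_of_sig h)
  ⟨h1.1, h1.2.1⟩

/-- The situation at a name without a merge: the layer goes from the level `j + b` to `j`. -/
structure Lay (cf : Cf) (W : ℕ → Tb) (j b : ℕ) (d : Bool) (q : Cx) (f : Bool → ℕ) (x : ℕ) :
    Prop extends Pre cf W (j + b) where
  fok : FOk cf (j + b) q f
  lt : x < nm cf.n0 (j + b)
  ne : (W (j + b)).mu d x ≠ 0
  hb : b = hb q ((W (j + b)).mu d x)

variable {cf : Cf} {W : ℕ → Tb} {j b : ℕ} {d : Bool} {q : Cx} {f : Bool → ℕ} {x y h : ℕ}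
  {r : Lab} {K : Bool → Key} {c : Key}

namespace Lay

theorem pos (H : Lay cf W j b d q f x) : 0 < b := by
  have := H.ne
  rw [H.hb, Full.hb]
  omega

theorem far (H : Lay cf W j b d q f x) (hs : (W (j + b)).sig d q x y ≠ 0) :
    Lay cf W j b (!d) q f y :=
  have h1 := mu_far H.ok H.tab (w_ne hs).2
  ⟨H.toPre, H.fok, (supp H.ok H.tab (w_ne hs).2).2, h1 ▸ H.ne, h1 ▸ H.hb⟩

theorem lr_eq (H : Lay cf W j b d q f x) (hr : x / nm cf.n0 j = r.1 d) :
    (W j).lr b d q x r = (W (j + b)).lam d q x := by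
  rw [Tb.lr, n_eq H.tab, lam_up H.tab H.lt hr]

theorem shf_eq (H : Lay cf W j b d q f x) (hr : x / nm cf.n0 j = r.1 d) (h0 : r.2.2 = 0)
    (e : Bool) : (W j).shf b d q f x r e = r.2.1 e * 2 ^ ((W (j + b)).lam d q x + f e) := by
  rw [Tb.shf, H.lr_eq hr, h0, zero_mul, Nat.xor_zero]

theorem shf_lt (H : Lay cf W j b d q f x) (hr : x / nm cf.n0 j = r.1 d) (hm : r ∈ labU b)
    (e : Bool) : (W j).shf b d q f x r e < 2 ^ cf.m := by
  obtain ⟨-, h2, h3⟩ := mem_labU.1 hm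
  have h4 := G0.lam_add_le H.tab (fok_up H.fok r.1) (mod_nm_lt cf.n0 j x) d e
  rw [lam_up H.tab H.lt hr, fU] at h4
  rw [H.shf_eq hr h3]
  calc _ < 2 ^ (cF * b) * 2 ^ ((W (j + b)).lam d q x + f e) :=
        Nat.mul_lt_mul_of_pos_right (h2 e) (by positivity)
    _ ≤ _ := by rw [← pow_add]; exact Nat.pow_le_pow_right (by norm_num) (by omega)

theorem ek_lt (H : Lay cf W j b d q f x) (hr : x / nm cf.n0 j = r.1 d) (hm : r ∈ labU b)
    (hc : c.2 < 2 ^ cf.m) (e : Bool) : ((W j).ek cf b d q f x c r e).2 < 2 ^ cf.m :=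
  Nat.xor_lt_two_pow (Nat.xor_lt_two_pow hc (lin_lt _ _ _ _)) (H.shf_lt hr hm e)

theorem val_ek (H : Lay cf W j b d q f x) (e : Bool) (hy : y / nm cf.n0 j = r.1 e) :
    cf.val ((W j).ek cf b d q f x c r e) (y % nm cf.n0 j) =
      cf.val c y ^^^ (W j).shf b d q f x r e := by
  rw [Tb.ek, Cf.val_ent, n_eq H.tab, ← hy, mod_xor]

/-- The candidates of the lower level. -/
theorem cand_iff (H : Lay cf W j b d q f x) (hm : r ∈ labU b) (hx : x / nm cf.n0 j = r.1 d)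
    (hy : y / nm cf.n0 j = r.1 (!d)) :
    (W j).cand cf d (q.up b r.1) (fU b f) (x % nm cf.n0 j) (h ^^^ (W j).shf b d q f x r d)
      ((W j).ek cf b d q f x c r (!d)) (y % nm cf.n0 j) ↔
    0 < (W j).se d (q.up b r.1) (x % nm cf.n0 j) (y % nm cf.n0 j) ∧
      mt ((W (j + b)).lam d q x) f d h (cf.val c y) ∧
      r = lab (nm cf.n0 j) ((W (j + b)).lam d q x) b d f x y h (cf.val c y) := by
  obtain ⟨-, h2, h3⟩ := mem_labU.1 hm
  rw [Tb.cand, H.val_ek _ hy, lam_up H.tab H.lt hx, H.shf_eq hx h3, H.shf_eq hx h3,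
    mt_shift (h2 _) (h2 _)]
  refine and_congr_right fun _ => and_congr_right fun _ => ⟨fun ⟨e1, e2⟩ => ?_, fun e => ?_⟩
  · refine Prod.ext (bool_ext d ?_ ?_) (Prod.ext (bool_ext d ?_ ?_) h3)
    · rw [← lab_d, hx]
    · rw [← lab_nd, hy]
    · rw [lab_t, e1]
    · rw [lab_nt, e2]
  · constructor
    · conv_lhs => rw [e, lab_t]
    · conv_lhs => rw [e, lab_nt]

theorem lab_mem (H : Lay cf W j b d q f x) (hy : y < nm cf.n0 (j + b)) (l h h' : ℕ) :
    lab (nm cf.n0 j) l b d f x y h h' ∈ labU b := by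
  have hx := H.lt
  rw [nm_add] at hx hy
  refine mem_labU.2 ⟨fun e => ?_, fun e => ?_, rfl⟩ <;> simp only [lab, two] <;> split_ifs
  · exact Nat.div_lt_of_lt_mul hx
  · exact Nat.div_lt_of_lt_mul hy
  · exact Nat.mod_lt _ (Nat.two_pow_pos _)
  · exact Nat.mod_lt _ (Nat.two_pow_pos _)

theorem gd (H : Lay cf W j b d q f x) : Good cf W j := H.good j (by have := H.pos; omega)

theorem ubar_nonneg (A V : Tb) (cf : Cf) (b d q f x) (K : ℕ → Bool → Key) :
    ∀ r ∈ labU b, 0 ≤ cf.JS fun s => A.uU V cf b d q f x (K s) r := fun r _ => by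
  refine mean_nonneg fun s _ => mul_nonneg ?_ (Tb.sig_nonneg _ _ _ _ _)
  unfold Tb.sU
  split_ifs
  exacts [Tb.s_nonneg _ _ _ _ _ _ _, le_rfl]

/-- Small trouble: both parts are small. -/
theorem small (H : Lay cf W j b d q f x) (hT : (W (j + b)).T d q f x h c < 2) :
    (∀ r ∈ labU b, x / nm cf.n0 j = r.1 d →
      r.2.1 d = h / 2 ^ ((W (j + b)).lam d q x + f d) % 2 ^ (cF * b) →
      (W j).T d (q.up b r.1) (fU b f) (x % nm cf.n0 j) (h ^^^ (W j).shf b d q f x r d)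
        ((W j).ek cf b d q f x c r (!d)) < 1) ∧
    (∑ r ∈ labU b, cf.JS fun s =>
        (W (j + b)).uU (W j) cf b d q f x (two d (cf.rot s x h) c) r) ^ 2 -
      ∑ r ∈ labU b, (cf.JS fun s =>
        (W (j + b)).uU (W j) cf b d q f x (two d (cf.rot s x h) c) r) ^ 2 < 1 / 50 := by
  rw [H.tab.TU _ _ _ _ _ _ _ H.ne, ← H.hb, Nat.add_sub_cancel, Tb.TU, cl3, max_lt_iff,
    min_lt_iff] at hT
  replace hT := hT.2.resolve_left (by norm_num)
  have h1 := coll_nonneg (ubar_nonneg (W (j + b)) (W j) cf b d q f x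
    fun s => two d (cf.rot s x h) c)
  have h2 : ∀ r ∈ labU b, 0 ≤ if x / (W j).L.n = r.1 d ∧ (h ^^^ (W j).shf b d q f x r d) /
      2 ^ ((W j).lr b d q x r + f d) % 2 ^ (cF * b) = 0 then
      (W j).T d (q.up b r.1) (fU b f) (x % (W j).L.n) (h ^^^ (W j).shf b d q f x r d)
        ((W j).ek cf b d q f x c r (!d)) else 0 := fun r _ => by
    split_ifs
    exacts [G0.T_nonneg H.tab _ _ _ _ _ _ _, le_rfl]
  refine ⟨fun r hr e1 e2 => ?_, by linarith [sum_nonneg h2]⟩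
  have h3 := single_le_sum h2 hr
  rw [if_pos ⟨by rw [n_eq H.tab, e1], by
    rw [H.lr_eq e1, H.shf_eq e1 (mem_labU.1 hr).2.2, e2, shift_win]⟩, n_eq H.tab] at h3
  rw [n_eq H.tab] at hT
  linarith

/-- An option with positive strength ends in a matched entry. -/
theorem of_u (H : Lay cf W j b d q f x) (hr : r ∈ labU b)
    (hu : (W (j + b)).uU (W j) cf b d q f x K r ≠ 0) (hy : y = (W j).eU cf b d q f x K r) :
    (W (j + b)).uU (W j) cf b d q f x K r ≤ (W (j + b)).sig d q x y ∧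
      mt ((W (j + b)).lam d q x) f d (cf.val (K d) x) (cf.val (K !d) y) ∧
      r = lab (nm cf.n0 j) ((W (j + b)).lam d q x) b d f x y (cf.val (K d) x) (cf.val (K !d) y) := by
  rw [Tb.uU, ← hy] at hu ⊢
  have h1 := left_ne_zero_of_mul hu
  rw [Tb.sU] at h1 ⊢
  have hx : x / (W j).L.n = r.1 d := not_not.1 fun h => h1 (if_neg h)
  rw [if_pos hx] at h1 ⊢
  refine ⟨mul_le_of_le_one_left (Tb.sig_nonneg _ _ _ _ _) (Tb.s_le_one _ _ _ _ _ _ _), ?_⟩
  rw [Tb.s] at h1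
  have h2 := not_not.1 fun h => h1 (if_neg h)
  have h3 := (supp H.ok H.tab (w_ne fun h => h2.1.ne' (by
    rw [Tb.se, h, psi, cl_of_le (by norm_num)])).2).2
  rw [Tb.eU, n_eq H.tab] at hy
  rw [n_eq H.tab] at hx h2 h3
  have e1 : y / nm cf.n0 j = r.1 (!d) := by
    rw [hy, Nat.add_mul_div_left _ _ (nm_pos _ _), Nat.div_eq_of_lt h3, zero_add]
  have e2 := congrArg (· % nm cf.n0 j) hy
  simp only [Nat.add_mul_mod_self_left, Nat.mod_eq_of_lt h3] at e2
  rw [← e2, Tb.kU, Tb.kU, H.val_ek d hx] at h2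
  exact ((H.cand_iff hr hx e1).1 h2).2

/-- The option of a matched significant entry. -/
theorem u_lab (hN : StNest) (H : Lay cf W j b d q f x) (hK : cf.KOk K)
    (hT : (W (j + b)).Tk cf d q f x K < 2) (hs : (W (j + b)).sig d q x y ≠ 0)
    (hm : mt ((W (j + b)).lam d q x) f d (cf.val (K d) x) (cf.val (K !d) y))
    (hr : r = lab (nm cf.n0 j) ((W (j + b)).lam d q x) b d f x y (cf.val (K d) x)
      (cf.val (K !d) y)) :
    (W j).eU cf b d q f x K r = y ∧ (W (j + b)).uU (W j) cf b d q f x K r =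
      Gd ((W j).T (!d) (q.up b r.1) (fU b f) (y % nm cf.n0 j)
        (cf.val (K !d) y ^^^ (W j).shf b d q f x r (!d)) ((W j).ek cf b d q f x (K d) r d)) *
      (W (j + b)).sig d q x y := by
  have hl : r ∈ labU b := hr ▸ H.lab_mem (H.far hs).lt _ _ _
  have e1 : x / nm cf.n0 j = r.1 d := hr ▸ lab_d _ _ _ _ _ _ _ _ _
  have e2 : y / nm cf.n0 j = r.1 (!d) := hr ▸ lab_nd _ _ _ _ _ _ _ _ _
  have h1 := hN H.toPre H.fok.toOk H.ne H.hb hs
  rw [Nat.add_sub_cancel, show two d (x / nm cf.n0 j) (y / nm cf.n0 j) = r.1 by rw [hr, lab]] at h1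
  have h2 : (W j).se d (q.up b r.1) (x % nm cf.n0 j) (y % nm cf.n0 j) = 1 := by
    rw [Tb.se, h1, psi, cl_of_ge (by norm_num)]
  have h3 := (H.cand_iff hl e1 e2).2 ⟨by rw [h2]; exact one_pos, hm, hr⟩
  have h4 := (H.small hT).1 r hl e1 (hr ▸ lab_t _ _ _ _ _ _ _ _ _)
  have h5 : (W j).pt cf d (q.up b r.1) (fU b f) (x % nm cf.n0 j) ((W j).kU cf b d q f x K r) =
      y % nm cf.n0 j := by
    rw [Tb.pt, Tb.kU, Tb.kU, H.val_ek d e1]
    exact (H.gd.T d _ (mod_nm_lt _ _ _)).uniq (fok_up H.fok _)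
      (Nat.xor_lt_two_pow (cf.val_lt (hK d) x) (H.shf_lt e1 hl d)) (H.ek_lt e1 hl (hK _) _)
      (by linarith) (Classical.epsilon_spec ⟨_, h3⟩) h3
  have h6 : (W j).eU cf b d q f x K r = y := by
    rw [Tb.eU, n_eq H.tab, h5, ← e2, Nat.mod_add_div]
  refine ⟨h6, ?_⟩
  rw [Tb.uU, h6, Tb.sU, n_eq H.tab, if_pos e1, Tb.s, h5, Tb.Tk, Tb.Tr, Tb.kU, Tb.kU,
    H.val_ek d e1, H.val_ek _ e2, if_pos h3, h2, Gd_eq_one h4.le, one_mul, one_mul]

/-- The mean strength of this option. -/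
theorem ubar (hN : StNest) (H : Lay cf W j b d q f x) (hh : h < 2 ^ cf.m) (hc : c.2 < 2 ^ cf.m)
    (hT : (W (j + b)).T d q f x h c < 2) (hs : 1 / 4 < (W (j + b)).sig d q x y)
    (hm : mt ((W (j + b)).lam d q x) f d h (cf.val c y))
    (hr : r = lab (nm cf.n0 j) ((W (j + b)).lam d q x) b d f x y h (cf.val c y)) :
    1 / 5 ≤ cf.JS fun s => (W (j + b)).uU (W j) cf b d q f x (two d (cf.rot s x h) c) r := by
  have hs0 : (W (j + b)).sig d q x y ≠ 0 := by linarith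
  have hl : r ∈ labU b := hr ▸ H.lab_mem (H.far hs0).lt _ _ _
  have e1 : x / nm cf.n0 j = r.1 d := hr ▸ lab_d _ _ _ _ _ _ _ _ _
  have h1 := (H.gd.T (!d) _ (mod_nm_lt cf.n0 j y)).own (fok_up H.fok r.1)
    (Nat.xor_lt_two_pow (cf.val_lt hc y) (H.shf_lt e1 hl (!d)))
    ((mod_nm_lt cf.n0 j x).trans_le (nm_le _ (le_trans (Nat.le_add_right j b) H.le)))
    (Nat.xor_lt_two_pow hh (H.shf_lt e1 hl d))
  have h2 := one_sub_le_mean (Nat.two_pow_pos _) (fun s _ => one_sub_le_Gd (G0.T_nonneg H.tab _ _ _ _ _ _ _))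
    (h1.trans (eps_le _ _))
  rw [Cf.JS, mean_congr fun s _ => (H.u_lab (K := two d (cf.rot s x h) c) (y := y) (r := r) hN
    (fun e => by
      unfold two
      split_ifs
      exacts [Nat.xor_lt_two_pow (lin_lt _ _ _ _) hh, hc])
    (by rwa [Tb.Tk, two_same, two_not, Cf.val_rot]) hs0 (by rwa [two_same, two_not, Cf.val_rot])
    (by rwa [two_same, two_not, Cf.val_rot])).2, mean_mul_right]
  simp only [two_same, two_not, Tb.ek, Cf.ent_rot, n_eq H.tab, ← e1, xor_div]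
  nlinarith

/-- Two matched entries of strength above `1 / 4` are equal. -/
theorem uniq (hN : StNest) (H : Lay cf W j b d q f x) (hh : h < 2 ^ cf.m) (hc : c.2 < 2 ^ cf.m)
    (hT : (W (j + b)).T d q f x h c < 2) {y y' : ℕ} (hs : 1 / 4 < (W (j + b)).sig d q x y)
    (hs' : 1 / 4 < (W (j + b)).sig d q x y') (hm : mt ((W (j + b)).lam d q x) f d h (cf.val c y))
    (hm' : mt ((W (j + b)).lam d q x) f d h (cf.val c y')) : y = y' := by
  have hK : cf.KOk (two d (cf.rot 0 x h) c) := fun e => by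
    unfold two
    split_ifs
    exacts [Nat.xor_lt_two_pow (lin_lt _ _ _ _) hh, hc]
  have key : ∀ z, 1 / 4 < (W (j + b)).sig d q x z →
      mt ((W (j + b)).lam d q x) f d h (cf.val c z) → (W j).eU cf b d q f x (two d (cf.rot 0 x h) c)
        (lab (nm cf.n0 j) ((W (j + b)).lam d q x) b d f x z h (cf.val c z)) = z := fun z h1 h2 =>
    (H.u_lab hN hK (by rwa [Tb.Tk, two_same, two_not, Cf.val_rot]) (by linarith)
      (by rwa [two_same, two_not, Cf.val_rot]) (by rw [two_same, two_not, Cf.val_rot])).1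
  by_contra hne
  have hr : lab (nm cf.n0 j) ((W (j + b)).lam d q x) b d f x y' h (cf.val c y') ≠
      lab (nm cf.n0 j) ((W (j + b)).lam d q x) b d f x y h (cf.val c y) := fun e =>
    hne (by rw [← key y hs hm, ← e, key y' hs' hm'])
  have h0 := ubar_nonneg (W (j + b)) (W j) cf b d q f x fun s => two d (cf.rot s x h) c
  have h1 := coll_ge h0 (H.lab_mem (H.far (y := y) (by linarith)).lt
    ((W (j + b)).lam d q x) h (cf.val c y))
  have h2 := single_le_sum (fun r hr => h0 r (mem_of_mem_erase hr)) (mem_erase.2 ⟨hr,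
    H.lab_mem (H.far (y := y') (by linarith)).lt ((W (j + b)).lam d q x) h (cf.val c y')⟩)
  have h3 := H.ubar hN hh hc hT hs hm rfl
  have h4 := H.ubar hN hh hc hT hs' hm' rfl
  have h5 := (H.small hT).2
  nlinarith

/-- Without trouble at both ends the strength of the option is the significance. -/
theorem u_eq (hN : StNest) (H : Lay cf W j b d q f x) (hK : cf.KOk K)
    (hT : (W (j + b)).Tk cf d q f x K < 2) (hT' : (W (j + b)).Tr cf d q f y K < 2)
    (hs : (W (j + b)).sig d q x y ≠ 0)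
    (hm : mt ((W (j + b)).lam d q x) f d (cf.val (K d) x) (cf.val (K !d) y))
    (hr : r = lab (nm cf.n0 j) ((W (j + b)).lam d q x) b d f x y (cf.val (K d) x)
      (cf.val (K !d) y)) :
    (W (j + b)).uU (W j) cf b d q f x K r = (W (j + b)).sig d q x y := by
  have H' := H.far hs
  have hl : r ∈ labU b := hr ▸ H.lab_mem H'.lt _ _ _
  have e1 : x / nm cf.n0 j = r.1 d := hr ▸ lab_d _ _ _ _ _ _ _ _ _
  have e2 : y / nm cf.n0 j = r.1 (!d) := hr ▸ lab_nd _ _ _ _ _ _ _ _ _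
  have e3 := (w_ne hs).1.1
  have h1 := (H'.small hT').1 r hl e2 (by rw [← e3, hr, lab_nt])
  have h0 := (mem_labU.1 hl).2.2
  rw [Bool.not_not, Tb.ek, H'.shf_eq e2 h0, H'.shf_eq e2 h0, ← e3, ← H.shf_eq e1 h0,
    ← H.shf_eq e1 h0] at h1
  rw [(H.u_lab hN hK hT hs hm hr).2, Tb.ek, Gd_eq_one h1.le, one_mul]

end Lay

theorem lay {k : ℕ} (h : Pre cf W k) (hf : FOk cf k q f) (hx : x < nm cf.n0 k)
    (hm : (W k).mu d x ≠ 0) (hb : b = hb q ((W k).mu d x)) :
    ∃ j, k = j + b ∧ Lay cf W j b d q f x := by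
  have h1 : b ≤ k := by
    have := mu_le cf.n0 d x k
    rw [hb, Full.hb, h.tab.mu]
    omega
  obtain ⟨j, rfl⟩ := Nat.exists_eq_add_of_le' h1
  exact ⟨j, rfl, h, hf, hx, hm, hb⟩

end TU

open TU

theorem stUq_of (hN : StNest) : StUq := by
  intro cf W k x d hP hx hm q f h c y y' hf hh hc hT h1 h2
  obtain ⟨b, hb⟩ : ∃ b, b = hb q ((W k).mu d x) := ⟨_, rfl⟩
  obtain ⟨j, rfl, H⟩ := lay hP hf hx hm hb
  exact H.uniq hN hh hc hT (by linarith [lt_of_psi h1.1.ne']) (by linarith [lt_of_psi h2.1.ne'])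
    h1.2 h2.2

theorem stU_of (hN : StNest) : StU := by
  intro cf W k q f x K d b hA hm hb
  obtain ⟨j, rfl, H⟩ := lay hA.toPre hA.fok hA.lt hm hb
  rw [Nat.add_sub_cancel]
  have hK := hA.kok
  -- an option above `1 / 4` is the option of the partner
  have key : ∀ y, (W (j + b)).Tk cf d q f x K < 2 →
      (W (j + b)).cand cf d q f x (cf.val (K d) x) (K !d) y → ∀ r ∈ labU b,
      1 / 4 < (W (j + b)).uU (W j) cf b d q f x K r → (W j).eU cf b d q f x K r = y ∧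
        r = lab (nm cf.n0 j) ((W (j + b)).lam d q x) b d f x y (cf.val (K d) x)
          (cf.val (K !d) y) := fun y hT hy r hr hu => by
    obtain ⟨h1, h2, h3⟩ := H.of_u hr (hu := by linarith) rfl
    have h4 := H.uniq hN (cf.val_lt (hK d) x) (hK _) hT (hu.trans_le h1)
      (by linarith [lt_of_psi hy.1.ne']) h2 hy.2
    exact ⟨h4, h4 ▸ h3⟩
  refine ⟨?_, fun hs => ?_⟩
  · rcases le_or_gt 2 ((W (j + b)).Tk cf d q f x K) with hT | hT
    · rw [Tb.s, Gd_eq_zero hT]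
      simp
    rw [Tb.s]
    split_ifs with hc
    · have h1 := lt_of_psi hc.1.ne'
      have h2 : (W (j + b)).sig d q x ((W (j + b)).pt cf d q f x K) ≠ 0 := by linarith
      rw [sum_eq_single_of_mem _ (H.lab_mem (H.far h2).lt _ _ _) fun r hr hne =>
        mul_eq_zero_of_left (not_not.1 fun h =>
          hne (key _ hT hc r hr (by linarith [lt_of_psi h])).2) _,
        (H.u_lab hN hK hT h2 hc.2 rfl).1]
      rcases le_or_gt 2 ((W (j + b)).Tr cf d q f ((W (j + b)).pt cf d q f x K) K) with hT' | hT'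
      · rw [Gd_eq_zero hT']
        simp
      · rw [H.u_eq hN hK hT hT' h2 hc.2 rfl, Tb.se]
        ring
    · rw [sum_eq_zero fun r hr => ?_, mul_zero]
      refine mul_eq_zero_of_left (not_not.1 fun h => hc ?_) _
      have h0 := lt_of_psi h
      obtain ⟨h1, h2, -⟩ := H.of_u hr (K := K) (by linarith) rfl
      exact Classical.epsilon_spec ⟨_, psi_pos (h0.trans_le h1), h2⟩
  · rw [Tb.s] at hs
    have hc := not_not.1 fun h => hs.ne' (if_neg h)
    rw [if_pos hc] at hs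
    have hT := lt_of_not_ge fun h => hs.ne' (by rw [Gd_eq_zero h, mul_zero, zero_mul])
    have hT' : (W (j + b)).Tr cf d q f ((W (j + b)).pt cf d q f x K) K < 2 :=
      lt_of_not_ge fun h => hs.ne' (by rw [Gd_eq_zero h, mul_zero])
    have h1 := lt_of_psi hc.1.ne'
    have h2 : (W (j + b)).sig d q x ((W (j + b)).pt cf d q f x K) ≠ 0 := by linarith
    have h3 := H.lab_mem (H.far h2).lt ((W (j + b)).lam d q x) (cf.val (K d) x)
      (cf.val (K !d) ((W (j + b)).pt cf d q f x K))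
    have h4 := H.u_eq hN hK hT hT' h2 hc.2 rfl
    have e3 := (w_ne h2).1.1
    refine ⟨mu_far H.ok H.tab (w_ne h2).2, ?_, fun r hr hu => (key _ hT hc r hr hu).1,
      _, h3, by linarith, ?_⟩
    · rw [sum_eq_single_of_mem _ h3 fun r hr hne => by
        rw [not_not.1 fun h => hne (key _ hT hc r hr (lt_of_psw h)).2, zero_mul],
        (H.u_lab hN hK hT h2 hc.2 rfl).1, h4, psw, cl_of_ge (by linarith), one_mul]
    · rw [(H.far h2).u_eq hN hK (by rwa [Tb.Tk_not]) (y := x) (by rwa [Tb.Tr_not])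
        (by rwa [Tb.sig_symm]) ?_ (r := lab _ _ _ d _ _ _ _ _)
          (by rw [Bool.not_not, lab_swap, ← e3]), Tb.sig_symm]
      · exact h1.le
      · have h5 := mt_iff.1 hc.2
        rw [← e3, mt_iff, Bool.not_not]
        exact ⟨h5.2.1, h5.1, h5.2.2.symm⟩

end Vale.Agent.P313.Full
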