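import Vale.Agent.P313.Full.TabLev
import Vale.Agent.P313.Full.TabH
import Vale.Agent.P313.Full.TabColl
import Vale.Agent.P313.Full.TabBit

/-! The mean trouble at a name without a merge. -/

namespace Vale.Agent.P313.Full

open Finset Hi

namespace UB

theorem sh_lt_iff {h t l F c : ℕ} (ht : t < 2 ^ c) :
    (h ^^^ t * 2 ^ (l + F)) % 2 ^ (l + F + c) < 2 ^ l ↔
      t = h / 2 ^ (l + F) % 2 ^ c ∧ h % 2 ^ (l + F) < 2 ^ l := by
  have := shift_lt_iff (h := h) (t := t) (σ := 0) (l := l) (F := F) (c := c) (o := 0) ht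
    (by norm_num) (Nat.zero_le _)
  simpa [Nat.mod_one] using this

theorem sh_mod {h t l F c : ℕ} (ht : t < 2 ^ c) :
    (h ^^^ t * 2 ^ (l + F)) % 2 ^ l = h % 2 ^ l := by
  have := shift_mod (h := h) (t := t) (σ := 0) (l := l) (F := F) (c := c) (o := 0) ht
    (by norm_num) (Nat.zero_le _)
  simpa using this

theorem win_eq {h t l c : ℕ} (ht : t < 2 ^ c) (h0 : (h ^^^ t * 2 ^ l) / 2 ^ l % 2 ^ c = 0) :
    t = h / 2 ^ l % 2 ^ c := by
  rw [Nat.xor_div_two_pow, Nat.mul_div_cancel _ (by positivity), Nat.xor_mod_two_pow,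
    Nat.mod_eq_of_lt ht, Nat.xor_eq_zero_iff] at h0
  exact h0.symm

theorem sum_far (d : Bool) (i j u0 t0 : ℕ) (G : Lab → ℝ) (g : ℕ → ℕ → ℝ) (hg : ∀ v t, 0 ≤ g v t)
    (h : ∀ r ∈ labs i j 0,
      G r ≤ if r.1 d = u0 ∧ r.2.1 d = t0 then g (r.1 !d) (r.2.1 !d) else 0) :
    ∑ r ∈ labs i j 0, G r ≤ ∑ v ∈ range (2 ^ i), ∑ t ∈ range (2 ^ j), g v t := by
  refine (sum_le_sum h).trans ?_
  simp only [sum_labs, sum_prs d, two_same, two_not, pow_zero, range_one, sum_singleton, ite_and,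
    sum_ite_irrel, sum_const_zero, sum_ite_eq']
  have h0 : 0 ≤ ∑ v ∈ range (2 ^ i), ∑ t ∈ range (2 ^ j), g v t :=
    sum_nonneg fun _ _ => sum_nonneg fun _ _ => hg _ _
  split_ifs
  exacts [le_rfl, by simpa using h0, h0]

theorem coll_le_card {ι : Type} [DecidableEq ι] (S : Finset ι) (u : ι → ℝ) (h0 : ∀ r, 0 ≤ u r)
    (h1 : ∀ r, u r ≤ 1) {M : ℕ} (hM : #{r ∈ S | u r ≠ 0} ≤ M) :
    (∑ r ∈ S, u r) ^ 2 - ∑ r ∈ S, u r ^ 2 ≤ (M : ℝ) ^ 2 - M := by
  rw [← sum_filter_ne_zero, ← sum_filter_of_ne (p := fun r => u r ≠ 0) (f := fun r => u r ^ 2)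
    fun r _ h e => h (by rw [e]; norm_num), coll_eq]
  generalize {r ∈ S | u r ≠ 0} = S' at hM ⊢
  have h2 : ∀ r ∈ S', u r * ∑ z ∈ S'.erase r, u z ≤ (M : ℝ) - 1 := by
    intro r hr
    refine (mul_le_of_le_one_left (sum_nonneg fun _ _ => h0 _) (h1 r)).trans ?_
    refine (sum_le_card_nsmul _ _ 1 fun z _ => h1 z).trans ?_
    rw [nsmul_one, cast_card_erase_of_mem hr]
    exact sub_le_sub_right (Nat.cast_le.2 hM) _
  refine (sum_le_card_nsmul _ _ _ h2).trans ?_
  rw [nsmul_eq_mul]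
  rcases Nat.eq_zero_or_pos M with rfl | hp
  · rw [Nat.le_zero.1 hM]; simp
  · have h3 : (1 : ℝ) ≤ M := Nat.one_le_cast.2 hp
    have h4 : (#S' : ℝ) ≤ M := Nat.cast_le.2 hM
    nlinarith

theorem shf_eq {V : Tb} {b : ℕ} {d : Bool} {q : Cx} {f : Bool → ℕ} {x : ℕ} {r : Lab}
    (hr : r ∈ labU b) (e : Bool) :
    V.shf b d q f x r e = r.2.1 e * 2 ^ (V.lr b d q x r + f e) := by
  have : r.2.2 = 0 := by simpa using (mem_labs.1 hr).2.2
  rw [Tb.shf, this, zero_mul, Nat.xor_zero]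

theorem pow_le {i j : ℕ} (h : i ≤ j) : (2 : ℝ) ^ i ≤ 2 ^ j := pow_le_pow_right₀ one_le_two h

section main

variable {cf : Cf} {W : ℕ → Tb} {j b x : ℕ} {d : Bool} {q : Cx} {f : Bool → ℕ} {h : ℕ}
  (hP : Pre cf W (j + b)) (hx : x < nm cf.n0 (j + b)) (hb0 : b ≠ 0) (hf : FOk cf (j + b) q f)
  (hh : h < 2 ^ cf.m)
include hP hx

theorem lr_eq {r : Lab} (hc : x / (W j).L.n = r.1 d) :
    (W j).lr b d q x r = (W (j + b)).lam d q x := by
  have := hP.tab.lr_eq (Nat.le_add_left b j) hx q (d := d) (r := r)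
  rw [Nat.add_sub_cancel] at this
  exact this hc

include hf

theorem shf_lt {r : Lab} (hr : r ∈ labU b) (hc : x / (W j).L.n = r.1 d) (e : Bool) :
    (W j).shf b d q f x r e < 2 ^ cf.m := by
  have h1 := hP.tab.lam_add_le hf hx d e
  rw [shf_eq hr, lr_eq hP hx hc]
  refine (Nat.mul_lt_mul_of_pos_right ((mem_labs.1 hr).2.1 e) (by positivity)).trans_le ?_
  rw [← pow_add]
  refine Nat.pow_le_pow_right two_pos ?_
  rw [mul_add] at h1
  omega

include hb0 hh

open Classical in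
/-- The troubles of the lower level. -/
theorem low_le {p hp : ℕ} (h1 : p < nm cf.n0 cf.K) (h2 : hp < 2 ^ cf.m) :
    cf.JS (fun s => ∑ r ∈ labU b, if x / (W j).L.n = r.1 d ∧
        (h ^^^ (W j).shf b d q f x r d) / 2 ^ ((W j).lr b d q x r + f d) % 2 ^ (cF * b) = 0 then
      (W j).T d (q.up b r.1) (fU b f) (x % (W j).L.n) (h ^^^ (W j).shf b d q f x r d)
        ((W j).ek cf b d q f x (cf.rot s p hp) r (!d)) else 0) ≤
    eps q (f !d) ^ 2 / 1024 + if p < nm cf.n0 (j + b) ∧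
      hp % 2 ^ ((W (j + b)).lam d q x + f !d) < 2 ^ (W (j + b)).lam d q x then eps q (f !d) / 8
      else 0 := by
  obtain ⟨g, hg⟩ := Nat.exists_eq_add_of_le (hf.slack (!d))
  obtain ⟨c, hc⟩ : ∃ c, c = (3 * a + B + 13) * b := ⟨_, rfl⟩
  have he : ∀ cc, eps (q.up b cc) (fU b f !d) = eps q (f !d) / 2 ^ c := by
    intro cc
    rw [eps, eps, div_div, ← pow_add, fU, Cx.up_age, hg, hc]
    congr 2
    have : cF * b = cS * b + (3 * a + B + 13) * b := by unfold cF cS; ring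
    rw [mul_add]
    omega
  have hε := eps_pos q (f !d)
  set l := (W (j + b)).lam d q x with hl
  rw [Cf.JS_sum]
  refine (sum_far d _ _ (x / (W j).L.n) (h / 2 ^ (l + f d) % 2 ^ (cF * b)) _
    (fun v t => (eps q (f !d) / 2 ^ c) ^ 2 + if v = p / nm cf.n0 j then
      if t = hp / 2 ^ (l + f !d) % 2 ^ (cF * b) then
        (if p < nm cf.n0 (j + b) ∧ hp % 2 ^ (l + f !d) < 2 ^ l then eps q (f !d) / 2 ^ c else 0)
      else 0 else 0) (fun v t => by split_ifs <;> positivity) fun r hr => ?_).trans ?_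
  · have hr' := mem_labs.1 hr
    by_cases h3 : x / (W j).L.n = r.1 d ∧
        (h ^^^ (W j).shf b d q f x r d) / 2 ^ ((W j).lr b d q x r + f d) % 2 ^ (cF * b) = 0
    · have hlr := lr_eq hP hx (q := q) h3.1
      simp only [h3, and_self, if_true, true_and]
      rw [if_pos (win_eq (hr'.2.1 d) (by simpa only [shf_eq hr, hlr] using h3.2))]
      simp only [Tb.ek, Cf.ent_rot]
      have hG := (hP.good j (by omega)).T d (x % nm cf.n0 j) (mod_nm_lt _ _ _)
      have hF := hf.up (Nat.le_add_left b j) r.1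
      rw [Nat.add_sub_cancel] at hF
      have h4 : nm cf.n0 j * r.1 (!d) < nm cf.n0 (j + b) := by
        simpa using add_nm_lt (nm_pos cf.n0 j) (hr'.1 (!d))
      have h5 : p ^^^ nm cf.n0 j * r.1 (!d) < nm cf.n0 cf.K :=
        Nat.xor_lt_two_pow h1 (hP.nm_le_K h4)
      have h6 := Nat.xor_lt_two_pow hh (shf_lt hP hx hf hr h3.1 d)
      have h7 := Nat.xor_lt_two_pow h2 (shf_lt hP hx hf hr h3.1 (!d))
      rw [hP.tab.n_eq, ← he r.1]
      by_cases h8 : p ^^^ nm cf.n0 j * r.1 (!d) < nm cf.n0 j ∧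
          (hp ^^^ (W j).shf b d q f x r (!d)) %
            2 ^ ((W j).lam d (q.up b r.1) (x % nm cf.n0 j) + fU b f (!d)) <
          2 ^ (W j).lam d (q.up b r.1) (x % nm cf.n0 j)
      · have h9 : (W j).lam d (q.up b r.1) (x % nm cf.n0 j) = l := by
          rw [← hP.tab.n_eq]; exact hlr
        rw [h9, shf_eq hr, hlr, fU, ← add_assoc, sh_lt_iff (hr'.2.1 _)] at h8
        have h10 : p = (p ^^^ nm cf.n0 j * r.1 (!d)) + nm cf.n0 j * r.1 (!d) := by
          rw [add_mul_eq_xor h8.1, mul_comm (r.1 !d), Nat.xor_assoc, Nat.xor_self, Nat.xor_zero]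
        rw [if_pos (by rw [h10, add_nm_div h8.1]), if_pos h8.2.1,
          if_pos ⟨by rw [h10]; exact add_nm_lt h8.1 (hr'.1 _), h8.2.2⟩]
        exact (hG.own hF h6 h5 h7).trans (le_add_of_nonneg_left (sq_nonneg _))
      · refine (hG.oth hF h6 h5 h7 h8).trans (le_add_of_nonneg_right ?_)
        have := eps_pos (q.up b r.1) (fU b f !d)
        split_ifs <;> positivity
    · simp only [h3, if_false, Cf.JS_const]
      split_ifs <;> positivity
  · simp only [sum_add_distrib, sum_const, card_range, nsmul_eq_mul]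
    refine add_le_add ?_ ?_
    · push_cast
      rw [div_pow, ← mul_assoc, ← pow_add, ← pow_mul, mul_div_assoc', div_le_div_iff₀
        (by positivity) (by positivity), show (1024 : ℝ) = 2 ^ 10 by norm_num, mul_right_comm,
        ← pow_add, mul_comm]
      refine mul_le_mul_of_nonneg_left (pow_le ?_) (sq_nonneg _)
      have : c * 2 = a * b + cF * b + 10 * b := by rw [hc]; unfold cF; ring
      omega
    · have h3 : eps q (f !d) / 2 ^ c ≤ eps q (f !d) / 8 := by
        refine div_le_div_of_nonneg_left hε.le (by norm_num) ?_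
        rw [show (8 : ℝ) = 2 ^ 3 by norm_num]
        refine pow_le ?_
        have : c = 13 * b + (3 * a + B) * b := by rw [hc]; ring
        omega
      have h4 : 0 ≤ eps q (f !d) / 8 := by positivity
      by_cases h5 : p < nm cf.n0 (j + b) ∧ hp % 2 ^ (l + f !d) < 2 ^ l
      · simp only [h5, and_self, if_true, sum_ite_irrel, sum_const_zero, sum_ite_eq']
        split_ifs
        exacts [h3, h4, h4]
      · simp [h5]

omit hh hf hb0 in
/-- An option with a nonzero strength. -/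
theorem of_uU {k : Key} {s : ℕ} {r : Lab} (hr : r ∈ labU b)
    (hu : (W (j + b)).uU (W j) cf b d q f x (two d (cf.rot s x h) k) r ≠ 0) {y : ℕ}
    (hy : y = Classical.epsilon ((W j).cand cf d (q.up b r.1) (fU b f) (x % (W j).L.n)
      (h ^^^ (W j).shf b d q f x r d) ((W j).ek cf b d q f x k r (!d))) + (W j).L.n * r.1 (!d)) :
    (W (j + b)).sig d q x y ≠ 0 ∧ mt ((W (j + b)).lam d q x) f d h (cf.val k y) ∧
      r = (two d (x / nm cf.n0 j) (y / nm cf.n0 j),
        two d (h / 2 ^ ((W (j + b)).lam d q x + f d) % 2 ^ (cF * b))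
          (cf.val k y / 2 ^ ((W (j + b)).lam d q x + f !d) % 2 ^ (cF * b)), 0) := by
  have hr' := mem_labs.1 hr
  have h1 := left_ne_zero_of_mul hu
  have h2 := right_ne_zero_of_mul hu
  unfold Tb.sU at h1
  split_ifs at h1 with h3
  swap
  · exact absurd rfl h1
  have h4 : cf.val ((W j).kU cf b d q f x (two d (cf.rot s x h) k) r d) (x % (W j).L.n) =
      h ^^^ (W j).shf b d q f x r d := by
    rw [Tb.kU, Tb.ek, Cf.val_ent, ← h3, hP.tab.n_eq, mod_xor_nm, two_same, Cf.val_rot]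
  have h5 := (Tb.of_s h1).1
  unfold Tb.eU at h2
  unfold Tb.pt at h2 h5
  rw [h4, show (W j).kU cf b d q f x (two d (cf.rot s x h) k) r (!d) =
    (W j).ek cf b d q f x k r (!d) by rw [Tb.kU, two_not]] at h2 h5
  rw [← hy] at h2
  generalize (Classical.epsilon _ : ℕ) = y0 at hy h5
  have h6 := (hP.tab.cand_lt hP.ok.N_le h5).2
  have h7 := h5.2
  rw [hP.tab.n_eq] at hy
  have h8 : (W j).lam d (q.up b r.1) (x % (W j).L.n) = (W (j + b)).lam d q x := lr_eq hP hx h3
  rw [h8, Tb.ek, Cf.val_ent, hP.tab.n_eq, mul_comm (nm _ _), ← add_mul_eq_xor h6, ← hy, shf_eq hr,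
    shf_eq hr, lr_eq hP hx h3, mt_iff] at h7
  simp only [fU, ← add_assoc, sh_lt_iff (hr'.2.1 _), sh_mod (hr'.2.1 _)] at h7
  refine ⟨h2, mt_iff.2 ⟨h7.1.2, h7.2.1.2, h7.2.2⟩, Prod.ext (eq_two.2 ⟨?_, ?_⟩)
    (Prod.ext (eq_two.2 ⟨h7.1.1, h7.2.1.1⟩) (by simpa using hr'.2.2))⟩
  · rw [← h3, hP.tab.n_eq]
  · rw [hy, add_nm_div h6]

omit hb0 hh in
open Classical in
/-- The collisions. -/
theorem coll_le (hm : (W (j + b)).mu d x ≠ 0) {p hp : ℕ} (h1 : p < nm cf.n0 cf.K)
    (h2 : hp < 2 ^ cf.m) :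
    cf.JS (fun s' => (∑ r ∈ labU b, cf.JS fun s => (W (j + b)).uU (W j) cf b d q f x
        (two d (cf.rot s x h) (cf.rot s' p hp)) r) ^ 2 - ∑ r ∈ labU b,
      (cf.JS fun s => (W (j + b)).uU (W j) cf b d q f x
        (two d (cf.rot s x h) (cf.rot s' p hp)) r) ^ 2) ≤
    (eps q (f !d) / 1024) ^ 2 + if p < nm cf.n0 (j + b) ∧
      hp % 2 ^ ((W (j + b)).lam d q x + f !d) < 2 ^ (W (j + b)).lam d q x then eps q (f !d) / 512
      else 0 := by
  set l := (W (j + b)).lam d q x with hl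
  set w : ℕ → ℝ := fun y =>
    if (W (j + b)).sig d q x y ≠ 0 ∧ h % 2 ^ (l + f d) < 2 ^ l then 1 else 0 with hw
  have hw0 : ∀ y, 0 ≤ w y := fun y => by simp only [hw]; split_ifs <;> norm_num
  have hε := eps_pos q (f !d)
  have h3 : (∑ v ∈ range (nm cf.n0 (j + b)), w v) / 2 ^ (l + f !d) ≤ eps q (f !d) / 1024 := by
    have h4 : ∑ v ∈ range (nm cf.n0 (j + b)), w v ≤
        2 ^ (l + 2 * B + 3 + (cH + 1) * q.age) := by
      refine le_trans ?_ (stCnt hP hf.toOk hx hm)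
      rw [sum_boole]
      exact Nat.cast_le.2 (card_le_card (monotone_filter_right _ fun y _ hy => hy.1))
    obtain ⟨g, hg⟩ := Nat.exists_eq_add_of_le (hf.slack (!d))
    rw [eps, div_div, div_le_div_iff₀ (by positivity) (by positivity), one_mul,
      show (1024 : ℝ) = 2 ^ 10 by norm_num, ← pow_add]
    refine (mul_le_mul_of_nonneg_right h4 (by positivity)).trans ?_
    rw [← pow_add]
    refine pow_le ?_
    have h5 : cS * q.age = (cH + 1) * q.age + B * q.age := by unfold cS cH; ring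
    have h6 : 2 * B + 23 ≤ cZ := by unfold cZ; omega
    omega
  have h4 : 0 ≤ (∑ v ∈ range (nm cf.n0 (j + b)), w v) / 2 ^ (l + f !d) :=
    div_nonneg (sum_nonneg fun _ _ => hw0 _) (by positivity)
  refine le_trans (cf.JS_mono fun s' => ?_) ((Cf.JS_coll_le (ρ := h % 2 ^ (l + f d)) hP.ok.hash h1
    h2 (F := l + f !d) (by linarith [hP.tab.lam_add_le hf hx d (!d), Nat.zero_le (cF * (j + b))])
    (range (nm cf.n0 (j + b))) (fun v hv => hP.nm_le_K (mem_range.1 hv)) w (fun v _ => hw0 v)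
    (fun k v => if cf.val k v % 2 ^ (l + f !d) = h % 2 ^ (l + f d) then w v else 0)
    (fun k v _ => by split_ifs; exacts [hw0 v, le_rfl]) fun k v _ => le_rfl).trans ?_)
  · generalize cf.rot s' p hp = k
    have h5 : ∀ v, (if cf.val k v % 2 ^ (l + f !d) = h % 2 ^ (l + f d) then w v else 0) =
        if (W (j + b)).sig d q x v ≠ 0 ∧ mt l f d h (cf.val k v) then 1 else 0 := by
      intro v
      simp only [hw, ← ite_and]
      exact if_congr (by unfold mt; tauto) rfl rfl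
    simp only [h5, ite_pow, one_pow, ne_eq, OfNat.ofNat_ne_zero, not_false_eq_true, zero_pow,
      sum_boole]
    refine coll_le_card _ _ (fun r => cf.JS_nonneg fun s => mul_nonneg ?_ (Tb.sig_nonneg _ _ _ _ _))
      (fun r => cf.JS_le fun s => mul_le_one₀ ?_ (Tb.sig_nonneg _ _ _ _ _)
        (Tb.sig_le_one _ _ _ _ _)) ?_
    · unfold Tb.sU; split_ifs
      exacts [Tb.s_nonneg _ _ _ _ _ _ _, le_rfl]
    · unfold Tb.sU; split_ifs
      exacts [Tb.s_le_one _ _ _ _ _ _ _, zero_le_one]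
    · have h6 : ∀ r, (cf.JS fun s => (W (j + b)).uU (W j) cf b d q f x
          (two d (cf.rot s x h) k) r) ≠ 0 → ∃ s, (W (j + b)).uU (W j) cf b d q f x
          (two d (cf.rot s x h) k) r ≠ 0 := by
        intro r hr
        by_contra hc
        push Not at hc
        exact hr (by simp only [hc, Cf.JS_const])
      refine card_le_card_of_injOn (fun r => Classical.epsilon ((W j).cand cf d (q.up b r.1)
        (fU b f) (x % (W j).L.n) (h ^^^ (W j).shf b d q f x r d)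
        ((W j).ek cf b d q f x k r (!d))) + (W j).L.n * r.1 (!d)) (fun r hr => ?_)
        fun r hr r' hr' e => ?_
      · simp only [coe_filter, Set.mem_ofPred_eq] at hr ⊢
        obtain ⟨s, hs⟩ := h6 r hr.2
        have h7 := of_uU hP hx hr.1 hs rfl
        exact ⟨mem_range.2 (hP.tab.supp hP.ok.N_le (Tb.of_w (Tb.w_ne_of_sig h7.1)).2.1).2,
          h7.1, h7.2.1⟩
      · simp only [coe_filter, Set.mem_ofPred_eq] at hr hr'
        obtain ⟨s, hs⟩ := h6 r hr.2
        obtain ⟨s', hs'⟩ := h6 r' hr'.2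
        exact (of_uU hP hx hr.1 hs rfl).2.2.trans (of_uU hP hx hr'.1 hs' e).2.2.symm
  · refine add_le_add (pow_le_pow_left₀ h4 h3 2) ?_
    by_cases h5 : p ∈ range (nm cf.n0 (j + b)) ∧ hp % 2 ^ (l + f !d) = h % 2 ^ (l + f d)
    · rw [if_pos h5]
      by_cases h6 : (W (j + b)).sig d q x p ≠ 0 ∧ h % 2 ^ (l + f d) < 2 ^ l
      · rw [if_pos ⟨mem_range.1 h5.1, h5.2 ▸ h6.2⟩, show w p = 1 from if_pos h6]
        linarith
      · rw [show w p = 0 from if_neg h6]
        split_ifs <;> simp only [mul_zero, zero_mul] <;> positivity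
    · rw [if_neg h5]
      split_ifs <;> positivity

open Classical in
theorem mean_le (hm : (W (j + b)).mu d x ≠ 0) (hbq : b = hb q ((W (j + b)).mu d x)) {p hp : ℕ}
    (h1 : p < nm cf.n0 cf.K) (h2 : hp < 2 ^ cf.m) :
    cf.JS (fun s => (W (j + b)).T d q f x h (cf.rot s p hp)) ≤
    eps q (f !d) ^ 2 / 2 + if p < nm cf.n0 (j + b) ∧
      hp % 2 ^ ((W (j + b)).lam d q x + f !d) < 2 ^ (W (j + b)).lam d q x then eps q (f !d) / 2
      else 0 := by
  have h3 := low_le hP hx hb0 hf hh (d := d) h1 h2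
  have h4 := coll_le hP hx hf (h := h) hm h1 h2
  have hε := eps_pos q (f !d)
  simp only [hP.tab.TU _ _ _ _ _ _ _ hm, ← hbq, Nat.add_sub_cancel, Tb.TU]
  refine (cf.JS_mono fun s => cl3_le_self (add_nonneg (mul_nonneg zero_le_two
    (sum_nonneg fun r _ => ?_)) (mul_nonneg (by norm_num) (coll_nonneg fun r _ =>
      cf.JS_nonneg fun s => mul_nonneg ?_ (Tb.sig_nonneg _ _ _ _ _))))).trans ?_
  · split_ifs
    exacts [hP.tab.T_nonneg _ _ _ _ _ _ _, le_rfl]
  · unfold Tb.sU; split_ifs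
    exacts [Tb.s_nonneg _ _ _ _ _ _ _, le_rfl]
  · rw [Cf.JS_add, Cf.JS_mul_left, Cf.JS_mul_left]
    refine (add_le_add (mul_le_mul_of_nonneg_left h3 zero_le_two)
      (mul_le_mul_of_nonneg_left h4 (by norm_num))).trans ?_
    split_ifs <;> nlinarith [sq_nonneg (eps q (f !d))]

end main

end UB

theorem stUB : StUB := by
  intro cf W k x d hP hx hm
  have key : ∀ {q f h p hp}, FOk cf k q f → h < 2 ^ cf.m → p < nm cf.n0 cf.K → hp < 2 ^ cf.m →
      cf.JS (fun s => (W k).T d q f x h (cf.rot s p hp)) ≤ eps q (f !d) ^ 2 / 2 +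
        if p < nm cf.n0 k ∧ hp % 2 ^ ((W k).lam d q x + f !d) < 2 ^ (W k).lam d q x then
          eps q (f !d) / 2 else 0 := by
    intro q f h p hp hf hh h1 h2
    obtain ⟨j, hj⟩ := Nat.exists_eq_add_of_le' (hP.tab.hb_le k d q x)
    have h0 := hb_ne q hm
    generalize hb' : hb q ((W k).mu d x) = b at hj h0
    subst hj
    convert UB.mean_le hP hx h0 hf hh hm hb'.symm h1 h2 using 2
  refine ⟨fun {q f h p hp} hf hh h1 h2 => (key hf hh h1 h2).trans ?_,
    fun {q f h p hp} hf hh h1 h2 h3 => (key hf hh h1 h2).trans ?_⟩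
  · have := eps_pos q (f !d)
    have := eps_le q (f !d)
    split_ifs <;> nlinarith
  · rw [if_neg h3]
    nlinarith [sq_nonneg (eps q (f !d))]

end Vale.Agent.P313.Full
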