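import Vale.Agent.P313.Full.Tab0
import Vale.Agent.P313.Full.TabH
import Vale.Agent.P313.Full.TabU
import Vale.Agent.P313.Full.TabUB
import Vale.Agent.P313.Full.TabMB
import Vale.Agent.P313.Full.TabM2
import Vale.Agent.P313.Full.TabM3
import Vale.Agent.P313.Full.TabEx

/-! All the facts about the ideal tables. -/

namespace Vale.Agent.P313.Full

theorem stUq : StUq := stUq_of stNest

theorem stU : StU := stU_of stNest

theorem stMw : StMw := stMw_of stMB

theorem good_tab {cf : Cf} {W : ℕ → Tb} (hc : cf.Ok) (hW : IsTab cf W) :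
    ∀ k ≤ cf.K, Good cf W k := good_all st0 stUq stUB stMq stMB stH hc hW

theorem pre_tab {cf : Cf} {W : ℕ → Tb} (hc : cf.Ok) (hW : IsTab cf W) {k : ℕ} (hk : k ≤ cf.K) :
    Pre cf W k := ⟨hc, hW, hk, fun j hj => good_tab hc hW j (by omega)⟩

end Vale.Agent.P313.Full
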