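import Vale.Agent.P313.Full.PgV0
import Vale.Agent.P313.Full.PgU1
import Vale.Agent.P313.Full.PgU2
import Vale.Agent.P313.Full.PgU3
import Vale.Agent.P313.Full.PgU4
import Vale.Agent.P313.Full.PgU5
import Vale.Agent.P313.Full.PgM1
import Vale.Agent.P313.Full.PgM2
import Vale.Agent.P313.Full.PgM3
import Vale.Agent.P313.Full.PgM4
import Vale.Agent.P313.Full.PgM5
import Vale.Agent.P313.Full.PgM6
import Vale.Agent.P313.Full.PgM7
import Vale.Agent.P313.Full.PgM8
import Vale.Agent.P313.Full.PgM9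
import Vale.Agent.P313.Full.PgS0
import Vale.Agent.P313.Full.PgS1
import Vale.Agent.P313.Full.PgS2
import Vale.Agent.P313.Full.PgWV
import Vale.Agent.P313.Full.PgWS
import Vale.Agent.P313.Full.PgS3
import Vale.Agent.P313.Full.PgWM
import Vale.Agent.P313.Full.TabAll
import Vale.Agent.P313.Full.PgSP
import Vale.Agent.P313.Full.DslMain
import Vale.Agent.P313.Full.PgTop

/-! The program for the tables computes the tables. -/

namespace Vale.Agent.P313.Full

open Finset Function Hi Tm

variable {α : Type} {I : α → In} {a : α} {W : ℕ → Tb} {k j : ℕ}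

theorem prog_wf (h : (I a).Ok2) : (prog I).WF a := wf_of h fun t => by
  rcases t with ⟨_ | _, d⟩ | ⟨_ | _, d⟩ | ⟨_ | _, d⟩ | ⟨_ | _, d⟩ | (_ | _) | d | d | d | _
  exacts [(wfp_false h d).1, (wfp_true h d).1, (wfp_false h d).2.1, (wfp_true h d).2.1,
    (wfp_false h d).2.2.1, (wfp_true h d).2.2.1, (wfp_false h d).2.2.2.1, (wfp_true h d).2.2.2.1,
    (wfp_false h true).2.2.2.2.1, (wfp_true h true).2.2.2.2.1, wfp_Ch h d,
    (wfp_false h d).2.2.2.2.2, (wfp_true h d).2.2.2.2.2.1, (wfp_true h true).2.2.2.2.2.2]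

theorem lvg_false (E : Env I a W) (L : Low I a W k) : Lvg I a W false k ∧ UncSt I a false k := by
  cases k with
  | zero => exact ⟨lvg_zero E, uncSt_zero⟩
  | succ j =>
    have L' := L j (Nat.lt_succ_self j) true
    have h0 : M0 I a W j := m0 E L'
    have h3 : M3 I a W j := m3 E L' h0
    have h4 : M4 I a W j := m4 E L' h0 (m1 E L' h0) h3
    have h5 : M5 I a W j := m5 E
    have hT : VT I a W false (j + 1) := vt_false E L' (m2 E L' h0) h3 h4 h5
    have h6 : M6 I a W j := m6 E h4 h5 hT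
    have h7 : M7 I a W j := m7 E L' h0 h5 (vx E h4 h5)
    have hd : VMd I a W j := vmd E h0 h7
    have h8 : M8 I a W j := m8 E L' h0
    have hw : VWm I a W j := vwm E h4 h5 h6 h8 (m9 E L' h0) (m10 E L' h0 h5 h8 hT) hd hT
    have hS : VS I a W false (j + 1) := vs_false E h6 hd hw hT
    have hW : VW I a W false (j + 1) := vw_false E hw
    exact ⟨⟨hT, hS, hW, vh_false E hS hW, vm_false E hd⟩, uncSt_false E h0 h7⟩

theorem lvg_true (E : Env I a W) (L : Low I a W k) : Lvg I a W true k ∧ UncSt I a true k := by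
  have F := (lvg_false E L).1
  have h1 : U1 I a W k := u1 E L
  have h2 : U2 I a W k := u2 E L
  have h3 : U3 I a W k := u3 E L h2
  have hH : VH I a W true k := vh_true E L h1 h3 F.H
  have h4 : U4 I a W k := u4 E h1 h2 h3 hH
  have hT : VT I a W true k := vt_true E L h4 F.T
  exact ⟨⟨hT, vs_true E h2 h4 hT F.S, vw_true E h3 h4 F.W', hH, vm_true E h2 h4 F.M⟩,
    uncSt_true E h2 h4⟩

theorem low_all (E : Env I a W) : ∀ k, Low I a W k
  | 0 => fun _ h => absurd h (Nat.not_lt_zero _)
  | k + 1 => fun j hj g => by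
    rcases Nat.lt_succ_iff_lt_or_eq.1 hj with h | rfl
    · exact low_all E k j h g
    · cases g
      exacts [(lvg_false E (low_all E j)).1, (lvg_true E (low_all E j)).1]

theorem lvg_all (E : Env I a W) (g : Bool) (k : ℕ) : Lvg I a W g k :=
  low_all E (k + 1) k (Nat.lt_succ_self k) g

theorem env_of (h : (I a).Ok2) (hW : IsTab (I a).toCf W) : Env I a W :=
  ⟨h, hW, good_tab h.toOk hW, prog_wf h, stU, stM, stMv, stMw⟩

theorem uncSt_all (E : Env I a W) (g : Bool) (k : ℕ) : UncSt I a g k := by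
  cases g
  exacts [(lvg_false E (low_all E k)).2, (lvg_true E (low_all E k)).2]

/-- The three classes coincide. -/
theorem collapse (A : Type) [Finite A] : LOG A = RL A ∧ RL A = BPL A :=
  collapse_of_prog cw_m cw_L good_tab (progAll_of
    (fun _ h1 h2 h3 h4 h5 => prog_isSP ⟨h1, h2, h3, h4, h5⟩) fun _ _ _ h hW _ =>
      topFacts_of (env_of h hW) (lvg_all (env_of h hW) true) (uncSt_all (env_of h hW)))

end Vale.Agent.P313.Full
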