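import Vale.Agent.P313.Full.PgW
import Vale.Agent.P313.Full.TabB0

/-! The program for the tables: the bodies of the procedures, the sizes and the potential. -/

namespace Vale.Agent.P313.Full

open Finset Function Hi Tm

variable {α : Type} (I : α → In)

/-- The inverse of the threshold. -/
noncomputable def iTh (a : α) (q : QQ) : ℝ := (I a).pw (B + 1 + q .age)

/-- The inverse of the unit of the merged levels. -/
noncomputable def iTa (a : α) (q : QQ) : ℝ := (I a).pw (B + 6 + q .age)

/-- The normalisation of the weights. -/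
noncomputable def pD (a : α) (q : QQ) : ℝ := (I a).pw (dn q)

/-- The scale of the statistics. -/
noncomputable def scH (a : α) (q : QQ) : ℝ :=
  (I a).pw (2 * (cZ + cS * q .age)) / (I a).pw (cH * q .age) * pD I a q

/-- The bound for the sums of masses. -/
noncomputable def scX (a : α) (q : QQ) : ℝ := (I a).pw (8 * (cw * (q .age + 1)))

/-- The ramp of the significance. -/
noncomputable def sgR (a : α) (q : QQ) (x : ℝ) : ℝ := cl (2 * (pD I a q * x) * iTh I a q - 1)

/-- The hard guard. -/
noncomputable def hG (x : ℝ) : ℝ := pp (Gd x)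

open Classical in
/-- A case distinction: merged name (or level `0`) in the direction `d`, or not. -/
noncomputable def altM (d : Bool) (e₁ e₂ : Trm α) : Trm α :=
  alt (fun _ a q s => decide ((I a).mus d q s = 0)) e₁ e₂

/-! ### Layers -/

/-- `sU`. -/
noncomputable def sUt (d : Bool) : Trm α :=
  .guard (ts I (Cf.tU · d)) (aft (enU I d) (cU (.S · d) FU))

/-- The normalised weight of the option. -/
noncomputable def wUt (d : Bool) : Trm α := cl' (.Ch d) fun q => Fi q (bU q)

/-- `fac`. -/
noncomputable def facT (e : Bool) : Trm α := altM I e (cst 1) (fn rd (cl' (.H true e) FH))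

/-- `uU`. -/
noncomputable def uUt (d : Bool) : Trm α :=
  .guard (sUt I d) (.guard (.guard (ap1 (fun a q _ => sgR I a q) (wUt d)) (facT I d))
    (hop d (linkU I) (facT I (!d))))

/-- `TU`. -/
noncomputable def bodyTU (d : Bool) : Trm α :=
  app (fun _ _ _ x y => cl3 (2 * x + y))
    (smL I vU (.guard (ts I fun cf q s => cf.tU d q s ∧ cf.zU d q s)
      (aft (enU I d) (cU (.T · d) FU))))
    (app (fun _ _ _ x y => cl3 (100 * (x - y)))
      (.guard (smL I vU (avR I d (uUt I d))) (smL I vU (avR I d (uUt I d))))
      (smL I vU (.guard (avR I d (uUt I d)) (avR I d (uUt I d)))))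

/-- `HU`. -/
noncomputable def bodyHU (d : Bool) : Trm α :=
  app (fun a q _ x y => clH (scH I a q * x + 3 / 2 * y))
    (avK I d (smL I vU (.guard (sUt I d) (wUt d))))
    (smL I (fun q => vU q ∧ (lb q).2.1 true = 0 ∧ (lb q).2.1 false = 0)
      (.guard (ts I (Cf.tU · d)) (cU (.H · d) fun q => FH (FU q))))

/-- The strength at a name without a merge. -/
noncomputable def bodySU (d : Bool) : Trm α :=
  fn cl (.guard (fn Gd (cl' (.T true d) F0)) (smL I vU (.guard (fn psi (uUt I d))
    (hop d (linkU I) (fn Gd (cl' (.T true (!d)) F0))))))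

/-- The weight at a name without a merge. -/
noncomputable def bodyWU (d : Bool) : Trm α :=
  fn cl (smL I vU (.guard (fn psw (uUt I d)) (wUt d)))

/-- The move at a name without a merge. -/
noncomputable def bodyStU : Trm α :=
  search unV (fun a => (I a).nl) .lab (cs vU (uUt I true) (cst 0)) (cs vU (uUt I false) (cst 0))
    (cs vU (linkU I) stop)

/-! ### Merged names -/

/-- `s1`, at the near end on the lower level. -/
noncomputable def g1t (d : Bool) : Trm α := fn gg (inH d (.S true d))

/-- `s2`, at the midpoint. -/
noncomputable def g2t (d : Bool) : Trm α := fn gg (inH (!d) (.S true d))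

/-- The hard guard for the trouble `T d` of the half `e`. -/
noncomputable def hGt (e d : Bool) : Trm α := fn hG (inH e (.T true d))

/-- The product of `a1` and the number `e` at the midpoint. -/
noncomputable def a1t (d : Bool) (e : Trm α) : Trm α :=
  .guard (ts I (Cf.okS · d)) (aft (enM I d) (.guard (g1t d) (.guard (hGt d d)
    (hop d (half d) (.guard (ts I Cf.locS) (.guard (hGt d (!d)) e))))))

/-- The product of `Z`, the number `e₁` at the midpoint and the number `e₂` at the end. -/
noncomputable def Zt (d : Bool) (e₁ e₂ : Trm α) : Trm α :=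
  a1t I d (.guard (g2t d) (.guard (hGt (!d) d) (.guard (hop d (half (!d)) (hGt (!d) (!d)))
    (.guard (wZ I) (.guard e₁ (hop d (half (!d)) (aft (enM I (!d)) e₂)))))))

/-- The average over the spare key of the sum over the links. -/
noncomputable def avL (e : Trm α) : Trm α := avg (keyV I none) (smL I vM e)

/-- The mass weighted with the number `e` at the end. -/
noncomputable def mass (d : Bool) (e : Trm α) : Trm α := avL I (Zt I d (cst 1) e)

/-- The mass weighted with the character. -/
noncomputable def bodyX (d : Bool) : Trm α :=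
  ap1 (fun a q _ x => clp 1 (x / scX I a q)) (mass I d (chT I))

/-- `TM`. -/
noncomputable def bodyTM (d : Bool) : Trm α :=
  app (fun a q _ x y => cl3 (12 * x * iTa I a q + y))
    (avR I d (avL I (a1t I d (.guard (wI I d) (inH (!d) (.T true d))))))
    (app (fun a q _ x y => cl3 ((x - y) * iTa I a q ^ 2))
      (.guard (avR I d (mass I d (cst 1))) (avR I d (mass I d (cst 1))))
      (avg (chV I) (.guard (avR I d (mass I d (chT I))) (avR I d (mass I d (chT I))))))

/-- `gate`. -/
noncomputable def gateT (d : Bool) (t : ℝ) : Trm α :=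
  .guard (fn Gp (cl' (.T false d) F0)) (ap1 (fun a q _ x => cl (x * iTa I a q - t))
    (mass I d (fn Gp (cl' (.T false (!d)) F0))))

/-- `gg s2`, at the near end. -/
noncomputable def g2n (d : Bool) : Trm α := aft (enM I d) (hop d (half d) (g2t d))

/-- `tst`. -/
noncomputable def tstT (d : Bool) : Trm α :=
  .guard (ts I (Cf.okS · d)) (ap1 (fun a q _ x => cl (x * scX I a q * iTa I a q / 4))
    (.guard (aft (enM I d) (g1t d)) (.guard (g2n I d)
      (avg (chV I) (.guard (hop d (linkM I) (chT I)) (cl' (.X d) F0))))))

/-- The move at a merged name. -/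
noncomputable def bodyStM : Trm α :=
  search (keyV I none) (fun a => (I a).nl) .lab (cs vM (tstT I true) (cst 0))
    (cs vM (tstT I false) (cst 0)) (cs vM (linkM I) stop)

/-- `al`. -/
noncomputable def alT (d : Bool) : Trm α :=
  .guard (ts I fun cf q s => cf.dgOk 1 (lb q) d q s)
    (aft (enM I d) (.guard (g1t d) (hop d (half d) (hGt d (!d)))))

/-- `pA`. -/
noncomputable def pAt (d : Bool) : Trm α :=
  avR I d (.guard (alT I d) (.guard (g2n I d)
    (hop d (linkM I) (fn Gd (cl' (.T false (!d)) F0)))))

/-- `pM`, at the midpoint. -/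
noncomputable def pMt (d : Bool) : Trm α :=
  avg (rotV I none 1) (.guard (.guard (g2t (!d)) (hop (!d) (half d) (hGt d d)))
    (.guard (g2t d) (hop d (half (!d)) (hGt (!d) (!d)))))

/-- `wIn`, weighted with the character at the end. -/
noncomputable def wInT (d : Bool) : Trm α :=
  avR I d (avL I (.guard (fn Full.inv (avR I d (alT I d)))
    (Zt I d (fn Full.inv (pMt I d)) (.guard (chT I) (fn Full.inv (pAt I (!d)))))))

/-- The weight at a merged name. -/
noncomputable def bodyWM (d : Bool) : Trm α :=
  ap1 (fun a q _ x => cl (x / pD I a q)) (avR I d (.guard (gateT I d 4)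
    (avg (chV I) (.guard (chT I) (hop d (cl' (.St false) F0)
      (.guard (fn Gd (cl' (.T false (!d)) F0)) (wInT I (!d))))))))

/-- The strength at a merged name. -/
noncomputable def bodySM (d : Bool) : Trm α :=
  .guard (gateT I d 8) (.guard (fn Gd (cl' (.T false d) F0))
    (.guard (hop d (cl' (.St false) F0) (fn Gd (cl' (.T false (!d)) F0)))
      (ap1 (fun a q _ x => psi (sgR I a q x)) (cl' (.W false d) F0))))

/-- `HM`. -/
noncomputable def bodyHM (d : Bool) : Trm α :=
  ap1 (fun a q _ x => clH (scH I a q * x))
    (avK I d (.guard (cl' (.S false d) F0) (cl' (.W false d) F0)))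

/-! ### The level `0` -/

/-- The trouble. -/
noncomputable def bodyT0 (d : Bool) : Trm α := loc fun a q s =>
  (I a).T0 d (cx q) (ff q) ((I a).nx 0 s) ((I a).hv 0 d s) (ky s (!d))

/-- The strength. -/
noncomputable def bodyS0 (d : Bool) : Trm α := loc fun a q s =>
  (I a).s0 d (cx q) (ff q) ((I a).nx 0 s) (ky s)

/-- The weight. -/
noncomputable def bodyW0 (d : Bool) : Trm α := loc fun a q s =>
  cl ((I a).w0 d ((I a).nx 0 s) ((I a).p0 d (cx q) (ff q) ((I a).nx 0 s) (ky s)))

/-- The statistic. -/
noncomputable def bodyH0 (d : Bool) : Trm α := loc fun a q s =>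
  clH ((I a).H0 d (cx q) ((I a).nx 0 s))

open Classical in
/-- The move. -/
noncomputable def bodySt0 : Trm α :=
  mloc (fun d a q s => decide ((I a).ok0 d (cx q) (ff q) ((I a).nx 0 s) (ky s)))
    fun d a q s => (I a).mv 0 s ((I a).p0 d (cx q) (ff q) ((I a).nx 0 s) (ky s))

/-! ### The program -/

/-- The level `0` or a merged name. -/
noncomputable def lv0 (e₁ e₂ : Trm α) : Trm α := cs (fun q => q .lev = 0) e₁ e₂

open Classical in
/-- The bodies. -/
noncomputable def body : Pc → Trm α
  | .T false d => lv0 (bodyT0 I d) (bodyTM I d)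
  | .S false d => lv0 (bodyS0 I d) (bodySM I d)
  | .W false d => lv0 (bodyW0 I d) (bodyWM I d)
  | .H false d => lv0 (bodyH0 I d) (bodyHM I d)
  | .St false => lv0 (bodySt0 I) (bodyStM I)
  | .T true d => altM I d (cl' (.T false d) F0) (bodyTU I d)
  | .S true d => altM I d (cl' (.S false d) F0) (bodySU I d)
  | .W true d => altM I d (cl' (.W false d) F0) (bodyWU I d)
  | .H true d => altM I d (cl' (.H false d) F0) (bodyHU I d)
  | .St true => alt (fun d a q s => decide ((I a).mus d q s = 0)) (cl' (.St false) F0) (bodyStU I)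
  | .Ch d => bodyCh I d
  | .X d => bodyX I d
  | .topH d => .guard (tst fun a _ s => decide (s .nm = (I a).x0)) (cl' (.H true d) F0)
  | .topR => .guard (tst fun a _ s => decide (s .nm = (I a).x0)) (.guard (cl' (.S true true) F0)
      (.guard (hop true (cl' (.St true) F0) (tst fun a _ s => decide (s .nm = (I a).m0)))
        (fn (fun x => cl x * phi x) (cl' (.W true true) F0))))

/-- The rank of a procedure among the procedures of a level. -/
def Pc.rk : Pc → ℕ
  | .X _ => 1
  | .T false _ => 2
  | .St false => 3
  | .W false _ => 4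
  | .S false _ => 5
  | .H false _ => 6
  | .Ch _ => 7
  | .H true _ => 8
  | .T true _ => 9
  | .W true _ => 9
  | .St true => 9
  | .S true _ => 10
  | .topH _ => 11
  | .topR => 11

/-- The moves. -/
def Pc.mvp : Pc → Bool
  | .St _ => true
  | _ => false

/-- The size of the nodes of the chain. -/
noncomputable def nC : ℕ := B + 4

/-- The size of the other nodes per step of the age. -/
noncomputable def nA : ℕ := 10 * cw

/-- The price of a step of the chain. -/
noncomputable def uC : ℕ := nC + 4 * cSv Cv + 2

/-- The price of a rank per step of the age. -/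
noncomputable def uR : ℕ := nA + uC + 12 * cw * cSv Cv + 2

/-- The price of a level. -/
noncomputable def uL : ℕ := 24 * uR

/-- The potential for the rank `r`. -/
noncomputable def potR (r : ℕ) (q : QQ) : ℕ :=
  uL * q .lev + r * (uR * (q .age + 1)) + cSv Cv * (q (.f true) + q (.f false)) + uC * q .idx

/-- The conditions on the label and the index, and the special conditions of a procedure. -/
def Pc.ad (q : QQ) : Pc → Prop
  | .Ch _ => vU q ∧ q .lab < 2 ^ (5 * (cw * (q .age + 1))) ∧ q .idx ≤ bU q
  | .X _ => q .lab = 0 ∧ q .idx = 0 ∧ q .lev ≠ 0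
  | .H _ _ => q .lab = 0 ∧ q .idx = 0 ∧ ff q = fH (q .age)
  | .topH _ => q = Fr (q .lev)
  | .topR => q = Fr (q .lev)
  | _ => q .lab = 0 ∧ q .idx = 0

/-- The program. -/
noncomputable def prog : Pg α Rg Cv Pc where
  bd a := (I a).bd
  body := body I
  mvp := Pc.mvp
  rg := B + 2
  adm t a q := FOk (I a).toCf (q .lev) (cx q) (ff q) ∧ t.ad q
  sz t _ q := match t with
    | .Ch _ => nC
    | _ => nA * (q .age + 1)
  pot t _ q := potR t.rk q

end Vale.Agent.P313.Full
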