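import Vale.Agent.P313.Full.PgLib
import Vale.Agent.P313.Full.DslBasic
import Vale.Agent.P313.KHash

/-! A predicate of the two ends of a move: the bit number `idx` (read at the target) of the number
`row` (read at the source). The register `R` has an arbitrary content. -/

namespace Vale.Agent.P313.Full

open Function Finset Vale.Agent.Lib.Space KH

variable {α σ κ τ : Type} [DecidableEq σ]

/-- The distance of two numbers, clamped to the unit interval. -/
noncomputable def dst (x y : ℝ) : ℝ := min 1 |x - y|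

theorem abs_dst_le (x y : ℝ) : |dst x y| ≤ 1 :=
  abs_le.2 ⟨le_min (by norm_num) (by linarith [abs_nonneg (x - y)]), min_le_left _ _⟩

theorem abs_dst_sub {x y x' y' ε : ℝ} (h1 : |x - x'| ≤ ε) (h2 : |y - y'| ≤ ε) :
    |dst x y - dst x' y'| ≤ 2 * ε := by
  refine (abs_min_sub_min_le_max _ _ _ _).trans (max_le ?_ ((abs_abs_sub_abs_le _ _).trans ?_))
  · simpa using (abs_nonneg _).trans h1
  · rw [show x - y - (x' - y') = (x - x') - (y - y') by ring]
    exact (abs_sub _ _).trans (by linarith)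

namespace Tm

/-- The bit number `idx` of the register `R` after the move. -/
def bitAt (R : σ) (idx : α → (κ → ℕ) → (σ → ℕ) → ℕ) (d : Bool) (M : Tm α σ κ τ) : Tm α σ κ τ :=
  hop d M (loc fun a q s => (bt (s R) (idx a q s) : ℝ))

/-- The bit number `idx` (at the target) of `row` (at the source). -/
noncomputable def pairP (R : σ) (row idx : α → (κ → ℕ) → (σ → ℕ) → ℕ) (d : Bool)
    (M : Tm α σ κ τ) : Tm α σ κ τ :=
  app (fun _ _ _ => dst) (aft (fun a q s => update s R (s R ^^^ row a q s)) (bitAt R idx d M))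
    (bitAt R idx d M)

end Tm

open Tm

theorem bt_le_one (s i : ℕ) : bt s i ≤ 1 := by
  rw [bt_eq]
  exact Bool.toNat_le _

theorem dst_bt (x y i : ℕ) : dst (bt (x ^^^ y) i) (bt x i) = bt y i := by
  simp only [bt_eq, Nat.testBit_xor, dst]
  cases x.testBit i <;> cases y.testBit i <;> simp

theorem bt_therm (n i : ℕ) : bt (2 ^ n - 1) i = if i < n then 1 else 0 := by
  rw [bt_eq, Nat.testBit_two_pow_sub_one]
  split_ifs with h <;> simp [h]

namespace Pg

variable [DecidableEq κ] [Fintype σ] {P : Pg α σ κ τ} {a : α}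
  {E : τ → (κ → ℕ) → IV σ} {dem : τ → (κ → ℕ) → Bool → Set (σ → ℕ)} {q : κ → ℕ} {n p b : ℕ}
  {D : Set (σ → ℕ)} {d d' : Bool} {R : σ} {row idx : α → (κ → ℕ) → (σ → ℕ) → ℕ}
  {M : Tm α σ κ τ}

theorem ev_pairP {s s' : σ → ℕ} (h1 : (P.ev a E M q).mv d s = some s') (hR : s' R = s R)
    (h2 : (P.ev a E M q).mv d (update s R (s R ^^^ row a q s)) =
      some (update s' R (s R ^^^ row a q s)))
    (hi : ∀ c, idx a q (update s' R c) = idx a q s') :
    (P.ev a E (pairP R row idx d M) q).val s = bt (row a q s) (idx a q s') := by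
  rw [pairP, ev_app, ev_aft, bitAt, ev_hop_some h1, ev_hop_some h2, ev_loc, ev_loc, hi, hR,
    update_self, dst_bt]

theorem str_pairP {m : ℕ} (hb : P.bd a R = 2 ^ m) (hn : 1 ≤ n)
    (hrow : ∀ s ∈ P.box a, row a q s < 2 ^ m ∧ ∀ c, row a q (update s R c) = row a q s)
    (hM : P.Str a n p M q true) : P.Str a n p (pairP R row idx d M) q false := by
  have h1 : (1 : ℝ) ≤ 2 ^ n := one_le_pow₀ (by norm_num)
  have h2 : (2 : ℝ) ≤ 2 ^ n := by simpa using two_pow_mono hn
  have hb' : P.Str a n p (bitAt R idx d M) q false := ⟨rfl, hM, rfl, fun s _ => by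
    refine le_trans ?_ h1
    rw [abs_of_nonneg (Nat.cast_nonneg _)]
    exact Nat.cast_le_one.2 (bt_le_one _ _)⟩
  refine ⟨rfl, fun s _ => ⟨fun x y => (abs_dst_le x y).trans h1, fun x y x' y' ε e1 e2 =>
    (abs_dst_sub e1 e2).trans (mul_le_mul_of_nonneg_right h2 ((abs_nonneg _).trans e1))⟩,
    str_aft (fun s hs => ⟨mem_box.2 fun r => ?_, ?_⟩) hb', hb'⟩
  · by_cases h : r = R
    · rw [h, update_self, hb]
      exact Nat.xor_lt_two_pow (hb ▸ mem_box.1 hs R) (hrow s hs).1
    · rw [update_of_ne h]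
      exact mem_box.1 hs r
  · rw [update_self, (hrow s hs).2, update_idem, Nat.xor_xor_cancel_right, update_eq_self]

omit [DecidableEq κ] in
theorem rng_pairP : P.Rng a (pairP R row idx d M) b q := fun _ _ x y =>
  (abs_dst_le x y).trans (one_le_pow₀ (by norm_num))

theorem dm_pairP (hM : P.Dm a E dem n M q d {s' | ∃ s ∈ D, ∃ c, s' = update s R c}) :
    P.Dm a E dem n (pairP R row idx d M) q d' D :=
  ⟨dm_aft ⟨hM.mono fun _ ⟨s, h1, _, h2⟩ _ => ⟨s, h1, _, h2.symm⟩, trivial⟩,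
    hM.mono fun s h1 _ => ⟨s, h1, s R, (update_eq_self _ _).symm⟩, trivial⟩

end Pg

theorem isSP_pairP {A : Type} [Enc A α] [Fintype σ] [Fintype κ] {B : Bud A} {R : σ}
    {row idx : α → (κ → ℕ) → (σ → ℕ) → ℕ} {d : Bool} {M : Tm α σ κ τ}
    (hr : SP B fun z : α × (κ → ℕ) × (σ → ℕ) => row z.1 z.2.1 z.2.2)
    (hi : SP B fun z : α × (κ → ℕ) × (σ → ℕ) => idx z.1 z.2.1 z.2.2) (hM : M.IsSP B) :
    (pairP R row idx d M).IsSP B := by
  have hb : (bitAt R idx d M).IsSP B :=
    ⟨hM, RSP.natCast (sp_bt (sp_app SP.snd'.snd R) hi)⟩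
  exact isSP_app (fun x y hx hy => RSP.one.min (hx.sub hy).abs)
    (isSP_aft (sp_update R SP.snd'.snd (sp_xor (sp_app SP.snd'.snd R) hr)) hb) hb

end Vale.Agent.P313.Full
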