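import Vale.Agent.P313.Full.TabStmt
import Vale.Agent.P313.Full.Box
import Vale.Agent.P313.Full.DslSem
import Vale.Agent.P313.Full.PgPair

/-! The program for the tables: registers, contexts, views, local involutions and the links. -/

namespace Vale.Agent.P313.Full

open Finset Function Hi

/-- The registers: the name, a character, a catalytic register, three keys (`some true`: source,
`some false`: target, `none`: spare). -/
inductive Rg | nm | ch | ct | sl (i : Option Bool) | of (i : Option Bool) deriving DecidableEq

/-- The variables of the context. -/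
inductive Cv | lev | age | D (e : Bool) | E (e : Bool) | f (e : Bool) | lab | idx
  deriving DecidableEq

/-- The procedures; `g = false`: for merged names and the level `0`, `g = true`: for all names. -/
inductive Pc | T (g d : Bool) | S (g d : Bool) | W (g d : Bool) | H (g d : Bool) | St (g : Bool)
  | Ch (d : Bool) | X (d : Bool) | topH (d : Bool) | topR deriving DecidableEq

instance : Fintype Rg := ⟨{.nm, .ch, .ct, .sl none, .sl (some true), .sl (some false), .of none,
  .of (some true), .of (some false)}, fun x => by
    rcases x with _ | _ | _ | (_ | _ | _) | (_ | _ | _) <;> simp⟩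

instance : Fintype Cv := ⟨{.lev, .age, .D true, .D false, .E true, .E false, .f true, .f false,
  .lab, .idx}, fun x => by cases x <;> simp⟩

instance : Finite Pc := Finite.of_surjective
  (fun p : Fin 9 × Bool × Bool => (![.T p.2.1 p.2.2, .S p.2.1 p.2.2, .W p.2.1 p.2.2, .H p.2.1 p.2.2,
    .St p.2.1, .Ch p.2.1, .X p.2.1, .topH p.2.1, .topR] : Fin 9 → Pc) p.1) fun x => by
  cases x with
  | T g d => exact ⟨(0, g, d), rfl⟩
  | S g d => exact ⟨(1, g, d), rfl⟩
  | W g d => exact ⟨(2, g, d), rfl⟩
  | H g d => exact ⟨(3, g, d), rfl⟩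
  | St g => exact ⟨(4, g, g), rfl⟩
  | Ch d => exact ⟨(5, d, d), rfl⟩
  | X d => exact ⟨(6, d, d), rfl⟩
  | topH d => exact ⟨(7, d, d), rfl⟩
  | topR => exact ⟨(8, true, true), rfl⟩

/-- Contexts. -/
abbrev QQ : Type := Cv → ℕ

/-- States. -/
abbrev SS : Type := Rg → ℕ

/-- Terms. -/
abbrev Trm (α : Type) : Type := Tm α Rg Cv Pc

/-- The input: the parameters and two names for the procedures at the top. -/
structure In extends Cf where
  x0 : ℕ
  m0 : ℕ

/-- The width of a field of a label per step of the age. -/
noncomputable def cw : ℕ := cZ + cS + cF + C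

/-- The assumptions on the parameters. -/
structure Cf.Ok2 (cf : Cf) : Prop extends cf.Ok where
  even : cf.m % 2 = 0
  big : 8 * cw * (cf.K + 1) ≤ cf.L

/-! ### Contexts -/

/-- The context of the tables. -/
def cx (q : QQ) : Cx := ⟨q .age, fun e => q (.D e), fun e => q (.E e)⟩

/-- The filters. -/
def ff (q : QQ) : Bool → ℕ := fun e => q (.f e)

/-- The context with given parts. -/
def mk (k : ℕ) (c : Cx) (f : Bool → ℕ) (lab idx : ℕ) : QQ
  | .lev => k
  | .age => c.age
  | .D e => c.D e
  | .E e => c.E e
  | .f e => f e
  | .lab => lab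
  | .idx => idx

/-- The label with the code `u` and fields of width `w`. -/
def dlab (w u : ℕ) : Lab :=
  (fun e => u / 2 ^ (if e then 0 else w) % 2 ^ w,
    fun e => u / 2 ^ (if e then 2 * w else 3 * w) % 2 ^ w, u / 2 ^ (4 * w) % 2 ^ w)

/-- The label in the context. -/
noncomputable def lb (q : QQ) : Lab := dlab (cw * (q .age + 1)) (q .lab)

/-- The height of the layer is the last field of the label. -/
noncomputable def bU (q : QQ) : ℕ := (lb q).2.2

/-- The label of the layer. -/
noncomputable def rU (q : QQ) : Lab := ((lb q).1, (lb q).2.1, 0)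

/-- The label is a label of a layer. -/
def vU (q : QQ) : Prop := 1 ≤ bU q ∧ bU q ≤ q .age + 1 ∧ bU q ≤ q .lev ∧ rU q ∈ labU (bU q)

/-- The label is a label of a link. -/
def vM (q : QQ) : Prop := lb q ∈ labM (cx q)

/-- The normalisation of the weights. -/
def dn (q : QQ) : ℕ := min (q (.D true)) (q (.D false))

/-- The filters of the statistics. -/
noncomputable def fH (n : ℕ) : Bool → ℕ := fun _ => cZ + cS * n

/-- The same context without a label. -/
def F0 (q : QQ) : QQ := mk (q .lev) (cx q) (ff q) 0 0

/-- The same context for a statistic. -/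
noncomputable def FH (q : QQ) : QQ := mk (q .lev) (cx q) (fH (q .age)) 0 0

/-- The fresh context on the level `k`. -/
noncomputable def Fr (k : ℕ) : QQ := mk k q0 (fH 0) 0 0

/-- The context below a layer. -/
noncomputable def FU (q : QQ) : QQ :=
  mk (q .lev - bU q) ((cx q).up (bU q) (rU q).1) (fU (bU q) (ff q)) 0 0

/-- The context of the half `e` of a link. -/
noncomputable def FM (e : Bool) (q : QQ) : QQ :=
  mk (q .lev - 1) q0 (fM (cx q) (ff q) (lb q) e) 0 0

/-- The context with the index `i`. -/
def Fi (q : QQ) (i : ℕ) : QQ := mk (q .lev) (cx q) (ff q) (q .lab) i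

/-! ### States -/

/-- The keys of the two ends. -/
def ky (s : SS) : Bool → Key := fun e => (s (.sl (some e)), s (.of (some e)))

/-- The spare key. -/
def kc (s : SS) : Key := (s (.sl none), s (.of none))

/-- A shift within `m` bits. -/
def shl (m v e : ℕ) : ℕ := v * 2 ^ e % 2 ^ m

/-- The exchange of the spare key and the key which is not at the end `e`. -/
def sw (e : Bool) (s : SS) : SS
  | .sl i => s (.sl (Equiv.swap none (some !e) i))
  | .of i => s (.of (Equiv.swap none (some !e) i))
  | r => s r

namespace Cf

variable (cf : Cf)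

/-- The number of bits of a name. -/
noncomputable def nb : ℕ := cf.n0 + a * cf.K

/-- A power of two which is never too large. -/
def pw (e : ℕ) : ℕ := 2 ^ min e cf.L

/-- The bounds of the registers. -/
noncomputable def bd : SS
  | .nm => 2 ^ cf.nb
  | .ch => 2 ^ (2 * cf.nb)
  | .ct => 2 ^ ((C + 2) * cf.K + 3)
  | .sl _ => 2 ^ (2 * cf.L)
  | .of _ => 2 ^ cf.m

/-- The number of codes of labels. -/
noncomputable def nl (q : QQ) : ℕ := cf.pw (5 * (cw * (q .age + 1)))

/-- The name on the level `k`. -/
noncomputable def nx (k : ℕ) (s : SS) : ℕ := s .nm % nm cf.n0 k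

/-- The state with the name `y` on the level `k`. -/
noncomputable def mv (k : ℕ) (s : SS) (y : ℕ) : SS :=
  update s .nm (y + nm cf.n0 k * (s .nm / nm cf.n0 k))

/-- The value of the key at the end `d`. -/
noncomputable def hv (k : ℕ) (d : Bool) (s : SS) : ℕ := cf.val (ky s d) (cf.nx k s)

/-- The number of stages since the last merge. -/
noncomputable def mus (d : Bool) (q : QQ) (s : SS) : ℕ := mu cf.n0 (q .lev) d (cf.nx (q .lev) s)

/-- The character at the name. -/
noncomputable def chs (q : QQ) (s : SS) : ℝ := chr (2 * cf.nb) (s .ch) (cf.nx (q .lev) s)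

section enter

variable (b : ℕ) (r : Lab) (e : Bool) (q : QQ) (s : SS)

/-- The number of matched bits seen from the end `e`. -/
noncomputable def lrs : ℕ :=
  (vw e cf.N cf.n0 cf.K (q .lev - b) (s .nm)).l + ((cx q).up b r.1).D e

/-- The digits of the end `e`, in position. -/
noncomputable def dgs : ℕ := shl cf.nb (r.1 e) (cf.n0 + a * (q .lev - b))

/-- The shift of the values at the end `e'`, seen from the end `e`. -/
noncomputable def shs (e' : Bool) : ℕ :=
  shl cf.m (r.2.1 e') (cf.lrs b r e q s + q (.f e')) ^^^
    shl cf.m r.2.2 (cf.lrs b r e q s - om b (cx q) r)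

/-- The passage between the level of `q` and the level `b` steps down at the end `e`. -/
noncomputable def ens : SS
  | .nm => s .nm ^^^ cf.dgs b r e q
  | .of (some e') => s (.of (some e')) ^^^ lin cf.L cf.m (s (.sl (some e'))) (cf.dgs b r e' q) ^^^
      cf.shs b r e q s e'
  | t => s t

/-- The digits of the name are the digits of the label. -/
def dgOk : Prop := cf.nx (q .lev) s / nm cf.n0 (q .lev - b) = r.1 e

end enter

/-- The label fits the name (layer). -/
def tU (d : Bool) (q : QQ) (s : SS) : Prop :=
  bU q = hb (cx q) (cf.mus d q s) ∧ cf.dgOk (bU q) (rU q) d q s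

/-- The new filter bits vanish (layer). -/
def zU (d : Bool) (q : QQ) (s : SS) : Prop :=
  (cf.hv (q .lev) d s ^^^ cf.shs (bU q) (rU q) d q s d) /
    2 ^ (cf.lrs (bU q) (rU q) d q s + q (.f d)) % 2 ^ (cF * bU q) = 0

/-- The tests at the near end of a link. -/
def okS (d : Bool) (q : QQ) (s : SS) : Prop :=
  cf.dgOk 1 (lb q) d q s ∧ (lb q).2.2 < 2 ^ om 1 (cx q) (lb q) ∧
    (cf.hv (q .lev) d s ^^^ cf.shs 1 (lb q) d q s d) %
        2 ^ (cf.lrs 1 (lb q) d q s + q (.f d) + cF) <
      2 ^ (cf.lrs 1 (lb q) d q s - om 1 (cx q) (lb q))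

/-- The test at the midpoint of a link. -/
def locS (q : QQ) (s : SS) : Prop :=
  (vw false cf.N cf.n0 cf.K (q .lev - 1) (s .nm)).l + ((cx q).up 1 (lb q).1).D true =
      (vw true cf.N cf.n0 cf.K (q .lev - 1) (s .nm)).l + ((cx q).up 1 (lb q).1).D false ∧
    (vw false cf.N cf.n0 cf.K (q .lev - 1) (s .nm)).lam + ((cx q).up 1 (lb q).1).E true =
      (vw true cf.N cf.n0 cf.K (q .lev - 1) (s .nm)).lam + ((cx q).up 1 (lb q).1).E false

end Cf

/-! ### Views and small terms -/

variable {α : Type} (I : α → In)

/-- A key. -/
def keyV (i : Option Bool) : View α Rg Cv :=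
  ⟨fun a => 2 ^ ((I a).L + (I a).m / 2), fun a _ s => s (.sl i) + 2 ^ (2 * (I a).L) * s (.of i),
    fun a _ => keySet (I a).L (.sl i) (.of i)⟩

/-- The slope of a key, the value at the name `b` levels down is kept. -/
noncomputable def rotV (i : Option Bool) (b : ℕ) : View α Rg Cv :=
  ⟨fun a => 2 ^ (I a).L, fun _ _ s => s (.sl i),
    fun a q s => rotSet (I a).L (I a).m (.sl i) (.of i) ((I a).nx (q .lev - b) s) s⟩

/-- The character. -/
noncomputable def chV : View α Rg Cv :=
  ⟨fun a => 2 ^ (I a).nb, fun _ _ s => s .ch, fun _ _ s => update s .ch⟩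

/-- The empty part. -/
def unV : View α Rg Cv := ⟨fun _ => 1, fun _ _ _ => 0, fun _ _ s _ => s⟩

open Tm

/-- A call with a context map which does not depend on the input. -/
noncomputable def cl' (t : Pc) (F : QQ → QQ) : Trm α := cal t fun _ => F

/-- A function of a number. -/
def fn (φ : ℝ → ℝ) (e : Trm α) : Trm α := ap1 (fun _ _ _ => φ) e

open Classical in
/-- A test. -/
noncomputable def ts (p : Cf → QQ → SS → Prop) : Trm α :=
  tst fun a q s => decide (p (I a).toCf q s)

open Classical in
/-- A case distinction on the context. -/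
noncomputable def cs (p : QQ → Prop) (e₁ e₂ : Trm α) : Trm α := cas (fun _ q => decide (p q)) e₁ e₂

/-- The sum over the labels with the property `p`. -/
noncomputable def smL (p : QQ → Prop) (e : Trm α) : Trm α :=
  Tm.sum (fun a => (I a).nl) .lab (cs p e (cst 0))

/-- The character at the name. -/
noncomputable def chT : Trm α := loc fun a => (I a).chs

/-- The average over the slope of the key at the end `d`. -/
noncomputable def avR (d : Bool) (e : Trm α) : Trm α := avg (rotV I (some d) 0) e

/-- The average over both keys. -/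
def avK (d : Bool) (e : Trm α) : Trm α := avg (keyV I (some d)) (avg (keyV I (some !d)) e)

/-! ### Layers -/

/-- The passage at the end `e`. -/
noncomputable def enU (e : Bool) (a : α) (q : QQ) : SS → SS := (I a).ens (bU q) (rU q) e q

/-- The call below the layer. -/
noncomputable def cU (t : Bool → Pc) (F : QQ → QQ) : Trm α :=
  cs (fun q => bU q ≤ q .age) (cl' (t false) F) (cl' (t true) F)

/-- The move through the layer. -/
noncomputable def linkU : Trm α :=
  seq (Tm.inv (enU I true)) (seq (cU .St FU) (Tm.inv (enU I false)))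

/-! ### Links -/

/-- The passage at the end `e`. -/
noncomputable def enM (e : Bool) (a : α) (q : QQ) : SS → SS := (I a).ens 1 (lb q) e q

/-- A number of the half `e`. -/
noncomputable def inH (e : Bool) (t : Pc) : Trm α := aft (fun _ _ => sw e) (cl' t (FM e))

/-- The move along the half `e`. -/
noncomputable def half (e : Bool) : Trm α :=
  seq (Tm.inv fun _ _ => sw e) (seq (cl' (.St true) (FM e)) (Tm.inv fun _ _ => sw e))

/-- The move along a link. -/
noncomputable def linkM : Trm α :=
  seq (Tm.inv (enM I true)) (seq (half true) (seq (half false) (Tm.inv (enM I false))))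

/-- The statistic `H e` of the name on the level `k q` in the fresh context. -/
noncomputable def frH (e : Bool) (k : QQ → ℕ) : Trm α := cl' (.H true e) fun q => Fr (k q)

end Vale.Agent.P313.Full
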