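import Vale.Agent.P313.Full.Dsl

/-! Derived terms of the language: constants, tests, functions of one number, local involutions,
calls which save the differences of the contexts. -/

namespace Vale.Agent.P313.Full

open Function Finset Vale.Agent.Lib.Space

variable {α σ κ τ : Type}

/-- The differences between the context `q` and the context `q'` of the callee. -/
noncomputable def svD [Fintype κ] (q q' : κ → ℕ) : ℕ :=
  encL (fun r => enZ ((q r : ℤ) - q' r)) univ.toList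

/-- The context of the caller from the context of the callee and the differences. -/
noncomputable def rsD [Fintype κ] (q' : κ → ℕ) (v : ℕ) : κ → ℕ :=
  fun r => ((q' r : ℤ) + deZ (decV v r)).toNat

theorem rsD_svD [Fintype κ] (q q' : κ → ℕ) : rsD q' (svD q q') = q := by
  funext r
  rw [rsD, svD, decV, decL_encL _ _ r (by simp), deZ_enZ]
  omega

theorem exists_svD (κ : Type) [Fintype κ] : ∃ c : ℕ, ∀ (q q' : κ → ℕ) (w : ℕ),
    (∀ r, q r < q' r + 2 ^ w ∧ q' r < q r + 2 ^ w) → svD q q' < 2 ^ (c * (w + 3) + 1) := by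
  obtain ⟨c, hc⟩ := encL_le (univ : Finset κ).toList
  refine ⟨c, fun q q' w h => ?_⟩
  have h1 := hc (fun r => enZ ((q r : ℤ) - q' r)) (2 * 2 ^ w) fun r => by
    refine enZ_le_of_abs ?_
    have := h r
    rw [abs_le]
    constructor <;> omega
  refine h1.trans_lt ?_
  have h2 : 2 * 2 ^ w + 2 ≤ 2 ^ (w + 3) := by
    have : 1 ≤ 2 ^ w := Nat.one_le_two_pow
    rw [pow_add]
    omega
  calc (2 * 2 ^ w + 2) ^ c ≤ (2 ^ (w + 3)) ^ c := Nat.pow_le_pow_left h2 c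
    _ = 2 ^ (c * (w + 3)) := by rw [← pow_mul, mul_comm]
    _ < _ := Nat.pow_lt_pow_right (by norm_num) (by omega)

/-- The number of bits of a saved context is at most `cSv κ * (w + 3) + 1`. -/
noncomputable def cSv (κ : Type) [Fintype κ] : ℕ := (exists_svD κ).choose

theorem svD_lt [Fintype κ] {q q' : κ → ℕ} {w : ℕ}
    (h : ∀ r, q r < q' r + 2 ^ w ∧ q' r < q r + 2 ^ w) : svD q q' < 2 ^ (cSv κ * (w + 3) + 1) :=
  (exists_svD κ).choose_spec q q' w h

namespace Tm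

/-- A constant. -/
def cst (r : ℝ) : Tm α σ κ τ := loc fun _ _ _ => r

/-- A local test. -/
noncomputable def tst (p : α → (κ → ℕ) → (σ → ℕ) → Bool) : Tm α σ κ τ :=
  loc fun a q s => if p a q s then 1 else 0

/-- A function of one number. -/
def ap1 (φ : α → (κ → ℕ) → (σ → ℕ) → ℝ → ℝ) (e : Tm α σ κ τ) : Tm α σ κ τ :=
  app (fun a q s x _ => φ a q s x) e (cst 0)

/-- A local involution. -/
def inv (π : α → (κ → ℕ) → (σ → ℕ) → σ → ℕ) : Tm α σ κ τ :=
  mloc (fun _ _ _ _ => true) fun _ => π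

/-- The value after a local involution. -/
def aft (π : α → (κ → ℕ) → (σ → ℕ) → σ → ℕ) (e : Tm α σ κ τ) : Tm α σ κ τ := hop true (inv π) e

/-- The move which always fails. -/
def stop : Tm α σ κ τ := mloc (fun _ _ _ _ => false) fun _ _ _ s => s

/-- A call which saves the differences of the contexts. -/
noncomputable def cal [Fintype κ] (t : τ) (F : α → (κ → ℕ) → κ → ℕ) : Tm α σ κ τ :=
  call t F (fun a q => svD q (F a q)) fun _ q' v => rsD q' v

end Tm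

namespace Pg

open Tm

variable [DecidableEq κ] [Fintype σ] [DecidableEq σ] {P : Pg α σ κ τ} {a : α}
  {E : τ → (κ → ℕ) → IV σ} {dem : τ → (κ → ℕ) → Bool → Set (σ → ℕ)} {q : κ → ℕ} {n p b : ℕ}
  {s : σ → ℕ} {D : Set (σ → ℕ)} {d : Bool}

/-! ### The ideal meaning -/

theorem ev_loc (f) : (P.ev a E (loc f) q).val s = f a q s := rfl

theorem ev_app (Φ e₁ e₂) : (P.ev a E (app Φ e₁ e₂) q).val s =
    Φ a q s ((P.ev a E e₁ q).val s) ((P.ev a E e₂ q).val s) := rfl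

theorem ev_guard (g e) : (P.ev a E (guard g e) q).val s =
    (P.ev a E g q).val s * (P.ev a E e q).val s := rfl

theorem ev_sum (nl x e) : (P.ev a E (Tm.sum nl x e) q).val s =
    ∑ u ∈ range (nl a q), (P.ev a E e (update q x u)).val s := rfl

theorem ev_avg (v : View α σ κ) (e) : (P.ev a E (avg v e) q).val s =
    (∑ c ∈ range (v.m a * v.m a), (P.ev a E e q).val (v.put a q s c)) / (v.m a * v.m a : ℕ) := rfl

theorem ev_hop (d M e) : (P.ev a E (hop d M e) q).val s =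
    ((P.ev a E M q).mv d s).elim 0 (P.ev a E e q).val := rfl

theorem ev_hop_some {M : Tm α σ κ τ} {s' : σ → ℕ} (h : (P.ev a E M q).mv d s = some s') (e) :
    (P.ev a E (hop d M e) q).val s = (P.ev a E e q).val s' := by
  rw [ev_hop, h, Option.elim_some]

theorem ev_mloc (dom map) : (P.ev a E (mloc dom map) q).mv d s =
    if dom d a q s then some (map d a q s) else none := rfl

theorem ev_seq_true (M₁ M₂) : (P.ev a E (seq M₁ M₂) q).mv true s =
    ((P.ev a E M₁ q).mv true s).bind ((P.ev a E M₂ q).mv true) := rfl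

theorem ev_seq_false (M₁ M₂) : (P.ev a E (seq M₁ M₂) q).mv false s =
    ((P.ev a E M₂ q).mv false s).bind ((P.ev a E M₁ q).mv false) := rfl

theorem ev_cas (c e₁ e₂) : P.ev a E (cas c e₁ e₂) q =
    if c a q then P.ev a E e₁ q else P.ev a E e₂ q := rfl

theorem ev_alt_val (c e₁ e₂) : (P.ev a E (alt c e₁ e₂) q).val s =
    (if c true a q s then P.ev a E e₁ q else P.ev a E e₂ q).val s := rfl

theorem ev_alt_mv (c e₁ e₂) : (P.ev a E (alt c e₁ e₂) q).mv d s =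
    ((if c d a q s then P.ev a E e₁ q else P.ev a E e₂ q).mv d s).filter fun s' =>
      c (!d) a q s' = c d a q s := rfl

theorem ev_cst (r) : (P.ev a E (cst r) q).val s = r := rfl

theorem ev_tst (c) : (P.ev a E (tst c) q).val s = if c a q s then 1 else 0 := rfl

theorem ev_ap1 (φ e) : (P.ev a E (ap1 φ e) q).val s = φ a q s ((P.ev a E e q).val s) := rfl

theorem ev_inv (π) : (P.ev a E (inv π) q).mv d s = some (π a q s) := rfl

theorem ev_aft (π e) : (P.ev a E (aft π e) q).val s = (P.ev a E e q).val (π a q s) := rfl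

theorem ev_stop : (P.ev a E stop q).mv d s = none := rfl

theorem ev_cal [Fintype κ] (t F) : P.ev a E (cal t F) q = E t (F a q) := rfl

/-! ### The structural conditions -/

theorem str_cst {r : ℝ} (h : |r| ≤ 1) : P.Str a n p (cst r) q false :=
  ⟨rfl, fun _ _ => h.trans (one_le_pow₀ (by norm_num))⟩

theorem str_tst (c) : P.Str a n p (tst c) q false :=
  ⟨rfl, fun s _ => le_trans (by dsimp only; split_ifs <;> simp) (one_le_pow₀ (by norm_num))⟩

theorem str_ap1 {φ : α → (κ → ℕ) → (σ → ℕ) → ℝ → ℝ} {e : Tm α σ κ τ}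
    (h1 : ∀ s ∈ P.box a, ∀ x, |φ a q s x| ≤ 2 ^ n)
    (h2 : ∀ s ∈ P.box a, ∀ x x', |φ a q s x - φ a q s x'| ≤ 2 ^ n * |x - x'|)
    (he : P.Str a n p e q false) : P.Str a n p (ap1 φ e) q false :=
  ⟨rfl, fun s hs => ⟨fun x _ => h1 s hs x, fun x _ x' _ _ hx _ =>
    (h2 s hs x x').trans (mul_le_mul_of_nonneg_left hx (by positivity))⟩, he, str_cst (by simp)⟩

theorem str_inv {π : α → (κ → ℕ) → (σ → ℕ) → σ → ℕ}
    (h : ∀ s ∈ P.box a, π a q s ∈ P.box a ∧ π a q (π a q s) = s) : P.Str a n p (inv π) q true :=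
  ⟨rfl, fun _ s hs _ => ⟨(h s hs).1, rfl, (h s hs).2⟩⟩

theorem str_aft {π : α → (κ → ℕ) → (σ → ℕ) → σ → ℕ} {e : Tm α σ κ τ}
    (h : ∀ s ∈ P.box a, π a q s ∈ P.box a ∧ π a q (π a q s) = s) (he : P.Str a n p e q false) :
    P.Str a n p (aft π e) q false := ⟨rfl, str_inv h, he⟩

theorem str_stop : P.Str a n p stop q true := ⟨rfl, fun _ _ _ h => absurd h Bool.false_ne_true⟩

theorem str_cal [Fintype κ] {t : τ} {F : α → (κ → ℕ) → κ → ℕ} {m : Bool} (w : ℕ)
    (hm : m = P.mvp t) (ha : P.adm t a (F a q)) (hr : P.rg ≤ n)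
    (hw : ∀ r, q r < F a q r + 2 ^ w ∧ F a q r < q r + 2 ^ w)
    (hp : P.pot t a (F a q) + n + cSv κ * (w + 3) + 2 ≤ p) : P.Str a n p (cal t F) q m :=
  ⟨hm, ha, rsD_svD _ _, hr, _, svD_lt hw, by omega⟩

omit [DecidableEq κ] in
theorem rng_tst (c) : P.Rng a (tst c) b q := fun s _ =>
  le_trans (by dsimp only; split_ifs <;> simp) (one_le_pow₀ (by norm_num))

omit [DecidableEq κ] in
theorem rng_cst {r : ℝ} (h : |r| ≤ 1) : P.Rng a (cst r) b q := fun _ _ =>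
  h.trans (one_le_pow₀ (by norm_num))

omit [DecidableEq κ] in
theorem rng_ap1 {φ : α → (κ → ℕ) → (σ → ℕ) → ℝ → ℝ} {e : Tm α σ κ τ}
    (h : ∀ s ∈ P.box a, ∀ x, |φ a q s x| ≤ 2 ^ b) : P.Rng a (ap1 φ e) b q :=
  fun s hs x _ => h s hs x

/-! ### The domains -/

theorem dm_ap1 {φ : α → (κ → ℕ) → (σ → ℕ) → ℝ → ℝ} {e : Tm α σ κ τ}
    (h : P.Dm a E dem n e q true D) : P.Dm a E dem n (ap1 φ e) q d D := ⟨h, trivial⟩

theorem dm_aft {π : α → (κ → ℕ) → (σ → ℕ) → σ → ℕ} {e : Tm α σ κ τ}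
    (h : P.Dm a E dem n e q true {s' | ∃ s ∈ D, s ∈ P.box a ∧ π a q s = s'}) :
    P.Dm a E dem n (aft π e) q d D := by
  refine ⟨trivial, ?_⟩
  have e : P.img a (P.ev a E (inv π) q) true D = {s' | ∃ s ∈ D, s ∈ P.box a ∧ π a q s = s'} := by
    ext s'
    simp only [img, ev_inv, Option.some.injEq]
  exact e ▸ h

theorem dm_cal [Fintype κ] {t : τ} {F : α → (κ → ℕ) → κ → ℕ}
    (h : ∀ s ∈ D, s ∈ P.box a → s ∈ dem t (F a q) d) : P.Dm a E dem n (cal t F) q d D := h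

end Pg

/-! ### Computability -/

section sp

open Tm

variable {A : Type} [Enc A α] [Fintype σ] [Fintype κ] {B : Bud A}

theorem isSP_cst {r : ℝ} (x : ℚ) (h : r = x) : (cst r : Tm α σ κ τ).IsSP B := RSP.const x h

theorem isSP_tst {c : α → (κ → ℕ) → (σ → ℕ) → Bool}
    (h : SP B fun z : α × (κ → ℕ) × (σ → ℕ) => c z.1 z.2.1 z.2.2) :
    (tst c : Tm α σ κ τ).IsSP B := RSP.ite h.decide_true RSP.one RSP.zero

/-- The rational argument of a function. -/
theorem rsp_arg {β : Type} [Enc A β] {x y : β → ℕ} (hx : SP B x) (hy : SP B y) :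
    RSP B fun z => (deZ (x z) : ℝ) / y z := (RSP.intCast (ZSP.deZ hx)).div (RSP.natCast hy)

theorem isSP_app {Φ : α → (κ → ℕ) → (σ → ℕ) → ℝ → ℝ → ℝ} {e₁ e₂ : Tm α σ κ τ}
    (h : ∀ x y : (α × (κ → ℕ) × (σ → ℕ)) × ℕ × ℕ × ℕ → ℝ, RSP B x → RSP B y →
      RSP B fun z => Φ z.1.1 z.1.2.1 z.1.2.2 (x z) (y z))
    (h1 : e₁.IsSP B) (h2 : e₂.IsSP B) : (app Φ e₁ e₂).IsSP B :=
  ⟨h _ _ (rsp_arg SP.snd'.fst SP.snd'.snd.snd) (rsp_arg SP.snd'.snd.fst SP.snd'.snd.snd), h1, h2⟩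

theorem isSP_ap1 {φ : α → (κ → ℕ) → (σ → ℕ) → ℝ → ℝ} {e : Tm α σ κ τ}
    (h : ∀ x : (α × (κ → ℕ) × (σ → ℕ)) × ℕ × ℕ × ℕ → ℝ, RSP B x →
      RSP B fun z => φ z.1.1 z.1.2.1 z.1.2.2 (x z))
    (he : e.IsSP B) : (ap1 φ e).IsSP B :=
  isSP_app (fun x _ hx _ => h x hx) he (isSP_cst 0 (by simp))

theorem isSP_inv {π : α → (κ → ℕ) → (σ → ℕ) → σ → ℕ}
    (h : SP B fun z : α × (κ → ℕ) × (σ → ℕ) => π z.1 z.2.1 z.2.2) :
    (inv π : Tm α σ κ τ).IsSP B := fun _ => ⟨SP.const true, h⟩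

theorem isSP_aft {π : α → (κ → ℕ) → (σ → ℕ) → σ → ℕ} {e : Tm α σ κ τ}
    (h : SP B fun z : α × (κ → ℕ) × (σ → ℕ) => π z.1 z.2.1 z.2.2) (he : e.IsSP B) :
    (aft π e).IsSP B := ⟨isSP_inv h, he⟩

theorem isSP_stop : (stop : Tm α σ κ τ).IsSP B := fun _ => ⟨SP.const false, SP.snd'.snd⟩

theorem isSP_tcal {t : τ} {F : α → (κ → ℕ) → κ → ℕ}
    (h : SP B fun z : α × (κ → ℕ) => F z.1 z.2) : (cal t F : Tm α σ κ τ).IsSP B :=
  ⟨h, sp_encL _ fun r => ((ZSP.natCast (sp_app SP.snd' r)).sub (ZSP.natCast (sp_app h r))).enZ,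
    sp_vec fun r => ((ZSP.natCast (sp_app SP.snd'.fst r)).add
      (ZSP.deZ (sp_app (sp_decV SP.snd'.snd) r))).toNat⟩

end sp

end Vale.Agent.P313.Full
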