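import Vale.Agent.P313.Full.PgStmt

/-! The program for the tables: the weight at a merged name. -/

namespace Vale.Agent.P313.Full

open Finset Function Hi Tm Pg

namespace M9

section math

variable (A V : Tb) (cf : Cf) (d : Bool) (q : Cx) (f : Bool → ℕ) (x : ℕ) (K : Bool → Key)

/-- The normalised mass weighted with the character `c` at the end. -/
noncomputable def wCh (n c : ℕ) : ℝ :=
  cf.JS fun s => cf.JK fun k => ∑ r ∈ labM q, inv (V.pN cf d q f x (cf.rt K d x s) r k) *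
    (V.Z cf d q f x (cf.rt K d x s) r k * (inv (V.pM cf d q f x (cf.rt K d x s) r k) *
      (chr n c (V.eM cf d q f x (cf.rt K d x s) r k) *
        inv (A.pA V cf (!d) q f (V.eM cf d q f x (cf.rt K d x s) r k) (cf.rt K d x s) r k))))

variable {A V cf d q f x K}

theorem mean_wCh {n v : ℕ} (hv : v < 2 ^ n)
    (h : ∀ K k, ∀ r ∈ labM q, V.Z cf d q f x K r k ≠ 0 → V.eM cf d q f x K r k < 2 ^ n) (g : ℝ) :
    mean (2 ^ n) (fun c => chr n c v * (g * wCh A V cf d q f x K n c)) =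
      g * A.wIn V cf d q f x K v := by
  simp only [mul_left_comm _ g]
  rw [mean_mul_left]
  congr 1
  simp only [wCh, ← Cf.JS_mul_left, ← Cf.JK_mul_left]
  unfold Tb.wIn Cf.JS
  rw [mean_comm]
  refine mean_congr fun s _ => ?_
  rw [Cf.mean_JK_comm]
  refine congrArg cf.JK (funext fun k => ?_)
  rw [← avg_chr_pick hv _ _ _ fun r hr hz =>
    h _ k r hr (left_ne_zero_of_mul (left_ne_zero_of_mul (left_ne_zero_of_mul hz))), mean]
  push_cast
  congr 1
  refine sum_congr rfl fun c _ => congrArg _ (sum_congr rfl fun r _ => by ring)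

theorem eM_lt {W : ℕ → Tb} (hc : cf.Ok) (hW : IsTab cf W) {j : ℕ} {r : Lab} {k : Key}
    (hr : r ∈ labM q) (h : (W j).Z cf d q f x K r k ≠ 0) :
    (W j).eM cf d q f x K r k < nm cf.n0 (j + 1) := by
  have h1 := (Tb.of_s (Tb.s_ne_of_amp (right_ne_zero_of_mul (left_ne_zero_of_mul h)))).1
  rw [Tb.eM, hW.n_eq]
  exact add_nm_lt (hW.cand_lt hc.N_le h1).2 ((mul_one a).symm ▸ (mem_labs.1 hr).1 _)

end math

variable {α : Type} {I : α → In} {a : α} {W : ℕ → Tb} {j k : ℕ} {d : Bool} {q : QQ} {s : SS}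

theorem box_of (h : Ct I a k q s) : s ∈ box (I a).bd := box_eq (P := prog I) rfl ▸ h.box

theorem ct_st (h : Ct I a k q s) {s' : SS} (hs : s' ∈ box (I a).bd) : Ct I a k q s' :=
  ⟨h.lev, h.fok, (box_eq (P := prog I) rfl).symm ▸ hs⟩

theorem ct_lab (h : Ct I a k q s) (u : ℕ) : Ct I a k (update q .lab u) s :=
  ⟨by simpa using h.lev, by simpa using h.fok, h.box⟩

theorem le_K (h : Ct I a k q s) : k ≤ (I a).K := (Nat.le_add_left _ _).trans h.fok.age

theorem ct_rot (h : Ct I a k q s) (d : Bool) {c : ℕ} (hc : c < 2 ^ (2 * (I a).L)) (x : ℕ) :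
    Ct I a k q (setK s (some d) ((I a).rot c x ((I a).val (ky s d) x))) :=
  ct_st h (setK_mem (box_of h) _ hc (rot_lt _ _ (Cf.val_lt _ (kok_ky (box_of h) d) _)))

theorem val_wIn (E : Env I a W) (h4 : M4 I a W j) (h5 : M5 I a W j) (h8 : M8 I a W j)
    (h9 : M9 I a W j) (h10 : M10 I a W j) (hC : Ct I a (j + 1) q s) (hm : (I a).mus d q s = 0) :
    TV I a (wInT I d) q s (wCh (W (j + 1)) (W j) (I a).toCf d (cx q) (ff q) ((I a).nx (j + 1) s)
      (ky s) (2 * (I a).nb) (s .ch)) := by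
  intro n
  refine Val.avR fun c hc => Val.avg_key E.ok fun k k1 k2 =>
    Val.smM E.ok ((Nat.le_add_right _ _).trans hC.fok.age) fun u _ hv => ?_
  rw [hC.lev]
  have hC1 := ct_rot hC d hc ((I a).nx (j + 1) s)
  have hC2 := ct_lab (ct_st hC1 (setK_mem (box_of hC1) none k1 k2)) u
  have hv' : vM (update q .lab u) := by simpa [vM] using hv
  set s' := setK (setK s (some d) ((I a).rot c ((I a).nx (j + 1) s)
    ((I a).val (ky s d) ((I a).nx (j + 1) s)))) none k with hs'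
  have hm' : (I a).mus d (update q .lab u) s' = 0 := by simpa [Cf.mus, hs'] using hm
  have h1 := (((h8 (d := d) hC2 hv').2 n).fn (φ := inv)).guard fun _ => h4 hC2 hv'
    (fun hz n => (h9 hC2 hv' (Tb.s_ne_of_amp fun e => hz (by
      simp only [lk, Tb.Z, Tb.a1, e, ite_self, zero_mul])) n).fn (φ := inv))
    (fun hz n => (Val.chT.congr (w := chr (2 * (I a).nb) (s .ch)
      (lk I a W j d (update q .lab u) s' Tb.eM)) (by
        rw [Cf.chs, far, hC2.lev, Cf.nx_mv (h5 hC2 hv' hz).1, Cf.mv_ne (by simp)]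
        simp [hs'])).guard fun _ => (h10 hC2 hv' hm' hz n).fn (φ := inv)) n
  refine h1.congr ?_
  by_cases hz : lk I a W j d (update q .lab u) s' Tb.Z = 0
  · have h2 := hz
    simp only [lk, hs', cx_lab, ff_lab, nx_setK, ky_setK_none, ky_rot, kc_setK_none] at h2
    rw [hz, h2]
    simp
  · simp only [mg, far, Cf.nx_mv (h5 hC2 hv' hz).1, Cf.ky_mv]
    simp only [lk, hs', cx_lab, ff_lab, nx_setK, ky_setK_none, ky_rot, kc_setK_none]

end M9

open M9

variable {α : Type} {I : α → In} {a : α} {W : ℕ → Tb} {j : ℕ}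

theorem vwm (E : Env I a W) (h4 : M4 I a W j) (h5 : M5 I a W j) (h6 : M6 I a W j)
    (h8 : M8 I a W j) (h9 : M9 I a W j) (h10 : M10 I a W j) (hd : VMd I a W j)
    (hT : VT I a W false (j + 1)) : VWm I a W j := by
  intro d q s hC ha hm
  have hK := le_K hC
  have hP : Pre (I a).toCf W (j + 1) := ⟨E.ok.toOk, E.tab, hK, fun i hi => E.good i (by omega)⟩
  have h0 := F0_eq ha.1 ha.2
  have hn : ∀ {y}, y < nm (I a).n0 (j + 1) → y < 2 ^ (2 * (I a).nb) := fun h =>
    (hP.nm_le_K h).trans_le (Nat.pow_le_pow_right two_pos (by unfold Cf.nb; omega))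
  refine ⟨⟨hC.lev ▸ hC.fok, ha⟩, Val.csF (by rw [hC.lev]; simp) ?_⟩
  refine (Val.ap1 (v := mg I a W j d q s Tb.wM) (Val.avR fun c hc => ?_)).congr ?_
  · rw [hC.lev]
    have hC1 := ct_rot hC d hc ((I a).nx (j + 1) s)
    set s1 := setK s (some d) ((I a).rot c ((I a).nx (j + 1) s)
      ((I a).val (ky s d) ((I a).nx (j + 1) s))) with hs1
    have e1 : (I a).nx (j + 1) s1 = (I a).nx (j + 1) s := nx_setK _ _ _ _ _
    have e2 : ky s1 = (I a).rt (ky s) d ((I a).nx (j + 1) s) c := ky_rot _ _ _ _ _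
    have hm1 : (I a).mus d q s1 = 0 := by simpa [Cf.mus, hs1] using hm
    have hA := hP.at hC.fok (box_of hC1)
    have hm2 : (W (j + 1)).mu d ((I a).nx (j + 1) s1) = 0 := by
      rw [← hm1, mus_eq E.tab, hC.lev]
    rw [← e2, ← e1]
    refine (h6 hC1 ha.1 hm1 _).guard fun hg => ?_
    have hD := (E.stM hA hm2).2.1 4 le_rfl hg
    obtain ⟨hv, hmv, -⟩ := E.stMv hA hm2 hD rfl
    refine (Val.avg_ch fun c' hc' => ?_).congr (mean_wCh (hn (Cf.nx_lt _ _ _))
      (fun K k r hr hz => hn (eM_lt E.ok.toOk E.tab hr hz)) _)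
    have hC2 : Ct I a (j + 1) q (update s1 .ch c') := ct_st hC1 (update_mem_box (box_of hC1) hc')
    have hC3 := ct_st hC2 (Cf.mv_mem hK (box_of hC2) hv)
    have hm3 : (I a).mus (!d) q ((I a).mv (j + 1) (update s1 .ch c') ((W j).st (I a).toCf d (cx q)
        (ff q) ((I a).nx (j + 1) s1) (ky s1))) = 0 := by
      rw [mus_eq E.tab, hC.lev, Cf.nx_mv hv, hmv]
    have h1 := hd hC2 ha (by simpa [Cf.mus] using hm1) (by simpa [mg] using hD)
    have h2 := hT hC3 ha fun _ => hm3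
    have h3 := val_wIn E h4 h5 h8 h9 h10 hC3 hm3
    simp only [stv, nx_ch, ky_ch] at h1
    simp only [Cf.nx_mv hv, Cf.ky_mv, ky_ch, Tb.Tk_not, Cf.mv_ne (show Rg.ch ≠ .nm by simp),
      update_self] at h2 h3
    refine (Val.chT.congr (by rw [Cf.chs, hC.lev, nx_ch, update_self])).guard fun _ =>
      Val.hop (Mov.cl' E.wf (h0.symm ▸ h1)) ((Val.cl' E.wf (h0.symm ▸ h2)).fn.guard fun _ => h3 _)
  · have h1 := hC.fok.room true true
    have h2 := E.ok.hash
    have h3 : dn q ≤ (cx q).D true := min_le_left _ _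
    rw [pD, Cf.pw_of_le (by omega)]
    push_cast
    rfl

end Vale.Agent.P313.Full
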