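import Vale.Agent.P313.Full.PgStmt
import Vale.Agent.P313.Full.TabSP
import Vale.Agent.P313.RedDeg

/-! The procedures on the level `0`. -/

namespace Vale.Agent.P313.Full

open Finset Function Hi Tm

namespace V0

variable {cf : Cf} {d : Bool} {x y : ℕ}

theorem ed0_le (hc : cf.Ok) : cf.ed0 d x y ≤ 2 := by
  have h : ∀ {u v}, u < cf.N → v < cf.N → cf.A0 u v ≤ 2 := fun hu hv =>
    (single_le_sum (fun _ _ => Nat.zero_le _) (mem_range.2 hv)).trans (Red.sub_row hc.sub hu)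
  unfold Cf.ed0
  split_ifs with h1
  exacts [h h1.1 h1.2, h h1.2 h1.1, Nat.zero_le _]

theorem sum_ed0_le (hc : cf.Ok) : ∑ y ∈ range cf.N, cf.ed0 d x y ≤ 4 := by
  classical
  have h : #{y ∈ range cf.N | cf.ed0 d x y ≠ 0} ≤ 2 := by
    by_cases hx : x < cf.N
    · cases d
      · refine le_trans (card_le_card ?_) (hc.col x)
        exact monotone_filter_right _ fun y _ hy e => hy (by simp [Cf.ed0, e])
      · refine le_trans (card_le_card ?_) (Red.sub_row_card hc.sub hx)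
        exact monotone_filter_right _ fun y _ hy e => hy (by simp [Cf.ed0, e])
    · simp [Cf.ed0, hx]
  rw [← sum_filter_ne_zero]
  exact (sum_le_card_nsmul _ _ 2 fun _ _ => ed0_le hc).trans (Nat.mul_le_mul_right 2 h)

theorem cl_w0 (hc : cf.Ok) : cl (cf.w0 d x y) = cf.w0 d x y :=
  cl_eq Cf.w0_nonneg ((div_le_one two_pos).2 (by exact_mod_cast ed0_le hc))

theorem clH_H0 (hc : cf.Ok) (q : Cx) : clH (cf.H0 d q x) = cf.H0 d q x := by
  have h1 : ((∑ y ∈ range cf.N, cf.ed0 d x y : ℕ) : ℝ) ≤ 4 := by exact_mod_cast sum_ed0_le hc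
  have h2 : (1 : ℝ) ≤ cf.pw (cH * q.age) := by exact_mod_cast cf.pw_pos _
  have h3 : (2 : ℝ) ^ 1 ≤ 2 ^ (B + 1) := pow_le_pow_right₀ one_le_two (by omega)
  have h4 : cf.H0 d q x ≤ 2 ^ (B + 1) := (div_le_self (by positivity) h2).trans (by linarith)
  rw [clH, min_eq_right h4, max_eq_right Cf.H0_nonneg]

theorem cH_le (hc : cf.Ok2) {n : ℕ} (h : n ≤ cf.K) : cH * n ≤ cf.L := by
  have h1 : cH ≤ 8 * cw := by unfold cH cw cS; omega
  exact (Nat.mul_le_mul h1 (h.trans (Nat.le_succ _))).trans hc.big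

end V0

open V0

variable {α : Type} {I : α → In} {a : α} {W : ℕ → Tb}

theorem lvg_zero (E : Env I a W) : Lvg I a W false 0 where
  T c h _ := ⟨⟨c.lev ▸ c.fok, h⟩, (Pg.Val.loc.csT c.lev).congr E.tab.T_zero.symm⟩
  S c h _ := ⟨⟨c.lev ▸ c.fok, h⟩, (Pg.Val.loc.csT c.lev).congr E.tab.s_zero.symm⟩
  W' c h _ hs := ⟨⟨c.lev ▸ c.fok, h⟩, (Pg.Val.loc.csT c.lev).congr (by
    rw [cl_w0 E.ok.toOk, E.tab.w_pt_zero (E.tab.ok0_iff.1 hs), dn_eq,
      mul_div_cancel_right₀ _ (by positivity)])⟩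
  H c h _ := ⟨⟨c.lev ▸ c.fok, h⟩, (Pg.Val.loc.csT c.lev).congr (by
    rw [clH_H0 E.ok.toOk, E.tab.H_zero E.ok.toOk (cH_le E.ok c.fok.age)])⟩
  M c h _ hs := ⟨⟨c.lev ▸ c.fok, h⟩, (Pg.Mov.mloc.csT c.lev).congr (by
    rw [if_pos (by simpa using E.tab.ok0_iff.1 hs), E.tab.pt_zero (E.tab.ok0_iff.1 hs)])⟩

theorem uncSt_zero : UncSt I a false 0 := fun q hq _ => by
  change (prog I).Unc a _ (lv0 (bodySt0 I) (bodyStM I)) q
  unfold lv0 cs Pg.Unc
  rw [if_pos (by simpa using hq)]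
  trivial

end Vale.Agent.P313.Full
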