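import Vale.Agent.P313.Full.TabDef
import Vale.Agent.P313.Full.HiMg

/-! The normalised weights of the entries of the next level in terms of local data. -/

namespace Vale.Agent.P313.Full

open Finset Hi

/-- The normalised weight of an entry. -/
noncomputable def omg (L : Lv) (x z : ℕ) : ℝ := L.S x z * 2 ^ max (L.vo x).l (L.vi z).l

/-- The digits fit, in terms of the increases `D`, `E` and of the waiting flag. -/
def fitQ (D E : Bool → ℕ) (wt : Bool) (s t : ED) : Prop :=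
  fit ⟨D false, E false, wt⟩ ⟨D true, E true, wt⟩ s t

theorem fit_iff_fitQ {p r : Hi.View} {D E : Bool → ℕ} (h1 : p.l + D true = r.l + D false)
    (h2 : p.lam + E true = r.lam + E false) (h3 : p.wt = r.wt) (s t : ED) :
    fit p r s t ↔ fitQ D E p.wt s t := by
  have a1 : r.l - p.l = D true - D false := by omega
  have a2 : p.l - r.l = D false - D true := by omega
  have a3 : r.lam - p.lam = E true - E false := by omega
  have a4 : p.lam - r.lam = E false - E true := by omega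
  have a5 : ∀ u v : ℕ, p.l + u = r.l + v ↔ D false + u = D true + v := fun u v => by omega
  have a6 : ∀ u v : ℕ, p.lam + u = r.lam + v ↔ E false + u = E true + v := fun u v => by omega
  simp only [fitQ, fit, syn, dl, dm, a1, a2, a3, a4, a5, a6, ← h3]

/-- The factor of a free entry which depends on the two pair predicates. -/
noncomputable def prt (gx gz : G) (p₁ p₂ : ℝ) : ℝ :=
  (if gx.2.2 then cl p₂ else 1 - cl p₂) * (1 - if gz.2.2 then cl p₁ / 4 else 0)

open Classical in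
/-- One stage without a merge: `D`, `E` are the increases at the lower level, `w` is the normalised
weight at the lower level and `p` is the value of `prt`. -/
noncomputable def stg (D E : Bool → ℕ) (wt : Bool) (gx gz : Dig) (w p : ℝ) : ℝ :=
  if fitQ D E wt gx.2.2.2 gz.2.2.1 then
    cl w * (if gx.2.2.2.2.2.1 = 0 then
        if gx.1.2.2 = false then
          1 - if (gx.1.2.1 : ℕ) < B ∧ (gz.1.1 : ℕ) < B ∧ wt = false then phi (cl w) else 0
        else 0
      else (if (gx.1.2.1 : ℕ) < B ∧ (gz.1.1 : ℕ) < B ∧ wt = false then phi (cl w) else 0) * cl p) *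
      2 ^ (min (D true) (D false) - min (D true - gx.2.2.2.1) (D false - gz.2.2.1.1)) /
        2 ^ ((gx.1.2.1 : ℕ) + gz.1.1)
  else 0

/-- The factor of the class of the end `e`, as a function of the two statistics. -/
noncomputable def endF (e : Bool) (g : G) (hc hr : ℝ) : ℝ :=
  if e then zeta g.1 hc * chi g.2.1 hr else chi g.1 hc * zeta g.2.1 hr

/-- The same for free entries. -/
noncomputable def endM (e : Bool) (g : G) (hc hr : ℝ) : ℝ :=
  if ((if e then g.2.1 else g.1 : Fin (B + 1)) : ℕ) < B then endF e g hc hr else 0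

theorem cl_zero : cl 0 = 0 := cl_of_le le_rfl

theorem cl_one : cl 1 = 1 := cl_of_ge le_rfl

theorem cl_self {t : ℝ} (h0 : 0 ≤ t) (h1 : t ≤ 1) : cl t = t := by
  rw [cl, min_eq_right h1, max_eq_right h0]

variable {N M K k : ℕ} {L : Lv}

theorem omg_nonneg (hI : Inv N M K k L) (x z : ℕ) : 0 ≤ omg L x z :=
  mul_nonneg (hI.S_nonneg x z) (by positivity)

theorem omg_le_one (hI : Inv N M K k L) (x z : ℕ) : omg L x z ≤ 1 := hI.val x z

theorem cl_omg (hI : Inv N M K k L) (x z : ℕ) : cl (omg L x z) = omg L x z :=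
  cl_self (omg_nonneg hI x z) (omg_le_one hI x z)

theorem rdy_eq (hI : Inv N M K k L) {x z : ℕ} (h : L.S x z ≠ 0) :
    L.rdy x z = if (L.vo x).wt = false then phi (omg L x z) else 0 := by
  unfold Lv.rdy
  split_ifs with h1
  · rw [omg, ← ((hI.sy x z h).1 h1).1, max_self]
  · rfl

theorem prt_eq (gx gz : G) (p₁ p₂ : Prop) [Decidable p₁] [Decidable p₂] :
    cl (prt gx gz (if p₁ then 1 else 0) (if p₂ then 1 else 0)) =
      if gx.2.2 = decide p₂ then if p₁ ∧ gz.2.2 = true then 3 / 4 else 1 else 0 := by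
  have h : cl (3 / 4) = 3 / 4 := cl_self (by norm_num) (by norm_num)
  unfold prt
  by_cases h1 : p₁ <;> by_cases h2 : p₂ <;> cases gx.2.2 <;> cases gz.2.2 <;>
    simp [h1, h2, cl_zero, cl_one] <;> norm_num [h]

open Classical in
/-- **One stage without a merge.** -/
theorem stage_omg (hI : Inv N M K k L) {x z : ℕ} {gx gz : Dig} {D E : Bool → ℕ} {wt : Bool}
    (h1 : (L.vo x).l + D true = (L.vi z).l + D false)
    (h2 : (L.vo x).lam + E true = (L.vi z).lam + E false)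
    (hw : wt = (L.vo x).wt ∨ wt = (L.vi z).wt) (ho : gx.2.2.2.2.2.1 ≠ 2)
    (h3 : (gx.2.2.2.1 : ℕ) ≤ D true) (h4 : (gz.2.2.1.1 : ℕ) ≤ D false) :
    L.Sd x gx z gz * 2 ^ max ((L.vo x).l + gx.2.2.2.1) ((L.vi z).l + gz.2.2.1.1) =
      stg D E wt gx gz (omg L x z) (prt gx.1 gz.1 (if L.P1 x z then 1 else 0)
        (if L.P2 x z then 1 else 0)) * endF true gx.1 (L.hc x) (L.hr x) *
          endF false gz.1 (L.hc z) (L.hr z) := by
  have ho' : ¬ gx.2.2.2.2.2.1 = 0 → gx.2.2.2.2.2.1 = 1 := by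
    revert ho
    generalize gx.2.2.2.2.2.1 = o
    revert o
    decide
  by_cases hS : L.S x z = 0
  · have e0 : omg L x z = 0 := by rw [omg, hS, zero_mul]
    have e1 : L.Sd x gx z gz = 0 := by
      by_cases h0 : gx.2.2.2.2.2.1 = 0
      · simp [Lv.Sd, Lv.T, Lv.Nb, hS, h0]
      · simp [Lv.Sd, Lv.T, Lv.Fb, Lv.Cm, hS, ho' h0]
    simp [e0, e1, stg, cl_zero]
  have hwt := hI.wt x z hS
  obtain rfl : wt = (L.vo x).wt := hw.elim id fun h => h.trans hwt.symm
  have e2 : max ((L.vo x).l + gx.2.2.2.1) ((L.vi z).l + gz.2.2.1.1) = max (L.vo x).l (L.vi z).l +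
      (min (D true) (D false) - min (D true - gx.2.2.2.1) (D false - gz.2.2.1.1)) := by omega
  have e3 : (if (gx.1.2.1 : ℕ) < B ∧ (gz.1.1 : ℕ) < B ∧ (L.vo x).wt = false then phi (omg L x z)
      else 0) = L.fr (x, gx.1) (z, gz.1) := by
    simp only [Lv.fr, rdy_eq hI hS, ite_and]
  have e4 : endF true gx.1 (L.hc x) (L.hr x) = L.out (x, gx.1) := rfl
  have e5 : endF false gz.1 (L.hc z) (L.hr z) = L.inn (z, gz.1) := rfl
  rw [Lv.Sd, stg, fit_iff_fitQ h1 h2 hwt, e2, pow_add, prt_eq, cl_omg hI, e3, e4, e5, omg]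
  by_cases h5 : fitQ D E (L.vo x).wt gx.2.2.2 gz.2.2.1
  swap
  · simp [h5]
  rw [if_pos h5, if_pos h5, Lv.T]
  by_cases h0 : gx.2.2.2.2.2.1 = 0
  · rw [if_pos h0, if_pos h0, Lv.Nb]
    split_ifs <;> ring
  · rw [if_neg h0, if_neg h0, if_pos (ho' h0), Lv.Cm, Lv.Fb]
    dsimp only
    split_ifs <;> ring

theorem endM_true (g : G) (x : ℕ) : endM true g (L.hc x) (L.hr x) = L.fo (x, g) := rfl

theorem endM_false (g : G) (z : ℕ) : endM false g (L.hc z) (L.hr z) = L.fi (z, g) := rfl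

open Classical in
theorem sum_CF (L : Lv) (u w : ℕ × G) (m : ℕ) : ∑ g : G, L.Cm u (m, g) * L.Fb (m, g) w =
    if L.P1 u.1 m ∧ u.2.2.2 = decide (L.P2 u.1 m) ∧ L.P2 m w.1 then
      L.fo u * L.fi w * (L.om u.1 m * L.mid m * L.om m w.1) / 4 else 0 := by
  have h : ∀ i o : Fin (B + 1), L.Cm u (m, i, o, true) * L.Fb (m, i, o, true) w +
      L.Cm u (m, i, o, false) * L.Fb (m, i, o, false) w =
      (if L.P1 u.1 m ∧ u.2.2.2 = decide (L.P2 u.1 m) ∧ L.P2 m w.1 then
        L.fo u * L.fi w * (L.om u.1 m * L.om m w.1) / 4 else 0) *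
        (L.fi (m, i, o, true) * L.fo (m, i, o, true)) := by
    intro i o
    simp only [Lv.Cm, Lv.Fb_eq]
    by_cases h1 : L.P1 u.1 m <;> by_cases h2 : u.2.2.2 = decide (L.P2 u.1 m) <;>
      by_cases h3 : L.P2 m w.1 <;> simp [h1, h2, h3]
    ring
  rw [sum_G]
  simp only [h, ← mul_sum, Lv.sum_fi_fo]
  split_ifs <;> ring

/-- The ready part in terms of the normalised weight. -/
noncomputable def rdw (w : ℝ) : ℝ := cl w * phi (cl w)

theorem om_mul (hI : Inv N M K k L) {x z : ℕ} (h1 : (L.vo x).l = (L.vi z).l)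
    (h2 : (L.vo x).lam = (L.vi z).lam) : L.om x z * 2 ^ (L.vo x).l = rdw (omg L x z) := by
  rw [rdw, cl_omg hI, Lv.om]
  by_cases hS : L.S x z = 0
  · simp [omg, hS]
  · rw [rdy_eq hI hS, if_pos ((hI.sy x z hS).2 ⟨h1, h2⟩), omg, ← h1, max_self]
    ring

/-- The factor of a merged entry which depends on the two pair predicates of the first half. -/
noncomputable def prM (gx : G) (p₁ p₂ : ℝ) : ℝ := cl p₁ * if gx.2.2 then cl p₂ else 1 - cl p₂

open Classical in
/-- **The part of a merged entry through `m`.** -/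
theorem trm0_eq (hI : Inv N M K k L) {x m z : ℕ} {D E : Bool → ℕ}
    (h1 : (L.vo (x % L.n)).l = (L.vi m).l) (h2 : (L.vo (x % L.n)).lam = (L.vi m).lam)
    (h3 : (L.vo m).l = (L.vi (z % L.n)).l) (h4 : (L.vo m).lam = (L.vi (z % L.n)).lam)
    (h5 : (L.vi m).l + D true = (L.vo m).l + D false)
    (h6 : (L.vi m).lam + E true = (L.vo m).lam + E false) :
    2 ^ (2 * ((L.vi m).l + D true)) * trm0 L x m z =
      (if vld (x / L.n) ∧ vld (z / L.n) ∧
          fitQ D E false (dig (x / L.n)).2.2.2 (dig (z / L.n)).2.2.1 then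
        2 ^ (D true + D false) / (4 * 2 ^ (((dig (x / L.n)).1.2.1 : ℕ) + (dig (z / L.n)).1.1))
      else 0) *
      (rdw (omg L (x % L.n) m) * prM (dig (x / L.n)).1 (if L.P1 (x % L.n) m then 1 else 0)
        (if L.P2 (x % L.n) m then 1 else 0) * L.fo (x % L.n, (dig (x / L.n)).1)) * L.mid m *
      (rdw (omg L m (z % L.n)) * (if L.P2 m (z % L.n) then 1 else 0) *
        L.fi (z % L.n, (dig (z / L.n)).1)) := by
  rw [← om_mul hI h1 h2, ← om_mul hI h3 h4, trm0, sum_CF]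
  dsimp only
  by_cases a1 : L.om (x % L.n) m = 0
  · simp [a1]
  by_cases a2 : L.om m (z % L.n) = 0
  · simp [a2]
  have w1 := (L.of_om a1).1
  have w2 := (hI.wt _ _ (left_ne_zero_of_mul a2)).symm.trans (L.of_om a2).1
  have e1 : (2 : ℝ) ^ (2 * ((L.vi m).l + D true)) =
      2 ^ (D true + D false) * 2 ^ (L.vo (x % L.n)).l * 2 ^ (L.vo m).l := by
    rw [← pow_add, ← pow_add]
    congr 1
    omega
  rw [fit_iff_fitQ (D := D) (E := E) (by omega) (by omega) (w1.trans w2.symm), w1, e1, prM]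
  by_cases b1 : L.P1 (x % L.n) m <;> by_cases b2 : L.P2 (x % L.n) m <;>
    by_cases b3 : L.P2 m (z % L.n) <;> cases (dig (x / L.n)).1.2.2 <;>
      simp only [b1, b2, b3, cl_zero, cl_one, if_true, if_false, decide_true, decide_false,
        and_self, and_true, and_false, Bool.false_eq_true, Bool.true_eq_false] <;> split_ifs <;> ring

/-- **The free mass.** -/
theorem fre0_eq (hI : Inv N M K k L) {x z : ℕ} (h1 : (L.vo x).l = (L.vi z).l)
    (h2 : (L.vo x).lam = (L.vi z).lam) : 2 ^ (L.vo x).l * fre0 L x z =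
      rdw (omg L x z) * (1 - R B (L.hr x)) * (1 - R B (L.hc z)) := by
  rw [← om_mul hI h1 h2, fre0, Lv.om]
  ring

/-- The weight divided by its scale is the normalised weight. -/
theorem Tb.w_div (A : Tb) {d : Bool} {q : Cx} {x y : ℕ} (h : A.vis d q x y) :
    A.w d q x y / 2 ^ min (q.D true) (q.D false) =
      if d then omg A.L x y else omg A.L y x := by
  rw [Tb.w, if_pos h, div_eq_iff (by positivity)]
  have h1 := h.1
  cases d <;> simp only [Tb.lam, ve, sd, omg, Bool.not_true, Bool.not_false, if_true,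
    Bool.false_eq_true, if_false] at h1 ⊢ <;> rw [mul_assoc, ← pow_add] <;> congr 2 <;> omega

/-! ### Ranges and Lipschitz constants -/

theorem abs_mul_sub_le {u v u' v' A A' ε ε' : ℝ} (hu : |u| ≤ A) (hv : |v'| ≤ A')
    (h1 : |u - u'| ≤ ε) (h2 : |v - v'| ≤ ε') : |u * v - u' * v'| ≤ A * ε' + A' * ε := by
  rw [show u * v - u' * v' = u * (v - v') + v' * (u - u') by ring]
  refine (abs_add_le _ _).trans ?_
  rw [abs_mul, abs_mul]
  exact add_le_add (mul_le_mul hu h2 (abs_nonneg _) ((abs_nonneg _).trans hu))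
    (mul_le_mul hv h1 (abs_nonneg _) ((abs_nonneg _).trans hv))

theorem abs_cl_le (t : ℝ) : |cl t| ≤ 1 := by
  rw [abs_of_nonneg (cl_nonneg t)]
  exact cl_le_one t

theorem abs_phi_le (t : ℝ) : |phi t| ≤ 1 := abs_cl_le _

theorem abs_one_sub_le {t : ℝ} (h0 : 0 ≤ t) (h1 : t ≤ 1) : |1 - t| ≤ 1 :=
  abs_le.2 ⟨by linarith, by linarith⟩

theorem abs_prt_le (gx gz : G) (p₁ p₂ : ℝ) : |prt gx gz p₁ p₂| ≤ 1 := by
  have := cl_nonneg p₁
  have := cl_le_one p₁
  rw [prt, abs_mul]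
  refine mul_le_one₀ ?_ (abs_nonneg _) ?_ <;> split_ifs
  exacts [abs_cl_le _, abs_one_sub_le (cl_nonneg _) (cl_le_one _),
    abs_one_sub_le (by linarith) (by linarith), by simp]

theorem abs_sel_sub (b : Bool) {p p' ε : ℝ} (h : |p - p'| ≤ ε) :
    |(if b then cl p else 1 - cl p) - if b then cl p' else 1 - cl p'| ≤ ε := by
  split_ifs
  · exact (abs_cl_sub _ _).trans h
  · rw [sub_sub_sub_cancel_left, abs_sub_comm]
    exact (abs_cl_sub _ _).trans h

theorem abs_sel_le (b : Bool) (p : ℝ) : |if b then cl p else 1 - cl p| ≤ 1 := by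
  split_ifs
  exacts [abs_cl_le _, abs_one_sub_le (cl_nonneg _) (cl_le_one _)]

theorem abs_prt_sub (gx gz : G) {p₁ p₂ p₁' p₂' ε : ℝ} (h1 : |p₁ - p₁'| ≤ ε) (h2 : |p₂ - p₂'| ≤ ε) :
    |prt gx gz p₁ p₂ - prt gx gz p₁' p₂'| ≤ 2 * ε := by
  have := cl_nonneg p₁'
  have := cl_le_one p₁'
  have h0 : 0 ≤ ε := (abs_nonneg _).trans h1
  refine (abs_mul_sub_le (A' := 1) (ε' := ε) (abs_sel_le _ _) ?_ (abs_sel_sub _ h2) ?_).trans
    (by linarith) <;> split_ifs
  · exact abs_one_sub_le (by linarith) (by linarith)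
  · simp
  · rw [sub_sub_sub_cancel_left, ← sub_div, abs_div, abs_sub_comm]
    have := (abs_cl_sub p₁ p₁').trans h1
    rw [abs_of_pos (by norm_num : (0 : ℝ) < 4)]
    linarith
  · simpa using h0

theorem abs_prM_le (gx : G) (p₁ p₂ : ℝ) : |prM gx p₁ p₂| ≤ 1 := by
  rw [prM, abs_mul]
  exact mul_le_one₀ (abs_cl_le _) (abs_nonneg _) (abs_sel_le _ _)

theorem abs_prM_sub (gx : G) {p₁ p₂ p₁' p₂' ε : ℝ} (h1 : |p₁ - p₁'| ≤ ε) (h2 : |p₂ - p₂'| ≤ ε) :
    |prM gx p₁ p₂ - prM gx p₁' p₂'| ≤ 2 * ε :=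
  (abs_mul_sub_le (abs_cl_le _) (abs_sel_le _ _) ((abs_cl_sub _ _).trans h1)
    (abs_sel_sub _ h2)).trans (by linarith)

theorem abs_endF_le (e : Bool) (g : G) (hc hr : ℝ) : |endF e g hc hr| ≤ 1 := by
  unfold endF
  split_ifs <;> rw [abs_of_nonneg (mul_nonneg (by first | apply zeta_nonneg | apply chi_nonneg)
    (by first | apply zeta_nonneg | apply chi_nonneg))]
  · exact mul_le_one₀ (zeta_le_one _ _) (chi_nonneg _ _) (chi_le_one _ _)
  · exact mul_le_one₀ (chi_le_one _ _) (zeta_nonneg _ _) (zeta_le_one _ _)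

theorem abs_endF_sub (e : Bool) (g : G) {hc hr hc' hr' ε : ℝ} (h1 : |hc - hc'| ≤ ε)
    (h2 : |hr - hr'| ≤ ε) : |endF e g hc hr - endF e g hc' hr'| ≤ 4 * ε := by
  have z : ∀ g t, |zeta g t| ≤ 1 := fun g t => by
    rw [abs_of_nonneg (zeta_nonneg _ _)]
    exact zeta_le_one _ _
  have c : ∀ g t, |chi g t| ≤ 1 := fun g t => by
    rw [abs_of_nonneg (chi_nonneg _ _)]
    exact chi_le_one _ _
  have h0 : 0 ≤ ε := (abs_nonneg _).trans h1
  unfold endF
  split_ifs
  · refine (abs_mul_sub_le (z _ _) (c _ _) (abs_zeta_sub _ _ _) (abs_chi_sub _ _ _)).trans ?_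
    linarith
  · refine (abs_mul_sub_le (c _ _) (z _ _) (abs_chi_sub _ _ _) (abs_zeta_sub _ _ _)).trans ?_
    linarith

theorem abs_endM_le (e : Bool) (g : G) (hc hr : ℝ) : |endM e g hc hr| ≤ 1 := by
  rw [endM]
  by_cases h : ((if e then g.2.1 else g.1 : Fin (B + 1)) : ℕ) < B
  · rw [if_pos h]
    exact abs_endF_le _ _ _ _
  · simp [if_neg h]

theorem abs_endM_sub (e : Bool) (g : G) {hc hr hc' hr' ε : ℝ} (h1 : |hc - hc'| ≤ ε)
    (h2 : |hr - hr'| ≤ ε) : |endM e g hc hr - endM e g hc' hr'| ≤ 4 * ε := by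
  rw [endM, endM]
  by_cases h : ((if e then g.2.1 else g.1 : Fin (B + 1)) : ℕ) < B
  · rw [if_pos h, if_pos h]
    exact abs_endF_sub _ _ h1 h2
  · rw [if_neg h, if_neg h, sub_zero, abs_zero]
    linarith [(abs_nonneg _).trans h1]

theorem abs_rdw_le (w : ℝ) : |rdw w| ≤ 1 := by
  rw [rdw, abs_mul]
  exact mul_le_one₀ (abs_cl_le _) (abs_nonneg _) (abs_phi_le _)

theorem abs_phi_cl_sub (w w' : ℝ) : |phi (cl w) - phi (cl w')| ≤ 2 ^ (B + 1) * |w - w'| :=
  (abs_phi_sub _ _).trans (mul_le_mul_of_nonneg_left (abs_cl_sub _ _) (by positivity))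

theorem abs_rdw_sub (w w' : ℝ) : |rdw w - rdw w'| ≤ 2 ^ (B + 2) * |w - w'| := by
  refine (abs_mul_sub_le (abs_cl_le _) (abs_phi_le _) (abs_cl_sub _ _) (abs_phi_cl_sub _ _)).trans ?_
  have : (1 : ℝ) ≤ 2 ^ (B + 1) := one_le_pow₀ (by norm_num)
  rw [pow_succ 2 (B + 1)]
  nlinarith [abs_nonneg (w - w')]

/-- The bracket of `stg`. -/
theorem stg_eq (D E : Bool → ℕ) (wt : Bool) (gx gz : Dig) : ∃ c : ℝ, |c| ≤ 2 ^ B ∧
    ∃ F : ℝ → ℝ → ℝ, (∀ w p, |F w p| ≤ 1) ∧
      (∀ w p w' p' ε, |w - w'| ≤ ε → |p - p'| ≤ ε → |F w p - F w' p'| ≤ (2 ^ (B + 1) + 1) * ε) ∧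
      ∀ w p, stg D E wt gx gz w p = c * (cl w * F w p) := by
  classical
  have hf : ∀ (c : Prop) [Decidable c] (w : ℝ), 0 ≤ (if c then phi (cl w) else 0) ∧
      (if c then phi (cl w) else 0) ≤ 1 := fun c _ w => by
    split_ifs
    exacts [⟨cl_nonneg _, cl_le_one _⟩, ⟨le_rfl, zero_le_one⟩]
  have hl : ∀ (c : Prop) [Decidable c] (w w' ε : ℝ), |w - w'| ≤ ε →
      |(if c then phi (cl w) else 0) - if c then phi (cl w') else 0| ≤ 2 ^ (B + 1) * ε :=
    fun c _ w w' ε h => by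
      split_ifs
      · exact (abs_phi_cl_sub _ _).trans (mul_le_mul_of_nonneg_left h (by positivity))
      · rw [sub_zero, abs_zero]
        exact mul_nonneg (by positivity) ((abs_nonneg _).trans h)
  refine ⟨if fitQ D E wt gx.2.2.2 gz.2.2.1 then
    2 ^ (min (D true) (D false) - min (D true - gx.2.2.2.1) (D false - gz.2.2.1.1)) /
      2 ^ ((gx.1.2.1 : ℕ) + gz.1.1) else 0, ?_, fun w p => if gx.2.2.2.2.2.1 = 0 then
        if gx.1.2.2 = false then
          1 - if (gx.1.2.1 : ℕ) < B ∧ (gz.1.1 : ℕ) < B ∧ wt = false then phi (cl w) else 0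
        else 0
      else (if (gx.1.2.1 : ℕ) < B ∧ (gz.1.1 : ℕ) < B ∧ wt = false then phi (cl w) else 0) * cl p,
    fun w p => ?_, fun w p w' p' ε h1 h2 => ?_, fun w p => ?_⟩
  · split_ifs
    · rw [abs_of_nonneg (by positivity)]
      refine (div_le_self (by positivity) (one_le_pow₀ one_le_two)).trans
        (pow_le_pow_right₀ one_le_two ?_)
      have := gx.2.2.2.1.2
      have := gz.2.2.1.1.2
      omega
    · simp
  · dsimp only
    by_cases h0 : gx.2.2.2.2.2.1 = 0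
    · rw [if_pos h0]
      by_cases h1 : gx.1.2.2 = false
      · rw [if_pos h1]
        exact abs_one_sub_le (hf _ w).1 (hf _ w).2
      · simp [if_neg h1]
    · rw [if_neg h0, abs_mul, abs_of_nonneg (hf _ w).1]
      exact mul_le_one₀ (hf _ w).2 (abs_nonneg _) (abs_cl_le _)
  · have h3 : 0 ≤ ε := (abs_nonneg _).trans h1
    dsimp only
    by_cases h0 : gx.2.2.2.2.2.1 = 0
    · rw [if_pos h0, if_pos h0]
      by_cases h4 : gx.1.2.2 = false
      · rw [if_pos h4, if_pos h4, sub_sub_sub_cancel_left, abs_sub_comm]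
        refine (hl _ w w' ε h1).trans ?_
        linarith
      · rw [if_neg h4, if_neg h4, sub_zero, abs_zero]
        positivity
    · rw [if_neg h0, if_neg h0]
      refine (abs_mul_sub_le (A := 1) ((abs_of_nonneg (hf _ w).1).trans_le (hf _ w).2)
        (abs_cl_le _) (hl _ w w' ε h1) ((abs_cl_sub _ _).trans h2)).trans_eq ?_
      ring
  · rw [stg]
    split_ifs <;> ring

theorem abs_stg_le (D E : Bool → ℕ) (wt : Bool) (gx gz : Dig) (w p : ℝ) :
    |stg D E wt gx gz w p| ≤ 2 ^ B := by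
  obtain ⟨c, hc, F, h1, -, h3⟩ := stg_eq D E wt gx gz
  rw [h3, abs_mul, abs_mul]
  exact (mul_le_of_le_one_right (abs_nonneg _)
    (mul_le_one₀ (abs_cl_le _) (abs_nonneg _) (h1 _ _))).trans hc

theorem abs_stg_sub (D E : Bool → ℕ) (wt : Bool) (gx gz : Dig) {w p w' p' ε : ℝ}
    (hw : |w - w'| ≤ ε) (hp : |p - p'| ≤ ε) :
    |stg D E wt gx gz w p - stg D E wt gx gz w' p'| ≤ 2 ^ (2 * B + 2) * ε := by
  obtain ⟨c, hc, F, h1, h2, h3⟩ := stg_eq D E wt gx gz
  have h0 : 0 ≤ ε := (abs_nonneg _).trans hw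
  have h4 := abs_mul_sub_le (abs_cl_le w) (h1 w' p') ((abs_cl_sub _ _).trans hw)
    (h2 w p w' p' ε hw hp)
  have h5 : (1 : ℝ) ≤ 2 ^ B := one_le_pow₀ one_le_two
  rw [h3, h3, ← mul_sub, abs_mul]
  refine (mul_le_mul hc h4 (abs_nonneg _) (by positivity)).trans ?_
  rw [show 2 * B + 2 = B + (B + 2) by omega, pow_add 2 B (B + 2), mul_assoc, pow_add, pow_add]
  refine mul_le_mul_of_nonneg_left ?_ (by positivity)
  nlinarith

/-! ### Computability -/

section sp

open Vale.Agent.Lib.Space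

variable {A α : Type} [Enc A α] {Bu : Bud A} {c c' : α → ℕ} {u v : α → ℝ}

theorem rsp_prt (hc : SP Bu c) (hc' : SP Bu c') (hu : RSP Bu u) (hv : RSP Bu v) :
    RSP Bu fun p => prt (dig (c p)).1 (dig (c' p)).1 (u p) (v p) :=
  (RSP.ite (sp_dig_prop (fun g => g.1.2.2 = true) hc) (rsp_cl hv) (RSP.one.sub (rsp_cl hv))).mul
    (RSP.one.sub (RSP.ite (sp_dig_prop (fun g => g.1.2.2 = true) hc')
      ((rsp_cl hu).div (RSP.const 4 (by norm_num))) RSP.zero))

theorem rsp_prM (hc : SP Bu c) (hu : RSP Bu u) (hv : RSP Bu v) :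
    RSP Bu fun p => prM (dig (c p)).1 (u p) (v p) :=
  (rsp_cl hu).mul
    (RSP.ite (sp_dig_prop (fun g => g.1.2.2 = true) hc) (rsp_cl hv) (RSP.one.sub (rsp_cl hv)))

theorem rsp_endF (e : Bool) (hc : SP Bu c) (hu : RSP Bu u) (hv : RSP Bu v) :
    RSP Bu fun p => endF e (dig (c p)).1 (u p) (v p) := by
  have h1 := sp_dig (fun g => (g.1.1 : ℕ)) hc
  have h2 := sp_dig (fun g => (g.1.2.1 : ℕ)) hc
  cases e
  exacts [(rsp_chi h1 hu).mul (rsp_zeta h2 hv), (rsp_zeta h1 hu).mul (rsp_chi h2 hv)]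

theorem rsp_endM (e : Bool) (hc : SP Bu c) (hu : RSP Bu u) (hv : RSP Bu v) :
    RSP Bu fun p => endM e (dig (c p)).1 (u p) (v p) :=
  RSP.ite (sp_dig_prop (fun g => ((if e then g.1.2.1 else g.1.1 : Fin (B + 1)) : ℕ) < B) hc)
    (rsp_endF e hc hu hv) RSP.zero

theorem rsp_rdw (hu : RSP Bu u) : RSP Bu fun p => rdw (u p) := (rsp_cl hu).mul (rsp_phi (rsp_cl hu))

theorem sp_fitV {v v' : α → Hi.View} (h1 : SP Bu fun p => (v p).l) (h2 : SP Bu fun p => (v p).lam)
    (h3 : SP Bu fun p => (v p).wt) (h1' : SP Bu fun p => (v' p).l)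
    (h2' : SP Bu fun p => (v' p).lam) (h3' : SP Bu fun p => (v' p).wt) (hc : SP Bu c)
    (hc' : SP Bu c')
    [DecidablePred fun p => fit (v p) (v' p) (dig (c p)).2.2.2 (dig (c' p)).2.2.1] :
    SP Bu fun p => decide (fit (v p) (v' p) (dig (c p)).2.2.2 (dig (c' p)).2.2.1) := by
  classical
  have o := sp_dig_prop (fun g => g.2.2.2.2.2.1 = 0) hc
  have l : ∀ {v v' : α → Hi.View}, SP Bu (fun p => (v p).l) → SP Bu (fun p => (v p).wt) →
      SP Bu (fun p => (v' p).l) → SP Bu fun p => dl (dig (c p)).2.2.2.2.2.1 (v p) (v' p) :=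
    fun h1 h3 h1' => (SP.ite (o.decide_and h3.not.decide_true) (SP.const B)
      ((SP.const B).min (h1'.sub h1))).congr fun p => by simp [dl]
  have m : ∀ {v v' : α → Hi.View}, SP Bu (fun p => (v p).lam) → SP Bu (fun p => (v' p).lam) →
      SP Bu fun p => dm (dig (c p)).2.2.2.2.2.1 (v p) (v' p) := fun h2 h2' =>
    ((SP.const C).min (h2'.sub h2)).add (SP.ite o (SP.const 1) (SP.const 0))
  have y := ((h1.add (l h1 h3 h1')).decide_eq (h1'.add (l h1' h3' h1))).decide_and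
    ((h2.add (m h2 h2')).decide_eq (h2'.add (m h2' h2)))
  have w := sp_dig_prop (fun g => g.2.2.2.2.2.2 = false) hc
  refine ((((sp_dig (fun g => g.2.2.2.2.2.1) hc).decide_eq
      (sp_dig (fun g => g.2.2.1.2.2.1) hc')).decide_and
    ((sp_dig (fun g => g.2.2.2.2.2.2.toNat) hc).decide_eq
      (sp_dig (fun g => g.2.2.1.2.2.2.toNat) hc'))).decide_and
    (((w.decide_and y).decide_or (w.decide_not.decide_and y.decide_not)).decide_and
    (((sp_dig (fun g => g.2.2.2.1) hc).decide_eq (l h1 h3 h1')).decide_and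
    (((sp_dig (fun g => g.2.2.1.1) hc').decide_eq (l h1' h3' h1)).decide_and
    (((sp_dig (fun g => g.2.2.2.2.1) hc).decide_eq (m h2 h2')).decide_and
    ((sp_dig (fun g => g.2.2.1.2.1) hc').decide_eq (m h2' h2))))))).congr fun p => ?_
  have t : ∀ b b' : Bool, b.toNat = b'.toNat ↔ b = b' := by decide
  rw [decide_eq_decide, fit, syn, @iff_iff_and_or_not_and_not (_ = false), Prod.ext_iff,
    Fin.ext_iff, t]

theorem sp_fitQ {D E : α → Bool → ℕ} {wt : α → Bool} (hD : ∀ e, SP Bu fun p => D p e)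
    (hE : ∀ e, SP Bu fun p => E p e) (hw : SP Bu wt) (hc : SP Bu c) (hc' : SP Bu c')
    [DecidablePred fun p => fitQ (D p) (E p) (wt p) (dig (c p)).2.2.2 (dig (c' p)).2.2.1] :
    SP Bu fun p => decide (fitQ (D p) (E p) (wt p) (dig (c p)).2.2.2 (dig (c' p)).2.2.1) := by
  classical
  exact (sp_fitV (v := fun p => ⟨D p false, E p false, wt p⟩)
    (v' := fun p => ⟨D p true, E p true, wt p⟩) (hD _) (hE _) hw (hD _) (hE _) hw hc hc').congr
    fun p => by congr

theorem rsp_stg {D E : α → Bool → ℕ} {wt : α → Bool} (hD : ∀ e, SP Bu fun p => D p e)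
    (hE : ∀ e, SP Bu fun p => E p e) (hw : SP Bu wt) (hc : SP Bu c) (hc' : SP Bu c')
    (hu : RSP Bu u) (hv : RSP Bu v) :
    RSP Bu fun p => stg (D p) (E p) (wt p) (dig (c p)) (dig (c' p)) (u p) (v p) := by
  classical
  have f := RSP.ite ((sp_dig_prop (fun g => (g.1.2.1 : ℕ) < B) hc).decide_and
    ((sp_dig_prop (fun g => (g.1.1 : ℕ) < B) hc').decide_and
      (hw.not.congr fun p => show _ = decide (wt p = false) by cases wt p <;> rfl)))
    (rsp_phi (rsp_cl hu)) RSP.zero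
  refine RSP.ite (sp_fitQ hD hE hw hc hc') ((((rsp_cl hu).mul
    (RSP.ite (sp_dig_prop (fun g => g.2.2.2.2.2.1 = 0) hc)
      (RSP.ite (sp_dig_prop (fun g => g.1.2.2 = false) hc) (RSP.one.sub f) RSP.zero)
      (f.mul (rsp_cl hv)))).mul (rsp_two_pow (sp_two_pow_le B (((hD true).min (hD false)).sub
        (((hD true).sub (sp_dig (fun g => g.2.2.2.1) hc)).min
          ((hD false).sub (sp_dig (fun g => g.2.2.1.1) hc')))) fun p => ?_))).div
    (rsp_two_pow (sp_two_pow_le (2 * B) ((sp_dig (fun g => g.1.2.1) hc).add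
      (sp_dig (fun g => g.1.1) hc')) fun p => ?_))) RSP.zero
  · have := (dig (c p)).2.2.2.1.2
    have := (dig (c' p)).2.2.1.1.2
    omega
  · have := (dig (c p)).1.2.1.2
    have := (dig (c' p)).1.1.2
    omega

end sp

end Vale.Agent.P313.Full
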