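import Vale.Agent.P313.Full.PgLay
import Vale.Agent.P313.Full.TabW

/-! The program for the tables: the terms for the weights. -/

namespace Vale.Agent.P313.Full

open Finset Function Hi Tm

variable {α : Type} (I : α → In)

/-- The level of the view `e` of the name on the level `k`. -/
noncomputable def Cf.lmv (cf : Cf) (e : Bool) (k : ℕ) (s : SS) : ℕ :=
  (vw e cf.N cf.n0 cf.K k (s .nm)).lam

/-- The test `v + j < u + i`, where `u` is the level of the other view of the near end and `v` is
the level of the other view of the far end of the move `M`. -/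
noncomputable def prL (k : QQ → ℕ) (d : Bool) (M : Trm α) (i j : ℕ) : Trm α :=
  pairP .ct (fun a q s => (I a).pw ((I a).lmv (!d) (k q) s + i) - 1)
    (fun a q s => (I a).lmv d (k q) s + j) d M

/-- A function of the two predicates `P1`, `P2` of the entry along the move `M`. -/
noncomputable def pr2 (φ : QQ → ℝ → ℝ → ℝ) (k : QQ → ℕ) (d : Bool) (M : Trm α) : Trm α :=
  app (fun _ q _ x y => φ q (if d then x else 1 - y) (if d then 1 - y else x))
    (prL I k d M 3 0) (prL I k d M 0 2)

/-- A function of the two statistics of the name on the level `k q`. -/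
noncomputable def endT (φ : QQ → ℝ → ℝ → ℝ) (k : QQ → ℕ) : Trm α :=
  app (fun _ q _ => φ q) (frH false k) (frH true k)

/-! ### The chain through a layer -/

/-- The context on the level `i` steps above the bottom of the layer. -/
noncomputable def cxi (q : QQ) (i : ℕ) : Cx :=
  (cx q).up (bU q - i) fun e => (rU q).1 e / 2 ^ (a * i)

/-- The level below the current step. -/
noncomputable def lvC (q : QQ) : ℕ := q .lev - bU q + (q .idx - 1)

/-- The digits of the current step. -/
noncomputable def gC (q : QQ) : Bool → ℕ := fun e => cd 0 (q .idx - 1) ((rU q).1 e)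

/-- The chain one step down. -/
noncomputable def chP (d : Bool) : Trm α := cl' (.Ch d) fun q => Fi q (q .idx - 1)

open Classical in
/-- The main factor of a step. -/
noncomputable def stgT (d : Bool) : Trm α :=
  app (fun a q s w p => if vld (gC q true) ∧ vld (gC q false) then
      stg (cxi q (q .idx - 1)).D (cxi q (q .idx - 1)).E
        (vw d (I a).N (I a).n0 (I a).K (lvC q) (s .nm)).wt (Hi.dig (gC q true))
        (Hi.dig (gC q false)) w p / 2 ^ B else 0) (chP d)
    (pr2 I (fun q => prt (Hi.dig (gC q true)).1 (Hi.dig (gC q false)).1) lvC d (linkU I))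

/-- The factor of the end `e` of a step. -/
noncomputable def endC (e : Bool) : Trm α := endT (fun q => endF e (Hi.dig (gC q e)).1) lvC

/-- One step of the chain. -/
noncomputable def stepC (d : Bool) : Trm α :=
  .guard (.guard (cst (2 ^ B)) (stgT I d)) (.guard (endC d) (hop d (linkU I) (endC (!d))))

/-- The chain. -/
noncomputable def bodyCh (d : Bool) : Trm α :=
  cs (fun q => q .idx = 0) (aft (enU I d) (cU (.W · d) FU)) (stepC I d)

/-! ### The weights of a link; the state is the state at the midpoint -/

/-- The level of the halves. -/
def lvM (q : QQ) : ℕ := q .lev - 1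

/-- The context of a link on the level of the halves. -/
noncomputable def cxM (q : QQ) : Cx := (cx q).up 1 (lb q).1

/-- The scale of the masses. -/
noncomputable def scM (a : α) (q : QQ) : ℝ := (I a).pw ((cxM q).D true + (cxM q).D false + cZ)

/-- The ready weight of the half `e`. -/
noncomputable def omH (e : Bool) : Trm α := fn rdw (inH e (.W true (!e)))

/-- The part of the name which is not saturated in the direction `e`. -/
noncomputable def usH (e : Bool) : Trm α := fn (fun x => 1 - R B x) (frH e lvM)

/-- The factor of the half `e`. -/
noncomputable def side (e : Bool) : Trm α :=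
  .guard (.guard (omH e) (pr2 I
      (fun q p₁ p₂ => if e then prM (Hi.dig ((lb q).1 true)).1 p₁ p₂ else cl p₂) lvM (!e) (half e)))
    (hop (!e) (half e) (endT (fun q => endM e (Hi.dig ((lb q).1 e)).1) lvM))

open Classical in
/-- The local factor of a link. -/
noncomputable def coefM (a : α) (q : QQ) : ℝ :=
  if vld ((lb q).1 true) ∧ vld ((lb q).1 false) ∧ fitQ (cxM q).D (cxM q).E false
      (Hi.dig ((lb q).1 true)).2.2.2 (Hi.dig ((lb q).1 false)).2.2.1 then
    scM I a q / (4 * 2 ^ (((Hi.dig ((lb q).1 true)).1.2.1 : ℕ) + (Hi.dig ((lb q).1 false)).1.1))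
  else 0

/-- The weight of a link. -/
noncomputable def wZ : Trm α :=
  .guard (.guard (loc fun a q _ => coefM I a q) (side I true))
    (.guard (.guard (usH false) (usH true)) (side I false))

/-- The free mass of the half `d`. -/
noncomputable def wI (d : Bool) : Trm α :=
  .guard (loc fun a q _ => scM I a q)
    (.guard (omH d) (.guard (usH (!d)) (hop (!d) (half d) (usH d))))

end Vale.Agent.P313.Full
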