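import Vale.Agent.P313.Full.RecVec

/-!
Recursive imperative programs with global variables `ι → ℕ` and local variables `κ → ℕ`.
A call saves the local variables on a stack; if they are smaller than `2 ^ w`, this costs `w + 1`.
A program whose atomic steps are `SP`, whose variables are polynomially bounded and whose stack
costs `O(log)` computes an `SP` function (`sp_rec`).
-/

namespace Vale.Agent.P313.Full

open Function Finset Vale.Agent.Lib.Space F43

/-- States: global and local variables. -/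
abbrev PSt (ι κ : Type) : Type := (ι → ℕ) × (κ → ℕ)

/-- Programs; `α` is the type of the read-only context, `ρ` the type of procedure names. -/
inductive Prog (α ι κ ρ : Type) : Type
  | op (f : α → PSt ι κ → PSt ι κ)
  | seq (p q : Prog α ι κ ρ)
  | ite (c : α → PSt ι κ → Bool) (p q : Prog α ι κ ρ)
  | wh (c : α → PSt ι κ → Bool) (p : Prog α ι κ ρ)
  | call (r : ρ) (ini : α → PSt ι κ → κ → ℕ)

variable {α ι κ ρ : Type}

/-- All variables are at most `V`. -/
def Ok (V : ℕ) (s : PSt ι κ) : Prop := (∀ x, s.1 x ≤ V) ∧ ∀ y, s.2 y ≤ V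

/-- Big-step semantics; the last argument bounds the cost of the stack. -/
inductive Exec (body : ρ → Prog α ι κ ρ) (a : α) (V : ℕ) :
    Prog α ι κ ρ → PSt ι κ → PSt ι κ → ℕ → Prop
  | op {f s k} : (Ok V s → Ok V (f a s)) → Exec body a V (.op f) s (f a s) k
  | seq {p q s s' s'' k} : Exec body a V p s s' k → Exec body a V q s' s'' k →
      Exec body a V (.seq p q) s s'' k
  | iteT {c p q s s' k} : c a s = true → Exec body a V p s s' k → Exec body a V (.ite c p q) s s' k
  | iteF {c p q s s' k} : c a s = false → Exec body a V q s s' k →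
      Exec body a V (.ite c p q) s s' k
  | whF {c p s k} : c a s = false → Exec body a V (.wh c p) s s k
  | whT {c p s s' s'' k} : c a s = true → Exec body a V p s s' k →
      Exec body a V (.wh c p) s' s'' k → Exec body a V (.wh c p) s s'' k
  | call {r ini s s' k k'} (w : ℕ) : (Ok V s → ∀ y, ini a s y ≤ V) → (∀ y, s.2 y < 2 ^ w) →
      Exec body a V (body r) (s.1, ini a s) s' k' → w + 1 + k' ≤ k →
      Exec body a V (.call r ini) s (s'.1, s.2) k

variable {body : ρ → Prog α ι κ ρ} {a : α} {V : ℕ}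

theorem Exec.mono {p : Prog α ι κ ρ} {s s' : PSt ι κ} {k k' : ℕ} (h : Exec body a V p s s' k)
    (hk : k ≤ k') : Exec body a V p s s' k' := by
  induction h generalizing k' with
  | op h => exact .op h
  | seq _ _ ih1 ih2 => exact .seq (ih1 hk) (ih2 hk)
  | iteT hc _ ih => exact .iteT hc (ih hk)
  | iteF hc _ ih => exact .iteF hc (ih hk)
  | whF hc => exact .whF hc
  | whT hc _ _ ih1 ih2 => exact .whT hc (ih1 hk) (ih2 hk)
  | call w h1 h2 h3 h4 _ => exact .call w h1 h2 h3 (h4.trans hk)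

theorem Exec.ok {p : Prog α ι κ ρ} {s s' : PSt ι κ} {k : ℕ} (h : Exec body a V p s s' k)
    (hs : Ok V s) : Ok V s' := by
  induction h with
  | op h => exact h hs
  | seq _ _ ih1 ih2 => exact ih2 (ih1 hs)
  | iteT _ _ ih => exact ih hs
  | iteF _ _ ih => exact ih hs
  | whF _ => exact hs
  | whT _ _ _ ih1 ih2 => exact ih2 (ih1 hs)
  | call _ h1 _ _ _ ih => exact ⟨(ih ⟨hs.1, h1 hs⟩).1, hs.2⟩

namespace Prog

/-- The number of program points. -/
def len : Prog α ι κ ρ → ℕ
  | op _ => 1
  | seq p q => p.len + q.len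
  | ite _ p q => p.len + q.len + 2
  | wh _ p => p.len + 2
  | call _ _ => 1

/-- One step at a program point: next point, the called procedure plus one (or zero), and the new
state (the first state of the called procedure). -/
def stp (cd : ρ → ℕ) (a : α) : Prog α ι κ ρ → ℕ → PSt ι κ → ℕ × ℕ × PSt ι κ
  | op f, _, s => (1, 0, f a s)
  | seq p q, n, s =>
      if n < p.len then stp cd a p n s
      else ((stp cd a q (n - p.len) s).1 + p.len, (stp cd a q (n - p.len) s).2)
  | ite c p q, n, s =>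
      if n = 0 then (bif c a s then 1 else p.len + 2, 0, s)
      else if n < p.len + 1 then ((stp cd a p (n - 1) s).1 + 1, (stp cd a p (n - 1) s).2)
      else if n = p.len + 1 then (p.len + q.len + 2, 0, s)
      else ((stp cd a q (n - (p.len + 2)) s).1 + (p.len + 2), (stp cd a q (n - (p.len + 2)) s).2)
  | wh c p, n, s =>
      if n = 0 then (bif c a s then 1 else p.len + 2, 0, s)
      else if n < p.len + 1 then ((stp cd a p (n - 1) s).1 + 1, (stp cd a p (n - 1) s).2)
      else (0, 0, s)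
  | call r ini, _, s => (1, cd r + 1, s.1, ini a s)

/-- The program `p` lies in `b` at the offset `o`. -/
def At (cd : ρ → ℕ) (a : α) (b : Prog α ι κ ρ) (o : ℕ) (p : Prog α ι κ ρ) : Prop :=
  o + p.len ≤ b.len ∧ ∀ n < p.len, ∀ s,
    stp cd a b (o + n) s = ((stp cd a p n s).1 + o, (stp cd a p n s).2)

variable {cd : ρ → ℕ} {b p q : Prog α ι κ ρ} {o : ℕ} {c : α → PSt ι κ → Bool}

theorem At.refl : At cd a b 0 b := ⟨by simp, fun n _ s => by simp⟩

theorem At.sub {p' : Prog α ι κ ρ} (h : At cd a b o p) (d : ℕ) (hl : d + p'.len ≤ p.len)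
    (hs : ∀ n < p'.len, ∀ s, stp cd a p (d + n) s =
      ((stp cd a p' n s).1 + d, (stp cd a p' n s).2)) : At cd a b (o + d) p' := by
  refine ⟨by have := h.1; omega, fun n hn s => ?_⟩
  rw [add_assoc, h.2 _ (by omega), hs n hn]
  simp only [Prod.mk.injEq, and_true]
  omega

theorem At.seq1 (h : At cd a b o (seq p q)) : At cd a b o p :=
  h.sub 0 (by simp [len]) fun n hn s => by simp [stp, hn]

theorem At.seq2 (h : At cd a b o (seq p q)) : At cd a b (o + p.len) q :=
  h.sub _ (by simp [len]) fun n hn s => by simp [stp]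

theorem At.ite1 (h : At cd a b o (ite c p q)) : At cd a b (o + 1) p :=
  h.sub _ (by simp only [len]; omega) fun n hn s => by
    simp only [stp]
    rw [if_neg (by omega), if_pos (by omega), Nat.add_sub_cancel_left]

theorem At.ite2 (h : At cd a b o (ite c p q)) : At cd a b (o + (p.len + 2)) q :=
  h.sub _ (by simp only [len]; omega) fun n hn s => by
    simp only [stp]
    rw [if_neg (by omega), if_neg (by omega), if_neg (by omega), Nat.add_sub_cancel_left]

theorem At.wh1 (h : At cd a b o (wh c p)) : At cd a b (o + 1) p :=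
  h.sub _ (by simp only [len]; omega) fun n hn s => by
    simp only [stp]
    rw [if_neg (by omega), if_pos (by omega), Nat.add_sub_cancel_left]

variable {A : Type} [Enc A α] [Fintype ι] [Fintype κ]

/-- All atomic steps and tests are `SP`. -/
def IsSP (B : Bud A) : Prog α ι κ ρ → Prop
  | op f => SP B fun z : α × PSt ι κ => f z.1 z.2
  | seq p q => p.IsSP B ∧ q.IsSP B
  | ite c p q => (SP B fun z : α × PSt ι κ => c z.1 z.2) ∧ p.IsSP B ∧ q.IsSP B
  | wh c p => (SP B fun z : α × PSt ι κ => c z.1 z.2) ∧ p.IsSP B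
  | call _ ini => SP B fun z : α × PSt ι κ => ini z.1 z.2

theorem sp_stp {B : Bud A} {γ : Type} [Enc A γ] (cd : ρ → ℕ) (p : Prog α ι κ ρ) (hp : p.IsSP B)
    {a : γ → α} {n : γ → ℕ} {s : γ → PSt ι κ} (ha : SP B a) (hn : SP B n) (hs : SP B s) :
    SP B fun z => stp cd (a z) p (n z) (s z) := by
  induction p generalizing n with
  | op f => exact (SP.const 1).pair ((SP.const 0).pair (SP.comp hp (ha.pair hs)))
  | seq p q ihp ihq =>
    have h2 := ihq hp.2 (hn.sub (SP.const p.len))
    exact SP.ite (hn.decide_lt (SP.const _)) (ihp hp.1 hn) ((h2.fst.add (SP.const _)).pair h2.snd)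
  | ite c p q ihp ihq =>
    have h1 := ihp hp.2.1 (hn.sub (SP.const 1))
    have h2 := ihq hp.2.2 (hn.sub (SP.const (p.len + 2)))
    exact SP.ite (hn.decide_eq (SP.const _))
      (((SP.comp hp.1 (ha.pair hs)).cond (SP.const _) (SP.const _)).pair ((SP.const 0).pair hs))
      (SP.ite (hn.decide_lt (SP.const _)) ((h1.fst.add (SP.const _)).pair h1.snd)
        (SP.ite (hn.decide_eq (SP.const _)) ((SP.const _).pair ((SP.const 0).pair hs))
          ((h2.fst.add (SP.const _)).pair h2.snd)))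
  | wh c p ihp =>
    have h1 := ihp hp.2 (hn.sub (SP.const 1))
    exact SP.ite (hn.decide_eq (SP.const _))
      (((SP.comp hp.1 (ha.pair hs)).cond (SP.const _) (SP.const _)).pair ((SP.const 0).pair hs))
      (SP.ite (hn.decide_lt (SP.const _)) ((h1.fst.add (SP.const _)).pair h1.snd)
        ((SP.const _).pair ((SP.const 0).pair hs)))
  | call r ini => exact (SP.const 1).pair ((SP.const _).pair (hs.fst.pair (SP.comp hp (ha.pair hs))))

end Prog

open Prog

/-- The states of the machine: procedure, program point, variables, stack. -/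
abbrev MSt (ι κ : Type) : Type := ℕ × ℕ × PSt ι κ × ℕ

section machine

variable (A : Type) [Fintype ι] [Fintype κ]

/-- The step of the machine. `L` and `T` give the length and the step of the procedures. -/
noncomputable def mstep (L : ℕ → ℕ) (T : ℕ → ℕ → PSt ι κ → ℕ × ℕ × PSt ι κ) (m : MSt ι κ) :
    MSt ι κ :=
  if m.2.1 = L m.1 then
    ((top m.2.2.2).unpair.1.unpair.1, (top m.2.2.2).unpair.1.unpair.2,
      (m.2.2.1.1, decV (top m.2.2.2).unpair.2), pop m.2.2.2)
  else if (T m.1 m.2.1 m.2.2.1).2.1 = 0 then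
    (m.1, (T m.1 m.2.1 m.2.2.1).1, (T m.1 m.2.1 m.2.2.1).2.2, m.2.2.2)
  else ((T m.1 m.2.1 m.2.2.1).2.1 - 1, 0, (T m.1 m.2.1 m.2.2.1).2.2,
    push m.2.2.2 (Nat.pair (Nat.pair m.1 (T m.1 m.2.1 m.2.2.1).1) (Enc.enc A m.2.2.1.2)))

/-- The good states of the machine. -/
def mgood (L : ℕ → ℕ) (P V U : ℕ) (m : MSt ι κ) : Prop :=
  ¬ (m.2.1 = L m.1 ∧ m.2.2.2 = 0) ∧ m.1 ≤ P ∧ m.2.1 ≤ P ∧ Ok V m.2.2.1 ∧ m.2.2.2 < 2 ^ U

variable {A}

omit [Fintype ι] in
theorem exec_run {cd : ρ → ℕ} {L : ℕ → ℕ} {T : ℕ → ℕ → PSt ι κ → ℕ × ℕ × PSt ι κ} {P C U : ℕ}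
    (hL : ∀ r, L (cd r) = (body r).len) (hT : ∀ r, T (cd r) = stp cd a (body r))
    (hP : ∀ r, cd r ≤ P ∧ (body r).len ≤ P)
    (hC : ∀ (i n w : ℕ) (l : κ → ℕ), i ≤ P → n ≤ P → (∀ y, l y < 2 ^ w) →
      ∃ v, 2 * v + 1 ≤ C * (w + 1) ∧ Nat.pair (Nat.pair i n) (Enc.enc A l) < 2 ^ v)
    {p : Prog α ι κ ρ} {s s' : PSt ι κ} {k : ℕ} (h : Exec body a V p s s' k) :
    ∀ (r : ρ) (o S u : ℕ), At cd a (body r) o p → Ok V s → S < 2 ^ u → u + C * k ≤ U →
      Run (mstep A L T) (mgood L P V U) (cd r, o, s, S) (cd r, o + p.len, s', S) := by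
  have good : ∀ (r : ρ) (o S u k : ℕ) (s : PSt ι κ), o < (body r).len → Ok V s → S < 2 ^ u →
      u + C * k ≤ U → mgood L P V U (cd r, o, s, S) := fun r o S u k s h1 h2 h3 h4 =>
    ⟨fun h => by simp only [hL] at h; omega, (hP r).1, h1.le.trans (hP r).2, h2,
      h3.trans_le (Nat.pow_le_pow_right (by omega) (by omega))⟩
  have loc : ∀ (r : ρ) (o S : ℕ) (s : PSt ι κ) (o' : ℕ) (s' : PSt ι κ), o < (body r).len →
      stp cd a (body r) o s = (o', 0, s') → mstep A L T (cd r, o, s, S) = (cd r, o', s', S) := by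
    intro r o S s o' s' h1 h2
    simp only [mstep, hL, hT, h2, if_neg h1.ne, if_true]
  induction h with
  | @op f s k h =>
    intro r o S u hA hs hS hU
    have h1 := hA.1
    have h2 := hA.2 0 (by simp [len]) s
    simp only [len] at h1
    exact Run.one (good r o S u k s (by omega) hs hS hU)
      (loc _ _ _ _ _ _ (by omega) (by simpa [stp, len, add_comm] using h2))
  | seq h1 _ ih1 ih2 =>
    intro r o S u hA hs hS hU
    have := (ih1 r o S u hA.seq1 hs hS hU).trans (ih2 r _ S u hA.seq2 (h1.ok hs) hS hU)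
    simpa [len, add_assoc] using this
  | @iteT c p q s s' k hc h1 ih =>
    intro r o S u hA hs hS hU
    have e1 := hA.1
    have e2 := hA.2 0 (by simp [len]) s
    have e3 := hA.2 (p.len + 1) (by simp only [len]; omega) s'
    simp only [len] at e1
    refine Run.head' (good r o S u k s (by omega) hs hS hU)
      (loc _ _ _ _ (o + 1) s (by omega) (by simpa [stp, hc, add_comm] using e2))
      ((ih r _ S u hA.ite1 hs hS hU).trans
        (Run.one (good r _ S u k s' (by omega) (h1.ok hs) hS hU) (loc _ _ _ _ _ _ (by omega) ?_)))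
    rw [add_assoc, add_comm 1, e3]
    simp [stp, len, add_comm]
  | @iteF c p q s s' k hc h1 ih =>
    intro r o S u hA hs hS hU
    have e1 := hA.1
    have e2 := hA.2 0 (by simp [len]) s
    simp only [len] at e1
    refine Run.head' (good r o S u k s (by omega) hs hS hU)
      (loc _ _ _ _ (o + (p.len + 2)) s (by omega) (by simpa [stp, hc, add_comm] using e2)) ?_
    have := ih r _ S u hA.ite2 hs hS hU
    rwa [show o + (p.len + 2) + q.len = o + (Prog.ite c p q).len by simp only [len]; omega] at this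
  | @whF c p s k hc =>
    intro r o S u hA hs hS hU
    have e1 := hA.1
    have e2 := hA.2 0 (by simp [len]) s
    simp only [len] at e1
    exact Run.one (good r o S u k s (by omega) hs hS hU)
      (loc _ _ _ _ _ _ (by omega) (by simpa [stp, hc, len, add_comm] using e2))
  | @whT c p s s' s'' k hc h1 _ ih1 ih2 =>
    intro r o S u hA hs hS hU
    have e1 := hA.1
    have e2 := hA.2 0 (by simp [len]) s
    have e3 := hA.2 (p.len + 1) (by simp only [len]; omega) s'
    simp only [len] at e1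
    refine Run.head' (good r o S u k s (by omega) hs hS hU)
      (loc _ _ _ _ (o + 1) s (by omega) (by simpa [stp, hc, add_comm] using e2))
      ((ih1 r _ S u hA.wh1 hs hS hU).trans
        (Run.head' (good r _ S u k s' (by omega) (h1.ok hs) hS hU)
          (loc _ _ _ _ o s' (by omega) ?_) (ih2 r o S u hA (h1.ok hs) hS hU)))
    rw [add_assoc, add_comm 1, e3]
    simp [stp]
  | @call r' ini s s' k k' w h1 h2 h3 h4 ih =>
    intro r o S u hA hs hS hU
    have e1 := hA.1
    have e2 := hA.2 0 (by simp [len]) s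
    simp only [len] at e1
    obtain ⟨v, hv, hf⟩ := hC (cd r) (o + 1) w s.2 (hP r).1 (e1.trans (hP r).2) h2
    have hS' := push_lt hS hf
    have hk : C * (w + 1) + C * k' ≤ C * k := by rw [← mul_add]; exact Nat.mul_le_mul_left _ h4
    have hs0 : Ok V (s.1, ini a s) := ⟨hs.1, h1 hs⟩
    refine Run.head' (good r o S u k s (by omega) hs hS hU) (b := (cd r', 0, (s.1, ini a s),
      push S (Nat.pair (Nat.pair (cd r) (o + 1)) (Enc.enc A s.2)))) ?_
      ((ih r' 0 _ _ At.refl hs0 hS' (by omega)).trans (Run.one ⟨?_, (hP r').1, ?_, h3.ok hs0,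
        hS'.trans_le (Nat.pow_le_pow_right (by omega) (by omega))⟩ ?_))
    · have e3 : o ≠ (body r).len := by omega
      simp only [add_zero, stp] at e2
      simp [mstep, hL, hT, e2, e3, add_comm]
    · exact fun h => push_ne_zero _ _ h.2
    · simpa using (hP r').2
    · simp [mstep, hL, top_push, pop_push, decV_enc, len]

theorem frame_bound (P : ℕ) : ∃ C : ℕ, ∀ (i n w : ℕ) (l : κ → ℕ), i ≤ P → n ≤ P →
    (∀ y, l y < 2 ^ w) →
      ∃ v, 2 * v + 1 ≤ C * (w + 1) ∧ Nat.pair (Nat.pair i n) (Enc.enc A l) < 2 ^ v := by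
  obtain ⟨c, hc⟩ := enc_vec_le (A := A) (ι := κ)
  set Q := (P + P + 1) ^ 2 with hQ
  refine ⟨4 * (Q + 2 * c + 3) + 1, fun i n w l hi hn hl => ⟨(Q + (w + 2) * c + 2) * 2, by nlinarith,
    (pair_le_sq _ _).trans_lt ?_⟩⟩
  rw [pow_mul]
  refine Nat.pow_lt_pow_left ?_ (by omega)
  have h1 : Nat.pair i n ≤ Q := (pair_le_sq _ _).trans (Nat.pow_le_pow_left (by omega) 2)
  have h2 : Enc.enc A l ≤ 2 ^ ((w + 2) * c) := by
    refine (hc l (2 ^ w) fun y => (hl y).le).trans ?_
    rw [pow_mul]
    refine Nat.pow_le_pow_left ?_ c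
    have := Nat.two_pow_pos w
    rw [pow_add]
    omega
  have h3 : Q < 2 ^ Q := Nat.lt_two_pow_self
  have h4 : 2 ^ Q ≤ 2 ^ (Q + (w + 2) * c) := Nat.pow_le_pow_right (by omega) (by omega)
  have h5 : 2 ^ ((w + 2) * c) ≤ 2 ^ (Q + (w + 2) * c) := Nat.pow_le_pow_right (by omega) (by omega)
  rw [pow_add _ _ 2]
  omega

theorem enc_mst_le : ∃ c : ℕ, ∀ (m : MSt ι κ) (W : ℕ), m.1 ≤ W → m.2.1 ≤ W → Ok W m.2.2.1 →
    m.2.2.2 ≤ W → Enc.enc A m ≤ (W + 2) ^ c := by
  obtain ⟨c, hc⟩ := enc_vec_le (A := A) (ι := ι)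
  obtain ⟨d, hd⟩ := enc_vec_le (A := A) (ι := κ)
  have key : ∀ (W u v i j : ℕ), u ≤ (W + 2) ^ i → v ≤ (W + 2) ^ j →
      Nat.pair u v ≤ (W + 2) ^ ((i + j + 2) * 2) := by
    intro W u v i j hu hv
    rw [pow_mul]
    refine (pair_le_sq _ _).trans (Nat.pow_le_pow_left ?_ 2)
    have h1 : (W + 2) ^ i ≤ (W + 2) ^ (i + j) := Nat.pow_le_pow_right (by omega) (by omega)
    have h2 : (W + 2) ^ j ≤ (W + 2) ^ (i + j) := Nat.pow_le_pow_right (by omega) (by omega)
    have h3 : 1 ≤ (W + 2) ^ (i + j) := Nat.one_le_pow _ _ (by omega)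
    have h4 : 2 ^ 2 ≤ (W + 2) ^ 2 := Nat.pow_le_pow_left (by omega) 2
    rw [pow_add _ _ 2]
    nlinarith
  refine ⟨_, fun m W h1 h2 h3 h4 => key W _ _ 1 _
    (by simp only [enc_nat, pow_one]; omega)
    (key W _ _ 1 _ (by simp only [enc_nat, pow_one]; omega)
      (key W _ _ _ 1 (key W _ _ c d (hc _ _ h3.1) (hd _ _ h3.2))
        (by simp only [enc_nat, pow_one]; omega)))⟩

end machine

/-- **The machine theorem.** -/
theorem sp_rec {A : Type} {B : Bud A} [Enc A α] [Fintype ι] [Fintype κ] [Finite ρ]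
    {body : ρ → Prog α ι κ ρ} (hb : ∀ r, (body r).IsSP B) (r0 : ρ) {init : α → PSt ι κ}
    {V K : α → ℕ} {res : α → ι → ℕ} (hi : SP B init) (hV : PBd B V)
    (hK : PBd B fun a => 2 ^ K a)
    (h : ∀ (x : List A) (a : α), Enc.ok x a → Ok (V a) (init a) ∧
      ∃ l, Exec body a (V a) (body r0) (init a) (res a, l) (K a)) : SP B res := by
  classical
  have := Fintype.ofFinite ρ
  let e := Fintype.equivFin ρ
  let cd : ρ → ℕ := fun r => e r
  let bN : ℕ → Prog α ι κ ρ := fun n =>
    if h : n < Fintype.card ρ then body (e.symm ⟨n, h⟩) else body r0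
  have hbN : ∀ r, bN (cd r) = body r := fun r => by simp [bN, cd]
  have hbS : ∀ n, (bN n).IsSP B := fun n => by
    simp only [bN]
    split_ifs <;> exact hb _
  have hb0 : ∀ n, bN n = if n < Fintype.card ρ then bN n else body r0 := fun n => by
    split_ifs with h
    · rfl
    · simp [bN, h]
  let P := Fintype.card ρ + ∑ r, (body r).len
  have hP : ∀ r, cd r ≤ P ∧ (body r).len ≤ P := fun r =>
    ⟨(e r).2.le.trans (Nat.le_add_right _ _), (single_le_sum (f := fun r => (body r).len)
      (fun _ _ => Nat.zero_le _) (mem_univ r)).trans (Nat.le_add_left _ _)⟩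
  obtain ⟨C, hC⟩ := frame_bound (A := A) (κ := κ) P
  obtain ⟨c, hc⟩ := enc_mst_le (A := A) (ι := ι) (κ := κ)
  let L : ℕ → ℕ := fun n => (bN n).len
  let T : α → ℕ → ℕ → PSt ι κ → ℕ × ℕ × PSt ι κ := fun a n => stp cd a (bN n)
  have hL : SP B fun z : α × MSt ι κ => L z.2.1 :=
    (sp_cases (Fintype.card ρ) (F := fun n _ => (bN n).len) (F0 := fun _ => (body r0).len)
      (fun _ => SP.const _) (SP.const _) SP.snd'.fst).congr fun z => by
        simp only [L]
        rw [hb0 z.2.1]
        split_ifs <;> rfl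
  have h1 : SP B fun z : α × MSt ι κ => z.2.1 := SP.snd'.fst
  have h2 : SP B fun z : α × MSt ι κ => z.2.2.1 := SP.snd'.snd.fst
  have h3 : SP B fun z : α × MSt ι κ => z.2.2.2.1 := SP.snd'.snd.snd.fst
  have h4 : SP B fun z : α × MSt ι κ => z.2.2.2.2 := SP.snd'.snd.snd.snd
  have h0 : SP B fun z : α × MSt ι κ => z.1 := SP.fst'
  have hst : ∀ p : Prog α ι κ ρ, p.IsSP B →
      SP B fun z : α × MSt ι κ => stp cd z.1 p z.2.2.1 z.2.2.2.1 := fun p hp => by
    have := sp_stp cd p hp h0 h2 h3
    exact this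
  have hT : SP B fun z : α × MSt ι κ => T z.1 z.2.1 z.2.2.1 z.2.2.2.1 :=
    (sp_cases (Fintype.card ρ)
      (F := fun n (z : α × MSt ι κ) => stp cd z.1 (bN n) z.2.2.1 z.2.2.2.1)
      (F0 := fun z : α × MSt ι κ => stp cd z.1 (body r0) z.2.2.1 z.2.2.2.1)
      (fun n => hst _ (hbS n)) (hst _ (hb r0)) h1).congr fun z => by
        simp only [T]
        rw [hb0 z.2.1]
        split_ifs <;> rfl
  have hstep : SP B fun z : α × MSt ι κ => mstep A L (T z.1) z.2 := by
    have h5 := sp_top h4
    unfold mstep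
    exact SP.ite (h2.decide_eq hL)
      ((sp_unpair1 (sp_unpair1 h5)).pair ((sp_unpair2 (sp_unpair1 h5)).pair
        ((h3.fst.pair (sp_decV (sp_unpair2 h5))).pair (sp_pop h4))))
      (SP.ite (hT.snd.fst.decide_eq (SP.const 0)) (h1.pair (hT.fst.pair (hT.snd.snd.pair h4)))
        ((hT.snd.fst.sub (SP.const 1)).pair ((SP.const 0).pair (hT.snd.snd.pair
          (sp_push h4 (sp_npair (sp_npair h1 hT.fst) (sp_enc.comp h3.snd)))))))
  let fin : α → MSt ι κ := fun a =>
    if h : ∃ l, Exec body a (V a) (body r0) (init a) (res a, l) (K a) then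
      (cd r0, (body r0).len, (res a, h.choose), 0) else (0, 0, init a, 0)
  have H : SP B fin := by
    refine SP.while' (init := fun a => ((cd r0, 0, init a, 0) : MSt ι κ))
      (step := fun a m => mstep A L (T a) m)
      (cont := fun _ m => !(decide (m.2.1 = L m.1) && decide (m.2.2.2 = 0)))
      (bd := fun a => (P + V a + (2 ^ K a) ^ C + 2) ^ c)
      ((SP.const _).pair ((SP.const 0).pair (hi.pair (SP.const 0)))) hstep
      ((h2.decide_eq hL).and (h4.decide_eq (SP.const 0))).not
      (((((PBd.const P).add hV).add (hK.pow C)).add (PBd.const 2)).pow c) fun x a ha => ?_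
    obtain ⟨h0, hex⟩ := h x a ha
    have hE := hex.choose_spec
    obtain ⟨n, h1, h2⟩ := (exec_run (A := A) (L := L) (T := T a) (U := C * K a)
      (fun r => by simp only [L, hbN]) (fun r => by simp only [T, hbN]) hP hC hE r0 0 0 0 At.refl h0
      (by simp) (by simp)).iter
    have hf : fin a = (cd r0, (body r0).len, (res a, hex.choose), 0) := dif_pos hex
    rw [zero_add] at h1
    have hok : ∀ {s : PSt ι κ}, Ok (V a) s → Ok (P + V a + (2 ^ K a) ^ C) s := fun hs =>
      ⟨fun y => (hs.1 y).trans (by omega), fun y => (hs.2 y).trans (by omega)⟩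
    refine ⟨n, by rw [hf, h1], by rw [h1]; simp [L, hbN], fun k hk => ?_, fun k hk => ?_⟩
    · have g1 := (h2 k hk).1
      simpa only [Bool.not_eq_true', Bool.and_eq_false_iff, decide_eq_false_iff_not,
        not_and_or] using g1
    · rcases hk.lt_or_eq with hk | rfl
      · obtain ⟨-, g2, g3, g4, g5⟩ := h2 k hk
        refine hc _ _ (g2.trans (by omega)) (g3.trans (by omega)) (hok g4) (g5.le.trans ?_)
        rw [← pow_mul, mul_comm]
        omega
      · rw [h1]
        have := hP r0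
        exact hc _ _ (by simp only; omega) (by simp only; omega) (hok (hE.ok h0)) (Nat.zero_le _)
  refine H.snd.snd.fst.fst.congr_ok fun x a ha => ?_
  simp only [fin, dif_pos (h x a ha).2]

end Vale.Agent.P313.Full
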