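import Vale.Agent.P313.Full.RecWP

/-!
An example for the recursive programs: the leaves of a binary tree of depth `size a` are counted
by a recursion with frames of constant size.
-/

namespace Vale.Agent.P313.Full.Ex

open Function Finset Vale.Agent.Lib.Space Prog

/-- Global variables. -/
inductive GV | d | acc deriving DecidableEq
/-- Local variables. -/
inductive LV | b deriving DecidableEq
/-- Procedures. -/
inductive PN | main | F deriving DecidableEq

instance : Fintype GV := ⟨{.d, .acc}, fun x => by cases x <;> simp⟩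
instance : Fintype LV := ⟨{.b}, fun x => by cases x; simp⟩
instance : Fintype PN := ⟨{.main, .F}, fun x => by cases x <;> simp⟩

/-- The program. -/
def body : PN → Prog ℕ GV LV PN
  | .main => seqs [setG .d (fun a _ _ => Nat.size a), setG .acc (fun _ _ _ => 0),
      cal .F fun _ _ _ _ => 0]
  | .F => ifP (fun _ g _ => g .d = 0) (setG .acc fun _ g _ => g .acc + 1)
      (forL .b (fun _ _ _ => 2)
        (seqs [setG .d (fun _ g _ => g .d - 1), cal .F (fun _ _ _ _ => 0),
          setG .d (fun _ g _ => g .d + 1)]))

theorem body_sp {A : Type} {B : Bud A} (r : PN) : (body r).IsSP B := by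
  cases r <;> simp only [body, seqs, isSP_all] <;>
    (repeat' with_reducible apply And.intro) <;> fun_prop

theorem F_spec (a V : ℕ) (hV : 2 ≤ V) : ∀ (d : ℕ) (g : GV → ℕ) (l : LV → ℕ), g .d = d → d ≤ V →
    g .acc + 2 ^ d ≤ V →
    WP body a V (body .F) (3 * d) (fun g' _ => g' = update g .acc (g .acc + 2 ^ d)) g l := by
  intro d
  induction d with
  | zero =>
    intro g l h _ h2
    simp only [body, seqs]
    exact WP.ifT h (WP.setG (by simpa using h2) (by simp))
  | succ d ih =>
    intro g l h h1 h2
    simp only [body, seqs]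
    refine WP.ifF (by simp [h]) (WP.forL (fun i g' _ => g' = update g .acc (g .acc + i * 2 ^ d))
      2 hV (by simp) (fun _ _ _ _ => rfl) ?_ ?_)
    · rintro i hi g' l' hl rfl
      have : g .acc + i * 2 ^ d + 2 ^ d ≤ V := by
        have : i * 2 ^ d ≤ 1 * 2 ^ d := Nat.mul_le_mul_right _ (by omega)
        omega
      refine WP.seq (WP.setG (by simp [h]; omega) (WP.seq (WP.cal 2 (3 * d) (by simp)
        (by intro y; cases y; omega) (by omega)
        ((ih _ _ (by simp [h]) (by omega) (by simpa)).mono ?_))))
      rintro g'' - rfl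
      refine WP.setG (by simp [h]; omega) ⟨hl, ?_⟩
      funext x
      cases x <;> simp [h, add_mul, add_assoc]
    · rintro g' l' - rfl
      simp [pow_succ, mul_comm]

theorem sp_ex {A : Type} {B : Bud A} : SP B fun a : ℕ => 2 ^ Nat.size a := by
  refine sp_of_wp (body := body) body_sp .main .acc (g0 := fun _ _ => 0) (l0 := fun _ _ => 0)
    (V := fun a => 2 * a + 2) (K := fun a => 3 * Nat.size a + 1) (by fun_prop) (by fun_prop)
    ?_ ?_ fun x a _ => ⟨by simp, by simp, ?_⟩
  · exact PBd.of_SP (by fun_prop)
  · refine (PBd.of_SP (f := fun a : ℕ => (2 * a + 1) ^ 3 * 2) (by fun_prop)).mono fun a => ?_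
    rw [pow_succ, mul_comm 3, pow_mul]
    exact Nat.mul_le_mul_right _ (Nat.pow_le_pow_left (two_pow_size_le a) 3)
  · have h1 : Nat.size a ≤ a := Nat.size_le.2 Nat.lt_two_pow_self
    have h2 := two_pow_size_le a
    simp only [body, seqs]
    refine WP.seq (WP.setG (by omega) (WP.seq (WP.setG (by omega) (WP.cal 0 (3 * Nat.size a)
      (by simp) (by simp) (by omega) ((F_spec _ _ (by omega) _ _ _ (by simp) (by omega)
        (by simp; omega)).mono ?_)))))
    rintro g - rfl
    simp

end Vale.Agent.P313.Full.Ex
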