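import Mathlib.Data.Nat.Size
import Vale.Agent.P313.F43.IterStack

/-!
Vectors of numbers indexed by a finite type as coded values, and a stack of frames of variable
size in one number.
-/

namespace Vale.Agent.P313.Full

open Function Finset Vale.Agent.Lib.Space

variable {A : Type} {α β : Type} [Enc A α] [Enc A β] {B : Bud A}

theorem sp_enc : SP B fun a : α => Enc.enc A a :=
  SP.of_CF (CF.var 0) (fun _ _ _ => trivial) fun _ _ h => h

theorem sp_of_enc [Pure A β] {f : α → β} (h : SP B fun a => Enc.enc A (f a)) : SP B f :=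
  ⟨fun x a _ => Pure.ok x (f a), h.2⟩

@[fun_prop]
theorem sp_unpair1 {f : α → ℕ} (hf : SP B f) : SP B fun a => (Nat.unpair (f a)).1 :=
  (SP.of_CF (f := fun n : ℕ => (Nat.unpair n).1) (CF.var 0).unpair1 (fun _ _ _ => trivial)
    fun _ _ h => by rw [h]; rfl).comp hf

@[fun_prop]
theorem sp_unpair2 {f : α → ℕ} (hf : SP B f) : SP B fun a => (Nat.unpair (f a)).2 :=
  (SP.of_CF (f := fun n : ℕ => (Nat.unpair n).2) (CF.var 0).unpair2 (fun _ _ _ => trivial)
    fun _ _ h => by rw [h]; rfl).comp hf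

@[fun_prop]
theorem sp_npair {f g : α → ℕ} (hf : SP B f) (hg : SP B g) : SP B fun a => Nat.pair (f a) (g a) :=
  (sp_enc (α := ℕ × ℕ)).comp (hf.pair hg)

/-! ### Vectors -/

variable {ι : Type}

/-- The code of the entries of `g` at the indices of the list. -/
def encL (g : ι → ℕ) : List ι → ℕ
  | [] => 0
  | x :: xs => Nat.pair (g x) (encL g xs)

open Classical in
/-- Decoding. -/
noncomputable def decL : List ι → ℕ → ι → ℕ
  | [], _, _ => 0
  | x :: xs, n, y => if y = x then (Nat.unpair n).1 else decL xs (Nat.unpair n).2 y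

theorem decL_encL (g : ι → ℕ) (xs : List ι) (y : ι) (hy : y ∈ xs) :
    decL xs (encL g xs) y = g y := by
  induction xs with
  | nil => simp at hy
  | cons x xs ih =>
    simp only [decL, encL, Nat.unpair_pair]
    split_ifs with h
    · rw [h]
    · exact ih (by simpa [h] using hy)

theorem sp_decL (xs : List ι) (y : ι) {f : α → ℕ} (hf : SP B f) :
    SP B fun a => decL xs (f a) y := by
  induction xs generalizing f with
  | nil => exact SP.const 0
  | cons x xs ih =>
    by_cases h : y = x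
    · exact (sp_unpair1 hf).congr fun a => by simp [decL, h]
    · exact (ih (sp_unpair2 hf)).congr fun a => by simp [decL, h]

theorem sp_encL (xs : List ι) {f : α → ι → ℕ} (hf : ∀ x, SP B fun a => f a x) :
    SP B fun a => encL (f a) xs := by
  induction xs with
  | nil => exact SP.const 0
  | cons x xs ih => exact sp_npair (hf x) ih

theorem encL_le (xs : List ι) : ∃ c : ℕ, ∀ (g : ι → ℕ) (V : ℕ), (∀ x, g x ≤ V) →
    encL g xs ≤ (V + 2) ^ c := by
  induction xs with
  | nil => exact ⟨0, fun g V _ => by simp [encL]⟩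
  | cons x xs ih =>
    obtain ⟨c, hc⟩ := ih
    refine ⟨(c + 1) * 2, fun g V h => ?_⟩
    rw [pow_mul]
    refine (pair_le_sq _ _).trans (Nat.pow_le_pow_left ?_ 2)
    have h1 := hc g V h
    have h2 := h x
    have h3 : 1 ≤ (V + 2) ^ c := Nat.one_le_pow _ _ (by omega)
    rw [pow_succ]
    nlinarith

noncomputable instance instEncVec [Fintype ι] : Enc A (ι → ℕ) :=
  ⟨fun g => encL g univ.toList, fun _ _ => True⟩

instance instPureVec [Fintype ι] : Pure A (ι → ℕ) := ⟨fun _ _ => trivial⟩

variable [Fintype ι]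

/-- The vector with a given code. -/
noncomputable def decV (n : ℕ) : ι → ℕ := decL univ.toList n

theorem decV_enc (g : ι → ℕ) : decV (Enc.enc A g) = g :=
  funext fun y => decL_encL g _ y (by simp)

theorem enc_vec_le : ∃ c : ℕ, ∀ (g : ι → ℕ) (V : ℕ), (∀ x, g x ≤ V) →
    Enc.enc A g ≤ (V + 2) ^ c := encL_le _

@[fun_prop]
theorem sp_vec {f : α → ι → ℕ} (hf : ∀ x, SP B fun a => f a x) : SP B f :=
  sp_of_enc (sp_encL _ hf)

@[fun_prop]
theorem sp_apply (x : ι) : SP B fun g : ι → ℕ => g x :=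
  (sp_decL univ.toList x sp_enc).congr fun g => congrFun (decV_enc g) x

theorem sp_app {f : α → ι → ℕ} (hf : SP B f) (x : ι) : SP B fun a => f a x :=
  (sp_apply x).comp hf

theorem sp_decV {f : α → ℕ} (hf : SP B f) : SP B fun a => (decV (f a) : ι → ℕ) :=
  sp_vec fun x => sp_decL _ x hf

@[fun_prop]
theorem sp_update [DecidableEq ι] {f : α → ι → ℕ} {v : α → ℕ} (x : ι) (hf : SP B f)
    (hv : SP B v) : SP B fun a => update (f a) x (v a) := by
  refine sp_vec fun y => ?_
  by_cases h : y = x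
  · exact hv.congr fun a => by simp [h]
  · exact (sp_app hf y).congr fun a => by simp [h]

/-! ### Sizes and the stack -/

theorem size_eq_sum (f : ℕ) :
    Nat.size f = ∑ i ∈ range f, if min (f + 1) (2 ^ i) ≤ f then 1 else 0 := by
  have h1 : Nat.size f ≤ f := Nat.size_le.2 Nat.lt_two_pow_self
  have h2 : (range f).filter (fun i => min (f + 1) (2 ^ i) ≤ f) = range (Nat.size f) := by
    ext i
    have := @Nat.lt_size i f
    simp only [mem_filter, mem_range]
    omega
  rw [← card_filter, h2, card_range]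

@[fun_prop]
theorem sp_size {f : α → ℕ} (hf : SP B f) : SP B fun a => Nat.size (f a) :=
  (SP.sum_range (f := fun a i => if min (f a + 1) (2 ^ i) ≤ f a then 1 else 0) hf
    (SP.ite ((SP.min_pow ((hf.comp SP.fst').add (SP.const 1)) (SP.const 2) SP.snd').decide_le
      (hf.comp SP.fst')) (SP.const 1) (SP.const 0))).congr fun _ => (size_eq_sum _).symm

theorem two_pow_size_le (f : ℕ) : 2 ^ Nat.size f ≤ 2 * f + 1 := by
  rcases Nat.eq_zero_or_pos f with rfl | h
  · simp
  · have h1 : 0 < Nat.size f := Nat.size_pos.2 h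
    have h2 : 2 ^ (Nat.size f - 1) ≤ f := Nat.lt_size.1 (by omega)
    have h3 : 2 ^ Nat.size f = 2 * 2 ^ (Nat.size f - 1) := by
      rw [← pow_succ']; congr 1; omega
    omega

theorem sp_two_pow_size {f : α → ℕ} (hf : SP B f) : SP B fun a => 2 ^ Nat.size (f a) :=
  (SP.min_pow (((SP.const 2).mul hf).add (SP.const 1)) (SP.const 2) (sp_size hf)).congr
    fun _ => min_eq_right (two_pow_size_le _)

/-- Push the frame `f`. -/
def push (S f : ℕ) : ℕ := (2 * (S * 2 ^ Nat.size f + f) + 1) * 2 ^ Nat.size f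

/-- The number of trailing zeros. -/
def tz (n : ℕ) : ℕ := ∑ i ∈ range n, if n % min (n + 1) (2 ^ (i + 1)) = 0 then 1 else 0

/-- The radix of the top frame. -/
def rad (n : ℕ) : ℕ := min n (2 ^ tz n)

/-- The top frame. -/
def top (n : ℕ) : ℕ := n / rad n / 2 % rad n

/-- The stack without the top frame. -/
def pop (n : ℕ) : ℕ := n / rad n / 2 / rad n

theorem tz_odd (u s : ℕ) : tz ((2 * u + 1) * 2 ^ s) = s := by
  set n := (2 * u + 1) * 2 ^ s with hn
  have h0 : 2 ^ s ≤ n := Nat.le_mul_of_pos_left _ (by omega)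
  have h1 : s < n := Nat.lt_two_pow_self.trans_le h0
  have h2 : (range n).filter (fun i => n % min (n + 1) (2 ^ (i + 1)) = 0) = range s := by
    ext i
    simp only [mem_filter, mem_range]
    constructor
    · rintro ⟨-, h⟩
      by_contra hi
      rcases le_total (n + 1) (2 ^ (i + 1)) with h3 | h3
      · rw [min_eq_left h3, Nat.mod_eq_of_lt (by omega)] at h
        omega
      · rw [min_eq_right h3] at h
        have h4 : 2 ^ (s + 1) ∣ n := (pow_dvd_pow 2 (by omega)).trans (Nat.dvd_of_mod_eq_zero h)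
        rw [hn, pow_succ, mul_comm (2 * u + 1)] at h4
        have h5 := Nat.dvd_of_mul_dvd_mul_left (Nat.two_pow_pos s) h4
        omega
    · intro hi
      refine ⟨by omega, ?_⟩
      have h3 : 2 ^ (i + 1) ≤ 2 ^ s := Nat.pow_le_pow_right (by omega) hi
      rw [min_eq_right (by omega)]
      exact Nat.mod_eq_zero_of_dvd ((pow_dvd_pow 2 hi).trans (Dvd.intro_left _ rfl))
  rw [tz, ← card_filter, h2, card_range]

theorem rad_push (S f : ℕ) : rad (push S f) = 2 ^ Nat.size f := by
  rw [rad, push, tz_odd]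
  exact min_eq_right (Nat.le_mul_of_pos_left _ (by omega))

theorem push_div (S f : ℕ) : push S f / rad (push S f) / 2 = S * 2 ^ Nat.size f + f := by
  rw [rad_push, push, Nat.mul_div_cancel _ (Nat.two_pow_pos _)]
  omega

theorem top_push (S f : ℕ) : top (push S f) = f := by
  rw [top, push_div, rad_push, Nat.mul_add_mod_of_lt (Nat.lt_size_self f)]

theorem pop_push (S f : ℕ) : pop (push S f) = S := by
  rw [pop, push_div, rad_push, add_comm, Nat.add_mul_div_right _ _ (Nat.two_pow_pos _),
    Nat.div_eq_of_lt (Nat.lt_size_self f), zero_add]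

theorem push_ne_zero (S f : ℕ) : push S f ≠ 0 :=
  Nat.mul_ne_zero (by omega) (Nat.two_pow_pos _).ne'

theorem push_lt {S f u w : ℕ} (hS : S < 2 ^ u) (hf : f < 2 ^ w) :
    push S f < 2 ^ (u + 2 * w + 1) := by
  have h1 : Nat.size f ≤ w := Nat.size_le.2 hf
  have h2 : 2 ^ Nat.size f ≤ 2 ^ w := Nat.pow_le_pow_right (by omega) h1
  have h3 := Nat.lt_size_self f
  have h4 : 2 * (S * 2 ^ Nat.size f + f) + 1 < 2 * (2 ^ u * 2 ^ w) := by
    have : (S + 1) * 2 ^ Nat.size f ≤ 2 ^ u * 2 ^ w := Nat.mul_le_mul hS h2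
    nlinarith
  calc push S f < 2 * (2 ^ u * 2 ^ w) * 2 ^ w :=
        Nat.mul_lt_mul_of_lt_of_le h4 h2 (Nat.two_pow_pos _)
    _ = 2 ^ (u + 2 * w + 1) := by ring

theorem sp_push {S f : α → ℕ} (hS : SP B S) (hf : SP B f) : SP B fun a => push (S a) (f a) :=
  (((SP.const 2).mul ((hS.mul (sp_two_pow_size hf)).add hf)).add (SP.const 1)).mul
    (sp_two_pow_size hf)

theorem sp_rad {n : α → ℕ} (hn : SP B n) : SP B fun a => rad (n a) :=
  SP.min_pow hn (SP.const 2) (SP.sum_range
    (f := fun a i => if n a % min (n a + 1) (2 ^ (i + 1)) = 0 then 1 else 0) hn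
    (SP.ite (((hn.comp SP.fst').mod (SP.min_pow ((hn.comp SP.fst').add (SP.const 1)) (SP.const 2)
      (SP.snd'.add (SP.const 1)))).decide_eq (SP.const 0)) (SP.const 1) (SP.const 0)))

theorem sp_top {n : α → ℕ} (hn : SP B n) : SP B fun a => top (n a) :=
  ((hn.div (sp_rad hn)).div (SP.const 2)).mod (sp_rad hn)

theorem sp_pop {n : α → ℕ} (hn : SP B n) : SP B fun a => pop (n a) :=
  ((hn.div (sp_rad hn)).div (SP.const 2)).div (sp_rad hn)

/-- Finitely many cases. -/
theorem sp_cases (P : ℕ) {F : ℕ → α → β} {F0 : α → β} (hF : ∀ n, SP B (F n)) (h0 : SP B F0)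
    {i : α → ℕ} (hi : SP B i) : SP B fun a => if i a < P then F (i a) a else F0 a := by
  induction P with
  | zero => exact h0.congr fun a => by simp
  | succ K ih =>
    refine (SP.ite (hi.decide_eq (SP.const K)) (hF K) ih).congr fun a => ?_
    by_cases h : i a = K
    · simp [h]
    · by_cases h' : i a < K
      · rw [if_neg h, if_pos h', if_pos (by omega)]
      · rw [if_neg h, if_neg h', if_neg (by omega)]

end Vale.Agent.P313.Full
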