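import Vale.Agent.P313.Full.Rec

/-!
Derived commands and weakest preconditions for the recursive programs, with an example.
-/

namespace Vale.Agent.P313.Full

open Function Finset Vale.Agent.Lib.Space

variable {α ι κ ρ : Type}

attribute [fun_prop] SP.ite SP.cond SP.decide_and SP.decide_or SP.decide_not SP.decide_true
  SP.sum_range

/-- Shift to the right. -/
def shr (x i : ℕ) : ℕ := x / 2 ^ i

/-- The low `i` bits. -/
def low (x i : ℕ) : ℕ := x % 2 ^ i

/-- The power, capped at `M`. -/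
def cpow (M b e : ℕ) : ℕ := min M (b ^ e)

theorem cpow_eq {M b e : ℕ} (h : b ^ e ≤ M) : cpow M b e = b ^ e := min_eq_right h

theorem cpow_le (M b e : ℕ) : cpow M b e ≤ M := min_le_left _ _

section arith

variable {A : Type} [Enc A α] {B : Bud A}

@[fun_prop]
theorem sp_shr {x i : α → ℕ} (hx : SP B x) (hi : SP B i) : SP B fun a => shr (x a) (i a) :=
  SP.div_pow hx (SP.const 2) hi

@[fun_prop]
theorem sp_cpow {M b e : α → ℕ} (hM : SP B M) (hb : SP B b) (he : SP B e) :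
    SP B fun a => cpow (M a) (b a) (e a) := SP.min_pow hM hb he

@[fun_prop]
theorem sp_low {x i : α → ℕ} (hx : SP B x) (hi : SP B i) : SP B fun a => low (x a) (i a) := by
  refine (hx.mod (SP.min_pow (hx.add (SP.const 1)) (SP.const 2) hi)).congr fun a => ?_
  rcases le_total (x a + 1) (2 ^ i a) with h | h
  · rw [min_eq_left h, low, Nat.mod_eq_of_lt (by omega), Nat.mod_eq_of_lt (by omega)]
  · rw [min_eq_right h, low]

end arith

namespace Prog

/-- Do nothing. -/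
def skip : Prog α ι κ ρ := .op fun _ s => s

/-- Assignment to a global variable. -/
def setG [DecidableEq ι] (x : ι) (e : α → (ι → ℕ) → (κ → ℕ) → ℕ) : Prog α ι κ ρ :=
  .op fun a s => (update s.1 x (e a s.1 s.2), s.2)

/-- Assignment to a local variable. -/
def setL [DecidableEq κ] (y : κ) (e : α → (ι → ℕ) → (κ → ℕ) → ℕ) : Prog α ι κ ρ :=
  .op fun a s => (s.1, update s.2 y (e a s.1 s.2))

/-- Case distinction on a decidable proposition. -/
def ifP (c : α → (ι → ℕ) → (κ → ℕ) → Prop) [∀ a g l, Decidable (c a g l)] (p q : Prog α ι κ ρ) :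
    Prog α ι κ ρ := .ite (fun a s => decide (c a s.1 s.2)) p q

/-- Loop on a decidable proposition. -/
def whP (c : α → (ι → ℕ) → (κ → ℕ) → Prop) [∀ a g l, Decidable (c a g l)] (p : Prog α ι κ ρ) :
    Prog α ι κ ρ := .wh (fun a s => decide (c a s.1 s.2)) p

/-- A call with the first local variables `ini`. -/
def cal (r : ρ) (ini : α → (ι → ℕ) → (κ → ℕ) → κ → ℕ) : Prog α ι κ ρ :=
  .call r fun a s => ini a s.1 s.2

/-- The loop `for y = 0, …, n - 1` with a local counter. -/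
def forL [DecidableEq κ] (y : κ) (n : α → (ι → ℕ) → (κ → ℕ) → ℕ) (p : Prog α ι κ ρ) :
    Prog α ι κ ρ :=
  .seq (setL y fun _ _ _ => 0) (whP (fun a g l => l y < n a g l)
    (.seq p (setL y fun _ _ l => l y + 1)))

/-- Sequential composition of a list of programs. -/
def seqs : List (Prog α ι κ ρ) → Prog α ι κ ρ
  | [] => skip
  | [p] => p
  | p :: q :: r => .seq p (seqs (q :: r))

variable {A : Type} [Enc A α] [Fintype ι] [Fintype κ] {B : Bud A}

theorem isSP_skip : (skip : Prog α ι κ ρ).IsSP B := SP.snd'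

theorem isSP_seq {p q : Prog α ι κ ρ} (hp : p.IsSP B) (hq : q.IsSP B) : (p.seq q).IsSP B := ⟨hp, hq⟩

theorem isSP_setG [DecidableEq ι] {x : ι} {e : α → (ι → ℕ) → (κ → ℕ) → ℕ}
    (he : SP B fun z : α × PSt ι κ => e z.1 z.2.1 z.2.2) : (setG x e : Prog α ι κ ρ).IsSP B :=
  (sp_update x SP.snd'.fst he).pair SP.snd'.snd

theorem isSP_setL [DecidableEq κ] {y : κ} {e : α → (ι → ℕ) → (κ → ℕ) → ℕ}
    (he : SP B fun z : α × PSt ι κ => e z.1 z.2.1 z.2.2) : (setL y e : Prog α ι κ ρ).IsSP B :=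
  SP.snd'.fst.pair (sp_update y SP.snd'.snd he)

theorem isSP_ifP {c : α → (ι → ℕ) → (κ → ℕ) → Prop} [∀ a g l, Decidable (c a g l)]
    {p q : Prog α ι κ ρ} (hc : SP B fun z : α × PSt ι κ => decide (c z.1 z.2.1 z.2.2))
    (hp : p.IsSP B) (hq : q.IsSP B) : (ifP c p q).IsSP B := ⟨hc, hp, hq⟩

theorem isSP_whP {c : α → (ι → ℕ) → (κ → ℕ) → Prop} [∀ a g l, Decidable (c a g l)]
    {p : Prog α ι κ ρ} (hc : SP B fun z : α × PSt ι κ => decide (c z.1 z.2.1 z.2.2))
    (hp : p.IsSP B) : (whP c p).IsSP B := ⟨hc, hp⟩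

theorem isSP_cal {r : ρ} {ini : α → (ι → ℕ) → (κ → ℕ) → κ → ℕ}
    (h : SP B fun z : α × PSt ι κ => ini z.1 z.2.1 z.2.2) : (cal r ini : Prog α ι κ ρ).IsSP B := h

theorem isSP_forL [DecidableEq κ] {y : κ} {n : α → (ι → ℕ) → (κ → ℕ) → ℕ} {p : Prog α ι κ ρ}
    (hn : SP B fun z : α × PSt ι κ => n z.1 z.2.1 z.2.2) (hp : p.IsSP B) : (forL y n p).IsSP B :=
  isSP_seq (isSP_setL (SP.const 0)) (isSP_whP ((sp_app SP.snd'.snd y).decide_lt hn)
    (isSP_seq hp (isSP_setL ((sp_app SP.snd'.snd y).add (SP.const 1)))))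

/-- All rules at once. Use: `simp only [body, seqs, isSP_all]`, then split, then `fun_prop`. -/
theorem isSP_all [DecidableEq ι] [DecidableEq κ] :
    ((skip : Prog α ι κ ρ).IsSP B ↔ True) ∧
    (∀ p q : Prog α ι κ ρ, (p.seq q).IsSP B ↔ p.IsSP B ∧ q.IsSP B) ∧
    (∀ x e, (setG x e : Prog α ι κ ρ).IsSP B ↔ SP B fun z : α × PSt ι κ => e z.1 z.2.1 z.2.2) ∧
    (∀ y e, (setL y e : Prog α ι κ ρ).IsSP B ↔ SP B fun z : α × PSt ι κ => e z.1 z.2.1 z.2.2) ∧
    (∀ (c : α → (ι → ℕ) → (κ → ℕ) → Prop) [∀ a g l, Decidable (c a g l)] (p q : Prog α ι κ ρ),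
      (ifP c p q).IsSP B ↔
        (SP B fun z : α × PSt ι κ => decide (c z.1 z.2.1 z.2.2)) ∧ p.IsSP B ∧ q.IsSP B) ∧
    (∀ (c : α → (ι → ℕ) → (κ → ℕ) → Prop) [∀ a g l, Decidable (c a g l)] (p : Prog α ι κ ρ),
      (whP c p).IsSP B ↔ (SP B fun z : α × PSt ι κ => decide (c z.1 z.2.1 z.2.2)) ∧ p.IsSP B) ∧
    (∀ r ini, (cal r ini : Prog α ι κ ρ).IsSP B ↔
      SP B fun z : α × PSt ι κ => ini z.1 z.2.1 z.2.2) ∧
    (∀ y n (p : Prog α ι κ ρ), (forL y n p).IsSP B ↔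
      ((SP B fun z : α × PSt ι κ => decide (z.2.2 y < n z.1 z.2.1 z.2.2)) ∧ p.IsSP B)) ∧
    (∀ P : Prop, (P ∧ True) ↔ P) ∧ ∀ P : Prop, (True ∧ P) ↔ P := by
  refine ⟨iff_true_intro isSP_skip, fun _ _ => Iff.rfl, fun x e => ⟨fun h => ?_, isSP_setG⟩,
    fun y e => ⟨fun h => ?_, isSP_setL⟩, fun _ _ _ _ => Iff.rfl, fun _ _ _ => Iff.rfl,
    fun _ _ => Iff.rfl, fun y n p => ⟨fun h => ⟨h.2.1, h.2.2.1⟩, fun h => ?_⟩, by simp, by simp⟩
  · exact (sp_app (SP.fst h) x).congr fun z => by simp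
  · exact (sp_app (SP.snd h) y).congr fun z => by simp
  · exact isSP_seq (isSP_setL (SP.const 0)) (isSP_whP h.1
      (isSP_seq h.2 (isSP_setL ((sp_app SP.snd'.snd y).add (SP.const 1)))))

end Prog

open Prog

/-- Total correctness: the program ends in a state with `Q`, at stack cost at most `k`. -/
def WP (body : ρ → Prog α ι κ ρ) (a : α) (V : ℕ) (p : Prog α ι κ ρ) (k : ℕ)
    (Q : (ι → ℕ) → (κ → ℕ) → Prop) (g : ι → ℕ) (l : κ → ℕ) : Prop :=
  ∃ g' l', Exec body a V p (g, l) (g', l') k ∧ Q g' l'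

variable {body : ρ → Prog α ι κ ρ} {a : α} {V k : ℕ} {p q : Prog α ι κ ρ}
  {Q Q' : (ι → ℕ) → (κ → ℕ) → Prop} {g : ι → ℕ} {l : κ → ℕ}

theorem WP.mono (h : WP body a V p k Q g l) (hQ : ∀ g l, Q g l → Q' g l) :
    WP body a V p k Q' g l :=
  let ⟨g', l', h1, h2⟩ := h
  ⟨g', l', h1, hQ _ _ h2⟩

theorem WP.cost {k' : ℕ} (h : WP body a V p k Q g l) (hk : k ≤ k') : WP body a V p k' Q g l :=
  let ⟨g', l', h1, h2⟩ := h
  ⟨g', l', h1.mono hk, h2⟩

theorem WP.skip (h : Q g l) : WP body a V skip k Q g l := ⟨g, l, .op id, h⟩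

theorem WP.seq (h : WP body a V p k (WP body a V q k Q) g l) : WP body a V (p.seq q) k Q g l :=
  let ⟨_, _, h1, g', l', h2, h3⟩ := h
  ⟨g', l', .seq h1 h2, h3⟩

/-- Sequencing with an intermediate assertion. -/
theorem WP.seq' (h : WP body a V p k Q' g l) (h' : ∀ g l, Q' g l → WP body a V q k Q g l) :
    WP body a V (p.seq q) k Q g l := (h.mono h').seq

theorem ok_update {τ : Type} [DecidableEq τ] {f : τ → ℕ} {x : τ} {v : ℕ} (hf : ∀ y, f y ≤ V)
    (hv : v ≤ V) (y : τ) : update f x v y ≤ V := by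
  by_cases h : y = x
  · simpa [h] using hv
  · simpa [h] using hf y

theorem WP.setG [DecidableEq ι] {x : ι} {e : α → (ι → ℕ) → (κ → ℕ) → ℕ} (he : e a g l ≤ V)
    (h : Q (update g x (e a g l)) l) : WP body a V (setG x e) k Q g l :=
  ⟨_, _, .op fun hs => ⟨ok_update hs.1 he, hs.2⟩, h⟩

theorem WP.setL [DecidableEq κ] {y : κ} {e : α → (ι → ℕ) → (κ → ℕ) → ℕ} (he : e a g l ≤ V)
    (h : Q g (update l y (e a g l))) : WP body a V (setL y e) k Q g l :=
  ⟨_, _, .op fun hs => ⟨hs.1, ok_update hs.2 he⟩, h⟩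

/-- Assignment, where the bound may use the bounds of the variables. -/
theorem WP.setG' [DecidableEq ι] {x : ι} {e : α → (ι → ℕ) → (κ → ℕ) → ℕ}
    (he : (∀ x, g x ≤ V) → (∀ y, l y ≤ V) → e a g l ≤ V)
    (h : Q (update g x (e a g l)) l) : WP body a V (Prog.setG x e) k Q g l :=
  ⟨_, _, .op fun hs => ⟨ok_update hs.1 (he hs.1 hs.2), hs.2⟩, h⟩

/-- Assignment, where the bound may use the bounds of the variables. -/
theorem WP.setL' [DecidableEq κ] {y : κ} {e : α → (ι → ℕ) → (κ → ℕ) → ℕ}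
    (he : (∀ x, g x ≤ V) → (∀ y, l y ≤ V) → e a g l ≤ V)
    (h : Q g (update l y (e a g l))) : WP body a V (Prog.setL y e) k Q g l :=
  ⟨_, _, .op fun hs => ⟨hs.1, ok_update hs.2 (he hs.1 hs.2)⟩, h⟩

section tests

variable {c : α → (ι → ℕ) → (κ → ℕ) → Prop} [∀ a g l, Decidable (c a g l)]

theorem WP.ifT (hc : c a g l) (h : WP body a V p k Q g l) : WP body a V (ifP c p q) k Q g l :=
  let ⟨g', l', h1, h2⟩ := h
  ⟨g', l', .iteT (decide_eq_true hc) h1, h2⟩

theorem WP.ifF (hc : ¬ c a g l) (h : WP body a V q k Q g l) : WP body a V (ifP c p q) k Q g l :=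
  let ⟨g', l', h1, h2⟩ := h
  ⟨g', l', .iteF (decide_eq_false hc) h1, h2⟩

theorem WP.ifP (h : c a g l → WP body a V p k Q g l) (h' : ¬ c a g l → WP body a V q k Q g l) :
    WP body a V (Prog.ifP c p q) k Q g l := by
  by_cases hc : c a g l
  · exact .ifT hc (h hc)
  · exact .ifF hc (h' hc)

theorem WP.whF (hc : ¬ c a g l) (h : Q g l) : WP body a V (whP c p) k Q g l :=
  ⟨g, l, .whF (decide_eq_false hc), h⟩

theorem WP.whT (hc : c a g l) (h : WP body a V p k (WP body a V (whP c p) k Q) g l) :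
    WP body a V (whP c p) k Q g l :=
  let ⟨_, _, h1, g', l', h2, h3⟩ := h
  ⟨g', l', .whT (decide_eq_true hc) h1 h2, h3⟩

/-- The loop rule with an invariant and a variant. -/
theorem WP.wh (I : (ι → ℕ) → (κ → ℕ) → Prop) (μ : (ι → ℕ) → (κ → ℕ) → ℕ) (h0 : I g l)
    (hT : ∀ g l, I g l → c a g l →
      WP body a V p k (fun g' l' => I g' l' ∧ μ g' l' < μ g l) g l)
    (hF : ∀ g l, I g l → ¬ c a g l → Q g l) : WP body a V (whP c p) k Q g l := by
  induction hn : μ g l using Nat.strong_induction_on generalizing g l with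
  | _ n ih =>
    by_cases hc : c a g l
    · exact .whT hc ((hT g l h0 hc).mono fun g' l' h => ih _ (hn ▸ h.2) h.1 rfl)
    · exact .whF hc (hF g l h0 hc)

/-- The loop rule with a known number of rounds. -/
theorem WP.whN (I : ℕ → (ι → ℕ) → (κ → ℕ) → Prop) (N : ℕ) (h0 : I 0 g l)
    (hT : ∀ i < N, ∀ g l, I i g l → c a g l ∧ WP body a V p k (I (i + 1)) g l)
    (hF : ∀ g l, I N g l → ¬ c a g l ∧ Q g l) : WP body a V (whP c p) k Q g l := by
  have key : ∀ j i, i + j = N → ∀ g l, I i g l → WP body a V (whP c p) k Q g l := by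
    intro j
    induction j with
    | zero =>
      intro i hi g l h
      obtain rfl : i = N := hi
      exact .whF (hF g l h).1 (hF g l h).2
    | succ j ih =>
      intro i hi g l h
      obtain ⟨h1, h2⟩ := hT i (by omega) g l h
      exact .whT h1 (h2.mono (ih (i + 1) (by omega)))
  exact key N 0 (by omega) g l h0

end tests

/-- The rule for the counting loop: the invariant `I i` holds before the round `i`; the body keeps
the counter and the bound `N`. -/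
theorem WP.forL [DecidableEq κ] {y : κ} {n : α → (ι → ℕ) → (κ → ℕ) → ℕ}
    (I : ℕ → (ι → ℕ) → (κ → ℕ) → Prop) (N : ℕ) (hN : N ≤ V) (h0 : I 0 g (update l y 0))
    (hn : ∀ i g l, I i g l → n a g l = N)
    (hT : ∀ i < N, ∀ g l, l y = i → I i g l →
      WP body a V p k (fun g' l' => l' y = i ∧ I (i + 1) g' (update l' y (i + 1))) g l)
    (hF : ∀ g l, l y = N → I N g l → Q g l) : WP body a V (Prog.forL y n p) k Q g l := by
  refine WP.seq (WP.setL (Nat.zero_le _) (WP.whN (fun i g l => l y = i ∧ I i g l) N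
    ⟨by simp, h0⟩ (fun i hi g l h => ⟨by rw [h.1, hn i g l h.2]; exact hi, ?_⟩)
    fun g l h => ⟨by rw [h.1, hn N g l h.2]; exact lt_irrefl _, hF g l h.1 h.2⟩))
  refine (hT i hi g l h.1 h.2).seq' fun g' l' h' => WP.setL (by rw [h'.1]; omega) ?_
  rw [h'.1]
  exact ⟨by simp, h'.2⟩

/-- The call rule. -/
theorem WP.cal {r : ρ} {ini : α → (ι → ℕ) → (κ → ℕ) → κ → ℕ} (w k' : ℕ)
    (hi : (∀ x, g x ≤ V) → (∀ y, l y ≤ V) → ∀ y, ini a g l y ≤ V) (hw : ∀ y, l y < 2 ^ w)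
    (hk : w + 1 + k' ≤ k) (h : WP body a V (body r) k' (fun g' _ => Q g' l) g (ini a g l)) :
    WP body a V (Prog.cal r ini) k Q g l :=
  let ⟨g', l', h1, h2⟩ := h
  ⟨g', l, Exec.call (s := (g, l)) (s' := (g', l')) (ini := fun a s => ini a s.1 s.2) w
    (fun hs => hi hs.1 hs.2) hw h1 hk, h2⟩

/-- **The machine theorem**, in terms of `WP`, for one output variable. -/
theorem sp_of_wp {A : Type} {B : Bud A} [Enc A α] [Fintype ι] [Fintype κ] [Finite ρ]
    {body : ρ → Prog α ι κ ρ} (hb : ∀ r, (body r).IsSP B) (r0 : ρ) (out : ι)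
    {g0 : α → ι → ℕ} {l0 : α → κ → ℕ} {V K res : α → ℕ} (hg : SP B g0) (hl : SP B l0)
    (hV : PBd B V) (hK : PBd B fun a => 2 ^ K a)
    (h : ∀ (x : List A) (a : α), Enc.ok x a → (∀ x, g0 a x ≤ V a) ∧ (∀ y, l0 a y ≤ V a) ∧
      WP body a (V a) (body r0) (K a) (fun g _ => g out = res a) (g0 a) (l0 a)) : SP B res := by
  classical
  let fin : α → ι → ℕ := fun a =>
    if h : WP body a (V a) (body r0) (K a) (fun g _ => g out = res a) (g0 a) (l0 a) then h.choose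
    else fun _ => 0
  have H : SP B fin := by
    refine sp_rec hb r0 (hg.pair hl) hV hK fun x a ha => ?_
    obtain ⟨h1, h2, h3⟩ := h x a ha
    obtain ⟨l', h4, -⟩ := h3.choose_spec
    exact ⟨⟨h1, h2⟩, l', by simp only [fin, dif_pos h3]; exact h4⟩
  refine (sp_app H out).congr_ok fun x a ha => ?_
  obtain ⟨-, -, h3⟩ := h x a ha
  obtain ⟨l', -, h4⟩ := h3.choose_spec
  simp only [fin, dif_pos h3]
  exact h4

end Vale.Agent.P313.Full
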