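import Vale.Agent.P313.Full.TabGen
import Vale.Agent.P313.Full.TabColl
import Vale.Agent.P313.RedDeg

/-! The tables on the level `0`. -/

namespace Vale.Agent.P313.Full

open Finset Hi Tb

namespace G0

variable {cf : Cf} {W : ℕ → Tb} {d : Bool} {q : Cx} {f : Bool → ℕ} {x : ℕ}

theorem S_zero (hW : IsTab cf W) (x z : ℕ) :
    (W 0).L.S x z = if x < cf.N ∧ z < cf.N then (cf.A0 x z : ℝ) / 2 else 0 := by
  rw [hW.L]
  rfl

theorem n_zero (hW : IsTab cf W) : (W 0).L.n = nm cf.n0 0 := by rw [hW.L, lv_nm]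

open Classical in
/-- A vertex has at most two neighbours in each direction. -/
theorem card_nb (hc : cf.Ok) (hW : IsTab cf W) (d : Bool) (x : ℕ) :
    #{y ∈ range (nm cf.n0 0) | sd (W 0).L d x y ≠ 0} ≤ 2 := by
  cases d
  · refine le_trans (card_le_card fun y hy => ?_) (hc.col x)
    have h := (mem_filter.1 hy).2
    change (W 0).L.S y x ≠ 0 at h
    rw [S_zero hW] at h
    split_ifs at h with h1
    · exact mem_filter.2 ⟨mem_range.2 h1.1, fun e => h (by rw [e]; simp)⟩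
    · exact absurd rfl h
  · by_cases hx : x < cf.N
    · refine le_trans (card_le_card fun y hy => ?_) (Red.sub_row_card hc.sub hx)
      have h := (mem_filter.1 hy).2
      change (W 0).L.S x y ≠ 0 at h
      rw [S_zero hW] at h
      split_ifs at h with h1
      · exact mem_filter.2 ⟨mem_range.2 h1.2, fun e => h (by rw [e]; simp)⟩
      · exact absurd rfl h
    · have e : ∀ y, sd (W 0).L true x y = 0 := fun y => by
        change (W 0).L.S x y = 0
        rw [S_zero hW, if_neg fun h => hx h.1]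
      simp [e]

theorem sd_of_se {A : Tb} {y : ℕ} (h : 0 < A.se d q x y) : sd A.L d x y ≠ 0 := by
  have h1 := sig_pos_of_se h
  have h2 := w_of_sig (A := A) (d := d) (q := q) (x := x) (y := y) (by linarith)
  have h3 := thr_pos q.age
  have h4 : A.w d q x y ≠ 0 := by linarith
  have h5 := h4
  unfold w at h5
  rw [if_pos (vis_of_w h4)] at h5
  exact left_ne_zero_of_mul h5

theorem two_le_coll {t : Finset ℕ} {X : ℕ → ℝ} (h0 : ∀ v ∈ t, 0 ≤ X v) {y y' : ℕ} (hy : y ∈ t)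
    (hy' : y' ∈ t) (hne : y ≠ y') (h1 : X y = 1) (h2 : X y' = 1) :
    2 ≤ (∑ v ∈ t, X v) ^ 2 - ∑ v ∈ t, X v ^ 2 := by
  have h := coll_ge h0 hy
  have h3 : X y' ≤ ∑ v ∈ t.erase y, X v :=
    single_le_sum (f := X) (fun v hv => h0 v (mem_of_mem_erase hv)) (mem_erase.2 ⟨hne.symm, hy'⟩)
  rw [h1] at h
  linarith

theorem small_le (hf : cZ + cS * q.age ≤ f d) (l : ℕ) :
    (1 : ℝ) / 2 ^ (l + f d) ≤ eps q (f d) / 2 ^ 30 := by
  rw [eps, div_div, ← pow_add]
  refine one_div_le_one_div_of_le (by positivity) (pow_le_pow_right₀ one_le_two ?_)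
  have : 40 ≤ cZ := Nat.le_add_left _ _
  omega

theorem eps_le_one (q : Cx) (t : ℕ) : eps q t ≤ 1 := by
  rw [eps, div_le_one (by positivity)]
  exact one_le_pow₀ one_le_two

open Classical in
theorem mean_TB (hP : Pre cf W 0) (hf : FOk cf 0 q f) (hx : x < nm cf.n0 0) {h p hp : ℕ}
    (h1 : p < nm cf.n0 cf.K) (h2 : hp < 2 ^ cf.m) :
    cf.JS (fun s => (W 0).T d q f x h (cf.rot s p hp)) ≤
      if p < nm cf.n0 0 ∧ hp % 2 ^ ((W 0).lam d q x + f !d) < 2 ^ (W 0).lam d q x then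
        eps q (f !d) else eps q (f !d) ^ 2 := by
  have e0 := eps_nonneg q (f !d)
  have e1 := eps_le_one q (f !d)
  by_cases hn : h % 2 ^ ((W 0).lam d q x + f d) < 2 ^ (W 0).lam d q x
  swap
  · refine le_trans (mean_le (two_pow_pos _) (c := 0) fun s _ => ?_) (by split_ifs <;> positivity)
    rw [hP.tab.TB, TB, if_neg]
    rintro ⟨y, y', -, hy, -⟩
    exact hn hy.2.1
  set t := {y ∈ range (nm cf.n0 0) | sd (W 0).L d x y ≠ 0} with ht
  set F := (W 0).lam d q x + f !d with hF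
  set ρ := h % 2 ^ ((W 0).lam d q x + f d) with hρ
  have hc := Cf.JS_coll_le (cf := cf) (n := cf.n0 + a * cf.K) (p := p) (c := hp) (F := F) (ρ := ρ)
    hP.ok.hash h1 h2 (lam_add_le hP.tab hf hx d (!d)) t
    (fun v hv => (mem_range.1 (mem_filter.1 hv).1).trans_le (nm_le _ (Nat.zero_le _)))
    (fun _ => 1) (fun _ _ => zero_le_one)
    (fun k v => if cf.val k v % 2 ^ F = ρ then 1 else 0)
    (fun _ _ _ => by split_ifs <;> norm_num) fun _ _ _ => le_rfl
  have h3 : cf.JS (fun s => (W 0).T d q f x h (cf.rot s p hp)) ≤ 3 / 2 * cf.JS fun s =>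
      (∑ v ∈ t, if cf.val (cf.rot s p hp) v % 2 ^ F = ρ then 1 else 0) ^ 2 -
        ∑ v ∈ t, (if cf.val (cf.rot s p hp) v % 2 ^ F = ρ then 1 else 0) ^ 2 := by
    rw [Cf.JS, Cf.JS, ← mean_mul_left]
    refine mean_mono fun s _ => ?_
    have h0 : ∀ v ∈ t, (0 : ℝ) ≤ if cf.val (cf.rot s p hp) v % 2 ^ F = ρ then 1 else 0 :=
      fun _ _ => by split_ifs <;> norm_num
    rw [hP.tab.TB, TB]
    split_ifs with hb
    · obtain ⟨y, y', hne, hy, hy'⟩ := hb
      have m : ∀ {z}, 0 < (W 0).se d q x z → z ∈ t := fun hz =>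
        mem_filter.2 ⟨mem_range.2 (lt_of_se hP.ok hP.tab hz).2, sd_of_se hz⟩
      have := two_le_coll h0 (m hy.1) (m hy'.1) hne (if_pos hy.2.2) (if_pos hy'.2.2)
      linarith
    · have := coll_nonneg h0
      positivity
  have h4 : (∑ _v ∈ t, (1 : ℝ)) / 2 ^ F ≤ 2 * (eps q (f !d) / 2 ^ 30) := by
    have h5 : (#t : ℝ) ≤ 2 := by exact_mod_cast card_nb hP.ok hP.tab d x
    have h6 := small_le (hf.slack (!d)) ((W 0).lam d q x)
    rw [sum_const, nsmul_eq_mul, mul_div_assoc]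
    exact mul_le_mul h5 h6 (by positivity) (by norm_num)
  have h5 : 0 ≤ (∑ _v ∈ t, (1 : ℝ)) / 2 ^ F := by positivity
  generalize (∑ _v ∈ t, (1 : ℝ)) / 2 ^ F = u at *
  have h6 : u ^ 2 ≤ (2 * (eps q (f !d) / 2 ^ 30)) ^ 2 := pow_le_pow_left₀ h5 h4 2
  split_ifs with ho
  · have h7 : (if p ∈ t ∧ hp % 2 ^ F = ρ then 2 * 1 * u else 0) ≤ 2 * u := by
      split_ifs <;> linarith
    nlinarith
  · rw [if_neg fun (hh : p ∈ t ∧ hp % 2 ^ F = ρ) => ho ⟨mem_range.1 (mem_filter.1 hh.1).1, hh.2 ▸ hn⟩] at hc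
    nlinarith [sq_nonneg (eps q (f !d))]

end G0

open G0

theorem st0 : St0 := by
  classical
  intro cf W hP
  have hS : ∀ x z, 0 ≤ (W 0).L.S x z := fun x z => by
    rw [S_zero hP.tab]
    split_ifs <;> positivity
  refine ⟨fun d x hx => ⟨⟨fun hf _ h1 h2 => ?_, fun hf _ h1 h2 h3 => ?_⟩, ?_⟩, ⟨?_, ?_⟩, ?_⟩
  · refine (mean_TB hP hf hx h1 h2).trans ?_
    split_ifs
    · exact le_rfl
    · rw [sq]
      exact mul_le_of_le_one_left (eps_nonneg _ _) (eps_le_one _ _)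
  · exact (mean_TB hP hf hx h1 h2).trans_eq (if_neg h3)
  · intro q f h c y y' _ _ _ hT hy hy'
    by_contra hne
    rw [hP.tab.TB, TB, if_pos ⟨y, y', hne, hy, hy'⟩] at hT
    norm_num at hT
  · intro z _
    have e : (W 0).L.hc z = ∑ y ∈ range (W 0).L.n, (W 0).L.S y z := by
      rw [hP.tab.L, lv_hc, hP.tab.HB, HB, ← hP.tab.L]
      simp [q0, sd]
    have h1 := sum_le_sum_of_subset_of_nonneg (f := fun y => (W 0).L.S y z)
      (filter_subset (fun y => (W 0).L.use y z) (range (W 0).L.n)) fun y _ _ => hS y z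
    have h2 : 0 ≤ ∑ y ∈ range (W 0).L.n, (W 0).L.S y z := sum_nonneg fun y _ => hS y z
    rw [e]
    linarith
  · intro z _
    have e : (W 0).L.hr z = ∑ y ∈ range (W 0).L.n, (W 0).L.S z y := by
      rw [hP.tab.L, lv_hr, hP.tab.HB, HB, ← hP.tab.L]
      simp [q0, sd]
    have h1 := sum_le_sum_of_subset_of_nonneg (f := fun y => (W 0).L.S z y)
      (filter_subset (fun y => (W 0).L.use z y) (range (W 0).L.n)) fun y _ _ => hS z y
    have h2 : 0 ≤ ∑ y ∈ range (W 0).L.n, (W 0).L.S z y := sum_nonneg fun y _ => hS z y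
    rw [e]
    linarith
  · intro d q _ x _
    rw [hP.tab.HB, HB]
    cases d <;> exact le_rfl

end Vale.Agent.P313.Full
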