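import Vale.Agent.P313.Full.HiName
import Vale.Agent.P313.Full.Chr
import Vale.Agent.P313.Full.Prob

/-! The ideal tables: definitions.

An entry `(x, y)` of a level is seen from the near end `x` in the direction `d` (`true`: `x` is the
source).  Everything with an index `e : Bool` belongs to the source (`e = true`) or to the target
(`e = false`) of the entry.  The numbers `s`, `w`, `sig` and the partner `pt` are closed forms; only
the trouble `T` and the statistic `H` are defined by recursion (`IsTab`). -/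

namespace Vale.Agent.P313.Full

open Finset Hi

/-! ### Constants and ramps -/

/-- Decay of the statistics. -/
noncomputable def cH : ℕ := 2 * a + 2

/-- Growth of the filters demanded per step of the age. -/
noncomputable def cS : ℕ := 2 * a + B + 3

/-- New filter bits per level. -/
noncomputable def cF : ℕ := 5 * a + 2 * B + 16

/-- The length of a fresh filter. -/
noncomputable def cZ : ℕ := a + 6 * B + 40

/-- The threshold for the weight. -/
noncomputable def thr (n : ℕ) : ℝ := 1 / 2 ^ (B + 1 + n)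

/-- The unit of the merged levels. -/
noncomputable def tau (n : ℕ) : ℝ := thr n / 32

/-- `1` below `1`, `0` above `2`. -/
noncomputable def Gd (t : ℝ) : ℝ := cl (2 - t)

/-- `1` below `2`, `0` above `3`. -/
noncomputable def Gp (t : ℝ) : ℝ := cl (3 - t)

/-- `0` below `3 / 4`, `1` at `1`. -/
noncomputable def psi (t : ℝ) : ℝ := cl (4 * t - 3)

/-- `0` below `1 / 4`, `1` above `3 / 4`. -/
noncomputable def psw (t : ℝ) : ℝ := cl (2 * t - 1 / 2)

/-- `0` below `1 / 2`, `1` at `1`. -/
noncomputable def pp (t : ℝ) : ℝ := cl (2 * t - 1)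

/-- `0` below `1 / 8`, `1` above `1 / 4`. -/
noncomputable def gg (t : ℝ) : ℝ := cl (8 * t - 1)

/-- `1` below `2 ^ B`, `0` above `3 / 2 * 2 ^ B`. -/
noncomputable def rd (t : ℝ) : ℝ := cl (3 - 2 * t / 2 ^ B)

/-- The inverse of a number near `1`. -/
noncomputable def inv (t : ℝ) : ℝ := 1 / max (1 / 2) (min 1 t)

/-- The clamp to `[0, 3]`. -/
noncomputable def cl3 (t : ℝ) : ℝ := max 0 (min 3 t)

/-- The clamp for the statistics. -/
noncomputable def clH (t : ℝ) : ℝ := max 0 (min (2 ^ (B + 1)) t)

/-! ### Keys, labels, contexts -/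

/-- Slope and offset. -/
abbrev Key : Type := ℕ × ℕ

/-- The new digits at both ends, the new filter bits at both ends, the common window. -/
abbrev Lab : Type := (Bool → ℕ) × (Bool → ℕ) × ℕ

/-- Pairs of numbers below `n`. -/
def prs (n : ℕ) : Finset (Bool → ℕ) := Fintype.piFinset fun _ => range n

/-- The labels. -/
def labs (i j k : ℕ) : Finset Lab := prs (2 ^ i) ×ˢ prs (2 ^ j) ×ˢ range (2 ^ k)

/-- `u` at `d`, `v` at the other end. -/
def two {β : Type} (d : Bool) (u v : β) : Bool → β := fun e => if e = d then u else v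

/-- The graph, the number of stages, the parameters of the hash function. -/
structure Cf where
  N : ℕ
  n0 : ℕ
  K : ℕ
  A0 : ℕ → ℕ → ℕ
  L : ℕ
  m : ℕ

namespace Cf

variable (cf : Cf)

/-- The value of a key at a point. -/
def val (k : Key) (v : ℕ) : ℕ := lin cf.L cf.m k.1 v ^^^ k.2

/-- The key with the slope `s` and the value `h` at `v`. -/
def rot (s v h : ℕ) : Key := (s, lin cf.L cf.m s v ^^^ h)

/-- The key moved by the point `p` and the value `t`. -/
def ent (k : Key) (p t : ℕ) : Key := (k.1, k.2 ^^^ lin cf.L cf.m k.1 p ^^^ t)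

/-- The average over the slopes. -/
noncomputable def JS (g : ℕ → ℝ) : ℝ := mean (2 ^ (2 * cf.L)) g

/-- The average over the keys. -/
noncomputable def JK (g : Key → ℝ) : ℝ :=
  cf.JS fun s => mean (2 ^ cf.m) fun o => g (s, o)

/-- The keys with a new slope at the end `d`, the value at `x` is kept. -/
def rt (K : Bool → Key) (d : Bool) (x s : ℕ) : Bool → Key :=
  two d (cf.rot s x (cf.val (K d) x)) (K !d)

end Cf

/-- The number of stages since the last merge. -/
noncomputable def mu (n0 : ℕ) : ℕ → Bool → ℕ → ℕ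
  | 0, _, _ => 0
  | k + 1, d, x => if ((dg n0 k x).ed d).2.2.1 = 2 then 0 else mu n0 k d x + 1

/-- The context: the age and the increases of index and level since the age `0`. -/
structure Cx where
  age : ℕ
  D : Bool → ℕ
  E : Bool → ℕ

/-- The fresh context. -/
def q0 : Cx := ⟨0, fun _ => 0, fun _ => 0⟩

/-- The context `b` levels down. -/
noncomputable def Cx.up (q : Cx) (b : ℕ) (c : Bool → ℕ) : Cx :=
  ⟨q.age + b, fun e => q.D e + ∑ i ∈ range b, (((dg 0 i (c e)).ed e).1 : ℕ),
    fun e => q.E e + ∑ i ∈ range b, (((dg 0 i (c e)).ed e).2.1 : ℕ)⟩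

/-- The values `hn` (near), `hf` (far) agree on `l` bits and vanish on the filters. -/
def mt (l : ℕ) (f : Bool → ℕ) (d : Bool) (hn hf : ℕ) : Prop :=
  hn % 2 ^ (l + f d) < 2 ^ l ∧ hf % 2 ^ (l + f !d) = hn % 2 ^ (l + f d)

/-- The kernel in the direction `d`. -/
def sd (L : Lv) (d : Bool) (x y : ℕ) : ℝ := if d then L.S x y else L.S y x

/-- The view at the end `e`. -/
def ve (L : Lv) (e : Bool) (x : ℕ) : Hi.View := if e then L.vo x else L.vi x

/-- The free mass of an entry. -/
noncomputable def fre0 (L : Lv) (x z : ℕ) : ℝ :=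
  L.S x z * L.rdy x z * (1 - R B (L.hr x)) * (1 - R B (L.hc z))

/-- The free mass in the direction `d`. -/
noncomputable def fre (L : Lv) (d : Bool) (x y : ℕ) : ℝ := if d then fre0 L x y else fre0 L y x

open Classical in
/-- The part of a merged entry of the next level which passes through `m`. -/
noncomputable def trm0 (L : Lv) (x m z : ℕ) : ℝ :=
  if vld (x / L.n) ∧ vld (z / L.n) ∧
      fit (L.vo (x % L.n)) (L.vi (z % L.n)) (dig (x / L.n)).2.2.2 (dig (z / L.n)).2.2.1 then
    (∑ g : G, L.Cm (x % L.n, (dig (x / L.n)).1) (m, g) * L.Fb (m, g) (z % L.n, (dig (z / L.n)).1)) /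
      2 ^ (((dig (x / L.n)).1.2.1 : ℕ) + (dig (z / L.n)).1.1)
  else 0

/-- The same in the direction `d`. -/
noncomputable def trm (L : Lv) (d : Bool) (x m y : ℕ) : ℝ :=
  if d then trm0 L x m y else trm0 L y m x

/-! ### Tables and closed forms -/

/-- The tables of a level.  `T d q f x h k`: the trouble at `x`, where `h` is the value of the near
key at `x` and `k` is the far key. -/
structure Tb where
  L : Lv
  mu : Bool → ℕ → ℕ
  T : Bool → Cx → (Bool → ℕ) → ℕ → ℕ → Key → ℝ
  H : Bool → Cx → ℕ → ℝ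

namespace Tb

section closed

variable (A : Tb) (cf : Cf) (d : Bool) (q : Cx) (f : Bool → ℕ)

/-- The number of matched bits. -/
def lam (x : ℕ) : ℕ := (ve A.L d x).l + q.D d

/-- The entry is visible in the context. -/
def vis (x y : ℕ) : Prop := A.lam d q x = A.lam (!d) q y ∧
  (ve A.L d x).lam + q.E d = (ve A.L (!d) y).lam + q.E (!d)

open Classical in
/-- The weight. -/
noncomputable def w (x y : ℕ) : ℝ := if A.vis d q x y then sd A.L d x y * 2 ^ A.lam d q x else 0

/-- The guard for the load. -/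
noncomputable def fac (x : ℕ) : ℝ := if A.mu d x = 0 then 1 else rd (A.H d q x)

/-- The significance of an entry. -/
noncomputable def sig (x y : ℕ) : ℝ :=
  cl (2 * A.w d q x y / thr q.age - 1) * A.fac d q x * A.fac (!d) q y

/-- Significant entries. -/
noncomputable def se (x y : ℕ) : ℝ := psi (A.sig d q x y)

/-- A matched significant entry. -/
def cand (x h : ℕ) (k : Key) (y : ℕ) : Prop :=
  0 < A.se d q x y ∧ mt (A.lam d q x) f d h (cf.val k y)

/-- The partner. -/
noncomputable def pt (x : ℕ) (K : Bool → Key) : ℕ :=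
  Classical.epsilon (A.cand cf d q f x (cf.val (K d) x) (K !d))

/-- The trouble at `x`. -/
def Tk (x : ℕ) (K : Bool → Key) : ℝ := A.T d q f x (cf.val (K d) x) (K !d)

/-- The trouble at the far end `y`. -/
def Tr (y : ℕ) (K : Bool → Key) : ℝ := A.T (!d) q f y (cf.val (K !d) y) (K d)

open Classical in
/-- The strength of the link from `x` to its partner. -/
noncomputable def s (x : ℕ) (K : Bool → Key) : ℝ :=
  if A.cand cf d q f x (cf.val (K d) x) (K !d) (A.pt cf d q f x K) then
    A.se d q x (A.pt cf d q f x K) * Gd (A.Tk cf d q f x K) *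
      Gd (A.Tr cf d q f (A.pt cf d q f x K) K)
  else 0

/-- The link with hard guards. -/
noncomputable def amp (x : ℕ) (K : Bool → Key) : ℝ :=
  gg (A.s cf d q f x K) * pp (Gd (A.Tk cf d q f x K)) *
    pp (Gd (A.Tr cf d q f (A.pt cf d q f x K) K))

/-- The mass seen through fresh keys and fresh filters. -/
noncomputable def _root_.Vale.Agent.P313.Full.stat (cf : Cf) (d : Bool) (n : ℕ)
    (M : (Bool → ℕ) → (Bool → Key) → ℝ) : ℝ :=
  2 ^ (2 * (cZ + cS * n)) / 2 ^ (cH * n) *
    cf.JK fun k => cf.JK fun k' => M (fun _ => cZ + cS * n) (two d k k')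

open Classical in
/-- The trouble on the level `0`. -/
noncomputable def TB (x h : ℕ) (k : Key) : ℝ :=
  if ∃ y y', y ≠ y' ∧ A.cand cf d q f x h k y ∧ A.cand cf d q f x h k y' then 3 else 0

/-- The statistic on the level `0`. -/
noncomputable def HB (x : ℕ) : ℝ := (∑ y ∈ range A.L.n, sd A.L d x y) / 2 ^ (cH * q.age)

/-- The statistic at a merged name. -/
noncomputable def HM (x : ℕ) : ℝ :=
  clH (stat cf d q.age fun f K => A.s cf d q f x K * A.w d q x (A.pt cf d q f x K))

end closed

/-! ### Entering a lower level (`V` is the table `b` levels down) -/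

section enter

variable (V : Tb) (cf : Cf) (b : ℕ) (d : Bool) (q : Cx) (f : Bool → ℕ) (x : ℕ)

/-- The number of matched bits, computed from the label. -/
noncomputable def lr (r : Lab) : ℕ := V.lam d (q.up b r.1) (x % V.L.n)

/-- The length of the common window. -/
noncomputable def _root_.Vale.Agent.P313.Full.om (b : ℕ) (q : Cx) (r : Lab) : ℕ :=
  max ((q.up b r.1).D true) ((q.up b r.1).D false)

/-- The shift of the values at the end `e`. -/
noncomputable def shf (r : Lab) (e : Bool) : ℕ :=
  r.2.1 e * 2 ^ (V.lr b d q x r + f e) ^^^ r.2.2 * 2 ^ (V.lr b d q x r - om b q r)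

/-- The key at the end `e` for the lower level. -/
noncomputable def ek (k : Key) (r : Lab) (e : Bool) : Key :=
  cf.ent k (V.L.n * r.1 e) (V.shf b d q f x r e)

end enter

/-! ### Layers without a merge (`A` is the table of the level, `V` the table `b` levels down) -/

section U

variable (A V : Tb) (cf : Cf) (b : ℕ) (d : Bool) (q : Cx) (f : Bool → ℕ) (x : ℕ)

/-- The filters of the lower level. -/
noncomputable def _root_.Vale.Agent.P313.Full.fU (b : ℕ) (f : Bool → ℕ) : Bool → ℕ :=
  fun e => f e + cF * b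

/-- The labels of a layer. -/
noncomputable def _root_.Vale.Agent.P313.Full.labU (b : ℕ) : Finset Lab := labs (a * b) (cF * b) 0

/-- The keys of the lower level. -/
noncomputable def kU (K : Bool → Key) (r : Lab) : Bool → Key :=
  fun e => V.ek cf b d q f x (K e) r e

/-- The strength of the link on the lower level. -/
noncomputable def sU (K : Bool → Key) (r : Lab) : ℝ :=
  if x / V.L.n = r.1 d then
    V.s cf d (q.up b r.1) (fU b f) (x % V.L.n) (V.kU cf b d q f x K r) else 0

/-- The end of the option `r`. -/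
noncomputable def eU (K : Bool → Key) (r : Lab) : ℕ :=
  V.pt cf d (q.up b r.1) (fU b f) (x % V.L.n) (V.kU cf b d q f x K r) + V.L.n * r.1 (!d)

/-- The strength of the option `r`. -/
noncomputable def uU (K : Bool → Key) (r : Lab) : ℝ :=
  V.sU cf b d q f x K r * A.sig d q x (V.eU cf b d q f x K r)

/-- The trouble. -/
noncomputable def TU (h : ℕ) (k : Key) : ℝ :=
  cl3 (2 * (∑ r ∈ labU b, if x / V.L.n = r.1 d ∧
        (h ^^^ V.shf b d q f x r d) / 2 ^ (V.lr b d q x r + f d) % 2 ^ (cF * b) = 0 then
      V.T d (q.up b r.1) (fU b f) (x % V.L.n) (h ^^^ V.shf b d q f x r d)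
        (V.ek cf b d q f x k r (!d)) else 0) +
    100 * ((∑ r ∈ labU b, cf.JS fun s => A.uU V cf b d q f x (two d (cf.rot s x h) k) r) ^ 2 -
      ∑ r ∈ labU b, (cf.JS fun s => A.uU V cf b d q f x (two d (cf.rot s x h) k) r) ^ 2))

/-- The statistic. -/
noncomputable def HU : ℝ :=
  clH ((stat cf d q.age fun f K =>
      ∑ r ∈ labU b, V.sU cf b d q f x K r * A.w d q x (V.eU cf b d q f x K r)) +
    3 / 2 * ∑ c ∈ prs (2 ^ (a * b)), if x / V.L.n = c d then V.H d (q.up b c) (x % V.L.n) else 0)

end U

/-! ### Merged names (`A` is the table of the level, `V` the table one level down) -/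

section M

variable (A V : Tb) (cf : Cf) (d : Bool) (q : Cx) (f : Bool → ℕ) (x : ℕ)

/-- The labels of a link. -/
noncomputable def _root_.Vale.Agent.P313.Full.labM (q : Cx) : Finset Lab :=
  labs a cF (B * (q.age + 1))

/-- The filters of the half of a link at the end `e`. -/
noncomputable def _root_.Vale.Agent.P313.Full.fM (q : Cx) (f : Bool → ℕ) (r : Lab) (e : Bool) :
    Bool → ℕ :=
  two e ((q.up 1 r.1).D e + f e + cF) ((q.up 1 r.1).D e + cZ)

/-- The keys of the half of a link at the end `e`; `c` is the key of the midpoint. -/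
noncomputable def kM (K : Bool → Key) (r : Lab) (c : Key) (e : Bool) : Bool → Key :=
  two e (V.ek cf 1 d q f x (K e) r e) c

/-- The tests at the near end; `h` is the value of the near key. -/
def okM (h : ℕ) (r : Lab) : Prop :=
  x / V.L.n = r.1 d ∧ r.2.2 < 2 ^ om 1 q r ∧
    (h ^^^ V.shf 1 d q f x r d) % 2 ^ (V.lr 1 d q x r + f d + cF) <
      2 ^ (V.lr 1 d q x r - om 1 q r)

/-- The test at the midpoint. -/
def locM (r : Lab) (m : ℕ) : Prop :=
  (ve V.L false m).l + (q.up 1 r.1).D true = (ve V.L true m).l + (q.up 1 r.1).D false ∧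
    (ve V.L false m).lam + (q.up 1 r.1).E true = (ve V.L true m).lam + (q.up 1 r.1).E false

variable (K : Bool → Key) (r : Lab) (c : Key)

/-- The midpoint. -/
noncomputable def mM : ℕ := V.pt cf d q0 (fM q f r d) (x % V.L.n) (V.kM cf d q f x K r c d)

/-- The end on the lower level. -/
noncomputable def zM : ℕ :=
  V.pt cf d q0 (fM q f r (!d)) (V.mM cf d q f x K r c) (V.kM cf d q f x K r c (!d))

/-- The end of the link. -/
noncomputable def eM : ℕ := V.zM cf d q f x K r c + V.L.n * r.1 (!d)

/-- The strength of the first half. -/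
noncomputable def s1 : ℝ := V.s cf d q0 (fM q f r d) (x % V.L.n) (V.kM cf d q f x K r c d)

/-- The strength of the second half. -/
noncomputable def s2 : ℝ :=
  V.s cf d q0 (fM q f r (!d)) (V.mM cf d q f x K r c) (V.kM cf d q f x K r c (!d))

open Classical in
/-- The common factor: the tests and the first half. -/
noncomputable def a1 : ℝ :=
  if V.okM d q f x (cf.val (K d) x) r ∧ V.locM q r (V.mM cf d q f x K r c) then
    V.amp cf d q0 (fM q f r d) (x % V.L.n) (V.kM cf d q f x K r c d) else 0

/-- The mass of a link. -/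
noncomputable def Z : ℝ :=
  V.a1 cf d q f x K r c *
    V.amp cf d q0 (fM q f r (!d)) (V.mM cf d q f x K r c) (V.kM cf d q f x K r c (!d)) *
    (2 ^ (2 * V.lr 1 d q x r + cZ) * trm V.L d x (V.mM cf d q f x K r c) (V.eM cf d q f x K r c))

/-- The trouble of the second half, weighted with the first half. -/
noncomputable def ZI : ℝ :=
  V.a1 cf d q f x K r c *
    (2 ^ (V.lr 1 d q x r + (q.up 1 r.1).D (!d) + cZ) *
      fre V.L d (x % V.L.n) (V.mM cf d q f x K r c)) *
    V.Tk cf d q0 (fM q f r (!d)) (V.mM cf d q f x K r c) (V.kM cf d q f x K r c (!d))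

/-- The visible mass which ends in `v`. -/
noncomputable def X (v : ℕ) : ℝ :=
  cf.JK fun c => ∑ r ∈ labM q, if V.eM cf d q f x K r c = v then V.Z cf d q f x K r c else 0

/-- The trouble. -/
noncomputable def TM (h : ℕ) (k : Key) : ℝ :=
  cl3 (12 * (cf.JS fun s => cf.JK fun c =>
      ∑ r ∈ labM q, V.ZI cf d q f x (two d (cf.rot s x h) k) r c) / tau q.age +
    ((∑ v ∈ range (V.L.n * 2 ^ a), cf.JS fun s => V.X cf d q f x (two d (cf.rot s x h) k) v) ^ 2 -
      ∑ v ∈ range (V.L.n * 2 ^ a),
        (cf.JS fun s => V.X cf d q f x (two d (cf.rot s x h) k) v) ^ 2) / tau q.age ^ 2)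

/-- The gate with the threshold `t`. -/
noncomputable def gate (t : ℝ) : ℝ :=
  Gp (A.Tk cf d q f x K) * cl ((cf.JK fun c => ∑ r ∈ labM q,
    V.Z cf d q f x K r c * Gp (A.Tr cf d q f (V.eM cf d q f x K r c) K)) / tau q.age - t)

/-- The result of the search. -/
noncomputable def st : ℕ := Classical.epsilon fun v => 2 * tau q.age < V.X cf d q f x K v

/-- The domain of the search. -/
def DM : Prop := ∃ v, 3 * tau q.age ≤ V.X cf d q f x K v ∧ A.Tk cf d q f x K < 3 ∧
  A.Tr cf d q f v K < 3

/-- The test of the search. -/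
noncomputable def tst : ℝ :=
  open Classical in
  if V.okM d q f x (cf.val (K d) x) r then
    cl (gg (V.s1 cf d q f x K r c) * gg (V.s2 cf d q f x K r c) *
      V.X cf d q f x K (V.eM cf d q f x K r c) / (4 * tau q.age))
  else 0

/-- The factor which depends on the slope of the near key. -/
noncomputable def al : ℝ :=
  (if x / V.L.n = r.1 d then gg (V.s1 cf d q f x K r c) else 0) *
    pp (Gd (V.Tr cf d q0 (fM q f r d) (V.mM cf d q f x K r c) (V.kM cf d q f x K r c d)))

/-- Its mean. -/
noncomputable def pN : ℝ := cf.JS fun s => V.al cf d q f x (cf.rt K d x s) r c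

/-- Its mean together with the access weight. -/
noncomputable def pA : ℝ := cf.JS fun s => V.al cf d q f x (cf.rt K d x s) r c *
  (gg (V.s2 cf d q f x (cf.rt K d x s) r c) *
    Gd (A.Tr cf d q f (V.eM cf d q f x (cf.rt K d x s) r c) (cf.rt K d x s)))

/-- The factor which depends on the slope of the key `c` at the midpoint `m`. -/
noncomputable def ga (m : ℕ) : ℝ :=
  gg (V.s cf (!d) q0 (fM q f r d) m (V.kM cf d q f x K r c d)) *
    pp (Gd (V.Tr cf (!d) q0 (fM q f r d) (V.pt cf (!d) q0 (fM q f r d) m (V.kM cf d q f x K r c d))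
      (V.kM cf d q f x K r c d))) *
  (gg (V.s cf d q0 (fM q f r (!d)) m (V.kM cf d q f x K r c (!d))) *
    pp (Gd (V.Tr cf d q0 (fM q f r (!d))
      (V.pt cf d q0 (fM q f r (!d)) m (V.kM cf d q f x K r c (!d))) (V.kM cf d q f x K r c (!d)))))

/-- Its mean. -/
noncomputable def pM : ℝ := cf.JS fun s => V.ga cf d q f x K r
  (cf.rot s (V.mM cf d q f x K r c) (cf.val c (V.mM cf d q f x K r c))) (V.mM cf d q f x K r c)

/-- The normalised mass from `x` to `v`. -/
noncomputable def wIn (v : ℕ) : ℝ :=
  cf.JS fun s => cf.JK fun c => ∑ r ∈ labM q,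
    if V.eM cf d q f x (cf.rt K d x s) r c = v then
      V.Z cf d q f x (cf.rt K d x s) r c * inv (V.pN cf d q f x (cf.rt K d x s) r c) *
        inv (V.pM cf d q f x (cf.rt K d x s) r c) *
        inv (A.pA V cf (!d) q f (V.eM cf d q f x (cf.rt K d x s) r c) (cf.rt K d x s) r c)
    else 0

/-- The weight as it is computed. -/
noncomputable def wM : ℝ :=
  cf.JS fun s => A.gate V cf d q f x (cf.rt K d x s) 4 *
    (Gd (A.Tr cf d q f (V.st cf d q f x (cf.rt K d x s)) (cf.rt K d x s)) *
      A.wIn V cf (!d) q f (V.st cf d q f x (cf.rt K d x s)) (cf.rt K d x s) x)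

end M

end Tb

/-- The height of the layer. -/
def hb (q : Cx) (m : ℕ) : ℕ := min (q.age + 1) m

/-- The recursion for the tables. -/
structure IsTab (cf : Cf) (W : ℕ → Tb) : Prop where
  L : ∀ k, (W k).L =
    lv cf.N cf.n0 cf.K cf.A0 (fun j => (W j).H false q0) (fun j => (W j).H true q0) k
  mu : ∀ k, (W k).mu = mu cf.n0 k
  TB : ∀ d q f x h k, (W 0).T d q f x h k = (W 0).TB cf d q f x h k
  HB : ∀ d q x, (W 0).H d q x = (W 0).HB d q x
  TM : ∀ j d q f x h k, (W (j + 1)).mu d x = 0 →
    (W (j + 1)).T d q f x h k = (W j).TM cf d q f x h k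
  HM : ∀ j d q x, (W (j + 1)).mu d x = 0 → (W (j + 1)).H d q x = (W (j + 1)).HM cf d q x
  TU : ∀ j d q f x h k, (W j).mu d x ≠ 0 → (W j).T d q f x h k =
    (W j).TU (W (j - hb q ((W j).mu d x))) cf (hb q ((W j).mu d x)) d q f x h k
  HU : ∀ j d q x, (W j).mu d x ≠ 0 → (W j).H d q x =
    (W j).HU (W (j - hb q ((W j).mu d x))) cf (hb q ((W j).mu d x)) d q x

/-- The assumptions on the input. -/
structure Cf.Ok (cf : Cf) : Prop where
  sub : F43.Sub (F43.mat cf.N cf.A0 2)
  N_le : cf.N ≤ 2 ^ cf.n0
  col : ∀ v, #{u ∈ range cf.N | cf.A0 u v ≠ 0} ≤ 2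
  hash : cf.m + 3 * (cf.n0 + a * cf.K) ≤ cf.L
  room : cZ + (B + cS + cF) * cf.K ≤ cf.m

/-- Admissible contexts on the level `k`. -/
structure Cx.Ok (cf : Cf) (k : ℕ) (q : Cx) : Prop where
  age : q.age + k ≤ cf.K
  D : ∀ e, q.D e ≤ B * q.age
  E : ∀ e, q.E e ≤ (C + 1) * q.age

/-- Admissible filters. -/
structure FOk (cf : Cf) (k : ℕ) (q : Cx) (f : Bool → ℕ) : Prop extends Cx.Ok cf k q where
  slack : ∀ e, cZ + cS * q.age ≤ f e
  room : ∀ e e', q.D e' + f e + (B + cF) * k ≤ cf.m

/-- The bound for the mean trouble, where `t` is the length of the far filter. -/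
noncomputable def eps (q : Cx) (t : ℕ) : ℝ := 1 / 2 ^ (10 + (t - (cZ + cS * q.age)))

end Vale.Agent.P313.Full
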