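import Vale.Agent.P313.Full.TabStmt
import Vale.Agent.P313.Full.TabBit

/-! The ideal tables: facts about levels, views and ramps which are used for the statistics. -/

namespace Vale.Agent.P313.Full.TH

open Finset Hi

variable {cf : Cf} {W : ℕ → Tb}

theorem n_eq (hW : IsTab cf W) (k : ℕ) : (W k).L.n = nm cf.n0 k := by rw [hW.L, lv_nm]

theorem down {k j : ℕ} (h : Pre cf W k) (hj : j ≤ k) : Pre cf W j :=
  ⟨h.ok, h.tab, hj.trans h.le, fun i hi => h.good i (by omega)⟩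

theorem inv {k : ℕ} (h : Pre cf W k) : Inv cf.N (2 ^ cf.n0) cf.K k (W k).L := by
  rw [h.tab.L]
  exact inv_lv cf.K h.ok.sub h.ok.N_le _ _ k fun i hi => by
    rw [← h.tab.L]
    exact (h.good i hi).low

theorem sd_nonneg {k : ℕ} (h : Pre cf W k) (d : Bool) (x y : ℕ) : 0 ≤ sd (W k).L d x y := by
  unfold sd
  split_ifs <;> exact (inv h).S_nonneg _ _

theorem sd_not (L : Lv) (d : Bool) (x y : ℕ) : sd L (!d) y x = sd L d x y := by
  cases d <;> rfl

theorem S_supp (hc : cf.Ok) (hW : IsTab cf W) {k x y : ℕ} (h : (W k).L.S x y ≠ 0) :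
    x < nm cf.n0 k ∧ y < nm cf.n0 k := by
  rw [hW.L] at h
  cases k with
  | zero =>
    have h1 : x < cf.N ∧ y < cf.N := by
      by_contra hn
      exact h (if_neg hn)
    rw [nm_zero]
    exact ⟨h1.1.trans_le hc.N_le, h1.2.trans_le hc.N_le⟩
  | succ k =>
    have h1 : vld (x / nm cf.n0 k) ∧ vld (y / nm cf.n0 k) := by
      by_contra hn
      apply h
      rw [← lv_nm cf.N cf.n0 cf.K cf.A0 (fun j => (W j).H false q0) fun j => (W j).H true q0] at hn
      exact if_neg hn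
    have h2 : ∀ {z}, vld (z / nm cf.n0 k) → z < nm cf.n0 (k + 1) := fun {z} hz => by
      rw [nm_succ, mul_comm, ← Nat.div_lt_iff_lt_mul (nm_pos _ _)]
      exact hz.1.trans_le card_le_pow
    exact ⟨h2 h1.1, h2 h1.2⟩

theorem sd_supp (hc : cf.Ok) (hW : IsTab cf W) {k x y : ℕ} {d : Bool}
    (h : sd (W k).L d x y ≠ 0) : x < nm cf.n0 k ∧ y < nm cf.n0 k := by
  cases d
  · exact (S_supp hc hW h).symm
  · exact S_supp hc hW h

theorem ve_eq (hW : IsTab cf W) {k x : ℕ} (d : Bool) (hx : x < nm cf.n0 k) :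
    ve (W k).L d x = vw d cf.N cf.n0 cf.K k x := by
  rw [hW.L]
  cases d
  · exact lv_vi hx
  · exact lv_vo hx

theorem dg_div (n0 j i x : ℕ) : dg 0 i (x / nm n0 j) = dg n0 (j + i) x := by
  rw [dg, dg, cd, cd, Nat.div_div_eq_div_mul, nm_add, nm, nm, zero_add]

theorem vw_add (d : Bool) (N n0 K j x : ℕ) : ∀ b,
    (vw d N n0 K (j + b) x).l =
      (vw d N n0 K j x).l + ∑ i ∈ range b, (((dg 0 i (x / nm n0 j)).ed d).1 : ℕ) ∧
    (vw d N n0 K (j + b) x).lam =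
      (vw d N n0 K j x).lam + ∑ i ∈ range b, (((dg 0 i (x / nm n0 j)).ed d).2.1 : ℕ)
  | 0 => by simp
  | b + 1 => by
    have := vw_add d N n0 K j x b
    rw [← add_assoc, vw_l_succ, vw_lam_succ, sum_range_succ, sum_range_succ, dg_div, this.1, this.2]
    exact ⟨add_assoc _ _ _, add_assoc _ _ _⟩

theorem lam_up (hW : IsTab cf W) {j b x : ℕ} {d : Bool} (q : Cx) {c : Bool → ℕ}
    (hx : x < nm cf.n0 (j + b)) (hc : c d = x / nm cf.n0 j) :
    (W j).lam d (q.up b c) (x % nm cf.n0 j) = (W (j + b)).lam d q x ∧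
    (ve (W j).L d (x % nm cf.n0 j)).lam + (q.up b c).E d = (ve (W (j + b)).L d x).lam + q.E d := by
  have := vw_add d cf.N cf.n0 cf.K j x b
  simp only [Tb.lam, Cx.up, ve_eq hW d hx, ve_eq hW d (mod_nm_lt _ _ _), vw_mod _ _ _ _ _ le_rfl, hc]
  omega

theorem vis_up (hW : IsTab cf W) {j b x y : ℕ} {d : Bool} (q : Cx) {c : Bool → ℕ}
    (hx : x < nm cf.n0 (j + b)) (hy : y < nm cf.n0 (j + b)) (hc : c d = x / nm cf.n0 j)
    (hc' : c (!d) = y / nm cf.n0 j) :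
    (W j).vis d (q.up b c) (x % nm cf.n0 j) (y % nm cf.n0 j) ↔ (W (j + b)).vis d q x y := by
  rw [Tb.vis, Tb.vis, (lam_up hW q hx hc).1, (lam_up hW q hx hc).2, (lam_up hW q hy hc').1,
    (lam_up hW q hy hc').2]

theorem lam_le (hW : IsTab cf W) {k x : ℕ} (d : Bool) (q : Cx) (hx : x < nm cf.n0 k) :
    (W k).lam d q x ≤ B * k + q.D d := by
  rw [Tb.lam, ve_eq hW d hx]
  exact Nat.add_le_add_right (vw_l_le _ _ _ _ _ _) _

theorem mu_le (n0 : ℕ) (d : Bool) (x : ℕ) : ∀ k, mu n0 k d x ≤ k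
  | 0 => le_rfl
  | k + 1 => by
    have := mu_le n0 d x k
    rw [mu]
    split_ifs <;> omega

theorem mu_mod (n0 : ℕ) (d : Bool) (x : ℕ) {j : ℕ} :
    ∀ {k}, k ≤ j → mu n0 k d (x % nm n0 j) = mu n0 k d x
  | 0, _ => rfl
  | k + 1, h => by rw [mu, mu, mu_mod n0 d x (by omega), dg_mod h]

/-- One stage without a merge. -/
theorem S_step {k x y : ℕ} (h : Pre cf W k) (hS : (W (k + 1)).L.S x y ≠ 0) :
    ((dg cf.n0 k x).ed true).2.2.1 = ((dg cf.n0 k y).ed false).2.2.1 ∧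
    (((dg cf.n0 k x).ed true).2.2.1 ≠ 2 →
      (W (k + 1)).L.S x y ≤ (W k).L.S (x % nm cf.n0 k) (y % nm cf.n0 k)) := by
  obtain ⟨hx, hy⟩ := S_supp h.ok h.tab hS
  have hI := inv h
  have e := lv_S_succ cf.N cf.n0 cf.K cf.A0 (fun j => (W j).H false q0) (fun j => (W j).H true q0)
    k x y
  rw [Nat.mod_eq_of_lt hx, Nat.mod_eq_of_lt hy, ← h.tab.L, ← h.tab.L] at e
  rw [e] at hS ⊢
  split_ifs at hS ⊢ with h1
  · refine ⟨congrArg Prod.fst h1.2.2.1, fun h2 => ?_⟩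
    refine (div_le_self (Lv.T_nonneg hI.S_nonneg _ _ _) (one_le_pow₀ one_le_two)).trans ?_
    unfold Lv.T
    split_ifs with h3 h4
    · exact Nb_le_S (hI.S_nonneg _ _)
    · exact (sub_le_self _ (Lv.Cm_nonneg hI.S_nonneg _ _)).trans (Lv.Fb_le_S hI.S_nonneg _ _)
    · exfalso
      revert h2 h3 h4
      generalize ((dg cf.n0 k x).ed true).2.2.1 = o
      decide +revert
  · exact absurd rfl hS

theorem S_mu : ∀ {k x y : ℕ}, Pre cf W k → (W k).L.S x y ≠ 0 →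
    mu cf.n0 k true x = mu cf.n0 k false y
  | 0, _, _, _, _ => rfl
  | k + 1, x, y, h, hS => by
    obtain ⟨h1, h2⟩ := S_step (down h (Nat.le_succ k)) hS
    rw [mu, mu, ← h1]
    split_ifs with h3
    · rfl
    · have h4 := (lt_of_le_of_ne ((inv h).S_nonneg x y) hS.symm).trans_le (h2 h3)
      rw [← mu_mod _ _ x le_rfl, ← mu_mod _ _ y le_rfl, S_mu (down h (Nat.le_succ k)) h4.ne']

theorem sd_mu {k x y : ℕ} {d : Bool} (h : Pre cf W k) (hS : sd (W k).L d x y ≠ 0) :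
    (W k).mu (!d) y = (W k).mu d x := by
  rw [h.tab.mu]
  cases d
  · exact S_mu h hS
  · exact (S_mu h hS).symm

theorem S_down {j x y : ℕ} : ∀ {b : ℕ}, Pre cf W (j + b) → b ≤ mu cf.n0 (j + b) true x →
    (W (j + b)).L.S (x % nm cf.n0 (j + b)) (y % nm cf.n0 (j + b)) ≤
      (W j).L.S (x % nm cf.n0 j) (y % nm cf.n0 j)
  | 0, _, _ => le_rfl
  | b + 1, h, hb => by
    have h' : Pre cf W (j + b) := down h (Nat.le_succ _)
    rw [← add_assoc, mu] at hb
    split_ifs at hb with h1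
    · omega
    refine le_trans ?_ (S_down h' (by omega))
    by_cases hS : (W (j + b + 1)).L.S (x % nm cf.n0 (j + b + 1)) (y % nm cf.n0 (j + b + 1)) = 0
    · exact hS.le.trans ((inv h').S_nonneg _ _)
    · have := (S_step h' hS).2 (by rwa [dg_mod (Nat.lt_succ_self _)])
      rwa [mod_nm_mod _ (Nat.le_succ _), mod_nm_mod _ (Nat.le_succ _)] at this

theorem sd_down {j b x y : ℕ} {d : Bool} (h : Pre cf W (j + b)) (hb : b ≤ (W (j + b)).mu d x)
    (hS : sd (W (j + b)).L d x y ≠ 0) :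
    sd (W (j + b)).L d x y ≤ sd (W j).L d (x % nm cf.n0 j) (y % nm cf.n0 j) := by
  obtain ⟨hx, hy⟩ := sd_supp h.ok h.tab hS
  have h1 := sd_mu h hS
  rw [h.tab.mu] at hb h1
  cases d
  · have := S_down (x := y) (y := x) h (hb.trans h1.ge)
    rwa [Nat.mod_eq_of_lt hx, Nat.mod_eq_of_lt hy] at this
  · have := S_down (x := x) (y := y) h hb
    rwa [Nat.mod_eq_of_lt hx, Nat.mod_eq_of_lt hy] at this

end Vale.Agent.P313.Full.TH
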