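import Vale.Agent.P313.Full.TabDef

/-! The ideal tables: the facts which are proved by induction on the level, and the statements of
the single steps (as propositions, so that the steps can be proved independently). -/

namespace Vale.Agent.P313.Full

open Finset Hi

/-- The offsets of the keys are values. -/
def Cf.KOk (cf : Cf) (K : Bool → Key) : Prop := ∀ e, (K e).2 < 2 ^ cf.m

/-- Without trouble there is at most one candidate. -/
def UqAt (cf : Cf) (A : Tb) (k : ℕ) (d : Bool) (x : ℕ) : Prop :=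
  ∀ {q f h c y y'}, FOk cf k q f → h < 2 ^ cf.m → c.2 < 2 ^ cf.m → A.T d q f x h c < 2 →
    A.cand cf d q f x h c y → A.cand cf d q f x h c y' → y = y'

/-- The mean trouble of the table `A` of the level `k` at the name `x`. -/
structure MnAt (cf : Cf) (A : Tb) (k : ℕ) (d : Bool) (x : ℕ) : Prop where
  /-- the mean trouble, given the value `hp` of the far key at a point `p` -/
  own : ∀ {q f h p hp}, FOk cf k q f → h < 2 ^ cf.m → p < nm cf.n0 cf.K → hp < 2 ^ cf.m →
    cf.JS (fun s => A.T d q f x h (cf.rot s p hp)) ≤ eps q (f !d)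
  /-- the same if the point is not a name of the level or does not pass the filter -/
  oth : ∀ {q f h p hp}, FOk cf k q f → h < 2 ^ cf.m → p < nm cf.n0 cf.K → hp < 2 ^ cf.m →
    ¬ (p < nm cf.n0 k ∧ hp % 2 ^ (A.lam d q x + f !d) < 2 ^ A.lam d q x) →
    cf.JS (fun s => A.T d q f x h (cf.rot s p hp)) ≤ eps q (f !d) ^ 2

/-- The facts about the trouble at a name. -/
structure GoodAt (cf : Cf) (A : Tb) (k : ℕ) (d : Bool) (x : ℕ) : Prop extends MnAt cf A k d x where
  uniq : UqAt cf A k d x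

/-- The facts about the trouble. -/
def GoodT (cf : Cf) (A : Tb) (k : ℕ) : Prop := ∀ d, ∀ x < nm cf.n0 k, GoodAt cf A k d x

/-- The upper bound for the statistics. -/
noncomputable def upB (W : ℕ → Tb) (k : ℕ) (d : Bool) (x : ℕ) : ℝ :=
  if d then upR (fun j => (W j).L) k x else upC (fun j => (W j).L) k x

/-- The facts about a level. -/
structure Good (cf : Cf) (W : ℕ → Tb) (k : ℕ) : Prop where
  T : GoodT cf (W k) k
  low : (W k).L.Low
  up : ∀ d q, Cx.Ok cf k q → ∀ x < nm cf.n0 k, (W k).H d q x ≤ upB W k d x / 2 ^ (cH * q.age)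

/-- The situation in the induction. -/
structure Pre (cf : Cf) (W : ℕ → Tb) (k : ℕ) : Prop where
  ok : cf.Ok
  tab : IsTab cf W
  le : k ≤ cf.K
  good : ∀ j < k, Good cf W j

/-- A call at a name `x` of the level `k`. -/
structure At (cf : Cf) (W : ℕ → Tb) (k : ℕ) (q : Cx) (f : Bool → ℕ) (x : ℕ) (K : Bool → Key) :
    Prop extends Pre cf W k where
  fok : FOk cf k q f
  lt : x < nm cf.n0 k
  kok : cf.KOk K

/-! ### What the programs need -/

/-- The partner is symmetric. -/
def StSym : Prop := ∀ {cf W k q f x K d}, At cf W k q f x K → GoodT cf (W k) k →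
  0 < (W k).s cf d q f x K → (W k).pt cf d q f x K < nm cf.n0 k ∧
    (W k).vis d q x ((W k).pt cf d q f x K) ∧
    (W k).pt cf (!d) q f ((W k).pt cf d q f x K) K = x ∧
    (W k).s cf (!d) q f ((W k).pt cf d q f x K) K = (W k).s cf d q f x K

open Classical in
/-- The visible part of an entry. -/
def StVis : Prop := ∀ {cf W k q f x y d}, Pre cf W k → GoodT cf (W k) k → FOk cf k q f →
  x < nm cf.n0 k → ∃ N : ℝ, 1 - eps q (f true) - eps q (f false) ≤ N ∧ N ≤ 1 ∧
    2 ^ ((W k).lam d q x + f true + f false) * (cf.JK fun c => cf.JK fun c' =>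
      if (W k).pt cf d q f x (two d c c') = y then (W k).s cf d q f x (two d c c') else 0) =
    (W k).se d q x y * N

/-- The equations at a name without a merge. -/
def StU : Prop := ∀ {cf W k q f x K d b}, At cf W k q f x K → (W k).mu d x ≠ 0 →
  b = hb q ((W k).mu d x) →
  (W k).s cf d q f x K = Gd ((W k).Tk cf d q f x K) * ∑ r ∈ labU b,
      psi ((W k).uU (W (k - b)) cf b d q f x K r) *
        Gd ((W k).Tr cf d q f ((W (k - b)).eU cf b d q f x K r) K) ∧
  (0 < (W k).s cf d q f x K →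
    (W k).mu (!d) ((W k).pt cf d q f x K) = (W k).mu d x ∧
    (W k).w d q x ((W k).pt cf d q f x K) = ∑ r ∈ labU b,
      psw ((W k).uU (W (k - b)) cf b d q f x K r) *
        (W k).w d q x ((W (k - b)).eU cf b d q f x K r) ∧
    (∀ r ∈ labU b, 1 / 4 < (W k).uU (W (k - b)) cf b d q f x K r →
      (W (k - b)).eU cf b d q f x K r = (W k).pt cf d q f x K) ∧
    ∃ r ∈ labU b, 3 / 4 ≤ (W k).uU (W (k - b)) cf b d q f x K r ∧
      3 / 4 ≤ (W k).uU (W (k - b)) cf b (!d) q f ((W k).pt cf d q f x K) K r)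

/-- The equations at a merged name. -/
def StM : Prop := ∀ {cf W j q f x K d}, At cf W (j + 1) q f x K → (W (j + 1)).mu d x = 0 →
  (W (j + 1)).s cf d q f x K = (W (j + 1)).gate (W j) cf d q f x K 8 *
      (Gd ((W (j + 1)).Tk cf d q f x K) *
        (Gd ((W (j + 1)).Tr cf d q f ((W j).st cf d q f x K) K) *
          psi (cl (2 * (W (j + 1)).w d q x ((W j).st cf d q f x K) / thr q.age - 1)))) ∧
  (∀ t, 4 ≤ t → (W (j + 1)).gate (W j) cf d q f x K t ≠ 0 → (W (j + 1)).DM (W j) cf d q f x K) ∧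
  (0 < (W (j + 1)).s cf d q f x K → (W j).st cf d q f x K = (W (j + 1)).pt cf d q f x K)

open Classical in
/-- The search at a merged name. -/
def StMv : Prop := ∀ {cf W j q f x K d v}, At cf W (j + 1) q f x K → (W (j + 1)).mu d x = 0 →
  (W (j + 1)).DM (W j) cf d q f x K → v = (W j).st cf d q f x K →
  v < nm cf.n0 (j + 1) ∧ (W (j + 1)).mu (!d) v = 0 ∧ (W (j + 1)).vis d q x v ∧
  (W (j + 1)).DM (W j) cf (!d) q f v K ∧ (W j).st cf (!d) q f v K = x ∧
  (∀ r ∈ labM q, ∀ c : Key, c.2 < 2 ^ cf.m → 1 / 4 < (W j).tst cf d q f x K r c →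
    (W j).eM cf d q f x K r c = v) ∧
  2 ^ (2 * cf.L) * 2 ^ cf.m ≤ 2 ^ (2 * B * (q.age + 1) + cZ + B + 6 + q.age) *
    #{c ∈ range (2 ^ (2 * cf.L)) ×ˢ range (2 ^ cf.m) | ∃ r ∈ labM q,
      3 / 4 ≤ (W j).tst cf d q f x K r c ∧ 3 / 4 ≤ (W j).tst cf (!d) q f v K r c}

/-- The weight at a merged name is computed exactly. -/
def StMw : Prop := ∀ {cf W j q f x K d}, At cf W (j + 1) q f x K → (W (j + 1)).mu d x = 0 →
  (W (j + 1)).gate (W j) cf d q f x K 8 ≠ 0 → Gd ((W (j + 1)).Tk cf d q f x K) ≠ 0 →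
  Gd ((W (j + 1)).Tr cf d q f ((W j).st cf d q f x K) K) ≠ 0 →
  (W (j + 1)).wM (W j) cf d q f x K = (W (j + 1)).w d q x ((W j).st cf d q f x K)

/-! ### The steps of the induction -/

/-- The level `0`. -/
def St0 : Prop := ∀ {cf W}, Pre cf W 0 → Good cf W 0

/-- Nesting: the entry below a significant entry is fully significant. -/
def StNest : Prop := ∀ {cf W k q x y d b}, Pre cf W k → Cx.Ok cf k q → (W k).mu d x ≠ 0 →
  b = hb q ((W k).mu d x) → (W k).sig d q x y ≠ 0 →
  (W (k - b)).sig d (q.up b (two d (x / nm cf.n0 (k - b)) (y / nm cf.n0 (k - b))))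
    (x % nm cf.n0 (k - b)) (y % nm cf.n0 (k - b)) = 1

open Classical in
/-- The number of significant entries at a name without a merge. -/
def StCnt : Prop := ∀ {cf W k q x d}, Pre cf W k → Cx.Ok cf k q → x < nm cf.n0 k →
  (W k).mu d x ≠ 0 → (#{y ∈ range (nm cf.n0 k) | (W k).sig d q x y ≠ 0} : ℝ) ≤
    2 ^ ((W k).lam d q x + 2 * B + 3 + (cH + 1) * q.age)

/-- Uniqueness at a name without a merge. -/
def StUq : Prop := ∀ {cf W k x d}, Pre cf W k → x < nm cf.n0 k → (W k).mu d x ≠ 0 →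
  UqAt cf (W k) k d x

/-- The mean trouble at a name without a merge. -/
def StUB : Prop := ∀ {cf W k x d}, Pre cf W k → x < nm cf.n0 k → (W k).mu d x ≠ 0 →
  MnAt cf (W k) k d x

/-- Uniqueness at a merged name. -/
def StMq : Prop := ∀ {cf W j x d}, Pre cf W (j + 1) → x < nm cf.n0 (j + 1) →
  (W (j + 1)).mu d x = 0 → UqAt cf (W (j + 1)) (j + 1) d x

/-- The mean trouble at a merged name. -/
def StMB : Prop := ∀ {cf W j x d}, Pre cf W (j + 1) → x < nm cf.n0 (j + 1) →
  (W (j + 1)).mu d x = 0 → MnAt cf (W (j + 1)) (j + 1) d x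

/-- The statistics. -/
def StH : Prop := ∀ {cf W j}, Pre cf W (j + 1) → GoodT cf (W (j + 1)) (j + 1) → Good cf W (j + 1)

/-- The induction. -/
theorem good_all (h0 : St0) (hUq : StUq) (hUB : StUB) (hMq : StMq) (hMB : StMB) (hH : StH)
    {cf : Cf} {W : ℕ → Tb} (hc : cf.Ok) (hW : IsTab cf W) : ∀ k ≤ cf.K, Good cf W k := by
  intro k
  induction k using Nat.strong_induction_on with
  | _ k ih =>
    intro hk
    have hP : Pre cf W k := ⟨hc, hW, hk, fun j hj => ih j hj (by omega)⟩
    cases k with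
    | zero => exact h0 hP
    | succ j =>
      refine hH hP fun d x hx => ?_
      by_cases h : (W (j + 1)).mu d x = 0
      · exact ⟨hMB hP hx h, hMq hP hx h⟩
      · exact ⟨hUB hP hx h, hUq hP hx h⟩

/-- The statistics of the tables are admissible for the hierarchy. -/
theorem Good.stat {cf : Cf} {W : ℕ → Tb} (hW : IsTab cf W) {k : ℕ} (hk : k ≤ cf.K)
    (h : Good cf W k) :
    Stat (lv cf.N cf.n0 cf.K cf.A0 (fun j => (W j).H false q0) fun j => (W j).H true q0) k := by
  have e : (fun j => (W j).L) =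
      lv cf.N cf.n0 cf.K cf.A0 (fun j => (W j).H false q0) fun j => (W j).H true q0 :=
    funext hW.L
  have hq : Cx.Ok cf k q0 := ⟨by simpa [q0] using hk, fun _ => Nat.zero_le _, fun _ => Nat.zero_le _⟩
  refine ⟨by rw [← hW.L]; exact h.low, fun z hz => ?_, fun z hz => ?_⟩
  · rw [lv_nm] at hz
    have := h.up false q0 hq z hz
    rw [lv_hc, ← e]
    simpa [upB, q0] using this
  · rw [lv_nm] at hz
    have := h.up true q0 hq z hz
    rw [lv_hr, ← e]
    simpa [upB, q0] using this

end Vale.Agent.P313.Full
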