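import Vale.Agent.P313.Full.TabBit
import Vale.Agent.P313.Full.TabStmt
import Vale.Agent.P313.Full.HiMg

/-! The normal form of the links at merged names. -/

namespace Vale.Agent.P313.Full.MM

open Finset Hi Tb

/-! ### Ramps and pairs -/

theorem pp_nonneg (t : ℝ) : 0 ≤ pp t := cl_nonneg _

theorem pp_le_one (t : ℝ) : pp t ≤ 1 := cl_le_one _

theorem gg_nonneg (t : ℝ) : 0 ≤ gg t := cl_nonneg _

theorem gg_le_one (t : ℝ) : gg t ≤ 1 := cl_le_one _

theorem Gd_nonneg (t : ℝ) : 0 ≤ Gd t := cl_nonneg _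

theorem Gd_le_one (t : ℝ) : Gd t ≤ 1 := cl_le_one _

theorem pos_of_cl {t : ℝ} (h : cl t ≠ 0) : 0 < t := not_le.1 fun e => h (cl_of_le e)

theorem cl_le_of_nonneg {t : ℝ} (h : 0 ≤ t) : cl t ≤ t := max_le h (min_le_right _ _)

theorem lt_of_lt_cl {s t : ℝ} (hs : 0 ≤ s) (h : s < cl t) : s < t := by
  rcases le_total t 0 with h0 | h0
  · rw [cl_of_le h0] at h; linarith
  · exact h.trans_le (cl_le_of_nonneg h0)

theorem half_lt_of_pp {t : ℝ} (h : pp t ≠ 0) : 1 / 2 < t := by linarith [pos_of_cl h]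

theorem lt_of_ppG {t : ℝ} (h : pp (Gd t) ≠ 0) : t < 3 / 2 := by
  linarith [lt_of_lt_cl (by norm_num) (half_lt_of_pp h)]

theorem gg_zero : gg 0 = 0 := cl_of_le (by norm_num)

theorem gg_pp (s t : ℝ) : gg (s * t) * pp s * pp t = pp s * pp t := by
  by_cases h1 : pp s = 0
  · simp [h1]
  by_cases h2 : pp t = 0
  · simp [h2]
  have a1 := half_lt_of_pp h1
  have a2 := half_lt_of_pp h2
  rw [gg, cl_of_ge (by nlinarith), one_mul]

theorem one_sub_le_ppG {t : ℝ} (h : 0 ≤ t) : 1 - t ≤ pp (Gd t) := by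
  rcases le_total t 1 with h1 | h1
  · rw [Gd, cl_of_ge (by linarith), pp, cl_of_ge (by norm_num)]; linarith
  · linarith [pp_nonneg (Gd t)]

theorem one_sub_le_Gd {t : ℝ} (h : 0 ≤ t) : 1 - t ≤ Gd t := by
  rcases le_total t 1 with h1 | h1
  · rw [Gd, cl_of_ge (by linarith)]; linarith
  · linarith [Gd_nonneg t]

section two

variable {β : Type} (d : Bool) (u v : β)

@[simp] theorem two_self : two d u v d = u := by simp [two]

@[simp] theorem two_not : two d u v (!d) = v := by cases d <;> simp [two]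

@[simp] theorem two_not' : two (!d) u v d = v := by cases d <;> simp [two]

theorem two_swap : two (!d) u v = two d v u := by
  funext e; cases d <;> cases e <;> simp [two]

theorem eq_two {g : Bool → β} (h1 : g d = u) (h2 : g (!d) = v) : g = two d u v := by
  subst h1 h2
  funext e; cases d <;> cases e <;> simp [two]

end two

/-! ### Keys -/

section keys

variable {cf : Cf}

theorem val_rot (s v h : ℕ) : cf.val (cf.rot s v h) v = h := by simp [Cf.val, Cf.rot]

theorem val_ent (k : Key) (p t v : ℕ) : cf.val (cf.ent k p t) v = cf.val k (v ^^^ p) ^^^ t := by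
  simp only [Cf.val, Cf.ent, lin_xor]
  ac_rfl

theorem ent_rot (s x h p t : ℕ) : cf.ent (cf.rot s x h) p t = cf.rot s (x ^^^ p) (h ^^^ t) := by
  simp only [Cf.rot, Cf.ent, lin_xor]
  ac_rfl

theorem val_lt {k : Key} (hk : k.2 < 2 ^ cf.m) (v : ℕ) : cf.val k v < 2 ^ cf.m :=
  Nat.xor_lt_two_pow (lin_lt _ _ _ _) hk

theorem rot_lt {h : ℕ} (hh : h < 2 ^ cf.m) (s v : ℕ) : (cf.rot s v h).2 < 2 ^ cf.m :=
  Nat.xor_lt_two_pow (lin_lt _ _ _ _) hh

theorem ent_lt {k : Key} (hk : k.2 < 2 ^ cf.m) {t : ℕ} (ht : t < 2 ^ cf.m) (p : ℕ) :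
    (cf.ent k p t).2 < 2 ^ cf.m :=
  Nat.xor_lt_two_pow (Nat.xor_lt_two_pow hk (lin_lt _ _ _ _)) ht

theorem JK_rot (p : ℕ) (g : Key → ℝ) :
    cf.JK g = mean (2 ^ cf.m) fun h => cf.JS fun s => g (cf.rot s p h) :=
  mean_key_rot cf.L cf.m p fun s o => g (s, o)

theorem mod_xor {n0 j : ℕ} (x : ℕ) : x % nm n0 j ^^^ nm n0 j * (x / nm n0 j) = x := by
  rw [nm, ← add_mul_xor (Nat.mod_lt _ (by positivity)), Nat.mod_add_div]

theorem xor_div {n0 j : ℕ} (x : ℕ) : x ^^^ nm n0 j * (x / nm n0 j) = x % nm n0 j := by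
  conv_lhs => lhs; rw [← mod_xor (n0 := n0) (j := j) x]
  simp

end keys

/-- What the merged names of the level `j + 1` need from the table of the level `j`. -/
structure Blw (V : Tb) (cf : Cf) (j : ℕ) : Prop where
  ok : cf.Ok
  n_eq : V.L.n = nm cf.n0 j
  inv : Inv cf.N (2 ^ cf.n0) cf.K j V.L
  low : V.L.Low
  lt : ∀ x y, V.L.S x y ≠ 0 → x < V.L.n ∧ y < V.L.n
  l_le : ∀ e x, (ve V.L e x).l ≤ B * j
  good : GoodT cf V j
  T0 : ∀ d q g x h k, 0 ≤ V.T d q g x h k
  se : ∀ x z, V.L.use x z → V.se true q0 x z = 1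

/-! ### Symmetry of the closed forms -/

section closed

variable (A : Tb) (cf : Cf) (d : Bool) (q : Cx) (f : Bool → ℕ)

theorem vis_symm {x y : ℕ} (h : A.vis d q x y) : A.vis (!d) q y x := by
  simpa only [vis, Bool.not_not] using And.intro h.1.symm h.2.symm

theorem vis_comm (x y : ℕ) : A.vis (!d) q y x ↔ A.vis d q x y :=
  ⟨fun h => by simpa using vis_symm A (!d) q h, vis_symm A d q⟩

theorem sd_comm (L : Lv) (x y : ℕ) : sd L (!d) y x = sd L d x y := by cases d <;> rfl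

theorem w_comm (x y : ℕ) : A.w (!d) q y x = A.w d q x y := by
  by_cases h : A.vis d q x y
  · rw [w, w, if_pos h, if_pos (vis_symm A d q h), sd_comm, h.1]
  · rw [w, w, if_neg h, if_neg fun h' => h ((vis_comm A d q x y).1 h')]

theorem sig_comm (x y : ℕ) : A.sig (!d) q y x = A.sig d q x y := by
  rw [sig, sig, w_comm, Bool.not_not, mul_right_comm]

theorem se_comm (x y : ℕ) : A.se (!d) q y x = A.se d q x y := by rw [se, se, sig_comm]

theorem w_ne_of_se {x y : ℕ} (h : 0 < A.se d q x y) : A.w d q x y ≠ 0 := by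
  intro e
  rw [se, sig, e, mul_zero, zero_div, cl_of_le (by norm_num), zero_mul, zero_mul, psi,
    cl_of_le (by norm_num)] at h
  exact h.false

theorem sd_ne_of_w {x y : ℕ} (h : A.w d q x y ≠ 0) : A.vis d q x y ∧ sd A.L d x y ≠ 0 := by
  rw [w] at h
  split_ifs at h with h1
  · exact ⟨h1, left_ne_zero_of_mul h⟩
  · exact absurd rfl h

theorem cand_of_s {x : ℕ} {K : Bool → Key} (h : A.s cf d q f x K ≠ 0) :
    A.cand cf d q f x (cf.val (K d) x) (K !d) (A.pt cf d q f x K) := by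
  by_contra hc
  exact h (if_neg hc)

theorem s_ne_of_gg {x : ℕ} {K : Bool → Key} (h : gg (A.s cf d q f x K) ≠ 0) :
    A.s cf d q f x K ≠ 0 := fun e => h (e ▸ gg_zero)

theorem cand_of_amp {x : ℕ} {K : Bool → Key} (h : A.amp cf d q f x K ≠ 0) :
    A.cand cf d q f x (cf.val (K d) x) (K !d) (A.pt cf d q f x K) :=
  cand_of_s A cf d q f (s_ne_of_gg A cf d q f (left_ne_zero_of_mul (left_ne_zero_of_mul h)))

theorem cand_pt {x y : ℕ} {K : Bool → Key} (h : A.cand cf d q f x (cf.val (K d) x) (K !d) y) :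
    A.cand cf d q f x (cf.val (K d) x) (K !d) (A.pt cf d q f x K) :=
  Classical.epsilon_spec ⟨y, h⟩

theorem amp_nonneg (x : ℕ) (K : Bool → Key) : 0 ≤ A.amp cf d q f x K :=
  mul_nonneg (mul_nonneg (gg_nonneg _) (pp_nonneg _)) (pp_nonneg _)

theorem amp_le_one (x : ℕ) (K : Bool → Key) : A.amp cf d q f x K ≤ 1 :=
  mul_le_one₀ (mul_le_one₀ (gg_le_one _) (pp_nonneg _) (pp_le_one _)) (pp_nonneg _) (pp_le_one _)

end closed

namespace Blw

variable {V : Tb} {cf : Cf} {j : ℕ} (hV : Blw V cf j)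

include hV

theorem n_pos : 0 < V.L.n := hV.inv.n_pos

theorem sd_lt {d : Bool} {x y : ℕ} (h : sd V.L d x y ≠ 0) : x < V.L.n ∧ y < V.L.n := by
  cases d
  · exact (hV.lt y x h).symm
  · exact hV.lt x y h

theorem cand_lt {d : Bool} {q : Cx} {g : Bool → ℕ} {x h y : ℕ} {k : Key}
    (hc : V.cand cf d q g x h k y) : x < V.L.n ∧ y < V.L.n :=
  hV.sd_lt (sd_ne_of_w V d q (w_ne_of_se V d q hc.1)).2

/-- With a small trouble the partner is the candidate. -/
theorem pt_eq {d : Bool} {g : Bool → ℕ} (hg : FOk cf j q0 g) {x y : ℕ} {K : Bool → Key}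
    (hK : cf.KOk K) (hT : V.Tk cf d q0 g x K < 2)
    (hc : V.cand cf d q0 g x (cf.val (K d) x) (K !d) y) : V.pt cf d q0 g x K = y :=
  (hV.good d x (hV.n_eq ▸ (hV.cand_lt hc).1)).uniq hg (val_lt (hK d) x) (hK _) hT
    (cand_pt V cf d q0 g hc) hc

theorem s_eq {d : Bool} {g : Bool → ℕ} (hg : FOk cf j q0 g) {x y : ℕ} {K : Bool → Key}
    (hK : cf.KOk K) (hT : V.Tk cf d q0 g x K < 2)
    (hc : V.cand cf d q0 g x (cf.val (K d) x) (K !d) y) :
    V.s cf d q0 g x K = V.se d q0 x y * Gd (V.Tk cf d q0 g x K) * Gd (V.Tr cf d q0 g y K) := by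
  rw [s, if_pos (cand_pt V cf d q0 g hc), hV.pt_eq hg hK hT hc]

open Classical in
/-- A half of a link in closed form. -/
theorem amp_pin {d : Bool} {g : Bool → ℕ} (hg : FOk cf j q0 g) {x y : ℕ} {K : Bool → Key}
    (hK : cf.KOk K) (hs : V.se d q0 x y = 1) :
    (if V.pt cf d q0 g x K = y then V.amp cf d q0 g x K else 0) =
      if mt (V.lam d q0 x) g d (cf.val (K d) x) (cf.val (K !d) y) then
        pp (Gd (V.Tk cf d q0 g x K)) * pp (Gd (V.Tr cf d q0 g y K)) else 0 := by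
  by_cases hm : mt (V.lam d q0 x) g d (cf.val (K d) x) (cf.val (K !d) y)
  · rw [if_pos hm]
    have hc : V.cand cf d q0 g x (cf.val (K d) x) (K !d) y := ⟨by rw [hs]; norm_num, hm⟩
    by_cases h0 : pp (Gd (V.Tk cf d q0 g x K)) = 0
    · simp [amp, h0]
    have hT : V.Tk cf d q0 g x K < 2 := by linarith [lt_of_ppG h0]
    rw [if_pos (hV.pt_eq hg hK hT hc), amp, hV.s_eq hg hK hT hc, hV.pt_eq hg hK hT hc, hs, one_mul,
      gg_pp]
  · rw [if_neg hm]
    split_ifs with h
    · by_contra h0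
      exact hm (h ▸ (cand_of_amp V cf d q0 g h0).2)
    · rfl

/-! ### The terms of a merged entry -/

omit hV in
open Classical in
theorem sum_Cm_Fb (L : Lv) (u w : ℕ × G) (m : ℕ) : ∑ g : G, L.Cm u (m, g) * L.Fb (m, g) w =
    if L.P1 u.1 m ∧ u.2.2.2 = decide (L.P2 u.1 m) ∧ L.P2 m w.1 then
      L.fo u * L.fi w * (L.om u.1 m * L.mid m * L.om m w.1) / 4 else 0 := by
  rw [sum_G]
  have h : ∀ i o : Fin (B + 1), L.Cm u (m, i, o, true) * L.Fb (m, i, o, true) w +
      L.Cm u (m, i, o, false) * L.Fb (m, i, o, false) w =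
      (if L.P1 u.1 m ∧ u.2.2.2 = decide (L.P2 u.1 m) ∧ L.P2 m w.1 then
        L.fo u * L.fi w * (L.om u.1 m * L.om m w.1) / 4 else 0) *
        (L.fi (m, i, o, true) * L.fo (m, i, o, true)) := by
    intro i o
    simp only [Lv.Cm, Lv.Fb_eq]
    by_cases h1 : L.P1 u.1 m <;> by_cases h2 : u.2.2.2 = decide (L.P2 u.1 m) <;>
      by_cases h3 : L.P2 m w.1 <;> simp [h1, h2, h3]
    ring
  simp only [h, ← mul_sum, L.sum_fi_fo]
  split_ifs <;> ring

theorem trm0_nonneg (x m z : ℕ) : 0 ≤ trm0 V.L x m z := by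
  rw [trm0]
  split_ifs
  · exact div_nonneg (sum_nonneg fun g _ => mul_nonneg (V.L.Cm_nonneg hV.inv.S_nonneg _ _)
      (V.L.Fb_nonneg hV.inv.S_nonneg _ _)) (by positivity)
  · exact le_rfl

theorem trm_nonneg (d : Bool) (x m y : ℕ) : 0 ≤ trm V.L d x m y := by
  cases d <;> exact hV.trm0_nonneg _ _ _

omit hV in
theorem trm_comm (L : Lv) (d : Bool) (x m y : ℕ) : trm L (!d) y m x = trm L d x m y := by
  cases d <;> rfl

omit hV in
theorem use_of_trm0 {L : Lv} {x m z : ℕ} (h : trm0 L x m z ≠ 0) :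
    L.use (x % L.n) m ∧ L.use m (z % L.n) ∧ vld (x / L.n) ∧ vld (z / L.n) ∧
      fit (L.vo (x % L.n)) (L.vi (z % L.n)) (dig (x / L.n)).2.2.2 (dig (z / L.n)).2.2.1 := by
  rw [trm0] at h
  split_ifs at h with h1
  · obtain ⟨g, -, hg⟩ := exists_ne_zero_of_sum_ne_zero (div_ne_zero_iff.1 h).1
    exact ⟨(Lv.free_of_Fb (Lv.of_Cm (left_ne_zero_of_mul hg)).2.2).use,
      (Lv.free_of_Fb (right_ne_zero_of_mul hg)).use, h1⟩
  · exact absurd rfl h

/-- Both ends of a usable entry have the same view. -/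
theorem view_of_use {x z : ℕ} (h : V.L.use x z) :
    V.L.S x z ≠ 0 ∧ (V.L.vo x).l = (V.L.vi z).l ∧ (V.L.vo x).lam = (V.L.vi z).lam := by
  have h1 := h.1
  rw [Lv.rdy] at h1
  split_ifs at h1 with h2
  · have h3 : V.L.S x z ≠ 0 := fun e => h1 (by rw [e, zero_mul, phi, cl_of_le (by norm_num)])
    exact ⟨h3, (hV.inv.sy x z h3).1 h2⟩
  · exact absurd rfl h1

/-- The facts about a nonzero term. -/
structure _root_.Vale.Agent.P313.Full.MM.Trm (V : Tb) (d : Bool) (x m v : ℕ) : Prop where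
  se1 : V.se d q0 (x % V.L.n) m = 1
  se2 : V.se d q0 m (v % V.L.n) = 1
  l1 : (ve V.L d (x % V.L.n)).l = (ve V.L (!d) m).l
  m1 : (ve V.L d (x % V.L.n)).lam = (ve V.L (!d) m).lam
  l2 : (ve V.L d m).l = (ve V.L (!d) (v % V.L.n)).l
  m2 : (ve V.L d m).lam = (ve V.L (!d) (v % V.L.n)).lam
  x_lt : x / V.L.n < 2 ^ a
  v_lt : v / V.L.n < 2 ^ a
  m_lt : m < V.L.n

theorem of_trm {d : Bool} {x m v : ℕ} (h : trm V.L d x m v ≠ 0) : Trm V d x m v := by
  cases d
  · obtain ⟨u1, u2, v1, v2, -⟩ := use_of_trm0 h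
    have a1 := hV.view_of_use u1
    have a2 := hV.view_of_use u2
    exact ⟨(se_comm V true q0 _ _).trans (hV.se _ _ u2), (se_comm V true q0 _ _).trans (hV.se _ _ u1),
      a2.2.1.symm, a2.2.2.symm, a1.2.1.symm, a1.2.2.symm, v2.1.trans_le card_le_pow,
      v1.1.trans_le card_le_pow, (hV.lt _ _ a1.1).2⟩
  · obtain ⟨u1, u2, v1, v2, -⟩ := use_of_trm0 h
    have a1 := hV.view_of_use u1
    have a2 := hV.view_of_use u2
    exact ⟨hV.se _ _ u1, hV.se _ _ u2, a1.2.1, a1.2.2, a2.2.1, a2.2.2, v1.1.trans_le card_le_pow,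
      v2.1.trans_le card_le_pow, (hV.lt _ _ a1.1).2⟩

end Blw

/-! ### The canonical label -/

theorem mod_split {y z l o : ℕ} (ho : o ≤ l) : y % 2 ^ l = z % 2 ^ l ↔
    y % 2 ^ (l - o) = z % 2 ^ (l - o) ∧ y / 2 ^ (l - o) % 2 ^ o = z / 2 ^ (l - o) % 2 ^ o := by
  rw [mod_eq_iff, mod_eq_iff, mod_eq_iff]
  simp only [Nat.testBit_div_two_pow]
  constructor
  · intro h
    exact ⟨fun i hi => h i (by omega), fun i hi => h _ (by omega)⟩
  · rintro ⟨h1, h2⟩ i hi
    by_cases h : i < l - o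
    · exact h1 i h
    · have := h2 (i - (l - o)) (by omega)
      rwa [show i - (l - o) + (l - o) = i by omega] at this

section link

variable (V : Tb) (cf : Cf) (d : Bool) (q : Cx) (f : Bool → ℕ) (x v : ℕ) (K : Bool → Key)

/-- The digits of the two ends. -/
def dgs : Bool → ℕ := two d (x / V.L.n) (v / V.L.n)

/-- The context one level down. -/
noncomputable def qd : Cx := q.up 1 (dgs V d x v)

/-- The number of matched bits. -/
noncomputable def Lm : ℕ := V.lam d (qd V d q x v) (x % V.L.n)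

/-- The length of the window. -/
noncomputable def ow : ℕ := max ((qd V d q x v).D true) ((qd V d q x v).D false)

/-- The label of the links from `x` to `v`. -/
noncomputable def lab : Lab :=
  (dgs V d x v, two d (cf.val (K d) x / 2 ^ (Lm V d q x v + f d) % 2 ^ cF)
    (cf.val (K !d) v / 2 ^ (Lm V d q x v + f !d) % 2 ^ cF),
    cf.val (K d) x / 2 ^ (Lm V d q x v - ow V d q x v) % 2 ^ ow V d q x v)

/-- The entry is visible. -/
def Vis : Prop := V.vis d (qd V d q x v) (x % V.L.n) (v % V.L.n)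

/-- The entry is matched. -/
def Mt : Prop := mt (Lm V d q x v) f d (cf.val (K d) x) (cf.val (K !d) v)

/-- The value `h` at the midpoint is matched. -/
def Hit (h : ℕ) : Prop :=
  h % 2 ^ (Lm V d q x v + cZ) = cf.val (K d) x % 2 ^ (Lm V d q x v - ow V d q x v)

theorem ow_eq : ow V d q x v = max ((qd V d q x v).D d) ((qd V d q x v).D !d) := by
  cases d
  · exact max_comm _ _
  · rfl

theorem locM_iff (r : Lab) (m : ℕ) : V.locM q r m ↔
    (ve V.L (!d) m).l + (q.up 1 r.1).D d = (ve V.L d m).l + (q.up 1 r.1).D (!d) ∧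
    (ve V.L (!d) m).lam + (q.up 1 r.1).E d = (ve V.L d m).lam + (q.up 1 r.1).E (!d) := by
  cases d
  · exact ⟨fun h => ⟨h.1.symm, h.2.symm⟩, fun h => ⟨h.1.symm, h.2.symm⟩⟩
  · rfl

variable {V cf d q f x v K}

theorem dgs_symm : dgs V (!d) v x = dgs V d x v := two_swap _ _ _

theorem qd_symm : qd V (!d) q v x = qd V d q x v := by rw [qd, dgs_symm, qd]

theorem ow_symm : ow V (!d) q v x = ow V d q x v := by rw [ow, qd_symm, ow]

theorem Vis.symm (h : Vis V d q x v) : Vis V (!d) q v x := by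
  rw [Vis, qd_symm]
  exact vis_symm V d _ h

theorem Vis.Lm_symm (h : Vis V d q x v) : Lm V (!d) q v x = Lm V d q x v := by
  rw [Lm, qd_symm]
  exact h.1.symm

theorem Vis.ow_le (h : Vis V d q x v) : ow V d q x v ≤ Lm V d q x v := by
  have h1 := h.1
  rw [ow_eq, Lm]
  simp only [lam] at h1 ⊢
  omega

theorem Mt.symm (h : Vis V d q x v) (hm : Mt V cf d q f x v K) : Mt V cf (!d) q f v x K := by
  rw [Mt, mt_iff] at hm ⊢
  rw [h.Lm_symm, Bool.not_not]
  exact ⟨hm.2.1, hm.1, hm.2.2.symm⟩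

theorem lab_symm (h : Vis V d q x v) (hm : Mt V cf d q f x v K) :
    lab V cf (!d) q f v x K = lab V cf d q f x v K := by
  rw [lab, lab, dgs_symm, h.Lm_symm, ow_symm, Bool.not_not, two_swap,
    ((mod_split h.ow_le).1 (mt_iff.1 hm).2.2).2]

theorem hit_symm (h : Vis V d q x v) (hm : Mt V cf d q f x v K) (c : ℕ) :
    Hit V cf (!d) q v x K c ↔ Hit V cf d q x v K c := by
  rw [Hit, Hit, h.Lm_symm, ow_symm, ((mod_split h.ow_le).1 (mt_iff.1 hm).2.2).1]

theorem lr_eq {r : Lab} (h : r.1 = dgs V d x v) : V.lr 1 d q x r = Lm V d q x v := by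
  rw [lr, h, Lm, qd]

theorem om_eq {r : Lab} (h : r.1 = dgs V d x v) : om 1 q r = ow V d q x v := by
  rw [om, h, ow, qd]

theorem shf_symm (h : Vis V d q x v) {r : Lab} (hr : r.1 = dgs V d x v) (e : Bool) :
    V.shf 1 (!d) q f v r e = V.shf 1 d q f x r e := by
  rw [shf, shf, lr_eq hr, lr_eq (hr.trans dgs_symm.symm), h.Lm_symm]

theorem ek_symm (h : Vis V d q x v) {r : Lab} (hr : r.1 = dgs V d x v) (k : Key) (e : Bool) :
    V.ek cf 1 (!d) q f v k r e = V.ek cf 1 d q f x k r e := by rw [ek, ek, shf_symm h hr]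

theorem kM_symm (h : Vis V d q x v) {r : Lab} (hr : r.1 = dgs V d x v) (c : Key) (e : Bool) :
    V.kM cf (!d) q f v K r c e = V.kM cf d q f x K r c e := by rw [kM, kM, ek_symm h hr]

theorem mem_labM {r : Lab} : r ∈ labM q ↔ (∀ e, r.1 e < 2 ^ a) ∧ (∀ e, r.2.1 e < 2 ^ cF) ∧
    r.2.2 < 2 ^ (B * (q.age + 1)) := by
  simp [labM, labs, prs, Fintype.mem_piFinset]

theorem up_D (c : Bool → ℕ) (e : Bool) : (q.up 1 c).D e ≤ q.D e + B := by
  have := ((dg 0 0 (c e)).ed e).1.2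
  simp only [Cx.up, sum_range_one]
  omega

theorem le_up_D (c : Bool → ℕ) (e : Bool) : q.D e ≤ (q.up 1 c).D e := Nat.le_add_right _ _

theorem lab_mem {j : ℕ} (hq : Cx.Ok cf (j + 1) q) (hx : x / V.L.n < 2 ^ a)
    (hv : v / V.L.n < 2 ^ a) : lab V cf d q f x v K ∈ labM q := by
  refine mem_labM.2 ⟨fun e => ?_, fun e => ?_, ?_⟩
  · simp only [lab, dgs, two]
    split_ifs <;> assumption
  · simp only [lab, two]
    split_ifs <;> exact Nat.mod_lt _ (by positivity)
  · refine (Nat.mod_lt _ (by positivity)).trans_le (Nat.pow_le_pow_right (by norm_num) ?_)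
    have h1 := up_D (q := q) (dgs V d x v)
    have h2 := hq.D
    rw [ow, qd, mul_add, mul_one]
    exact max_le ((h1 _).trans (Nat.add_le_add_right (h2 _) _))
      ((h1 _).trans (Nat.add_le_add_right (h2 _) _))

theorem fok_fM {j : ℕ} (hf : FOk cf (j + 1) q f) (r : Lab) (e : Bool) :
    FOk cf j q0 (fM q f r e) := by
  have h1 := hf.age
  have h2 := hf.slack e
  have h3 := hf.room e e
  have h4 := up_D (q := q) r.1 e
  rw [mul_add, mul_one] at h3
  refine ⟨⟨by simp only [q0]; omega, fun _ => Nat.zero_le _, fun _ => Nat.zero_le _⟩, fun e' => ?_,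
    fun e' _ => ?_⟩ <;> simp only [q0, fM, two] <;> split_ifs <;> omega

theorem val_ek {j : ℕ} (hn : V.L.n = nm cf.n0 j) {r : Lab} {e : Bool} {y : ℕ}
    (h : r.1 e = y / V.L.n) (k : Key) :
    cf.val (V.ek cf 1 d q f x k r e) (y % V.L.n) = cf.val k y ^^^ V.shf 1 d q f x r e := by
  rw [ek, val_ent, h, hn, mod_xor]

theorem ek_rot {j : ℕ} (hn : V.L.n = nm cf.n0 j) {r : Lab} {e : Bool} {y : ℕ}
    (h : r.1 e = y / V.L.n) (s c : ℕ) : V.ek cf 1 d q f x (cf.rot s y c) r e =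
      cf.rot s (y % V.L.n) (c ^^^ V.shf 1 d q f x r e) := by
  rw [ek, ent_rot, h, hn, xor_div]

/-- The conditions of a link. -/
theorem link_iff {j : ℕ} (hn : V.L.n = nm cf.n0 j) {m : ℕ} (ht : Trm V d x m v) {r : Lab}
    (hr : r ∈ labM q) (h2 : r.1 (!d) = v / V.L.n) (c : Key) :
    (V.okM d q f x (cf.val (K d) x) r ∧ V.locM q r m ∧
      mt (V.lam d q0 (x % V.L.n)) (fM q f r d) d
        (cf.val (V.kM cf d q f x K r c d d) (x % V.L.n))
        (cf.val (V.kM cf d q f x K r c d !d) m) ∧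
      mt (V.lam d q0 m) (fM q f r !d) d (cf.val (V.kM cf d q f x K r c (!d) d) m)
        (cf.val (V.kM cf d q f x K r c (!d) !d) (v % V.L.n))) ↔
    r = lab V cf d q f x v K ∧ Vis V d q x v ∧ Mt V cf d q f x v K ∧
      Hit V cf d q x v K (cf.val c m) := by
  have ht' := (mem_labM.1 hr).2.1
  by_cases h1 : r.1 = dgs V d x v
  swap
  · exact ⟨fun h => absurd (eq_two d _ _ h.1.1.symm h2) h1, fun h => absurd (h.1 ▸ rfl) h1⟩
  have h1' : r.1 d = x / V.L.n := by rw [h1, dgs, two_self]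
  have hl : V.locM q r m ↔ Vis V d q x v := by
    rw [locM_iff V d, Vis, vis, lam, lam, h1, ← ht.l1, ← ht.m1, ht.l2, ht.m2, qd]
  by_cases hv : Vis V d q x v
  swap
  · exact ⟨fun h => absurd (hl.1 h.2.1) hv, fun h => absurd h.2.1 hv⟩
  have ho := hv.ow_le
  have e1 : V.lam d q0 (x % V.L.n) + (q.up 1 r.1).D d = Lm V d q x v := by
    rw [h1]; rfl
  have e2 : V.lam d q0 m + (q.up 1 r.1).D (!d) = Lm V d q x v := by
    rw [h1, ← hv.Lm_symm, Lm, qd_symm, lam, lam, ht.l2]; rfl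
  have e3 := ow_eq V d q x v
  rw [qd, ← h1] at e3
  simp only [okM, kM, fM, mt, two_self, two_not, two_not', val_ek hn h1', val_ek hn h2, hl, hv,
    true_and, shf, lr_eq h1, om_eq h1, ← add_assoc, e1, e2, h1']
  set L := Lm V d q x v with hL
  set o := ow V d q x v with hoo
  set hx := cf.val (K d) x with hhx
  set hy := cf.val (K !d) v with hhy
  constructor
  · rintro ⟨⟨s1, n1⟩, ⟨-, a1⟩, -, a2⟩
    have u1 := (mod_mod_of_lt n1 le_rfl (by omega)).symm.trans (shift_mod (ht' d) s1 ho)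
    obtain ⟨b1, b2, b3⟩ := (shift_lt_iff (ht' d) s1 ho).1 n1
    have n2 := (a2.trans a1).trans_lt n1
    have u2 := (mod_mod_of_lt n2 le_rfl (by omega)).symm.trans (shift_mod (ht' !d) s1 ho)
    obtain ⟨c1, c2, c3⟩ := (shift_lt_iff (ht' !d) s1 ho).1 n2
    refine ⟨Prod.ext h1 (Prod.ext (eq_two d _ _ b1 c1) b2),
      mt_iff.2 ⟨b3, c3, (mod_split ho).2 ⟨?_, b2.symm.trans c2⟩⟩, a1.trans u1⟩
    rw [← u1, ← u2, a2, a1]
  · rintro ⟨hr', hm, hh⟩
    obtain ⟨b3, c3, e⟩ := mt_iff.1 hm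
    obtain ⟨e4, e5⟩ := (mod_split ho).1 e
    have b1 : r.2.1 d = hx / 2 ^ (L + f d) % 2 ^ cF := by rw [hr', lab]; simp only [two_self]; rfl
    have c1 : r.2.1 (!d) = hy / 2 ^ (L + f !d) % 2 ^ cF := by
      rw [hr', lab]; simp only [two_not]; rfl
    have b2 : r.2.2 = hx / 2 ^ (L - o) % 2 ^ o := by rw [hr']; rfl
    have s1 : r.2.2 < 2 ^ o := b2 ▸ Nat.mod_lt _ (by positivity)
    have n1 := (shift_lt_iff (ht' d) s1 ho).2 ⟨b1, b2, b3⟩
    have n2 := (shift_lt_iff (ht' !d) s1 ho).2 ⟨c1, b2.trans e5, c3⟩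
    have u1 := (mod_mod_of_lt n1 le_rfl (by omega)).symm.trans (shift_mod (ht' d) s1 ho)
    have u2 := (mod_mod_of_lt n2 le_rfl (by omega)).symm.trans (shift_mod (ht' !d) s1 ho)
    have hh' : cf.val c m % 2 ^ (L + cZ) = hx % 2 ^ (L - o) := hh
    have p1 : 2 ^ (L - o) ≤ 2 ^ V.lam d q0 (x % V.L.n) :=
      Nat.pow_le_pow_right (by norm_num) (by omega)
    have p2 : 2 ^ (L - o) ≤ 2 ^ V.lam d q0 m := Nat.pow_le_pow_right (by norm_num) (by omega)
    exact ⟨⟨s1, n1⟩, ⟨n1.trans_le p1, hh'.trans u1.symm⟩,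
      (hh' ▸ Nat.mod_lt _ (by positivity) : _ < 2 ^ (L - o)).trans_le p2,
      u2.trans (e4.symm.trans hh'.symm)⟩

end link

/-! ### The normal form -/

section normal

variable (V : Tb) (cf : Cf) (d : Bool) (q : Cx) (f : Bool → ℕ) (x v : ℕ) (K : Bool → Key)

/-- The trouble of the first half at the midpoint `m` with the value `h`; `k` is the near key. -/
noncomputable def Ta (r : Lab) (m h : ℕ) (k : Key) : ℝ :=
  V.T (!d) q0 (fM q f r d) m h (V.ek cf 1 d q f x k r d)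

/-- The trouble of the second half at the midpoint `m` with the value `h`; `k` is the far key. -/
noncomputable def Tb' (r : Lab) (m h : ℕ) (k : Key) : ℝ :=
  V.T d q0 (fM q f r !d) m h (V.ek cf 1 d q f x k r !d)

/-- The trouble of the first half at the near end. -/
noncomputable def Tc (r : Lab) (c : Key) : ℝ :=
  V.T d q0 (fM q f r d) (x % V.L.n) (cf.val (K d) x ^^^ V.shf 1 d q f x r d) c

/-- The trouble of the second half at the far end. -/
noncomputable def Td (r : Lab) (c : Key) : ℝ :=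
  V.T (!d) q0 (fM q f r !d) (v % V.L.n) (cf.val (K !d) v ^^^ V.shf 1 d q f x r !d) c

/-- The four guards of a link through `m`. -/
noncomputable def P4 (r : Lab) (m : ℕ) (c : Key) : ℝ :=
  pp (Gd (Ta V cf d q f x r m (cf.val c m) (K d))) *
    pp (Gd (Tb' V cf d q f x r m (cf.val c m) (K !d))) *
    (pp (Gd (Tc V cf d q f x K r c)) * pp (Gd (Td V cf d q f x v K r c)))

theorem P4_nonneg (r : Lab) (m : ℕ) (c : Key) : 0 ≤ P4 V cf d q f x v K r m c :=
  mul_nonneg (mul_nonneg (pp_nonneg _) (pp_nonneg _)) (mul_nonneg (pp_nonneg _) (pp_nonneg _))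

theorem P4_le_one (r : Lab) (m : ℕ) (c : Key) : P4 V cf d q f x v K r m c ≤ 1 :=
  mul_le_one₀ (mul_le_one₀ (pp_le_one _) (pp_nonneg _) (pp_le_one _))
    (mul_nonneg (pp_nonneg _) (pp_nonneg _)) (mul_le_one₀ (pp_le_one _) (pp_nonneg _) (pp_le_one _))

variable {V cf d q f x v K}

theorem P4_symm (h : Vis V d q x v) {r : Lab} (hr : r.1 = dgs V d x v) (m : ℕ) (c : Key) :
    P4 V cf (!d) q f v x K r m c = P4 V cf d q f x v K r m c := by
  simp only [P4, Ta, Tb', Tc, Td, Bool.not_not, ek_symm h hr, shf_symm h hr]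
  ring

namespace Blw

variable {j : ℕ} (hV : Blw V cf j) (hf : FOk cf (j + 1) q f)

include hV hf

theorem lr_le (d : Bool) (x : ℕ) (r : Lab) (e : Bool) : V.lr 1 d q x r + f e + cF ≤ cf.m := by
  have h1 := hV.l_le d (x % V.L.n)
  have h2 := up_D (q := q) r.1 d
  have h3 := hf.room e d
  rw [mul_add, mul_one, add_mul] at h3
  rw [lr, lam]
  omega

theorem shf_lt (d : Bool) (x : ℕ) {r : Lab} (hr : r ∈ labM q) (e : Bool) :
    V.shf 1 d q f x r e < 2 ^ cf.m := by
  obtain ⟨-, h1, h2⟩ := mem_labM.1 hr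
  refine Nat.xor_lt_two_pow ?_ ?_
  · calc _ < 2 ^ cF * 2 ^ (V.lr 1 d q x r + f e) :=
          Nat.mul_lt_mul_of_pos_right (h1 e) (by positivity)
      _ ≤ 2 ^ cf.m := by
        rw [← pow_add]
        exact Nat.pow_le_pow_right (by norm_num) (by have := hV.lr_le hf d x r e; omega)
  · calc _ < 2 ^ (B * (q.age + 1)) * 2 ^ (V.lr 1 d q x r - om 1 q r) :=
          Nat.mul_lt_mul_of_pos_right h2 (by positivity)
      _ ≤ 2 ^ cf.m := by
        rw [← pow_add]
        refine Nat.pow_le_pow_right (by norm_num) ?_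
        have a1 := hV.l_le d (x % V.L.n)
        have a2 : (q.up 1 r.1).D d ≤ om 1 q r := by
          cases d
          · exact le_max_right _ _
          · exact le_max_left _ _
        have a3 := Nat.mul_le_mul_left B hf.age
        have a4 := hV.ok.room
        rw [add_mul, add_mul] at a4
        rw [mul_add, mul_add] at a3
        rw [lr, lam, mul_add]
        omega

theorem ek_lt (d : Bool) (x : ℕ) {r : Lab} (hr : r ∈ labM q) (e : Bool) {k : Key}
    (hk : k.2 < 2 ^ cf.m) : (V.ek cf 1 d q f x k r e).2 < 2 ^ cf.m :=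
  ent_lt hk (hV.shf_lt hf d x hr e) _

theorem kM_ok (hK : cf.KOk K) {r : Lab} (hr : r ∈ labM q) {c : Key} (hc : c.2 < 2 ^ cf.m)
    (e : Bool) : cf.KOk (V.kM cf d q f x K r c e) := fun e' => by
  simp only [kM, two]
  split_ifs
  · exact hV.ek_lt hf d x hr e (hK e)
  · exact hc

omit hf in
theorem add_eq_iff {z c : ℕ} (hz : z < V.L.n) :
    z + V.L.n * c = v ↔ z = v % V.L.n ∧ c = v / V.L.n := by
  constructor
  · rintro rfl
    rw [Nat.add_mul_mod_self_left, Nat.mod_eq_of_lt hz, Nat.add_mul_div_left _ _ hV.n_pos,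
      Nat.div_eq_of_lt hz, zero_add]
    exact ⟨rfl, rfl⟩
  · rintro ⟨rfl, rfl⟩
    exact Nat.mod_add_div _ _

open Classical in
/-- The mass of a link with given midpoint and end. -/
theorem Z_pin (hK : cf.KOk K) {r : Lab} (hr : r ∈ labM q) {c : Key} (hc : c.2 < 2 ^ cf.m) (m : ℕ) :
    (if V.mM cf d q f x K r c = m ∧ V.eM cf d q f x K r c = v then V.Z cf d q f x K r c else 0) =
      if r = lab V cf d q f x v K ∧ Vis V d q x v ∧ Mt V cf d q f x v K ∧
          Hit V cf d q x v K (cf.val c m) then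
        2 ^ (2 * Lm V d q x v + cZ) * trm V.L d x m v * P4 V cf d q f x v K r m c else 0 := by
  by_cases h0 : trm V.L d x m v = 0
  · rw [h0, mul_zero, zero_mul, ite_self]
    split_ifs with h
    · rw [Z, h.1, h.2, h0, mul_zero, mul_zero]
    · rfl
  have ht := hV.of_trm h0
  have p1 := hV.amp_pin (fok_fM hf r d) (hV.kM_ok hf (d := d) (x := x) hK hr hc d) ht.se1
  have p2 := hV.amp_pin (fok_fM hf r !d) (hV.kM_ok hf (d := d) (x := x) hK hr hc !d) ht.se2
  have key : (if V.mM cf d q f x K r c = m ∧ V.eM cf d q f x K r c = v then V.Z cf d q f x K r c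
      else 0) = if (V.okM d q f x (cf.val (K d) x) r ∧ V.locM q r m) ∧ r.1 (!d) = v / V.L.n then
        (if V.pt cf d q0 (fM q f r d) (x % V.L.n) (V.kM cf d q f x K r c d) = m then
          V.amp cf d q0 (fM q f r d) (x % V.L.n) (V.kM cf d q f x K r c d) else 0) *
        (if V.pt cf d q0 (fM q f r !d) m (V.kM cf d q f x K r c !d) = v % V.L.n then
          V.amp cf d q0 (fM q f r !d) m (V.kM cf d q f x K r c !d) else 0) *
        (2 ^ (2 * V.lr 1 d q x r + cZ) * trm V.L d x m v) else 0 := by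
    by_cases hm : V.mM cf d q f x K r c = m
    swap
    · rw [if_neg fun h => hm h.1, if_neg (show ¬ V.pt cf d q0 _ _ _ = m from hm)]
      simp
    rw [if_pos (show V.pt cf d q0 _ _ _ = m from hm)]
    by_cases ha : V.amp cf d q0 (fM q f r !d) m (V.kM cf d q f x K r c !d) = 0
    · simp [Z, hm, ha]
    have hz := (hV.cand_lt (cand_of_amp V cf d q0 _ ha)).2
    have he : V.eM cf d q f x K r c = v ↔
        V.pt cf d q0 (fM q f r !d) m (V.kM cf d q f x K r c !d) = v % V.L.n ∧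
          r.1 (!d) = v / V.L.n := by
      rw [eM, zM, hm]
      exact hV.add_eq_iff hz
    by_cases hv : V.eM cf d q f x K r c = v
    · rw [if_pos ⟨hm, hv⟩, Z, a1, hm, hv, if_pos (he.1 hv).1]
      simp only [(he.1 hv).2, and_true]
      split_ifs <;> simp
    · rw [if_neg fun h => hv h.2]
      split_ifs with h1 h2
      · exact absurd (he.2 ⟨h2, h1.2⟩) hv
      · simp
      · rfl
  rw [key, p1, p2]
  by_cases h2 : r.1 (!d) = v / V.L.n
  swap
  · rw [if_neg fun h => h2 h.2, if_neg fun h => h2 (by rw [h.1, lab]; exact two_not _ _ _)]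
  have hi := link_iff (f := f) (K := K) hV.n_eq ht hr h2 c
  by_cases h3 : r = lab V cf d q f x v K ∧ Vis V d q x v ∧ Mt V cf d q f x v K ∧
      Hit V cf d q x v K (cf.val c m)
  · obtain ⟨b1, b2, b3, b4⟩ := hi.2 h3
    have h1 : r.1 = dgs V d x v := by rw [h3.1]; rfl
    rw [if_pos h3, if_pos ⟨⟨b1, b2⟩, h2⟩, if_pos b3, if_pos b4, lr_eq h1]
    simp only [P4, Ta, Tb', Tc, Td, Tk, Tr, kM, two_self, two_not, two_not',
      val_ek hV.n_eq b1.1.symm, val_ek hV.n_eq h2]
    ring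
  · rw [if_neg h3]
    split_ifs with b1 b3 b4
    · exact absurd (hi.1 ⟨b1.1.1, b1.1.2, b3, b4⟩) h3
    all_goals simp

omit hf in
theorem mM_lt {r : Lab} {c : Key} (h : V.a1 cf d q f x K r c ≠ 0) :
    V.mM cf d q f x K r c < V.L.n := by
  rw [a1] at h
  split_ifs at h
  · exact (hV.cand_lt (cand_of_amp V cf d q0 _ h)).2
  · exact absurd rfl h

open Classical in
/-- The links which end in `v`. -/
theorem Z_sum (hK : cf.KOk K) {c : Key} (hc : c.2 < 2 ^ cf.m) (Ψ : Lab → ℕ → ℝ) :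
    ∑ r ∈ labM q, (if V.eM cf d q f x K r c = v then
        V.Z cf d q f x K r c * Ψ r (V.mM cf d q f x K r c) else 0) =
      ∑ m ∈ range V.L.n, if Vis V d q x v ∧ Mt V cf d q f x v K ∧
          Hit V cf d q x v K (cf.val c m) then
        2 ^ (2 * Lm V d q x v + cZ) * trm V.L d x m v *
          P4 V cf d q f x v K (lab V cf d q f x v K) m c * Ψ (lab V cf d q f x v K) m else 0 := by
  have h1 : ∀ r ∈ labM q, (if V.eM cf d q f x K r c = v then
      V.Z cf d q f x K r c * Ψ r (V.mM cf d q f x K r c) else 0) = ∑ m ∈ range V.L.n,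
      (if V.mM cf d q f x K r c = m ∧ V.eM cf d q f x K r c = v then V.Z cf d q f x K r c else 0) *
        Ψ r m := by
    intro r _
    by_cases hz : V.Z cf d q f x K r c = 0
    · simp [hz]
    have hm := hV.mM_lt (left_ne_zero_of_mul (left_ne_zero_of_mul hz))
    rw [sum_eq_single (V.mM cf d q f x K r c) (fun m _ h => by rw [if_neg fun e => h e.1.symm,
      zero_mul]) fun h => absurd (mem_range.2 hm) h]
    simp only [true_and]
    split_ifs <;> simp
  rw [sum_congr rfl h1, sum_comm]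
  refine sum_congr rfl fun m _ => ?_
  rw [sum_congr rfl fun r hr => by rw [hV.Z_pin hf hK hr hc m]]
  by_cases h0 : trm V.L d x m v = 0
  · simp [h0]
  have ht := hV.of_trm h0
  rw [sum_eq_single (lab V cf d q f x v K) (fun r _ h => by rw [if_neg fun e => h e.1, zero_mul])
    fun h => absurd (lab_mem hf.toOk ht.x_lt ht.v_lt) h]
  simp only [true_and]
  split_ifs <;> simp

open Classical in
/-- The visible mass in normal form. -/
theorem X_eq (hK : cf.KOk K) : V.X cf d q f x K v =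
    if Vis V d q x v ∧ Mt V cf d q f x v K then ∑ m ∈ range V.L.n,
      2 ^ (2 * Lm V d q x v + cZ) * trm V.L d x m v * mean (2 ^ cf.m) fun h =>
        if Hit V cf d q x v K h then
          cf.JS fun s => P4 V cf d q f x v K (lab V cf d q f x v K) m (cf.rot s m h) else 0
    else 0 := by
  have h1 : V.X cf d q f x K v = cf.JK fun c => ∑ m ∈ range V.L.n,
      if Vis V d q x v ∧ Mt V cf d q f x v K ∧ Hit V cf d q x v K (cf.val c m) then
        2 ^ (2 * Lm V d q x v + cZ) * trm V.L d x m v *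
          P4 V cf d q f x v K (lab V cf d q f x v K) m c else 0 := by
    refine mean_congr fun s _ => mean_congr fun o ho => ?_
    simpa using hV.Z_sum hf (v := v) hK (c := (s, o)) ho fun _ _ => 1
  rw [h1]
  split_ifs with h
  · simp only [Cf.JK, Cf.JS, mean_sum]
    refine sum_congr rfl fun m _ => ?_
    rw [← mean_mul_left]
    refine (JK_rot m fun c => if Vis V d q x v ∧ Mt V cf d q f x v K ∧
      Hit V cf d q x v K (cf.val c m) then 2 ^ (2 * Lm V d q x v + cZ) * trm V.L d x m v *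
          P4 V cf d q f x v K (lab V cf d q f x v K) m c else 0).trans
      (mean_congr fun t _ => ?_)
    simp only [val_rot, h.1, h.2, true_and, Cf.JS]
    split_ifs
    · rw [mean_mul_left]
    · rw [mean_zero, mul_zero]
  · have : ∀ c : Key, ∀ m, ¬ (Vis V d q x v ∧ Mt V cf d q f x v K ∧
        Hit V cf d q x v K (cf.val c m)) := fun c m e => h ⟨e.1, e.2.1⟩
    simp only [this, if_false, sum_const_zero, Cf.JK, Cf.JS, mean_zero]

/-- The visible mass is the same from both ends. -/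
theorem X_symm (hK : cf.KOk K) : V.X cf (!d) q f v K x = V.X cf d q f x K v := by
  classical
  rw [hV.X_eq hf hK, hV.X_eq hf hK]
  by_cases h : Vis V d q x v ∧ Mt V cf d q f x v K
  · rw [if_pos h, if_pos ⟨h.1.symm, h.2.symm h.1⟩]
    simp only [h.1.Lm_symm, trm_comm, hit_symm h.1 h.2, lab_symm h.1 h.2,
      P4_symm h.1 (r := lab V cf d q f x v K) rfl]
  · rw [if_neg h, if_neg fun e => h ⟨by simpa using e.1.symm, by simpa using e.2.symm e.1⟩]

end Blw

end normal

end Vale.Agent.P313.Full.MM
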