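import Vale.Agent.P313.Full.TabM1
import Vale.Agent.P313.Full.TabLev

/-! Merged names: from the tables of the induction to the normal form. -/

namespace Vale.Agent.P313.Full.MM

open Finset Hi Tb

theorem lv_l_le {N n0 K : ℕ} {A0 : ℕ → ℕ → ℕ} {hc hr : ℕ → ℕ → ℝ} (e : Bool) :
    ∀ k x, (ve (lv N n0 K A0 hc hr k) e x).l ≤ B * k
  | 0, _ => by cases e <;> exact le_rfl
  | k + 1, x => by
    have h := lv_l_le (N := N) (n0 := n0) (K := K) (A0 := A0) (hc := hc) (hr := hr) e k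
      (x % (lv N n0 K A0 hc hr k).n)
    rw [mul_add, mul_one]
    cases e <;> exact Nat.add_le_add h (Nat.lt_succ_iff.1 (Fin.is_lt _))

variable {cf : Cf} {W : ℕ → Tb} {j : ℕ} (hP : Pre cf W (j + 1))

include hP

theorem blw : Blw (W j) cf j where
  ok := hP.ok
  n_eq := hP.tab.n_eq j
  inv := (hP.down (Nat.le_succ j)).inv
  low := (hP.good j (Nat.lt_succ_self j)).low
  lt x y h := by
    rw [hP.tab.n_eq]
    exact hP.tab.supp hP.ok.N_le (d := true) h
  l_le e x := by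
    rw [hP.tab.L]
    exact lv_l_le e j x
  good := (hP.good j (Nat.lt_succ_self j)).T
  T0 := hP.tab.T_nonneg j
  se x z h := by
    refine Tb.se_of_sig ((hP.down (Nat.le_succ j)).sig_of_use (fun e => h.1 ?_) h)
    rw [Lv.rdy, e, zero_mul, phi, cl_of_le (by norm_num), ite_self]

theorem n_mul : (W j).L.n * 2 ^ a = nm cf.n0 (j + 1) := by rw [hP.tab.n_eq, nm_succ]

theorem lt_of_div {v : ℕ} (h : v / (W j).L.n < 2 ^ a) : v < nm cf.n0 (j + 1) := by
  rwa [Nat.div_lt_iff_lt_mul (blw hP).n_pos, mul_comm, n_mul hP] at h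

variable {d : Bool} {q : Cx} {f : Bool → ℕ} {x v : ℕ} {K : Bool → Key}

theorem lt_of_Wt (h : Wt (W j) cf d q f x v K ≠ 0) : v < nm cf.n0 (j + 1) := by
  rw [Wt] at h
  split_ifs at h
  · obtain ⟨m, -, hm⟩ := exists_ne_zero_of_sum_ne_zero (right_ne_zero_of_mul h)
    exact lt_of_div hP ((blw hP).of_trm hm).v_lt
  · exact absurd rfl h

variable (hx : x < nm cf.n0 (j + 1))

include hx

theorem Lm_eq : Lm (W j) d q x v = (W (j + 1)).lam d q x := by
  rw [Lm, hP.tab.n_eq]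
  exact hP.tab.lam_up (b := 1) (Nat.le_add_left _ _) hx q
    (by rw [dgs, two_self, hP.tab.n_eq]; rfl)

theorem Vis_iff (hv : v < nm cf.n0 (j + 1)) : Vis (W j) d q x v ↔ (W (j + 1)).vis d q x v := by
  rw [Vis, hP.tab.n_eq]
  exact hP.tab.vis_up (b := 1) (Nat.le_add_left _ _) hx hv q
    (by rw [dgs, two_self, hP.tab.n_eq]; rfl) (by rw [dgs, two_not, hP.tab.n_eq]; rfl)

theorem Mt_iff : Mt (W j) cf d q f x v K ↔
    mt ((W (j + 1)).lam d q x) f d (cf.val (K d) x) (cf.val (K !d) v) := by rw [Mt, Lm_eq hP hx]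

variable (hm : (W (j + 1)).mu d x = 0)

include hm

open Classical in
theorem Wt_eq : Wt (W j) cf d q f x v K =
    if mt ((W (j + 1)).lam d q x) f d (cf.val (K d) x) (cf.val (K !d) v) then
      (W (j + 1)).w d q x v else 0 := by
  by_cases hv : v < nm cf.n0 (j + 1)
  · rw [Wt, w, Vis_iff hP hx hv, Mt_iff hP hx, Lm_eq hP hx, hP.tab.sd_eq_sum_trm hx hm,
      hP.tab.n_eq, mul_comm]
    split_ifs <;> tauto
  · have h1 : (W (j + 1)).w d q x v = 0 := by_contra fun h =>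
      hv (hP.tab.supp hP.ok.N_le (Tb.of_w h).2.1).2
    rw [h1, ite_self]
    exact by_contra fun h => hv (lt_of_Wt hP h)

theorem Wt_of_mt (h : mt ((W (j + 1)).lam d q x) f d (cf.val (K d) x) (cf.val (K !d) v)) :
    Wt (W j) cf d q f x v K = (W (j + 1)).w d q x v := by rw [Wt_eq hP hx hm, if_pos h]

theorem of_Wt (h : Wt (W j) cf d q f x v K ≠ 0) :
    mt ((W (j + 1)).lam d q x) f d (cf.val (K d) x) (cf.val (K !d) v) ∧
      (W (j + 1)).vis d q x v ∧ (W (j + 1)).mu (!d) v = 0 := by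
  rw [Wt_eq hP hx hm] at h
  split_ifs at h with h1
  · exact ⟨h1, (Tb.of_w h).1, (hP.tab.mu_far hP.ok.N_le (Tb.of_w h).2.1).trans hm⟩
  · exact absurd rfl h

omit hx in
theorem Tk_eq : (W (j + 1)).Tk cf d q f x K = cl3 (12 * II (W j) cf d q f x K / tau q.age +
    QQ (W j) cf d q f x K / tau q.age ^ 2) := by rw [Tk, hP.tab.TM _ _ _ _ _ _ _ hm, TM_eq]

omit hx hm in
theorem QQ_nonneg (hf : FOk cf (j + 1) q f) (hK : cf.KOk K) : 0 ≤ QQ (W j) cf d q f x K :=
  coll_nonneg fun _ _ => (blw hP).Xb_nonneg hf hK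

omit hx in
theorem of_Tk (hf : FOk cf (j + 1) q f) (hK : cf.KOk K) {c : ℝ} (hc : c ≤ 3)
    (h : (W (j + 1)).Tk cf d q f x K < c) :
    12 * II (W j) cf d q f x K < c * tau q.age ∧ QQ (W j) cf d q f x K < c * tau q.age ^ 2 := by
  rw [Tk_eq hP hm] at h
  have h1 := lt_of_cl3 hc h
  have h2 := tau_pos q.age
  have h3 := div_nonneg (mul_nonneg (by norm_num : (0 : ℝ) ≤ 12)
    ((blw hP).II_nonneg (d := d) (q := q) (f := f) (x := x) (K := K))) h2.le
  have h4 := div_nonneg (QQ_nonneg hP (d := d) (x := x) hf hK) (pow_pos h2 2).le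
  rw [← div_lt_iff₀ h2, ← div_lt_iff₀ (pow_pos h2 2)]
  constructor <;> linarith

end Vale.Agent.P313.Full.MM
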