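import Vale.Agent.P313.Full.Num
import Vale.Agent.P313.RedDeg
import Vale.Agent.P313.Easy

/-! From an approximation of an entry of the Green matrix to the equality of the classes. -/

namespace Vale.Agent.P313.Full

open Finset Vale.Agent.Lib.Space Vale.Agent.P313.F43

variable {A α : Type} [Enc A α] {B : Bud A}

/-- The budget of logarithmic space. -/
def lenBud (A : Type) : Bud A := ⟨List.length⟩

theorem ZSP.sum_range {n : α → ℕ} {f : α → ℕ → ℤ} (hn : SP B n)
    (hf : ZSP B fun p : α × ℕ => f p.1 p.2) : ZSP B fun a => ∑ i ∈ range (n a), f a i := by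
  refine ⟨fun a => ∑ i ∈ range (n a), (f a i).toNat, fun a => ∑ i ∈ range (n a), (-f a i).toNat,
    SP.sum_range hn hf.toNat, SP.sum_range hn hf.neg.toNat, fun x a _ => ?_⟩
  push_cast
  rw [← sum_sub_distrib]
  exact sum_congr rfl fun i _ => by omega

/-- A sum of rational numbers up to the error `1 / 2 * n / D`. -/
theorem rsp_sum_apx {n D : α → ℕ} {f : α → ℕ → ℝ} (hn : SP B n) (hD : SP B D)
    (hD0 : ∀ a, 0 < D a) (hf : RSP B fun p : α × ℕ => f p.1 p.2) :
    ∃ r : α → ℝ, RSP B r ∧ ∀ a, |r a - ∑ i ∈ range (n a), f a i| ≤ n a / (2 * D a) := by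
  have h1 : ZSP B fun p : α × ℕ => round ((D p.1 : ℝ) * f p.1 p.2) :=
    ((RSP.natCast (hD.comp SP.fst')).mul hf).round
  refine ⟨fun a => ((∑ i ∈ range (n a), round ((D a : ℝ) * f a i) : ℤ) : ℝ) / D a,
    (RSP.intCast (ZSP.sum_range (f := fun a i => round ((D a : ℝ) * f a i)) hn h1)).div
      (RSP.natCast hD), fun a => ?_⟩
  have h0 : (0 : ℝ) < D a := by exact_mod_cast hD0 a
  push_cast
  rw [sum_div, ← sum_sub_distrib]
  refine (abs_sum_le_sum_abs _ _).trans
    ((sum_le_card_nsmul _ _ (1 / (2 * (D a : ℝ))) fun i _ => ?_).trans (le_of_eq ?_))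
  · have h2 := abs_sub_round ((D a : ℝ) * f a i)
    have h3 : (round ((D a : ℝ) * f a i) : ℝ) / D a - f a i =
        -((D a : ℝ) * f a i - round ((D a : ℝ) * f a i)) / D a := by
      field_simp
      ring
    rw [h3, abs_div, abs_neg, abs_of_pos h0, div_le_div_iff₀ h0 (by positivity)]
    nlinarith
  · rw [card_range, nsmul_eq_mul]
    ring

/-- From approximations of the terms of a sum, with a relative error, to an approximation of the
number `g`. -/
theorem apx_of_sum {g d : α → ℝ} {K : α → ℕ} {an r : α → ℕ → ℝ} (hK : SP B K) (hd : RSP B d)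
    (hr : RSP B fun p : α × ℕ => r p.1 p.2)
    (h : ∀ (x : List A) (a : α), Enc.ok x a → g a ≤ 1 ∧ 0 ≤ d a ∧
      |g a - (d a + ∑ k ∈ range (K a), an a k)| ≤ 1 / 100 ∧ ∀ k < K a, 0 ≤ an a k ∧
        31 / 32 * an a k - 1 / (100 * (K a + 1)) ≤ r a k ∧
        r a k ≤ an a k + 1 / (100 * (K a + 1))) :
    ∃ r' : α → ℝ, RSP B r' ∧ ∀ (x : List A) (a : α), Enc.ok x a → |r' a - g a| ≤ 1 / 13 := by
  obtain ⟨s, hs, hs'⟩ := rsp_sum_apx (D := fun a => 100 * (K a + 1)) hK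
    ((SP.const 100).mul (hK.add (SP.const 1))) (fun a => by positivity) hr
  refine ⟨fun a => d a + s a, hd.add hs, fun x a ha => ?_⟩
  obtain ⟨h1, h2, h3, h4⟩ := h x a ha
  have h5 := hs' a
  have hK0 : (0 : ℝ) ≤ K a := Nat.cast_nonneg _
  have h6 : (K a : ℝ) / (2 * (100 * (K a + 1) : ℕ)) ≤ 1 / 200 := by
    push_cast
    rw [div_le_div_iff₀ (by positivity) (by norm_num)]
    linarith
  have h7 : (K a : ℝ) * (1 / (100 * (K a + 1))) ≤ 1 / 100 := by
    rw [mul_one_div, div_le_div_iff₀ (by positivity) (by norm_num)]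
    linarith
  have h8 : ∑ k ∈ range (K a), r a k ≤ ∑ k ∈ range (K a), an a k + 1 / 100 := by
    refine (sum_le_sum fun k hk => (h4 k (mem_range.1 hk)).2.2).trans ?_
    rw [sum_add_distrib, sum_const, card_range, nsmul_eq_mul]
    linarith
  have h9 : 31 / 32 * ∑ k ∈ range (K a), an a k - 1 / 100 ≤ ∑ k ∈ range (K a), r a k := by
    refine le_trans ?_ (sum_le_sum fun k hk => (h4 k (mem_range.1 hk)).2.1)
    rw [sum_sub_distrib, sum_const, card_range, nsmul_eq_mul, ← mul_sum]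
    linarith
  have h10 : 0 ≤ ∑ k ∈ range (K a), an a k := sum_nonneg fun k hk => (h4 k (mem_range.1 hk)).1
  rw [abs_le] at h3 h5 ⊢
  constructor <;> linarith [h3.1, h3.2, h5.1, h5.2]

/-- The entry of the Green matrix of every graph which is given in logarithmic space can be
approximated in logarithmic space. -/
def GrApx (A : Type) : Prop :=
  ∀ (N : Inp A → ℕ) (A0 : Inp A → ℕ → ℕ → ℕ), (∀ x, 2 ≤ N x) → (∀ x, Sub (mat (N x) (A0 x) 2)) →
    (∀ x v, #{u ∈ range (N x) | A0 x u v ≠ 0} ≤ 2) → SP (lenBud A) N →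
    (SP (lenBud A) fun p : Inp A × ℕ × ℕ => A0 p.1 p.2.1 p.2.2) →
    ∃ r : Inp A → ℝ, RSP (lenBud A) r ∧
      ∀ x h0 h1, |r x - gr (mat (N x) (A0 x) 2) ⟨0, h0⟩ ⟨N x - 1, h1⟩| ≤ 1 / 13

theorem log_len_le (n : ℕ) (hn : 2 ≤ n) : ((Nat.log 2 (n + 2) : ℕ) : ℝ) ≤ 4 * Real.log n := by
  have h1 : (2 : ℝ) ^ Nat.log 2 (n + 2) ≤ (n : ℝ) ^ 2 := by
    have h2 := Nat.pow_log_le_self 2 (x := n + 2) (by omega)
    have h3 : n + 2 ≤ n ^ 2 := by nlinarith
    exact_mod_cast h2.trans h3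
  have h4 := Real.log_le_log (by positivity) h1
  rw [Real.log_pow, Real.log_pow] at h4
  have h5 := Real.log_two_gt_d9
  have h6 : (0 : ℝ) ≤ Nat.log 2 (n + 2) := Nat.cast_nonneg _
  push_cast at h4
  nlinarith

theorem randLog_subset_of [Finite A] (h : GrApx A) {a b : ℝ} (ha : a ≤ 1 / 3) (hb : 1 / 2 ≤ b) :
    RandLog A a b ⊆ LOG A := by
  classical
  rintro L ⟨M, hS, k, hk⟩
  obtain ⟨N, A0, c, hN, hA, hdeg, hg, hB⟩ := Red.reduce2 M hS k
  obtain ⟨h1, h2⟩ := hB (lenBud A) fun _ => le_rfl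
  obtain ⟨r, hr, hr'⟩ := h N A0 (fun x => (hN x).1) hA hdeg h1 h2
  refine SP.mem_SPACE ((RSP.const (r := 5 / 12) (5 / 12) (by norm_num)).decide_le hr) (fun x => ?_)
    ⟨4, 2, fun x hx => log_len_le _ hx⟩
  have h3 := (hN x).1
  have h4 := hr' x (by omega) (by omega)
  rw [hg, abs_le] at h4
  rw [decide_eq_true_iff]
  by_cases hx : x ∈ L
  · have := (hk x).2.2 hx
    exact ⟨fun _ => hx, fun _ => by linarith [h4.1]⟩
  · have := (hk x).2.1 hx
    exact ⟨fun h => by linarith [h4.2], fun h => absurd h hx⟩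

theorem collapse_of [Finite A] (h : GrApx A) : LOG A = RL A ∧ RL A = BPL A :=
  Easy.collapse fun _ _ ha hb => randLog_subset_of h ha hb

end Vale.Agent.P313.Full
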