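import Vale.Agent.P313.Full.TopForm
import Vale.Agent.P313.Full.TopGlue

/-! From approximations of the statistics and of the ready parts of the entries to an approximation
of the entry of the Green matrix. -/

namespace Vale.Agent.P313.Full

open Finset Vale.Agent.Lib.Space Vale.Agent.P313.F43 Vale.Agent.P313.Hi

variable {A α : Type} [Enc A α] {Bu : Bud A}

/-- The product of the numbers `c i / D` with rounding after every step. -/
def prodN (D : ℕ) (c : ℕ → ℕ) (n : ℕ) : ℕ :=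
  Nat.rec (motive := fun _ => ℕ) D (fun i s => s * c i / D) n

theorem prodN_le {D : ℕ} {c : ℕ → ℕ} (hc : ∀ i, c i ≤ D) : ∀ n, prodN D c n ≤ D
  | 0 => le_rfl
  | n + 1 => Nat.div_le_of_le_mul (Nat.mul_le_mul (prodN_le hc n) (hc n))

theorem abs_prodN_sub {D : ℕ} {c : ℕ → ℕ} (hD : 0 < D) (hc : ∀ i, c i ≤ D) {g : ℕ → ℝ} {ε : ℝ} :
    ∀ n, (∀ i < n, 0 ≤ g i ∧ g i ≤ 1 ∧ |(c i : ℝ) / D - g i| ≤ ε) →
      |(prodN D c n : ℝ) / D - ∏ i ∈ range n, g i| ≤ n * (ε + 1 / D)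
  | 0, _ => by
    have h0 : (D : ℝ) ≠ 0 := by exact_mod_cast hD.ne'
    simp [prodN, h0]
  | n + 1, h => by
    have h0 : (0 : ℝ) < D := by exact_mod_cast hD
    have ih := abs_prodN_sub hD hc n fun i hi => h i (by omega)
    obtain ⟨g0, g1, g2⟩ := h n (by omega)
    have h1 : (prodN D c n : ℝ) / D ≤ 1 :=
      div_le_one_of_le₀ (by exact_mod_cast prodN_le hc n) h0.le
    have h2 := abs_mul_sub_mul (by positivity) h1 g0 g1 ih g2
    have h3 : prodN D c (n + 1) = prodN D c n * c n / D := rfl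
    have h4 : ((prodN D c n * c n / D : ℕ) : ℝ) ≤ (prodN D c n : ℝ) * c n / D := by
      exact_mod_cast Nat.cast_div_le
    have h5 : (prodN D c n : ℝ) * c n / D < ((prodN D c n * c n / D : ℕ) : ℝ) + 1 := by
      rw [div_lt_iff₀ h0]
      exact_mod_cast Nat.lt_div_mul_add hD |>.trans_eq (by ring)
    have h6 : |(prodN D c (n + 1) : ℝ) / D - (prodN D c n : ℝ) / D * (c n / D)| ≤ 1 / D := by
      have e : (prodN D c (n + 1) : ℝ) / D - (prodN D c n : ℝ) / D * (c n / D) =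
          (((prodN D c n * c n / D : ℕ) : ℝ) - (prodN D c n : ℝ) * c n / D) / D := by
        rw [h3]
        field_simp
      rw [e, abs_div, abs_of_pos h0]
      refine div_le_div_of_nonneg_right (abs_le.2 ⟨by linarith, by linarith⟩) h0.le
    rw [prod_range_succ]
    refine (abs_sub_le _ ((prodN D c n : ℝ) / D * (c n / D)) _).trans ?_
    push_cast
    linarith

theorem rsp_prod_apx {n D : α → ℕ} {f : α → ℕ → ℝ} (hn : SP Bu n) (hD : SP Bu D)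
    (hD0 : ∀ a, 0 < D a) (hf : RSP Bu fun p : α × ℕ => f p.1 p.2)
    (h01 : ∀ a i, 0 ≤ f a i ∧ f a i ≤ 1) :
    ∃ r : α → ℝ, RSP Bu r ∧ ∀ a, 0 ≤ r a ∧ r a ≤ 1 ∧ ∀ (g : ℕ → ℝ) (ε : ℝ),
      (∀ i < n a, 0 ≤ g i ∧ g i ≤ 1 ∧ |f a i - g i| ≤ ε) →
        |r a - ∏ i ∈ range (n a), g i| ≤ n a * (ε + 2 / D a) := by
  set c : α → ℕ → ℕ := fun a i => ⌊(D a : ℝ) * f a i⌋.toNat with hc
  have h1 : SP Bu fun p : α × ℕ => c p.1 p.2 :=
    ((RSP.natCast (hD.comp SP.fst')).mul hf).floor.toNat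
  have h0 : ∀ a, (0 : ℝ) < D a := fun a => by exact_mod_cast hD0 a
  have h2 : ∀ a i, (c a i : ℝ) = ⌊(D a : ℝ) * f a i⌋ := fun a i => by
    have := Int.toNat_of_nonneg (Int.floor_nonneg.2 (mul_nonneg (h0 a).le (h01 a i).1))
    exact_mod_cast this
  have h3 : ∀ a i, c a i ≤ D a := fun a i => by
    have : (c a i : ℝ) ≤ D a := by
      rw [h2]
      exact (Int.floor_le _).trans (mul_le_of_le_one_right (h0 a).le (h01 a i).2)
    exact_mod_cast this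
  have h4 : SP Bu fun a => prodN (D a) (c a) (n a) :=
    SP.natRec (step := fun a i s => s * c a i / D a) hn hD
      ((SP.snd'.snd.mul (h1.comp (SP.fst'.pair SP.snd'.fst))).div (hD.comp SP.fst')) hD.pbd
      fun _ a _ k _ => prodN_le (h3 a) k
  refine ⟨fun a => (prodN (D a) (c a) (n a) : ℝ) / D a, (RSP.natCast h4).div (RSP.natCast hD),
    fun a => ⟨by positivity, div_le_one_of_le₀ (by exact_mod_cast prodN_le (h3 a) _) (h0 a).le,
      fun g ε h => ?_⟩⟩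
  refine (abs_prodN_sub (ε := ε + 1 / D a) (hD0 a) (h3 a) _ fun i hi =>
    ⟨(h i hi).1, (h i hi).2.1, ?_⟩).trans (le_of_eq (by ring))
  have h5 : |(c a i : ℝ) / D a - f a i| ≤ 1 / D a := by
    have e : (c a i : ℝ) / D a - f a i = (c a i - D a * f a i) / D a := by
      have := h0 a
      field_simp
    rw [e, abs_div, abs_of_pos (h0 a), h2]
    refine div_le_div_of_nonneg_right (abs_le.2 ⟨?_, ?_⟩) (h0 a).le
    · linarith [Int.lt_floor_add_one ((D a : ℝ) * f a i)]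
    · linarith [Int.floor_le ((D a : ℝ) * f a i)]
  linarith [abs_sub_le ((c a i : ℝ) / D a) (f a i) (g i), (h i hi).2.2]

theorem rsp_fac (d : Bool) {n0 i x : α → ℕ} {s t : α → ℝ} (h0 : SP Bu n0) (hi : SP Bu i)
    (hx : SP Bu x) (hs : RSP Bu s) (ht : RSP Bu t) :
    RSP Bu fun a => fac d (n0 a) (i a) (x a) (s a) (t a) := by
  classical
  have g1 := sp_dg (fun g => (g.1.1 : ℕ)) h0 hi hx
  have g2 := sp_dg (fun g => (g.1.2.1 : ℕ)) h0 hi hx
  have p1 := rsp_two_pow (sp_dg (fun g => 2 ^ (g.1.1 : ℕ)) h0 hi hx)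
  have p2 := rsp_two_pow (sp_dg (fun g => 2 ^ (g.1.2.1 : ℕ)) h0 hi hx)
  have c := SP.decide_and (sp_vld (sp_cd h0 hi hx))
    (sp_dig_prop (fun g => g.ed d = 0 ∧ (d = true → g.1.2.2 = false)) (sp_cd h0 hi hx))
  cases d
  · exact (RSP.ite c (((rsp_chi g1 hs).mul (rsp_zeta g2 ht)).div p1) RSP.zero).congr fun a => by
      simp only [fac, dg, Bool.false_eq_true, if_false]
  · exact (RSP.ite c (((rsp_zeta g1 hs).mul (rsp_chi g2 ht)).div p2) RSP.zero).congr fun a => by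
      simp only [fac, dg, if_true]

theorem mul_le_mul_add {x y x' y' ε ε' : ℝ} (hx : 0 ≤ x') (hx1 : x' ≤ 1) (hy : 0 ≤ y) (hy1 : y ≤ 1)
    (hε : 0 ≤ ε) (hε' : 0 ≤ ε') (h : x ≤ x' + ε) (h' : y ≤ y' + ε') :
    x * y ≤ x' * y' + (ε + ε') := by
  nlinarith [mul_le_mul_of_nonneg_right h hy, mul_le_mul_of_nonneg_left h' hx,
    mul_le_of_le_one_right hε hy1, mul_le_of_le_one_left hε' hx1]

theorem prod5_le {x y : Fin 5 → ℝ} {δ : ℝ} (hδ : 0 ≤ δ) (hx : ∀ i, 0 ≤ x i ∧ x i ≤ 1)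
    (hy : ∀ i, 0 ≤ y i ∧ y i ≤ 1) (h : ∀ i, x i ≤ y i + δ) :
    x 0 * x 1 * x 2 * x 3 * x 4 ≤ y 0 * y 1 * y 2 * y 3 * y 4 + 5 * δ := by
  have a1 := mul_nonneg (hy 0).1 (hy 1).1
  have a2 := mul_nonneg a1 (hy 2).1
  have a3 := mul_nonneg a2 (hy 3).1
  have b1 := mul_le_one₀ (hy 0).2 (hy 1).1 (hy 1).2
  have b2 := mul_le_one₀ b1 (hy 2).1 (hy 2).2
  have b3 := mul_le_one₀ b2 (hy 3).1 (hy 3).2
  have c1 := mul_le_mul_add (hy 0).1 (hy 0).2 (hx 1).1 (hx 1).2 hδ hδ (h 0) (h 1)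
  have c2 := mul_le_mul_add a1 b1 (hx 2).1 (hx 2).2 (by positivity) hδ c1 (h 2)
  have c3 := mul_le_mul_add a2 b2 (hx 3).1 (hx 3).2 (by positivity) hδ c2 (h 3)
  have c4 := mul_le_mul_add a3 b3 (hx 4).1 (hx 4).2 (by positivity) hδ c3 (h 4)
  linarith

/-- Approximations of the statistics and of the ready parts of the entries. -/
structure Oracle (Bu : Bud A) (n0 K : α → ℕ) (L : α → ℕ → Lv) (E : α → ℕ) : Prop where
  hc : ∃ r : α × ℕ × ℕ → ℝ, RSP Bu r ∧ ∀ (x : List A) (a : α), Enc.ok x a → ∀ k < K a,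
    ∀ v < nm (n0 a) k, |r (a, k, v) - (L a k).hc v| ≤ 1 / 2 ^ E a
  hr : ∃ r : α × ℕ × ℕ → ℝ, RSP Bu r ∧ ∀ (x : List A) (a : α), Enc.ok x a → ∀ k < K a,
    ∀ v < nm (n0 a) k, |r (a, k, v) - (L a k).hr v| ≤ 1 / 2 ^ E a
  om : ∃ r : α × ℕ × ℕ × ℕ → ℝ, RSP Bu r ∧ ∀ (x : List A) (a : α), Enc.ok x a → ∀ k < K a,
    ∀ u < nm (n0 a) k, ∀ v < nm (n0 a) k, r (a, k, u, v) ≤ (L a k).om u v + 1 / 2 ^ E a ∧
      ((L a k).use u v → 63 / 64 * (L a k).om u v - 1 / 2 ^ E a ≤ r (a, k, u, v))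

/-- One summand of the answer. -/
theorem term_apx {L : Lv} {N M K k x m z : ℕ} (h : Inv N M K k L) (he : L.e x ≤ 1) (hf : L.f z ≤ 1)
    {δ : ℝ} {y : Fin 5 → ℝ} (hδ : 0 ≤ δ) (hy : ∀ i, 0 ≤ y i ∧ y i ≤ 1)
    (h0 : |y 0 - L.e x * (1 - chi B (L.hr x))| ≤ δ) (h2 : |y 2 - L.mid m| ≤ δ)
    (h4 : |y 4 - L.f z * (1 - chi B (L.hc z))| ≤ δ)
    (h1 : y 1 ≤ L.om x m + δ ∧ (L.use x m → 63 / 64 * L.om x m - δ ≤ y 1))
    (h3 : y 3 ≤ L.om m z + δ ∧ (L.use m z → 63 / 64 * L.om m z - δ ≤ y 3)) :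
    31 / 32 * (L.e x * (1 - chi B (L.hr x)) * L.om x m * L.mid m * L.om m z *
        (L.f z * (1 - chi B (L.hc z)))) - 5 * δ ≤ y 0 * y 1 * y 2 * y 3 * y 4 ∧
      y 0 * y 1 * y 2 * y 3 * y 4 ≤ L.e x * (1 - chi B (L.hr x)) * L.om x m * L.mid m * L.om m z *
        (L.f z * (1 - chi B (L.hc z))) + 5 * δ := by
  have a0 := mul_nonneg (h.e_nonneg x) (one_sub_chi_nonneg (L.hr x))
  have b0 := mul_le_one₀ he (one_sub_chi_nonneg (L.hr x)) (one_sub_chi_le_one _)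
  have a4 := mul_nonneg (h.f_nonneg z) (one_sub_chi_nonneg (L.hc z))
  have b4 := mul_le_one₀ hf (one_sub_chi_nonneg (L.hc z)) (one_sub_chi_le_one _)
  have a1 := L.om_nonneg h.S_nonneg x m
  have a3 := L.om_nonneg h.S_nonneg m z
  have b1 := Lv.om_le_one h x m
  have b3 := Lv.om_le_one h m z
  have a2 := L.mid_nonneg m
  have b2 := L.mid_le_one m
  rw [abs_le] at h0 h2 h4
  constructor
  · by_cases hz : L.e x * (1 - chi B (L.hr x)) * L.om x m * L.mid m * L.om m z *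
        (L.f z * (1 - chi B (L.hc z))) = 0
    · have := mul_nonneg (mul_nonneg (mul_nonneg (mul_nonneg (hy 0).1 (hy 1).1) (hy 2).1) (hy 3).1)
        (hy 4).1
      rw [hz]
      linarith
    · simp only [mul_eq_zero, not_or] at hz
      obtain ⟨⟨⟨⟨⟨-, z1⟩, z2⟩, z3⟩, z4⟩, -, z5⟩ := hz
      have u1 : L.use x m := ⟨right_ne_zero_of_mul z2, lt_of_one_sub_chi z1, (L.of_mid z3).1⟩
      have u2 : L.use m z := ⟨right_ne_zero_of_mul z4, (L.of_mid z3).2, lt_of_one_sub_chi z5⟩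
      have key := prod5_le (x := ![L.e x * (1 - chi B (L.hr x)), 63 / 64 * L.om x m, L.mid m,
        63 / 64 * L.om m z, L.f z * (1 - chi B (L.hc z))]) hδ (fun i => ?_) hy fun i => ?_
      · have := mul_nonneg (mul_nonneg (mul_nonneg (mul_nonneg a0 a1) a2) a3) a4
        simp only [Matrix.cons_val] at key
        linarith
      · fin_cases i <;> simp only [Fin.zero_eta, Fin.mk_one, Fin.reduceFinMk, Matrix.cons_val] <;>
          constructor <;> linarith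
      · have := h1.2 u1
        have := h3.2 u2
        fin_cases i <;> simp only [Fin.zero_eta, Fin.mk_one, Fin.reduceFinMk, Matrix.cons_val] <;>
          linarith [h0.1, h2.1, h4.1]
  · have key := prod5_le (y := ![L.e x * (1 - chi B (L.hr x)), L.om x m, L.mid m, L.om m z,
      L.f z * (1 - chi B (L.hc z))]) hδ hy (fun i => ?_) fun i => ?_
    · simpa only [Matrix.cons_val] using key
    · fin_cases i <;> simp only [Fin.zero_eta, Fin.mk_one, Fin.reduceFinMk, Matrix.cons_val] <;>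
        constructor <;> linarith
    · fin_cases i <;> simp only [Fin.zero_eta, Fin.mk_one, Fin.reduceFinMk, Matrix.cons_val] <;>
        linarith [h0.2, h2.2, h4.2, h1.1, h3.1]

theorem cl_apx {r w ε : ℝ} {u : Prop} (h0 : 0 ≤ w) (h1 : w ≤ 1) (hε : 0 ≤ ε)
    (h : r ≤ w + ε ∧ (u → 63 / 64 * w - ε ≤ r)) :
    cl r ≤ w + ε ∧ (u → 63 / 64 * w - ε ≤ cl r) :=
  ⟨max_le (by linarith) ((min_le_right _ _).trans h.1),
    fun hu => le_max_of_le_right (le_min (by linarith) (h.2 hu))⟩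

theorem sum3_apx {n : ℕ} {D c ε : ℝ} (hD : 0 < D) {t y : ℕ → ℕ → ℕ → ℝ}
    (h : ∀ x < n, ∀ z < n, ∀ m < n, c * t x z m - ε ≤ y x z m ∧ y x z m ≤ t x z m + ε) :
    c * ((∑ x ∈ range n, ∑ z ∈ range n, ∑ m ∈ range n, t x z m) / 4) - n ^ 3 * (ε + 1 / D) / 4 ≤
        ((∑ x ∈ range n, ∑ z ∈ range n, ∑ m ∈ range n, round (D * y x z m) : ℤ) : ℝ) / D / 4 ∧
      ((∑ x ∈ range n, ∑ z ∈ range n, ∑ m ∈ range n, round (D * y x z m) : ℤ) : ℝ) / D / 4 ≤
        (∑ x ∈ range n, ∑ z ∈ range n, ∑ m ∈ range n, t x z m) / 4 + n ^ 3 * (ε + 1 / D) / 4 := by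
  have key : ∀ u : ℝ, u - 1 / D ≤ (round (D * u) : ℝ) / D ∧ (round (D * u) : ℝ) / D ≤ u + 1 / D := by
    intro u
    have h1 := abs_le.1 (abs_sub_round (D * u))
    have e1 : u - 1 / D = (D * u - 1) / D := by field_simp
    have e2 : u + 1 / D = (D * u + 1) / D := by field_simp
    rw [e1, e2]
    exact ⟨div_le_div_of_nonneg_right (by linarith [h1.2]) hD.le,
      div_le_div_of_nonneg_right (by linarith [h1.1]) hD.le⟩
  have e : (n : ℝ) ^ 3 * (ε + 1 / D) = ∑ x ∈ range n, ∑ z ∈ range n, ∑ m ∈ range n, (ε + 1 / D) := by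
    simp only [sum_const, card_range, nsmul_eq_mul]
    ring
  have h1 : c * (∑ x ∈ range n, ∑ z ∈ range n, ∑ m ∈ range n, t x z m) - n ^ 3 * (ε + 1 / D) ≤
      ((∑ x ∈ range n, ∑ z ∈ range n, ∑ m ∈ range n, round (D * y x z m) : ℤ) : ℝ) / D := by
    rw [e]
    push_cast
    simp only [mul_sum, sum_div, ← sum_sub_distrib]
    refine sum_le_sum fun x hx => sum_le_sum fun z hz => sum_le_sum fun m hm => ?_
    linarith [(h x (mem_range.1 hx) z (mem_range.1 hz) m (mem_range.1 hm)).1, (key (y x z m)).1]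
  have h2 : ((∑ x ∈ range n, ∑ z ∈ range n, ∑ m ∈ range n, round (D * y x z m) : ℤ) : ℝ) / D ≤
      (∑ x ∈ range n, ∑ z ∈ range n, ∑ m ∈ range n, t x z m) + n ^ 3 * (ε + 1 / D) := by
    rw [e]
    push_cast
    simp only [sum_div, ← sum_add_distrib]
    refine sum_le_sum fun x hx => sum_le_sum fun z hz => sum_le_sum fun m hm => ?_
    linarith [(h x (mem_range.1 hx) z (mem_range.1 hz) m (mem_range.1 hm)).2, (key (y x z m)).2]
  constructor <;> linarith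

theorem zsp_sum3 {n : α → ℕ} {f : α → ℕ → ℕ → ℕ → ℤ} (hn : SP Bu n)
    (hf : ZSP Bu fun q : ((α × ℕ) × ℕ) × ℕ => f q.1.1.1 q.1.1.2 q.1.2 q.2) :
    ZSP Bu fun b => ∑ x ∈ range (n b), ∑ z ∈ range (n b), ∑ m ∈ range (n b), f b x z m :=
  ZSP.sum_range (f := fun b x => ∑ z ∈ range (n b), ∑ m ∈ range (n b), f b x z m) hn
    (ZSP.sum_range (f := fun (p : α × ℕ) z => ∑ m ∈ range (n p.1), f p.1 p.2 z m)
      (hn.comp SP.fst') (ZSP.sum_range (f := fun (p : (α × ℕ) × ℕ) m => f p.1.1 p.1.2 p.2 m)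
        (hn.comp SP.fst'.fst) hf))

theorem prod_fac_le_one (d : Bool) (n0 k x : ℕ) (s t : ℕ → ℝ) (c : Prop) [Decidable c] :
    (if c then 1 else 0) * ∏ i ∈ range k, fac d n0 i x (s i) (t i) ≤ 1 :=
  mul_le_one₀ (by split_ifs <;> norm_num) (prod_nonneg fun _ _ => fac_nonneg _ _ _ _ _ _)
    (prod_le_one (fun _ _ => fac_nonneg _ _ _ _ _ _) fun _ _ => fac_le_one _ _ _ _ _ _)

/-- The approximations give an approximation of the entry of the Green matrix. -/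
theorem apx_of_oracle {N n0 K E : α → ℕ} {A0 : α → ℕ → ℕ → ℕ} {hc hr : α → ℕ → ℕ → ℝ} {κ : ℝ}
    (hκ : κ ≤ 2 ^ 100) (hN : SP Bu N) (h0 : SP Bu n0) (hK : SP Bu K) (hE : SP Bu fun a => 2 ^ E a)
    (hn : PBd Bu fun a => nm (n0 a) (K a)) (hA : SP Bu fun p : α × ℕ × ℕ => A0 p.1 p.2.1 p.2.2)
    (hO : Oracle Bu n0 K (fun a => lv (N a) (n0 a) (K a) (A0 a) (hc a) (hr a)) E)
    (h : ∀ (x : List A) (a : α), Enc.ok x a → 2 ≤ N a ∧ N a ≤ 2 ^ n0 a ∧ 6 * n0 a + 70 ≤ K a ∧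
      Sub (mat (N a) (A0 a) 2) ∧
      (∀ k < K a, StatK κ (lv (N a) (n0 a) (K a) (A0 a) (hc a) (hr a)) k) ∧
      1000 * (K a + 1) ^ 2 * nm (n0 a) (K a) ^ 3 ≤ 2 ^ E a) :
    ∃ r : α → ℝ, RSP Bu r ∧ ∀ (x : List A) (a : α), Enc.ok x a → ∀ h0 h1,
      |r a - gr (mat (N a) (A0 a) 2) ⟨0, h0⟩ ⟨N a - 1, h1⟩| ≤ 1 / 13 := by
  obtain ⟨⟨rc, hrc, ec⟩, ⟨rr, hrr, er⟩, ⟨ro, hro, eo⟩⟩ := hO
  -- the products
  have hp : ∀ d : Bool, ∃ pr : α × ℕ × ℕ → ℝ, RSP Bu pr ∧ ∀ p, 0 ≤ pr p ∧ pr p ≤ 1 ∧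
      ∀ (g : ℕ → ℝ) (ε : ℝ), (∀ i < p.2.1, 0 ≤ g i ∧ g i ≤ 1 ∧ |fac d (n0 p.1) i p.2.2
        (rc (p.1, i, p.2.2 % nm (n0 p.1) i)) (rr (p.1, i, p.2.2 % nm (n0 p.1) i)) - g i| ≤ ε) →
        |pr p - ∏ i ∈ range p.2.1, g i| ≤ p.2.1 * (ε + 2 / (2 ^ E p.1 : ℕ)) := fun d => by
    have h1 : SP Bu fun q : (α × ℕ × ℕ) × ℕ =>
        (q.1.1, q.2, q.1.2.2 % nm (n0 q.1.1) q.2) :=
      SP.fst'.fst.pair (SP.snd'.pair (sp_mod_nm (h0.comp SP.fst'.fst) SP.snd' SP.fst'.snd.snd))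
    exact rsp_prod_apx (n := fun p : α × ℕ × ℕ => p.2.1) (D := fun p => 2 ^ E p.1)
      (f := fun p i => fac d (n0 p.1) i p.2.2 (rc (p.1, i, p.2.2 % nm (n0 p.1) i))
        (rr (p.1, i, p.2.2 % nm (n0 p.1) i))) SP.snd'.fst (hE.comp SP.fst')
      (fun _ => Nat.two_pow_pos _)
      (rsp_fac d (h0.comp SP.fst'.fst) SP.snd' SP.fst'.snd.snd (hrc.comp h1) (hrr.comp h1))
      fun _ _ => ⟨fac_nonneg _ _ _ _ _ _, fac_le_one _ _ _ _ _ _⟩
  choose pr hpr epr using hp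
  -- the five factors
  set y : α → ℕ → ℕ → ℕ → ℕ → Fin 5 → ℝ := fun a k x z m =>
    ![(if x % 2 ^ n0 a = 0 then 1 else 0) * pr false (a, k, x) * (1 - chi B (rr (a, k, x))),
      cl (ro (a, k, x, m)), (1 - chi B (rc (a, k, m))) * (1 - chi B (rr (a, k, m))),
      cl (ro (a, k, m, z)),
      (if z % 2 ^ n0 a = N a - 1 then 1 else 0) * pr true (a, k, z) * (1 - chi B (rc (a, k, z)))]
    with hy
  have hnm : SP Bu fun p : α × ℕ => nm (n0 p.1) (min p.2 (K p.1)) :=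
    sp_pow (SP.const 2) ((h0.comp SP.fst').add ((SP.const a).mul (SP.snd'.min (hK.comp SP.fst'))))
      ((hn.comp SP.fst').mono fun p => nm_le _ (min_le_right _ _))
  have hZ : ZSP Bu fun q : (((α × ℕ) × ℕ) × ℕ) × ℕ => round (((2 ^ E q.1.1.1.1 : ℕ) : ℝ) *
      (y q.1.1.1.1 q.1.1.1.2 q.1.1.2 q.1.2 q.2 0 * y q.1.1.1.1 q.1.1.1.2 q.1.1.2 q.1.2 q.2 1 *
        y q.1.1.1.1 q.1.1.1.2 q.1.1.2 q.1.2 q.2 2 * y q.1.1.1.1 q.1.1.1.2 q.1.1.2 q.1.2 q.2 3 *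
        y q.1.1.1.1 q.1.1.1.2 q.1.1.2 q.1.2 q.2 4)) := by
    have qa : SP Bu fun q : (((α × ℕ) × ℕ) × ℕ) × ℕ => q.1.1.1.1 := SP.fst'.fst.fst.fst
    have qk : SP Bu fun q : (((α × ℕ) × ℕ) × ℕ) × ℕ => q.1.1.1.2 := SP.fst'.fst.fst.snd
    have qx : SP Bu fun q : (((α × ℕ) × ℕ) × ℕ) × ℕ => q.1.1.2 := SP.fst'.fst.snd
    have qz : SP Bu fun q : (((α × ℕ) × ℕ) × ℕ) × ℕ => q.1.2 := SP.fst'.snd
    have qm : SP Bu fun q : (((α × ℕ) × ℕ) × ℕ) × ℕ => q.2 := SP.snd'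
    have ns : ∀ {t : (((α × ℕ) × ℕ) × ℕ) × ℕ → ℝ}, RSP Bu t → RSP Bu fun q => 1 - chi B (t q) :=
      fun ht => RSP.one.sub (rsp_chi (SP.const B) ht)
    refine RSP.round ((RSP.natCast (hE.comp qa)).mul ((((RSP.mul ?_ ?_).mul ?_).mul ?_).mul ?_))
    · exact ((RSP.ite ((sp_mod_two_pow qx (h0.comp qa)).decide_eq (SP.const 0)) RSP.one
        RSP.zero).mul ((hpr false).comp (qa.pair (qk.pair qx)))).mul
        (ns (hrr.comp (qa.pair (qk.pair qx))))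
    · exact rsp_cl (hro.comp (qa.pair (qk.pair (qx.pair qm))))
    · exact (ns (hrc.comp (qa.pair (qk.pair qm)))).mul (ns (hrr.comp (qa.pair (qk.pair qm))))
    · exact rsp_cl (hro.comp (qa.pair (qk.pair (qm.pair qz))))
    · exact ((RSP.ite ((sp_mod_two_pow qz (h0.comp qa)).decide_eq ((hN.comp qa).sub (SP.const 1)))
        RSP.one RSP.zero).mul ((hpr true).comp (qa.pair (qk.pair qz)))).mul
        (ns (hrc.comp (qa.pair (qk.pair qz))))
  have hZ3 := zsp_sum3 (f := fun (p : α × ℕ) x z m => round (((2 ^ E p.1 : ℕ) : ℝ) *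
    (y p.1 p.2 x z m 0 * y p.1 p.2 x z m 1 * y p.1 p.2 x z m 2 * y p.1 p.2 x z m 3 *
      y p.1 p.2 x z m 4))) hnm hZ
  refine Exists.imp (fun r hr => ⟨hr.1, fun x a ha h0 h1 => by
    have := hr.2 x a ha
    rwa [dif_pos (h x a ha).1] at this⟩) (apx_of_sum
    (g := fun a => if h : 2 ≤ N a then gr (mat (N a) (A0 a) 2) ⟨0, two_pos.trans_le h⟩
      ⟨N a - 1, Nat.sub_lt (two_pos.trans_le h) one_pos⟩ else 0) (d := fun a => (A0 a 0 (N a - 1) : ℝ) / 2)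
    (an := fun a k => (lv (N a) (n0 a) (K a) (A0 a) (hc a) (hr a) k).ans)
    (r := fun a k => ((∑ x ∈ range (nm (n0 a) (min k (K a))), ∑ z ∈ range (nm (n0 a) (min k (K a))),
      ∑ m ∈ range (nm (n0 a) (min k (K a))), round (((2 ^ E a : ℕ) : ℝ) *
        (y a k x z m 0 * y a k x z m 1 * y a k x z m 2 * y a k x z m 3 * y a k x z m 4)) : ℤ) : ℝ) /
          (2 ^ E a : ℕ) / 4) hK
    ((RSP.natCast (hA.comp (SP.id.pair ((SP.const 0).pair (hN.sub (SP.const 1)))))).div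
      (RSP.ofNat 2))
    (((RSP.intCast hZ3).div (RSP.natCast (hE.comp SP.fst'))).div (RSP.ofNat 4)) fun x a ha => ?_)
  obtain ⟨g2, gN, gK, gA, gS, gE⟩ := h x a ha
  have g3 := gr_sub_dir gA g2 gN hκ gK gS
  rw [dir_eq, dir_zero g2 gN] at g3
  simp only [dif_pos g2]
  refine ⟨gA.gr_le_one _ _, by positivity, abs_le.2 ⟨by linarith [g3.1], by linarith [g3.2]⟩,
    fun k hk => ?_⟩
  have hI := inv_lv (K a) gA gN (hc a) (hr a) k fun i hi => (gS i (hi.trans hk)).low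
  have hε : (0 : ℝ) < 1 / 2 ^ E a := by positivity
  set ε : ℝ := 1 / 2 ^ E a with hε'
  have hk' : (k : ℝ) ≤ K a := by exact_mod_cast hk.le
  have hK0 : (0 : ℝ) ≤ K a := Nat.cast_nonneg _
  have hδ : ε ≤ (5 * K a + 4) * ε := le_mul_of_one_le_left hε.le (by linarith)
  have hw : ∀ (d : Bool) (v : ℕ) (c : Prop) [Decidable c] {s s' : ℝ}, |s - s'| ≤ ε →
      |(if c then 1 else 0) * pr d (a, k, v) * (1 - chi B s) - (if c then 1 else 0) *
        (∏ i ∈ range k, fac d (n0 a) i v (hc a i (v % nm (n0 a) i)) (hr a i (v % nm (n0 a) i))) *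
          (1 - chi B s')| ≤ (5 * K a + 4) * ε := by
    intro d v c _ s s' hs
    obtain ⟨p0, p1, p2⟩ := epr d (a, k, v)
    have p3 := p2 (fun i => fac d (n0 a) i v (hc a i (v % nm (n0 a) i)) (hr a i (v % nm (n0 a) i)))
      (3 * ε) fun i hi => ⟨fac_nonneg _ _ _ _ _ _, fac_le_one _ _ _ _ _ _, abs_fac_sub _ _ _ _
        (by simpa only [lv_hc] using ec x a ha i (hi.trans hk) _ (mod_nm_lt _ _ _))
        (by simpa only [lv_hr] using er x a ha i (hi.trans hk) _ (mod_nm_lt _ _ _))⟩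
    have p4 : (2 : ℝ) / (2 ^ E a : ℕ) = 2 * ε := by
      rw [hε']
      push_cast
      ring
    simp only [p4] at p3
    split_ifs
    · simp only [one_mul]
      refine (abs_mul_sub_mul p0 p1 (one_sub_chi_nonneg _) (one_sub_chi_le_one _) p3
        (abs_ns_sub _ _)).trans ?_
      nlinarith
    · simp only [zero_mul, sub_self, abs_zero]
      positivity
  have key := sum3_apx (n := nm (n0 a) k) (D := ((2 ^ E a : ℕ) : ℝ)) (c := 31 / 32)
    (ε := 5 * ((5 * K a + 4) * ε)) (by positivity)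
    (y := fun x z m => y a k x z m 0 * y a k x z m 1 * y a k x z m 2 * y a k x z m 3 * y a k x z m 4)
    fun u hu z hz m hm => term_apx (x := u) (m := m) (z := z) hI ?_ ?_ (by positivity) ?_ ?_ ?_ ?_
      ?_ ?_
  · rw [← lv_nm (N a) (n0 a) (K a) (A0 a) (hc a) (hr a) k, ← Lv.ans_top hI hk.le, lv_nm] at key
    rw [min_eq_left hk.le]
    have b1 : (nm (n0 a) k : ℝ) ^ 3 * (5 * ((5 * K a + 4) * ε) + 1 / (2 ^ E a : ℕ)) / 4 ≤
        1 / (100 * (K a + 1)) := by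
      have b2 : (nm (n0 a) k : ℝ) ^ 3 ≤ (nm (n0 a) (K a) : ℝ) ^ 3 :=
        pow_le_pow_left₀ (Nat.cast_nonneg _) (by exact_mod_cast nm_le _ hk.le) 3
      have b3 : (1000 * (K a + 1) ^ 2 * (nm (n0 a) (K a) : ℝ) ^ 3) * ε ≤ 1 := by
        rw [hε', mul_one_div, div_le_one (by positivity)]
        exact_mod_cast gE
      have b4 : (1 : ℝ) / (2 ^ E a : ℕ) = ε := by
        rw [hε']
        push_cast
        rfl
      have b5 : (0 : ℝ) ≤ (nm (n0 a) k : ℝ) ^ 3 := by positivity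
      have b6 : (nm (n0 a) k : ℝ) ^ 3 * ε ≤ (nm (n0 a) (K a) : ℝ) ^ 3 * ε :=
        mul_le_mul_of_nonneg_right b2 hε.le
      have b7 : 0 ≤ (nm (n0 a) k : ℝ) ^ 3 * ε := mul_nonneg b5 hε.le
      rw [b4, le_div_iff₀ (by positivity)]
      nlinarith [mul_le_mul_of_nonneg_left b6 (show (0 : ℝ) ≤ 1000 * (K a + 1) ^ 2 by positivity),
        mul_nonneg b7 hK0, mul_nonneg b7 (mul_nonneg hK0 hK0)]
    refine ⟨?_, by linarith [key.1], by linarith [key.2]⟩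
    rw [Lv.ans_top hI hk.le]
    refine div_nonneg (sum_nonneg fun u _ => sum_nonneg fun z _ => sum_nonneg fun m _ => ?_)
      (by norm_num)
    exact mul_nonneg (mul_nonneg (mul_nonneg (mul_nonneg (mul_nonneg (hI.e_nonneg _)
      (one_sub_chi_nonneg _)) (Lv.om_nonneg _ hI.S_nonneg _ _)) (Lv.mid_nonneg _ _))
      (Lv.om_nonneg _ hI.S_nonneg _ _)) (mul_nonneg (hI.f_nonneg _) (one_sub_chi_nonneg _))
  · rw [← Nat.mod_eq_of_lt hu, lv_e_prod]
    exact prod_fac_le_one _ _ _ _ _ _ _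
  · rw [← Nat.mod_eq_of_lt hz, lv_f_prod]
    exact prod_fac_le_one _ _ _ _ _ _ _
  · have b : ∀ (d : Bool) (v : ℕ) (c : Prop) [Decidable c] (s : ℝ),
        0 ≤ (if c then 1 else 0) * pr d (a, k, v) * (1 - chi B s) ∧
          (if c then 1 else 0) * pr d (a, k, v) * (1 - chi B s) ≤ 1 := by
      intro d v c _ s
      obtain ⟨p0, p1, -⟩ := epr d (a, k, v)
      split_ifs
      · rw [one_mul]
        exact ⟨mul_nonneg p0 (one_sub_chi_nonneg _),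
          mul_le_one₀ p1 (one_sub_chi_nonneg _) (one_sub_chi_le_one _)⟩
      · simp
    intro i
    fin_cases i
    · exact b _ _ _ _
    · exact ⟨cl_nonneg _, cl_le_one _⟩
    · exact ⟨mul_nonneg (one_sub_chi_nonneg _) (one_sub_chi_nonneg _),
        mul_le_one₀ (one_sub_chi_le_one _) (one_sub_chi_nonneg _) (one_sub_chi_le_one _)⟩
    · exact ⟨cl_nonneg _, cl_le_one _⟩
    · exact b _ _ _ _
  · have := lv_e_prod (N a) (n0 a) (K a) (A0 a) (hc a) (hr a) u k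
    rw [Nat.mod_eq_of_lt hu] at this
    rw [this]
    exact hw false u _ (er x a ha k hk u hu)
  · refine (abs_mul_sub_mul (one_sub_chi_nonneg _) (one_sub_chi_le_one _) (one_sub_chi_nonneg _)
      (one_sub_chi_le_one _) (abs_ns_sub _ _) (abs_ns_sub _ _)).trans ?_
    have := ec x a ha k hk m hm
    have := er x a ha k hk m hm
    nlinarith
  · have := lv_f_prod (N a) (n0 a) (K a) (A0 a) (hc a) (hr a) z k
    rw [Nat.mod_eq_of_lt hz] at this
    rw [this]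
    exact hw true z _ (ec x a ha k hk z hz)
  · have := eo x a ha k hk u hu m hm
    exact cl_apx (Lv.om_nonneg _ hI.S_nonneg _ _) (Lv.om_le_one hI _ _) (by positivity)
      ⟨by linarith [this.1], fun hu => by linarith [this.2 hu]⟩
  · have := eo x a ha k hk m hm z hz
    exact cl_apx (Lv.om_nonneg _ hI.S_nonneg _ _) (Lv.om_le_one hI _ _) (by positivity)
      ⟨by linarith [this.1], fun hu => by linarith [this.2 hu]⟩

/-- The number of bits of a vertex. -/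
def pn0 (N : ℕ) : ℕ := Nat.size N

/-- The number of stages. -/
def pK (N : ℕ) : ℕ := 6 * pn0 N + 70

/-- The precision. -/
noncomputable def pE (N : ℕ) : ℕ := Nat.size (1000 * (pK N + 1) ^ 2 * nm (pn0 N) (pK N) ^ 3)

theorem le_pn0 (N : ℕ) : N ≤ 2 ^ pn0 N := (Nat.lt_size_self N).le

section

variable {N : α → ℕ} (hN : SP Bu N)
include hN

theorem sp_pn0 : SP Bu fun a => pn0 (N a) := sp_size hN

theorem sp_pK : SP Bu fun a => pK (N a) := ((SP.const 6).mul (sp_pn0 hN)).add (SP.const 70)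

/-- Every power of two with an exponent linear in the number of stages is computable. -/
theorem sp_pow_pK (c : ℕ) : SP Bu fun a => 2 ^ (c * pK (N a)) :=
  (((sp_two_pow_size hN).pow_const (6 * c)).mul (SP.const (2 ^ (70 * c)))).congr fun p => by
    rw [← pow_mul, ← pow_add, pK, pn0]
    congr 1
    ring

theorem sp_nmK : SP Bu fun p => nm (pn0 (N p)) (pK (N p)) :=
  ((sp_two_pow_size hN).mul (sp_pow_pK hN a)).congr fun p => by rw [nm, pow_add, pn0]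

theorem sp_pE : SP Bu fun a => pE (N a) :=
  sp_size (((SP.const 1000).mul (((sp_pK hN).add (SP.const 1)).pow_const 2)).mul
    ((sp_nmK hN).pow_const 3))

theorem sp_pow_pE : SP Bu fun a => 2 ^ pE (N a) :=
  sp_two_pow_size (((SP.const 1000).mul (((sp_pK hN).add (SP.const 1)).pow_const 2)).mul
    ((sp_nmK hN).pow_const 3))

end

/-- It suffices to find statistics with approximations. -/
theorem grApx_of_oracle (h : ∀ (N : Inp A → ℕ) (A0 : Inp A → ℕ → ℕ → ℕ), (∀ x, 2 ≤ N x) →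
    (∀ x, Sub (mat (N x) (A0 x) 2)) → (∀ x v, #{u ∈ range (N x) | A0 x u v ≠ 0} ≤ 2) →
    SP (lenBud A) N → (SP (lenBud A) fun p : Inp A × ℕ × ℕ => A0 p.1 p.2.1 p.2.2) →
    ∃ hc hr : Inp A → ℕ → ℕ → ℝ,
      (∀ x, ∀ k < pK (N x),
        StatK (2 ^ 100) (lv (N x) (pn0 (N x)) (pK (N x)) (A0 x) (hc x) (hr x)) k) ∧
      Oracle (lenBud A) (fun x => pn0 (N x)) (fun x => pK (N x))
        (fun x => lv (N x) (pn0 (N x)) (pK (N x)) (A0 x) (hc x) (hr x)) fun x => pE (N x)) :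
    GrApx A := by
  intro N A0 h2 hS hd hN hA
  obtain ⟨hc, hr, h3, h4⟩ := h N A0 h2 hS hd hN hA
  obtain ⟨r, r1, r2⟩ := apx_of_oracle le_rfl hN (sp_pn0 hN) (sp_pK hN) (sp_pow_pE hN)
    (sp_nmK hN).pbd hA h4 fun _ x _ =>
      ⟨h2 x, le_pn0 _, le_rfl, hS x, h3 x, (Nat.lt_size_self _).le⟩
  exact ⟨r, r1, fun x => r2 x x rfl⟩

end Vale.Agent.P313.Full
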