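import Vale.Agent.P313.Full.Box
import Vale.Agent.P313.Full.TabDef

/-! Averages over the box of the states. -/

namespace Vale.Agent.P313.Full

open Finset Function

variable {ι : Type} [Fintype ι] [DecidableEq ι] {bd : ι → ℕ}

/-- The average over the box. -/
noncomputable def bavg (bd : ι → ℕ) (F : (ι → ℕ) → ℝ) : ℝ := (∑ s ∈ box bd, F s) / #(box bd)

theorem bavg_congr {F G : (ι → ℕ) → ℝ} (h : ∀ s ∈ box bd, F s = G s) : bavg bd F = bavg bd G := by
  rw [bavg, sum_congr rfl h, bavg]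

theorem bavg_const (hb : ∀ r, 0 < bd r) (c : ℝ) : bavg bd (fun _ => c) = c := by
  have h : (box bd).Nonempty := ⟨fun _ => 0, mem_box.2 hb⟩
  rw [bavg, sum_const, nsmul_eq_mul, mul_div_cancel_left₀]
  exact_mod_cast h.card_pos.ne'

theorem bavg_mean {i : ι} (h : 0 < bd i) (F : (ι → ℕ) → ℝ) :
    bavg bd F = bavg bd fun s => mean (bd i) fun c => F (update s i c) := by
  have h0 : (bd i : ℝ) ≠ 0 := by exact_mod_cast h.ne'
  have hm : ∀ p ∈ box bd ×ˢ range (bd i), (update p.1 i p.2, p.1 i) ∈ box bd ×ˢ range (bd i) :=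
    fun p hp => by
    simp only [mem_product, mem_range] at hp ⊢
    exact ⟨update_mem_box hp.1 hp.2, mem_box.1 hp.1 i⟩
  have hi : ∀ p ∈ box bd ×ˢ range (bd i),
      (update (update p.1 i p.2) i (p.1 i), update p.1 i p.2 i) = p := fun p _ => by simp
  have e : ∑ s ∈ box bd, ∑ c ∈ range (bd i), F (update s i c) =
      ∑ s ∈ box bd, ∑ _c ∈ range (bd i), F s := by
    rw [← sum_product', ← sum_product']
    exact sum_nbij' (fun p => (update p.1 i p.2, p.1 i)) (fun p => (update p.1 i p.2, p.1 i)) hm hm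
      hi hi fun _ _ => rfl
  simp only [bavg, mean, ← sum_div]
  rw [e]
  simp only [sum_const, card_range, nsmul_eq_mul, ← mul_sum]
  rw [mul_div_cancel_left₀ _ h0]

/-- The part of the box with a given coordinate. -/
theorem bavg_pin {i : ι} {x : ℕ} (hx : x < bd i) (G : (ι → ℕ) → ℝ) :
    bavg bd (fun s => if s i = x then G s else 0) = bavg bd (fun s => G (update s i x)) / bd i := by
  rw [bavg_mean (i := i) (by omega), bavg, bavg, div_right_comm, sum_div (box bd) _ (bd i : ℝ)]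
  refine congrArg (· / _) (sum_congr rfl fun s _ => ?_)
  rw [← mean_eq hx]
  refine mean_congr fun c _ => ?_
  rw [update_self]
  split_ifs with h
  · rw [h]
  · rfl

/-- The average of a function of two keys. -/
theorem bavg_keys (cf : Cf) (hb : ∀ r, 0 < bd r) {s₁ o₁ s₂ o₂ : ι} (h₁ : bd s₁ = 2 ^ (2 * cf.L))
    (h₂ : bd o₁ = 2 ^ cf.m) (h₃ : bd s₂ = 2 ^ (2 * cf.L)) (h₄ : bd o₂ = 2 ^ cf.m) (n₁ : s₁ ≠ o₁)
    (n₂ : s₁ ≠ s₂) (n₃ : s₁ ≠ o₂) (n₄ : o₁ ≠ s₂) (n₅ : o₁ ≠ o₂) (n₆ : s₂ ≠ o₂)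
    (g : Key → Key → ℝ) : bavg bd (fun s => g (s s₁, s o₁) (s s₂, s o₂)) =
      cf.JK fun c => cf.JK fun c' => g c c' := by
  rw [bavg_mean (hb o₂), bavg_mean (hb s₂), bavg_mean (hb o₁), bavg_mean (hb s₁)]
  simp only [update_self, update_of_ne n₁, update_of_ne n₂, update_of_ne n₃, update_of_ne n₄,
    update_of_ne n₅, update_of_ne n₆, h₁, h₂, h₃, h₄]
  exact bavg_const hb _

end Vale.Agent.P313.Full
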