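import Vale.Agent.P313.Full.HiMain
import Vale.Agent.P313.Full.HiName
import Vale.Agent.P313.Full.HiMg

/-! Closed forms for the mass which is created in a stage and for the start and end weights. -/

namespace Vale.Agent.P313.Hi

open Finset

theorem abs_ns_sub (s t : ℝ) : |1 - chi B s - (1 - chi B t)| ≤ 2 * |s - t| := by
  rw [sub_sub_sub_cancel_left, abs_sub_comm]
  exact abs_chi_sub _ _ _

namespace Lv

variable {L : Lv} {N M K k : ℕ}

theorem om_le_one (h : Inv N M K k L) (x z : ℕ) : L.om x z ≤ 1 := by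
  have h1 := h.val x z
  have h2 : (1 : ℝ) ≤ 2 ^ max (L.vo x).l (L.vi z).l := one_le_pow₀ one_le_two
  have h3 := h.S_nonneg x z
  exact (L.om_le h.S_nonneg x z).trans (by nlinarith)

/-- The mass which is created in a stage; the predicates of the pairs hold automatically. -/
theorem ans_top (h : Inv N M K k L) (hk : k ≤ K) :
    L.ans = (∑ x ∈ range L.n, ∑ z ∈ range L.n, ∑ m ∈ range L.n, L.e x * (1 - chi B (L.hr x)) *
      L.om x m * L.mid m * L.om m z * (L.f z * (1 - chi B (L.hc z)))) / 4 := by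
  rw [ans_eq]
  simp only [sum_div]
  refine sum_congr rfl fun x _ => sum_congr rfl fun z _ => sum_congr rfl fun m _ => ?_
  by_cases h1 : L.e x = 0
  · simp [h1]
  by_cases h2 : L.f z = 0
  · simp [h2]
  by_cases h3 : L.S x m = 0
  · simp [om, h3]
  by_cases h4 : L.S m z = 0
  · simp [om, h4]
  have p1 : L.P1 x m := by
    have := h.bot x (h.e_supp x h1)
    have := (le_max_left _ _).trans (h.lam_le m z h4)
    unfold P1
    omega
  have p2 : L.P2 m z := by
    have := h.top z (h.f_supp z h2)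
    have := (le_max_right _ _).trans (h.lam_le x m h3)
    unfold P2
    omega
  rw [if_pos ⟨p1, p2⟩]
  ring

end Lv

open Classical in
/-- The factor of the stage `i` in the start weight (`d = false`) or in the end weight
(`d = true`), if the statistics are `s` and `t`. -/
noncomputable def fac (d : Bool) (n0 i x : ℕ) (s t : ℝ) : ℝ :=
  if vld (cd n0 i x) ∧ (dg n0 i x).ed d = 0 ∧ (d = true → (dg n0 i x).1.2.2 = false) then
    if d then zeta (dg n0 i x).1.1 s * chi (dg n0 i x).1.2.1 t / 2 ^ ((dg n0 i x).1.2.1 : ℕ)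
    else chi (dg n0 i x).1.1 s * zeta (dg n0 i x).1.2.1 t / 2 ^ ((dg n0 i x).1.1 : ℕ)
  else 0

theorem fac_nonneg (d : Bool) (n0 i x : ℕ) (s t : ℝ) : 0 ≤ fac d n0 i x s t := by
  unfold fac
  split_ifs
  · exact div_nonneg (mul_nonneg (zeta_nonneg _ _) (chi_nonneg _ _)) (by positivity)
  · exact div_nonneg (mul_nonneg (chi_nonneg _ _) (zeta_nonneg _ _)) (by positivity)
  · exact le_rfl

theorem fac_le_one (d : Bool) (n0 i x : ℕ) (s t : ℝ) : fac d n0 i x s t ≤ 1 := by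
  unfold fac
  split_ifs
  · exact div_le_one_of_le₀ ((mul_le_one₀ (zeta_le_one _ _) (chi_nonneg _ _) (chi_le_one _ _)).trans
      (one_le_pow₀ one_le_two)) (by positivity)
  · exact div_le_one_of_le₀ ((mul_le_one₀ (chi_le_one _ _) (zeta_nonneg _ _) (zeta_le_one _ _)).trans
      (one_le_pow₀ one_le_two)) (by positivity)
  · exact zero_le_one

theorem abs_mul_sub_mul {x y x' y' ε ε' : ℝ} (hx : 0 ≤ x) (hx1 : x ≤ 1) (hy : 0 ≤ y') (hy1 : y' ≤ 1)
    (h : |x - x'| ≤ ε) (h' : |y - y'| ≤ ε') : |x * y - x' * y'| ≤ ε + ε' := by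
  have e : x * y - x' * y' = (x - x') * y' + x * (y - y') := by ring
  rw [e]
  refine (abs_add_le _ _).trans (add_le_add ?_ ?_)
  · rw [abs_mul, abs_of_nonneg hy]
    exact (mul_le_of_le_one_right (abs_nonneg _) hy1).trans h
  · rw [abs_mul, abs_of_nonneg hx]
    exact (mul_le_of_le_one_left (abs_nonneg _) hx1).trans h'

theorem abs_fac_sub (d : Bool) (n0 i x : ℕ) {s t s' t' ε : ℝ} (hs : |s - s'| ≤ ε)
    (ht : |t - t'| ≤ ε) : |fac d n0 i x s t - fac d n0 i x s' t'| ≤ 3 * ε := by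
  have h0 : 0 ≤ ε := (abs_nonneg _).trans hs
  have key : ∀ (u v : ℝ) (g : ℕ), |u - v| ≤ 3 * ε → |u / 2 ^ g - v / 2 ^ g| ≤ 3 * ε := by
    intro u v g h
    rw [← sub_div, abs_div, abs_of_pos (show (0 : ℝ) < 2 ^ g by positivity)]
    exact (div_le_self (abs_nonneg _) (one_le_pow₀ one_le_two)).trans h
  unfold fac
  split_ifs
  · refine key _ _ _ ((abs_mul_sub_mul (zeta_nonneg _ _) (zeta_le_one _ _) (chi_nonneg _ _)
      (chi_le_one _ _) (abs_zeta_sub _ _ _) (abs_chi_sub _ _ _)).trans ?_)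
    linarith
  · refine key _ _ _ ((abs_mul_sub_mul (chi_nonneg _ _) (chi_le_one _ _) (zeta_nonneg _ _)
      (zeta_le_one _ _) (abs_chi_sub _ _ _) (abs_zeta_sub _ _ _)).trans ?_)
    linarith
  · simpa using h0

variable (N n0 K : ℕ) (A0 : ℕ → ℕ → ℕ) (hc hr : ℕ → ℕ → ℝ)

theorem lv_e_prod (x : ℕ) : ∀ k, (lv N n0 K A0 hc hr k).e (x % nm n0 k) =
    (if x % 2 ^ n0 = 0 then 1 else 0) *
      ∏ i ∈ range k, fac false n0 i x (hc i (x % nm n0 i)) (hr i (x % nm n0 i))
  | 0 => by simp [lv, lv0, nm_zero]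
  | k + 1 => by
    rw [lv_e_succ, lv_e_prod x k, prod_range_succ, fac]
    generalize (if x % 2 ^ n0 = 0 then (1 : ℝ) else 0) = c
    by_cases h : vld (cd n0 k x) ∧ (dg n0 k x).ed false = 0
    · rw [if_pos h, if_pos ⟨h.1, h.2, by simp⟩, if_neg Bool.false_ne_true]
      simp only [Lv.inn, lv_hc, lv_hr]
      ring
    · rw [if_neg h, if_neg fun h' => h ⟨h'.1, h'.2.1⟩, mul_zero, mul_zero]

theorem lv_f_prod (x : ℕ) : ∀ k, (lv N n0 K A0 hc hr k).f (x % nm n0 k) =
    (if x % 2 ^ n0 = N - 1 then 1 else 0) *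
      ∏ i ∈ range k, fac true n0 i x (hc i (x % nm n0 i)) (hr i (x % nm n0 i))
  | 0 => by simp [lv, lv0, nm_zero]
  | k + 1 => by
    rw [lv_f_succ, lv_f_prod x k, prod_range_succ, fac]
    generalize (if x % 2 ^ n0 = N - 1 then (1 : ℝ) else 0) = c
    by_cases h : vld (cd n0 k x) ∧ (dg n0 k x).ed true = 0 ∧ (dg n0 k x).1.2.2 = false
    · rw [if_pos h, if_pos ⟨h.1, h.2.1, fun _ => h.2.2⟩, if_pos rfl]
      simp only [Lv.out, lv_hc, lv_hr]
      ring
    · rw [if_neg h, if_neg fun h' => h ⟨h'.1, h'.2.1, h'.2.2 rfl⟩, mul_zero, mul_zero]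

end Vale.Agent.P313.Hi
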