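import Vale.Agent.P313.Full.TopAns
import Vale.Agent.P313.Full.TabGen
import Vale.Agent.P313.Full.TabEx

/-! From the tables to the approximations which are needed at the top level. -/

namespace Vale.Agent.P313.Full

open Finset Vale.Agent.Lib.Space Vale.Agent.P313.F43 Vale.Agent.P313.Hi

variable {A α : Type} [Enc A α] {Bu : Bud A}

/-- The fresh filters. -/
noncomputable def fZ : Bool → ℕ := fun _ => cZ

open Classical in
/-- The visible ready weight from `u` to `v` for the keys `K`. -/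
noncomputable def Tb.rw (T : Tb) (cf : Cf) (u v : ℕ) (K : Bool → Key) : ℝ :=
  T.s cf true q0 fZ u K * if T.pt cf true q0 fZ u K = v then
    T.w true q0 u (T.pt cf true q0 fZ u K) * phi (T.w true q0 u (T.pt cf true q0 fZ u K)) else 0

/-- Its mean. -/
noncomputable def Tb.topR (T : Tb) (cf : Cf) (u v : ℕ) : ℝ :=
  cf.JK fun c => cf.JK fun c' => T.rw cf u v (two true c c')

theorem fok_fZ {cf : Cf} (hc : cf.Ok) {k : ℕ} (hk : k ≤ cf.K) : FOk cf k q0 fZ := by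
  refine ⟨⟨by simpa [q0] using hk, fun _ => Nat.zero_le _, fun _ => Nat.zero_le _⟩,
    fun _ => by simp [q0, fZ], fun _ _ => ?_⟩
  have h1 := hc.room
  have h2 : (B + cF) * k ≤ (B + cS + cF) * cf.K := Nat.mul_le_mul (by omega) hk
  simp only [q0, fZ]
  omega

theorem topR_spec {cf : Cf} {W : ℕ → Tb} {k u v : ℕ} (hP : Pre cf W k) (hG : GoodT cf (W k) k)
    (hu : u < nm cf.n0 k) : 2 ^ (2 * cZ) * (W k).topR cf u v ≤ (W k).L.om u v ∧
      ((W k).L.use u v → 63 / 64 * (W k).L.om u v ≤ 2 ^ (2 * cZ) * (W k).topR cf u v) := by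
  classical
  have hI : Inv cf.N (2 ^ cf.n0) cf.K k (W k).L := by
    rw [hP.tab.L]
    exact inv_lv _ hP.ok.sub hP.ok.N_le _ _ k fun i hi => by
      rw [← hP.tab.L]
      exact (hP.good i hi).low
  obtain ⟨N, n1, n2, n3⟩ := stVis (y := v) (d := true) hP hG (fok_fZ hP.ok hP.le) hu
  set T := W k with hT
  have hl : T.lam true q0 u = (T.L.vo u).l := rfl
  have hvis : T.L.S u v ≠ 0 → (T.vis true q0 u v ↔ (T.L.vo u).wt = false) := fun h =>
    (hI.sy u v h).symm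
  have hw : T.w true q0 u v * phi (T.w true q0 u v) = T.L.om u v * 2 ^ (T.L.vo u).l := by
    by_cases h : T.L.S u v = 0
    · simp [Tb.w, sd, Lv.om, h]
    · by_cases h' : T.vis true q0 u v
      · rw [Tb.w, if_pos h', Lv.om, Lv.rdy, if_pos ((hvis h).1 h'), hl, sd, if_pos rfl]
        ring
      · rw [Tb.w, if_neg h', Lv.om, Lv.rdy, if_neg fun h2 => h' ((hvis h).2 h2)]
        ring
  have e1 : T.topR cf u v = (cf.JK fun c => cf.JK fun c' =>
      if T.pt cf true q0 fZ u (two true c c') = v then T.s cf true q0 fZ u (two true c c') else 0) *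
      (T.L.om u v * 2 ^ (T.L.vo u).l) := by
    simp only [Tb.topR, Cf.JK, Cf.JS, ← mean_mul_right]
    refine mean_congr fun _ _ => mean_congr fun _ _ => mean_congr fun _ _ => mean_congr fun _ _ => ?_
    unfold Tb.rw
    split_ifs with h
    · rw [h, hw]
    · ring
  have e2 : 2 ^ (2 * cZ) * T.topR cf u v = T.se true q0 u v * N * T.L.om u v := by
    rw [e1, ← n3, hl, fZ, fZ, two_mul, pow_add, pow_add, pow_add]
    ring
  have o0 := T.L.om_nonneg hI.S_nonneg u v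
  have s0 : 0 ≤ T.se true q0 u v := G0.se_nonneg
  have s1 : T.se true q0 u v ≤ 1 := G0.se_le_one
  have e3 : eps q0 (fZ true) = 1 / 1024 := by norm_num [eps, q0, fZ]
  have e4 : eps q0 (fZ false) = 1 / 1024 := e3
  rw [e3, e4] at n1
  rw [e2]
  refine ⟨mul_le_of_le_one_left o0 (mul_le_one₀ s1 (by linarith) n2), fun h => ?_⟩
  by_cases h0 : T.L.om u v = 0
  · simp [h0]
  obtain ⟨a1, a2⟩ := T.L.of_om h0
  have hv := (hvis (left_ne_zero_of_mul h0)).2 a1
  have hH : ∀ d x, T.H d q0 x < 2 ^ B → T.fac d q0 x = 1 := fun d x hx => by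
    unfold Tb.fac
    split_ifs
    · rfl
    · refine cl_of_ge ?_
      have : 2 * T.H d q0 x / 2 ^ B ≤ 2 := by
        rw [div_le_iff₀ (by positivity)]
        linarith
      linarith
  have b1 : T.L.hr = T.H true q0 := by rw [hT, hP.tab.L, lv_hr]
  have b2 : T.L.hc = T.H false q0 := by rw [hT, hP.tab.L, lv_hc]
  have b3 : T.sig true q0 u v = 1 := by
    rw [Tb.sig, hH true u (b1 ▸ h.2.1), hH (!true) v (b2 ▸ h.2.2), mul_one, mul_one]
    refine cl_of_ge ?_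
    rw [Tb.w, if_pos hv, hl, sd, if_pos rfl, thr, div_div_eq_mul_div, div_one]
    change 1 ≤ 2 * (T.L.S u v * 2 ^ (T.L.vo u).l) * 2 ^ (B + 1) - 1
    linarith
  have b4 : T.se true q0 u v = 1 := by
    rw [Tb.se, b3]
    exact cl_of_ge (by norm_num)
  rw [b4, one_mul]
  exact mul_le_mul_of_nonneg_right (by linarith) o0

/-- What the programs have to deliver. -/
structure ProgOut (Bu : Bud A) (cf : α → Cf) (W : α → ℕ → Tb) (E : α → ℕ) : Prop where
  H : ∀ d, ∃ r : α × ℕ × ℕ → ℝ, RSP Bu r ∧ ∀ (x : List A) (a : α), Enc.ok x a → ∀ k < (cf a).K,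
    ∀ v < nm (cf a).n0 k, |r (a, k, v) - (W a k).H d q0 v| ≤ 1 / 2 ^ E a
  R : ∃ r : α × ℕ × ℕ × ℕ → ℝ, RSP Bu r ∧ ∀ (x : List A) (a : α), Enc.ok x a → ∀ k < (cf a).K,
    ∀ u < nm (cf a).n0 k, ∀ v < nm (cf a).n0 k,
      |r (a, k, u, v) - (W a k).topR (cf a) u v| ≤ 1 / 2 ^ (E a + 2 * cZ)

theorem ProgOut.oracle {cf : α → Cf} {W : α → ℕ → Tb} {E : α → ℕ} (h : ProgOut Bu cf W E)
    (hg : ∀ (x : List A) (a : α), Enc.ok x a → (cf a).Ok ∧ IsTab (cf a) (W a) ∧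
      ∀ k ≤ (cf a).K, Good (cf a) (W a) k) :
    Oracle Bu (fun a => (cf a).n0) (fun a => (cf a).K) (fun a => lv (cf a).N (cf a).n0 (cf a).K
      (cf a).A0 (fun j => (W a j).H false q0) fun j => (W a j).H true q0) E := by
  refine ⟨(h.H false).imp fun r hr => ⟨hr.1, fun x a ha k hk v hv => ?_⟩,
    (h.H true).imp fun r hr => ⟨hr.1, fun x a ha k hk v hv => ?_⟩, ?_⟩
  · rw [lv_hc]
    exact hr.2 x a ha k hk v hv
  · rw [lv_hr]
    exact hr.2 x a ha k hk v hv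
  obtain ⟨r, r1, r2⟩ := h.R
  refine ⟨fun p => 2 ^ (2 * cZ) * r p, (rsp_two_pow (SP.const (2 ^ (2 * cZ)))).mul r1,
    fun x a ha k hk u hu v hv => ?_⟩
  obtain ⟨g1, g2, g3⟩ := hg x a ha
  obtain ⟨t1, t2⟩ := topR_spec (v := v) ⟨g1, g2, hk.le, fun j hj => g3 j (by omega)⟩
    (g3 k hk.le).T hu
  have t3 := abs_le.1 (r2 x a ha k hk u hu v hv)
  have t4 : (2 : ℝ) ^ (2 * cZ) * (1 / 2 ^ (E a + 2 * cZ)) = 1 / 2 ^ E a := by
    rw [pow_add]
    field_simp
  have t5 : (0 : ℝ) ≤ 2 ^ (2 * cZ) := by positivity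
  have t6 := mul_le_mul_of_nonneg_left t3.1 t5
  have t7 := mul_le_mul_of_nonneg_left t3.2 t5
  rw [← g2.L]
  exact ⟨by linarith, fun hu => by linarith [t2 hu]⟩

/-- The parameters of the tables; the lengths are `cL` and `cm` times the number of stages. -/
def cfOf (cL cm N : ℕ) (A0 : ℕ → ℕ → ℕ) : Cf := ⟨N, pn0 N, pK N, A0, cL * pK N, cm * pK N⟩

theorem cfOf_ok {cL cm N : ℕ} {A0 : ℕ → ℕ → ℕ} (hm : cZ + B + cS + cF ≤ cm)
    (hL : cm + 3 + 3 * a ≤ cL) (hS : Sub (mat N A0 2))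
    (hd : ∀ v, #{u ∈ range N | A0 u v ≠ 0} ≤ 2) : (cfOf cL cm N A0).Ok := by
  have h1 : pn0 N ≤ pK N := by unfold pK; omega
  have h2 : 1 ≤ pK N := by unfold pK; omega
  refine ⟨hS, le_pn0 N, hd, ?_, ?_⟩
  · have := Nat.mul_le_mul_right (pK N) hL
    change cm * pK N + 3 * (pn0 N + a * pK N) ≤ cL * pK N
    nlinarith
  · have := Nat.mul_le_mul_right (pK N) hm
    have := Nat.mul_le_mul_left cZ h2
    change cZ + (B + cS + cF) * pK N ≤ cm * pK N
    nlinarith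

/-- The programs exist for all graphs. -/
def ProgAll (A : Type) (cL cm : ℕ) : Prop :=
  ∀ (N : Inp A → ℕ) (A0 : Inp A → ℕ → ℕ → ℕ) (W : Inp A → ℕ → Tb), (∀ x, 2 ≤ N x) →
    SP (lenBud A) N → (SP (lenBud A) fun p : Inp A × ℕ × ℕ => A0 p.1 p.2.1 p.2.2) →
    (∀ x, (cfOf cL cm (N x) (A0 x)).Ok ∧ IsTab (cfOf cL cm (N x) (A0 x)) (W x) ∧
      ∀ k ≤ pK (N x), Good (cfOf cL cm (N x) (A0 x)) (W x) k) →
    ProgOut (lenBud A) (fun x => cfOf cL cm (N x) (A0 x)) W fun x => pE (N x)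

theorem collapse_of_prog [Finite A] {cL cm : ℕ} (hm : cZ + B + cS + cF ≤ cm)
    (hL : cm + 3 + 3 * a ≤ cL)
    (hG : ∀ {cf : Cf} {W : ℕ → Tb}, cf.Ok → IsTab cf W → ∀ k ≤ cf.K, Good cf W k)
    (h : ProgAll A cL cm) : LOG A = RL A ∧ RL A = BPL A := by
  refine collapse_of (grApx_of_oracle fun N A0 h2 hS hd hN hA => ?_)
  choose W hW using fun x => exists_isTab (cfOf cL cm (N x) (A0 x)) (le_pn0 _)
  have hg : ∀ x, (cfOf cL cm (N x) (A0 x)).Ok ∧ IsTab (cfOf cL cm (N x) (A0 x)) (W x) ∧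
      ∀ k ≤ pK (N x), Good (cfOf cL cm (N x) (A0 x)) (W x) k := fun x =>
    ⟨cfOf_ok hm hL (hS x) (hd x), hW x, hG (cfOf_ok hm hL (hS x) (hd x)) (hW x)⟩
  refine ⟨fun x j => (W x j).H false q0, fun x j => (W x j).H true q0, fun x k hk => ?_,
    (h N A0 W h2 hN hA hg).oracle fun _ x _ => hg x⟩
  have h3 := (Good.stat (hW x) hk.le ((hg x).2.2 k hk.le))
  have hI := fun i (hi : i ≤ k) => inv_lv (pK (N x)) (hS x) (le_pn0 _) _ _ i fun j hj =>
    (Good.stat (hW x) (k := j) (by exact (hj.le.trans hi).trans hk.le)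
      ((hg x).2.2 j ((hj.le.trans hi).trans hk.le))).low
  exact ⟨h3.low, fun z hz => (h3.hc z hz).trans (le_mul_of_one_le_left
      (upC_nonneg k (fun i hi => (hI i hi).S_nonneg) z) (by norm_num)),
    fun z hz => (h3.hr z hz).trans (le_mul_of_one_le_left
      (upR_nonneg k (fun i hi => (hI i hi).S_nonneg) z) (by norm_num))⟩

end Vale.Agent.P313.Full
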