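import Vale.Agent.P313.Full.DslMain
import Vale.Agent.P313.Full.PgLay
import Vale.Agent.P313.Full.TopBox
import Vale.Agent.P313.Full.TopTab

/-! Running a procedure at the top. -/

namespace Vale.Agent.P313.Full

open Finset Function Vale.Agent.Lib.Space Hi

variable {A α : Type} [Enc A α] {Bu : Bud A}

theorem Cf.bd_pos (cf : Cf) (r : Rg) : 0 < cf.bd r := by
  cases r <;> exact Nat.two_pow_pos _

theorem bavg_top (cf : Cf) {x : ℕ} (hx : x < 2 ^ cf.nb) (G : (Bool → Key) → ℝ) :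
    bavg cf.bd (fun s => if s .nm = x then G (ky s) else 0) =
      (cf.JK fun c => cf.JK fun c' => G (two true c c')) / 2 ^ cf.nb := by
  rw [bavg_pin (i := Rg.nm) hx, ← bavg_keys cf cf.bd_pos (s₁ := .sl (some true))
    (o₁ := .of (some true)) (s₂ := .sl (some false)) (o₂ := .of (some false)) rfl rfl rfl rfl
    (by simp) (by simp) (by simp) (by simp) (by simp) (by simp)]
  congr 1
  · refine bavg_congr fun s _ => congrArg G (funext fun e => ?_)
    cases e <;> simp [ky, two]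
  · exact Nat.cast_pow _ _

theorem sp_Fr {k : α → ℕ} (hk : SP Bu k) : SP Bu fun a => Fr (k a) :=
  sp_vec fun x => by
    cases x
    · exact hk
    all_goals exact SP.const _

/-- The mean over the keys of the value of a procedure at the name `x0`. -/
theorem top_run (P : Pg α Rg Cv Pc) (I : α → In) (hP : P.IsSP Bu) (t : Pc) (hm : P.mvp t = false)
    {k p T V : α → ℕ} (hk : SP Bu k) (hp : SP Bu p) (hT : SP Bu T)
    (hp' : PBd Bu fun a => 2 ^ p a) (hT' : PBd Bu fun a => 2 ^ T a) (hV : PBd Bu V)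
    (hnb : SP Bu fun a => (I a).nb) (hn : SP Bu fun a => 2 ^ (I a).nb)
    (G : α → (Bool → Key) → ℝ) (c : α → Prop)
    (h : ∀ (x : List A) (a : α), Enc.ok x a → P.bd a = (I a).bd ∧ P.WF a ∧
      (∀ t q, P.adm t a q → P.Unc a (P.sz t a q) (P.body t) q ∧ ∀ x, q x ≤ V a) ∧
      P.adm t a (Fr (k a)) ∧ P.pot t a (Fr (k a)) ≤ p a ∧
      ∀ s ∈ P.box a, ∃ v, P.Val a (P.sz t a (Fr (k a))) (P.body t) (Fr (k a)) s v ∧
        (c a → v = if s .nm = (I a).x0 then G a (ky s) else 0)) :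
    ∃ r : α → ℝ, RSP Bu r ∧ ∀ (x : List A) (a : α), Enc.ok x a → c a → (I a).x0 < 2 ^ (I a).nb →
      |r a - (I a).JK fun c => (I a).JK fun c' => G a (two true c c')| ≤ 1 / 2 ^ T a := by
  obtain ⟨r, r1, r2⟩ := P.dsl_main hP t hm (sp_Fr hk) hp (hT.add hnb) hp'
    ((hT'.mul hn.pbd).mono fun a => (pow_add _ _ _).le) hV (fun a => P.cE a) (fun a => P.cD a)
    fun x a ha => by
      obtain ⟨h1, h2, h3, h4, h5, h7⟩ := h x a ha
      exact ⟨h2, Pg.ideal_cE h2 fun t q hq => (h3 t q hq).1, h4, h5, fun t q hq => (h3 t q hq).2,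
        fun r => h1 ▸ (I a).bd_pos r, fun s hs => let ⟨_, h8, _⟩ := h7 s hs; h8.1⟩
  refine ⟨fun p => 2 ^ (I p).nb * r p, (rsp_two_pow hn).mul r1, fun x p hp hc hx => ?_⟩
  obtain ⟨h1, h2, -, h4, -, h7⟩ := h x p hp
  have h8 := r2 x p hp
  have e1 : (∑ s ∈ P.box p, (P.cE p t (Fr (k p))).val s) / #(P.box p) =
      ((I p).JK fun c => (I p).JK fun c' => G p (two true c c')) / 2 ^ (I p).nb := by
    rw [← bavg_top _ hx, ← h1, Pg.cE_eq h2 h4]
    exact bavg_congr fun s hs => let ⟨_, h8, h9⟩ := h7 s hs; h8.2.trans (h9 hc)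
  have h9 : (0 : ℝ) < 2 ^ (I p).nb := by positivity
  rw [e1] at h8
  beta_reduce
  rw [← mul_div_cancel₀ ((I p).JK fun c => (I p).JK fun c' => G p (two true c c'))
    h9.ne', ← mul_sub, abs_mul, abs_of_pos h9]
  refine (mul_le_mul_of_nonneg_left h8 h9.le).trans (le_of_eq ?_)
  rw [pow_add]
  field_simp

end Vale.Agent.P313.Full
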