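import Vale.Agent.P313.Full.TopAns

/-! The top level for an arbitrary budget. -/

namespace Vale.Agent.P313.Full

open Finset Vale.Agent.Lib.Space Vale.Agent.P313.F43 Vale.Agent.P313.Hi

variable {A : Type}

/-- The budget for a graph with `N x` vertices. -/
def budOf (bud : ℕ → ℕ) (N : Inp A → ℕ) : Bud A := ⟨fun x => bud (N x) + x.length⟩

theorem randLog_subset_space [Finite A] {s : ℕ → ℝ} (bud : ℕ → ℕ)
    (hb : ∀ c : ℕ, ∃ (C : ℝ) (n0 : ℕ), ∀ n N : ℕ, n0 ≤ n → N ≤ (n + 2) ^ c →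
      ((Nat.log 2 (bud N + n + 2) : ℕ) : ℝ) ≤ C * s n)
    (h : ∀ (N : Inp A → ℕ) (A0 : Inp A → ℕ → ℕ → ℕ), (∀ x, 2 ≤ N x) →
      (∀ x, Sub (mat (N x) (A0 x) 2)) → (∀ x v, #{u ∈ range (N x) | A0 x u v ≠ 0} ≤ 2) →
      SP (budOf bud N) N → (SP (budOf bud N) fun p : Inp A × ℕ × ℕ => A0 p.1 p.2.1 p.2.2) →
      ∃ hc hr : Inp A → ℕ → ℕ → ℝ,
        (∀ x, ∀ k < pK (N x),
          StatK (2 ^ 100) (lv (N x) (pn0 (N x)) (pK (N x)) (A0 x) (hc x) (hr x)) k) ∧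
        Oracle (budOf bud N) (fun x => pn0 (N x)) (fun x => pK (N x))
          (fun x => lv (N x) (pn0 (N x)) (pK (N x)) (A0 x) (hc x) (hr x)) fun x => pE (N x))
    {a b : ℝ} (ha : a ≤ 1 / 3) (hb' : 1 / 2 ≤ b) : RandLog A a b ⊆ SPACE A s := by
  classical
  rintro L ⟨M, hS, k, hk⟩
  obtain ⟨N, A0, c, hN, hA, hdeg, hg, hB⟩ := Red.reduce2 M hS k
  obtain ⟨h1, h2⟩ := hB (budOf bud N) fun _ => Nat.le_add_left _ _
  obtain ⟨hc, hr, h3, h4⟩ := h N A0 (fun x => (hN x).1) hA hdeg h1 h2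
  obtain ⟨r, r1, r2⟩ := apx_of_oracle le_rfl h1 (sp_pn0 h1) (sp_pK h1) (sp_pow_pE h1)
    (sp_nmK h1).pbd h2 h4 fun _ x _ =>
      ⟨(hN x).1, le_pn0 _, le_rfl, hA x, h3 x, (Nat.lt_size_self _).le⟩
  obtain ⟨C, n0, hC⟩ := hb c
  refine SP.mem_SPACE ((RSP.const (r := 5 / 12) (5 / 12) (by norm_num)).decide_le r1) (fun x => ?_)
    ⟨C, n0, fun x hx => hC _ _ hx (hN x).2⟩
  have h5 := (hN x).1
  have h6 := r2 x x rfl (by omega) (by omega)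
  rw [hg, abs_le] at h6
  rw [decide_eq_true_iff]
  by_cases hx : x ∈ L
  · have := (hk x).2.2 hx
    exact ⟨fun _ => hx, fun _ => by linarith [h6.1]⟩
  · have := (hk x).2.1 hx
    exact ⟨fun h => by linarith [h6.2], fun h => absurd h hx⟩

end Vale.Agent.P313.Full
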